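/-
Row 269, Section 2, UNIT PH: parametric integrals, contour shift, limits of Picard iterates.   Statements and proofs by helper159 (sorry-free).

Mathlib facts to use:  `Complex.isConservativeOn_and_continuousOn_iff_isDifferentiableOn` (Morera; or dominated differentiation with Cauchy
estimates), `Complex.integral_boundary_rect_eq_zero_of_differentiableOn`, `TendstoLocallyUniformlyOn.differentiableOn`,
`cauchySeq_of_le_geometric`, `dist_le_of_le_geometric_of_tendsto`.
-/
import Claimed.Agent.R269.S2.Defs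

set_option autoImplicit false

namespace Claimed.Agent.R269

open Complex ComplexConjugate Filter Topology MeasureTheory

/-- Fubini along a continuous path. -/
theorem s2P_param_aux {Ω : Set ℂ} {G : ℂ → ℝ → ℂ}
    (hc : ContinuousOn (fun p : ℂ × ℝ => G p.1 p.2) (Ω ×ˢ Set.Icc (0 : ℝ) 1))
    {γ : ℝ → ℂ} (hγ : Continuous γ) {a b : ℝ} (hmem : ∀ x ∈ Set.uIcc a b, γ x ∈ Ω) :
    (∫ x in a..b, ∫ t in (0 : ℝ)..1, G (γ x) t = ∫ t in (0 : ℝ)..1, ∫ x in a..b, G (γ x) t) ∧
    IntervalIntegrable (fun t => ∫ x in a..b, G (γ x) t) volume 0 1 := by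
  have hcH : ContinuousOn (Function.uncurry fun (x : ℝ) (t : ℝ) => G (γ x) t)
      (Set.uIcc a b ×ˢ Set.uIcc (0 : ℝ) 1) := by
    have h1 : ContinuousOn (fun p : ℝ × ℝ => ((γ p.1, p.2) : ℂ × ℝ))
        (Set.uIcc a b ×ˢ Set.uIcc (0 : ℝ) 1) :=
      ((hγ.comp continuous_fst).prodMk continuous_snd).continuousOn
    refine hc.comp h1 ?_
    rintro ⟨x, t⟩ ⟨hx, ht⟩
    rw [Set.uIcc_of_le zero_le_one] at ht
    exact ⟨hmem x hx, ht⟩
  have hint : IntegrableOn (Function.uncurry fun (x : ℝ) (t : ℝ) => G (γ x) t)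
      (Set.uIoc a b ×ˢ Set.uIoc (0 : ℝ) 1) := by
    have h2 : IntegrableOn (Function.uncurry fun (x : ℝ) (t : ℝ) => G (γ x) t)
        (Set.uIcc a b ×ˢ Set.uIcc (0 : ℝ) 1) :=
      hcH.integrableOn_compact (isCompact_uIcc.prod isCompact_uIcc)
    exact h2.mono_set (Set.prod_mono Set.uIoc_subset_uIcc Set.uIoc_subset_uIcc)
  refine ⟨intervalIntegral_intervalIntegral_swap hint, ?_⟩
  rw [intervalIntegrable_iff]
  have h3 : Integrable (Function.uncurry fun (x : ℝ) (t : ℝ) => G (γ x) t)
      ((volume.restrict (Set.uIoc a b)).prod (volume.restrict (Set.uIoc (0 : ℝ) 1))) := by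
    rwa [Measure.prod_restrict, ← Measure.volume_eq_prod]
  have h4 := h3.integral_prod_right
  simp_rw [intervalIntegral.intervalIntegral_eq_integral_uIoc]
  exact h4.smul _

/-- holomorphy of parametric integrals. -/
theorem s2P_param {Ω : Set ℂ} (hΩ : IsOpen Ω) {G : ℂ → ℝ → ℂ}
    (hd : ∀ t ∈ Set.Icc (0 : ℝ) 1, DifferentiableOn ℂ (fun z => G z t) Ω)
    (hc : ContinuousOn (fun p : ℂ × ℝ => G p.1 p.2) (Ω ×ˢ Set.Icc (0 : ℝ) 1)) :
    DifferentiableOn ℂ (fun z => ∫ t in (0 : ℝ)..1, G z t) Ω := by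
  rw [← Complex.isConservativeOn_and_continuousOn_iff_isDifferentiableOn hΩ]
  constructor
  · -- conservative
    have hW : ∀ z w : ℂ, Rectangle z w ⊆ Ω →
        Complex.wedgeIntegral z w (fun z => ∫ t in (0 : ℝ)..1, G z t)
          = ∫ t in (0 : ℝ)..1, Complex.wedgeIntegral z w (fun ζ => G ζ t) := by
      intro z w hzw
      have hγ1 : Continuous fun x : ℝ => ((x : ℂ) + z.im * I) := by fun_prop
      have hγ2 : Continuous fun y : ℝ => ((w.re : ℂ) + y * I) := by fun_prop
      have hm1 : ∀ x ∈ Set.uIcc z.re w.re, ((x : ℂ) + z.im * I) ∈ Ω := by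
        intro x hx
        apply hzw
        rw [Rectangle, Complex.mem_reProdIm]
        simp [hx]
      have hm2 : ∀ y ∈ Set.uIcc z.im w.im, ((w.re : ℂ) + y * I) ∈ Ω := by
        intro y hy
        apply hzw
        rw [Rectangle, Complex.mem_reProdIm]
        simp [hy]
      obtain ⟨e1, i1⟩ := s2P_param_aux hc hγ1 hm1
      obtain ⟨e2, i2⟩ := s2P_param_aux hc hγ2 hm2
      simp only [Complex.wedgeIntegral]
      rw [e1, e2]
      have h6 := intervalIntegral.integral_add i1 (i2.smul I)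
      have h7 : (∫ t in (0 : ℝ)..1, (I • fun t => ∫ x in z.im..w.im, G ((w.re : ℂ) + x * I) t) t)
          = I • ∫ t in (0 : ℝ)..1, ∫ x in z.im..w.im, G ((w.re : ℂ) + x * I) t := by
        simp only [Pi.smul_apply]
        rw [intervalIntegral.integral_smul]
      rw [h7] at h6
      rw [← h6]
      rfl
    intro z w hzw
    have hwz : Rectangle w z ⊆ Ω := by
      rw [Rectangle, Set.uIcc_comm w.re, Set.uIcc_comm w.im]; exact hzw
    rw [hW z w hzw, hW w z hwz, ← intervalIntegral.integral_neg]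
    apply intervalIntegral.integral_congr
    intro t ht
    rw [Set.uIcc_of_le zero_le_one] at ht
    exact (hd t ht).isConservativeOn z w hzw
  · -- continuity
    intro z0 hz0
    apply ContinuousAt.continuousWithinAt
    obtain ⟨r, hr, hball⟩ := Metric.isOpen_iff.mp hΩ z0 hz0
    have hK : IsCompact (Metric.closedBall z0 (r / 2) ×ˢ Set.Icc (0 : ℝ) 1) :=
      (isCompact_closedBall z0 (r / 2)).prod isCompact_Icc
    have hsub : Metric.closedBall z0 (r / 2) ⊆ Ω :=
      (Metric.closedBall_subset_ball (by linarith)).trans hball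
    have hcK : ContinuousOn (fun p : ℂ × ℝ => G p.1 p.2)
        (Metric.closedBall z0 (r / 2) ×ˢ Set.Icc (0 : ℝ) 1) :=
      hc.mono (Set.prod_mono hsub le_rfl)
    obtain ⟨C, hC⟩ := hK.exists_bound_of_continuousOn hcK
    have hnhds : Metric.closedBall z0 (r / 2) ∈ 𝓝 z0 := Metric.closedBall_mem_nhds z0 (by linarith)
    apply intervalIntegral.continuousAt_of_dominated_interval (bound := fun _ => C)
    · filter_upwards [hnhds] with z hz
      have h1 : ContinuousOn (fun t : ℝ => G z t) (Set.Icc (0 : ℝ) 1) := by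
        have h2 : ContinuousOn (fun t : ℝ => ((z, t) : ℂ × ℝ)) (Set.Icc (0 : ℝ) 1) := by fun_prop
        exact hcK.comp h2 (fun t ht => ⟨hz, ht⟩)
      rw [Set.uIoc_of_le zero_le_one]
      exact (h1.mono Set.Ioc_subset_Icc_self).aestronglyMeasurable measurableSet_Ioc
    · filter_upwards [hnhds] with z hz
      refine Filter.Eventually.of_forall fun t ht => ?_
      rw [Set.uIoc_of_le zero_le_one] at ht
      exact hC (z, t) ⟨hz, Set.Ioc_subset_Icc_self ht⟩
    · exact intervalIntegrable_const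
    · refine Filter.Eventually.of_forall fun t ht => ?_
      rw [Set.uIoc_of_le zero_le_one] at ht
      exact ((hd t (Set.Ioc_subset_Icc_self ht)).differentiableAt (hΩ.mem_nhds hz0)).continuousAt

/-- contour shift for periodic holomorphic functions. -/
theorem s2P_contour {σ τ : ℝ} {g : ℂ → ℂ} (hg : DifferentiableOn ℂ g (s2os σ))
    (hper : ∀ z ∈ s2os σ, g (z + 2 * Real.pi) = g z) (hτ : |τ| < σ) :
    ∫ s in (0 : ℝ)..(2 * Real.pi), g ((s : ℂ) + (τ : ℂ) * I) = ∫ s in (0 : ℝ)..(2 * Real.pi), g (s : ℂ) := by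
  have hsub : (Set.uIcc (0 : ℂ).re ((2 * Real.pi : ℝ) + (τ : ℂ) * I).re
      ×ℂ Set.uIcc (0 : ℂ).im ((2 * Real.pi : ℝ) + (τ : ℂ) * I).im) ⊆ s2os σ := by
    intro z hz
    rw [Complex.mem_reProdIm] at hz
    have h2 := hz.2
    simp only [Complex.zero_im, Complex.add_im, Complex.ofReal_im, Complex.mul_im, Complex.ofReal_re,
      Complex.I_im, mul_one, Complex.I_re, mul_zero, add_zero, zero_add] at h2
    have h3 : |z.im| ≤ |τ| := by
      rcases le_total 0 τ with h | h
      · rw [Set.uIcc_of_le h] at h2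
        rw [abs_of_nonneg h2.1, abs_of_nonneg h]; exact h2.2
      · rw [Set.uIcc_of_ge h] at h2
        rw [abs_of_nonpos h2.2, abs_of_nonpos h]; linarith [h2.1]
    exact lt_of_le_of_lt h3 hτ
  have key := Complex.integral_boundary_rect_eq_zero_of_differentiableOn g 0
    ((2 * Real.pi : ℝ) + (τ : ℂ) * I) (hg.mono hsub)
  simp only [Complex.zero_re, Complex.zero_im, Complex.add_re, Complex.ofReal_re, Complex.mul_re,
    Complex.I_re, mul_zero, Complex.ofReal_im, Complex.I_im, mul_one, sub_self, add_zero,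
    Complex.add_im, Complex.mul_im, zero_add, Complex.ofReal_zero, zero_mul] at key
  have hside : ∫ y in (0 : ℝ)..τ, g (((2 * Real.pi : ℝ) : ℂ) + (y : ℂ) * I)
      = ∫ y in (0 : ℝ)..τ, g ((y : ℂ) * I) := by
    apply intervalIntegral.integral_congr
    intro y hy
    have hy' : |y| ≤ |τ| := by
      rcases le_total 0 τ with h | h
      · rw [Set.uIcc_of_le h] at hy
        rw [abs_of_nonneg hy.1, abs_of_nonneg h]; exact hy.2
      · rw [Set.uIcc_of_ge h] at hy
        rw [abs_of_nonpos hy.2, abs_of_nonpos h]; linarith [hy.1]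
    have hm : ((y : ℂ) * I) ∈ s2os σ := by
      simp only [s2os, Set.mem_ofPred_eq, Complex.mul_im, Complex.ofReal_re, Complex.I_im, mul_one,
        Complex.ofReal_im, Complex.I_re, mul_zero, add_zero]
      exact lt_of_le_of_lt hy' hτ
    have := hper _ hm
    simp only
    rw [← this]
    congr 1
    push_cast; ring
  rw [hside] at key
  have : (∫ x in (0 : ℝ)..(2 * Real.pi), g (x : ℂ))
      - ∫ x in (0 : ℝ)..(2 * Real.pi), g ((x : ℂ) + (τ : ℂ) * I) = 0 := by
    have h5 := key
    simp only [add_sub_cancel_right] at h5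
    exact h5
  exact (sub_eq_zero.mp this).symm

/-- geometric convergence: existence of the limit, error bound. -/
theorem s2P_lim {a : ℕ → ℂ} {κ D : ℝ} (hκ0 : 0 ≤ κ) (hκ : κ < 1)
    (h : ∀ k, ‖a (k + 1) - a k‖ ≤ D * κ ^ k) :
    Tendsto a atTop (𝓝 (limUnder atTop a)) ∧ ∀ k, ‖limUnder atTop a - a k‖ ≤ D * κ ^ k / (1 - κ) := by
  have hd : ∀ n, dist (a n) (a (n + 1)) ≤ D * κ ^ n := by
    intro n; rw [dist_comm, dist_eq_norm]; exact h n
  have hc : CauchySeq a := cauchySeq_of_le_geometric κ D hκ hd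
  have ht := CauchySeq.tendsto_limUnder hc
  refine ⟨ht, fun k => ?_⟩
  have := dist_le_of_le_geometric_of_tendsto κ D hκ hd ht k
  rwa [dist_comm, dist_eq_norm] at this

/-- a uniformly geometrically convergent sequence of holomorphic functions has a holomorphic limit. -/
theorem s2P_lim_holo {Ω : Set ℂ} (hΩ : IsOpen Ω) {a : ℕ → ℂ → ℂ} {κ D : ℝ} (hκ0 : 0 ≤ κ) (hκ : κ < 1)
    (hd : ∀ k, DifferentiableOn ℂ (a k) Ω)
    (h : ∀ k, ∀ x ∈ Ω, ‖a (k + 1) x - a k x‖ ≤ D * κ ^ k) :
    DifferentiableOn ℂ (fun x => limUnder atTop (fun k => a k x)) Ω := by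
  have hu : TendstoUniformlyOn a (fun x => limUnder atTop (fun k => a k x)) atTop Ω := by
    rw [Metric.tendstoUniformlyOn_iff]
    intro ε hε
    have ht : Tendsto (fun k : ℕ => D * κ ^ k / (1 - κ)) atTop (𝓝 0) := by
      have h1 := tendsto_pow_atTop_nhds_zero_of_lt_one hκ0 hκ
      have h2 := (h1.const_mul D).div_const (1 - κ)
      simpa using h2
    filter_upwards [ht.eventually (gt_mem_nhds hε)] with k hk x hx
    have := (s2P_lim (a := fun k => a k x) hκ0 hκ (fun k => h k x hx)).2 k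
    rw [dist_eq_norm]
    exact lt_of_le_of_lt this hk
  exact hu.tendstoLocallyUniformlyOn.differentiableOn (Filter.Eventually.of_forall hd) hΩ

end Claimed.Agent.R269
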