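/-
Row 269, Section 2 of P1 (analytic regularity, `stage_T1`).  Owner: helper159 (sub-captain sec 2).

DEFINITIONS shared by all units of Section 2.  Everything is TOTAL and CANONICAL: the midpoint, the
stationary mesh and the inverse mesh maps are `limUnder` of explicit Picard iterates, so they do not
depend on the width `σ` or on the bound `M` under which they are analysed (this replaces all
"compatibility by real uniqueness" remarks of the text).

Notation of P1, Section 2.2:  `φ' = e^u`,  `dφ(X,Y) = φ(Y) - φ(X)`,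
  `D(X,Y) = Λ(Y,μ) - Λ(X,μ)`,  `Λ(X,Z) = ∫_X^Z (1 - cos dφ(X,z)) e^{-2u(z)} dz`,  `dφ(X,μ) = dφ(μ,Y)`,
  `D₁(X,Y) = e^{u(X)} J(X,μ)`,  `J(X,Z) = ∫_X^Z sin dφ(X,z) e^{-2u(z)} dz`      (P1 (2.8)).
All integrals are along straight segments (`s2seg`).
-/
import Claimed.Agent.R269.Real

set_option autoImplicit false

namespace Claimed.Agent.R269

open Complex ComplexConjugate Filter Topology

/-! ### strips, weights, inputs -/

/-- closed strip `|Im z| ≤ σ` (for `σ = 0`: the real line). -/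
def s2cs (σ : ℝ) : Set ℂ := {z | |z.im| ≤ σ}

/-- the strip `|Im z| < σ` without its boundary. -/
def s2os (σ : ℝ) : Set ℂ := {z | |z.im| < σ}

/-- weight `(1+|k|)^A e^{σ|k|}`. -/
noncomputable def s2wt (σ : ℝ) (A : ℕ) (k : ℤ) : ℝ :=
  (1 + |(k : ℝ)|) ^ A * Real.exp (σ * |(k : ℝ)|)

/-- weighted `ℓ¹` norm `∑ (1+|k|)^A |a_k| e^{σ|k|}`. -/
noncomputable def s2wn (σ : ℝ) (A : ℕ) (a : ℤ → ℂ) : ℝ := ∑' k : ℤ, s2wt σ A k * ‖a k‖

/-- weighted `ℓ²` (Hardy) norm `(∑ |a_k|² e^{2σ|k|})^{1/2}`. -/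
noncomputable def s2hn (σ : ℝ) (a : ℤ → ℂ) : ℝ :=
  Real.sqrt (∑' k : ℤ, ‖a k‖ ^ 2 * Real.exp (2 * σ * |(k : ℝ)|))

/-- Fourier coefficients of a real function. -/
def S2Real (a : ℤ → ℂ) : Prop := ∀ k : ℤ, a (-k) = conj (a k)

/-- admissible input sequences: real, `∑ (1+|k|)^4 |a_k| e^{σ|k|} ≤ M`. -/
structure S2In (σ M : ℝ) (a : ℤ → ℂ) : Prop where
  real : S2Real a
  summ : Summable fun k : ℤ => s2wt σ 4 k * ‖a k‖
  le : s2wn σ 4 a ≤ M

/-- the `i`-th derivative of the function with Fourier coefficients `a`. -/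
noncomputable def s2u (a : ℤ → ℂ) (i : ℕ) (z : ℂ) : ℂ :=
  ∑' k : ℤ, (I * (k : ℂ)) ^ i * a k * exp (I * (k : ℂ) * z)

/-- admissible input functions on the closed strip, given with their jets `U 0 = u, …, U 4 = u⁗`.
For `σ = 0` this is a real `C⁴` function on the real line (`HasDerivWithinAt` within the real line). -/
structure S2Fun (σ M : ℝ) (U : ℕ → ℂ → ℂ) : Prop where
  bd : ∀ i ≤ 4, ∀ z ∈ s2cs σ, ‖U i z‖ ≤ M
  der : ∀ i < 4, ∀ z ∈ s2cs σ, HasDerivWithinAt (U i) (U (i + 1) z) (s2cs σ) z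
  cont : ContinuousOn (U 4) (s2cs σ)
  sym : ∀ z, U 0 (conj z) = conj (U 0 z)
  per : ∀ z, U 0 (z + 2 * Real.pi) = U 0 z

/-! ### the normalized action -/

/-- integral of `f` along the segment from `p` to `q`. -/
noncomputable def s2seg (f : ℂ → ℂ) (p q : ℂ) : ℂ :=
  (q - p) * ∫ t in (0 : ℝ)..1, f (p + (t : ℂ) * (q - p))

/-- `φ(Y) - φ(X)`. -/
noncomputable def s2dphi (u : ℂ → ℂ) (X Y : ℂ) : ℂ := s2seg (fun z => exp (u z)) X Y

/-- `J(X,Z) = ∫_X^Z sin(φ(z)-φ(X)) e^{-2u(z)} dz`. -/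
noncomputable def s2J (u : ℂ → ℂ) (X Z : ℂ) : ℂ :=
  s2seg (fun z => sin (s2dphi u X z) * exp (-2 * u z)) X Z

/-- half-cell action `Λ(X,Z) = ∫_X^Z (1-cos(φ(z)-φ(X))) e^{-2u(z)} dz`. -/
noncomputable def s2Lam (u : ℂ → ℂ) (X Z : ℂ) : ℂ :=
  s2seg (fun z => (1 - cos (s2dphi u X z)) * exp (-2 * u z)) X Z

/-- variation kernel of a half cell with vertex `V` and midpoint `μ` (P1 (2.19)):
`d/dλ Λ_{u+λv}(V,μ) = - ∫_V^μ ker(z;V,μ) v(z) dz`. -/
noncomputable def s2ker (u : ℂ → ℂ) (z V μ : ℂ) : ℂ :=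
  2 * (1 - cos (s2dphi u V z)) * exp (-2 * u z)
    - exp (u z) * s2seg (fun ζ => sin (s2dphi u V ζ) * exp (-2 * u ζ)) z μ

/-- Picard step for the midpoint equation `φ(μ) = (φ(X)+φ(Y))/2`, frozen derivative at
`m = (X+Y)/2`. -/
noncomputable def s2muStep (u : ℂ → ℂ) (X Y μ : ℂ) : ℂ :=
  μ - exp (-u ((X + Y) / 2)) *
    (s2dphi u ((X + Y) / 2) μ - (s2dphi u ((X + Y) / 2) X + s2dphi u ((X + Y) / 2) Y) / 2)

/-- the midpoint `μ(X,Y)`. -/
noncomputable def s2mu (u : ℂ → ℂ) (X Y : ℂ) : ℂ :=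
  limUnder atTop (fun k : ℕ => (s2muStep u X Y)^[k] ((X + Y) / 2))

/-- `D₁(X,Y)`. -/
noncomputable def s2D1 (u : ℂ → ℂ) (X Y : ℂ) : ℂ := exp (u X) * s2J u X (s2mu u X Y)

/-- forcing of the mesh equation: the Euler equation `D₁(X,X₊) = D₁(X,X₋)` reads
`X₊ - 2X + X₋ = f(X₋,X,X₊)`. -/
noncomputable def s2f (u : ℂ → ℂ) (Xm X Xp : ℂ) : ℂ :=
  (Xp - 2 * X + Xm) - 8 * (s2D1 u X Xp - s2D1 u X Xm) / (Xp - Xm)

/-! ### the stationary mesh -/

/-- Dirichlet Green function of `-Δ²` on `{0,…,q}`. -/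
noncomputable def s2G (q j i : ℕ) : ℝ := (min i j : ℝ) * ((q : ℝ) - (max i j : ℝ)) / q

/-- `δ = 2π/q`. -/
noncomputable def s2del (q : ℕ) : ℝ := 2 * Real.pi / q

/-- mesh point `x + jδ + w_j`. -/
noncomputable def s2pt (q : ℕ) (x : ℂ) (w : ℕ → ℂ) (j : ℕ) : ℂ := x + (j : ℂ) * (s2del q : ℂ) + w j

/-- Picard map of the mesh equation. -/
noncomputable def s2T (u : ℂ → ℂ) (q : ℕ) (x : ℂ) (w : ℕ → ℂ) : ℕ → ℂ := fun j =>
  - ∑ i ∈ Finset.Ico 1 q,
      (s2G q j i : ℂ) * s2f u (s2pt q x w (i - 1)) (s2pt q x w i) (s2pt q x w (i + 1))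

/-- displacement `w_j(x)` of the stationary mesh. -/
noncomputable def s2w (u : ℂ → ℂ) (q : ℕ) (x : ℂ) (j : ℕ) : ℂ :=
  limUnder atTop (fun k : ℕ => ((s2T u q x)^[k] (fun _ => 0)) j)

/-- vertex `X_j(x)`. -/
noncomputable def s2X (u : ℂ → ℂ) (q : ℕ) (x : ℂ) (j : ℕ) : ℂ := s2pt q x (s2w u q x) j

/-- midpoint `μ_j(x)` of the cell `(X_j, X_{j+1})`. -/
noncomputable def s2M (u : ℂ → ℂ) (q : ℕ) (x : ℂ) (j : ℕ) : ℂ :=
  s2mu u (s2X u q x j) (s2X u q x (j + 1))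

/-- double mesh `Y_{2j} = X_j`, `Y_{2j+1} = μ_j`. -/
noncomputable def s2Y (u : ℂ → ℂ) (q : ℕ) (x : ℂ) (i : ℕ) : ℂ :=
  if i % 2 = 0 then s2X u q x (i / 2) else s2M u q x (i / 2)

/-- critical action `W_q(x)`. -/
noncomputable def s2W (u : ℂ → ℂ) (q : ℕ) (x : ℂ) : ℂ :=
  ∑ j ∈ Finset.range q,
    (s2Lam u (s2X u q x (j + 1)) (s2M u q x j) - s2Lam u (s2X u q x j) (s2M u q x j))

/-- `n`-th Fourier coefficient of a function on the real line. -/
noncomputable def s2fc (g : ℂ → ℂ) (n : ℤ) : ℂ :=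
  1 / (2 * Real.pi) * ∫ x in (0 : ℝ)..(2 * Real.pi), exp (-I * (n : ℂ) * (x : ℂ)) * g (x : ℂ)

/-- the constraint `C_n(u) = -(q²/6π) [W_q]_n`, `q = |n|`  (P1 (2.17)). -/
noncomputable def s2C (u : ℂ → ℂ) (n : ℤ) : ℂ :=
  -((n.natAbs : ℂ) ^ 2 / (6 * Real.pi)) * s2fc (s2W u n.natAbs) n

/-- first variation of the critical action in the direction `v` (vertices and midpoints frozen). -/
noncomputable def s2dW (u v : ℂ → ℂ) (q : ℕ) (x : ℂ) : ℂ :=
  ∑ i ∈ Finset.range (2 * q),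
    s2seg (fun z => s2ker u z (s2X u q x ((i + 1) / 2)) (s2M u q x (i / 2)) * v z)
      (s2Y u q x i) (s2Y u q x (i + 1))

/-- derivative of the constraint. -/
noncomputable def s2dC (u v : ℂ → ℂ) (n : ℤ) : ℂ :=
  -((n.natAbs : ℂ) ^ 2 / (6 * Real.pi)) * s2fc (s2dW u v n.natAbs) n

/-- inverse `ζ_i` of `x ↦ Y_i(x)`. -/
noncomputable def s2zeta (u : ℂ → ℂ) (q i : ℕ) (z : ℂ) : ℂ :=
  limUnder atTop (fun k : ℕ => (fun ζ : ℂ => ζ + (z - s2Y u q ζ i))^[k] z)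

/-- the coefficient `b_n(z)` of P1 (2.24), written without Jacobians. -/
noncomputable def s2b (u : ℂ → ℂ) (n : ℤ) (z : ℂ) : ℂ :=
  -((n.natAbs : ℂ) ^ 2 / (6 * Real.pi)) * ∑ i ∈ Finset.range (2 * n.natAbs),
    s2seg (fun x => s2ker u z (s2X u n.natAbs x ((i + 1) / 2)) (s2M u n.natAbs x (i / 2))
        * exp (-I * (n : ℂ) * (x - z)))
      (s2zeta u n.natAbs (i + 1) z) (s2zeta u n.natAbs i z)

/-- forces the equation lemmas of the definitions above to be generated in this file. -/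
theorem s2Defs_eqns_cited : True := by
  have := @s2cs.eq_1; have := @s2cs.eq_def; have := @s2cs.congr_simp
  have := @s2os.eq_1; have := @s2os.eq_def; have := @s2os.congr_simp
  have := @s2wt.eq_1; have := @s2wt.eq_def; have := @s2wt.congr_simp
  have := @s2wn.eq_1; have := @s2wn.eq_def; have := @s2wn.congr_simp
  have := @s2hn.eq_1; have := @s2hn.eq_def; have := @s2hn.congr_simp
  have := @S2Real.eq_1; have := @S2Real.eq_def; have := @S2Real.congr_simp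
  have := @s2u.eq_1; have := @s2u.eq_def; have := @s2u.congr_simp
  have := @s2seg.eq_1; have := @s2seg.eq_def; have := @s2seg.congr_simp
  have := @s2dphi.eq_1; have := @s2dphi.eq_def; have := @s2dphi.congr_simp
  have := @s2J.eq_1; have := @s2J.eq_def; have := @s2J.congr_simp
  have := @s2Lam.eq_1; have := @s2Lam.eq_def; have := @s2Lam.congr_simp
  have := @s2ker.eq_1; have := @s2ker.eq_def; have := @s2ker.congr_simp
  have := @s2muStep.eq_1; have := @s2muStep.eq_def; have := @s2muStep.congr_simp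
  have := @s2mu.eq_1; have := @s2mu.eq_def; have := @s2mu.congr_simp
  have := @s2D1.eq_1; have := @s2D1.eq_def; have := @s2D1.congr_simp
  have := @s2f.eq_1; have := @s2f.eq_def; have := @s2f.congr_simp
  have := @s2G.eq_1; have := @s2G.eq_def; have := @s2G.congr_simp
  have := @s2del.eq_1; have := @s2del.eq_def; have := @s2del.congr_simp
  have := @s2pt.eq_1; have := @s2pt.eq_def; have := @s2pt.congr_simp
  have := @s2T.eq_1; have := @s2T.eq_def; have := @s2T.congr_simp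
  have := @s2w.eq_1; have := @s2w.eq_def; have := @s2w.congr_simp
  have := @s2X.eq_1; have := @s2X.eq_def; have := @s2X.congr_simp
  have := @s2M.eq_1; have := @s2M.eq_def; have := @s2M.congr_simp
  have := @s2Y.eq_1; have := @s2Y.eq_def; have := @s2Y.congr_simp
  have := @s2W.eq_1; have := @s2W.eq_def; have := @s2W.congr_simp
  have := @s2fc.eq_1; have := @s2fc.eq_def; have := @s2fc.congr_simp
  have := @s2C.eq_1; have := @s2C.eq_def; have := @s2C.congr_simp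
  have := @s2dW.eq_1; have := @s2dW.eq_def; have := @s2dW.congr_simp
  have := @s2dC.eq_1; have := @s2dC.eq_def; have := @s2dC.congr_simp
  have := @s2zeta.eq_1; have := @s2zeta.eq_def; have := @s2zeta.congr_simp
  have := @s2b.eq_1; have := @s2b.eq_def; have := @s2b.congr_simp
  trivial

end Claimed.Agent.R269
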