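/-
Row 269, Section 2, UNIT A: input sequences and the functions they define on closed strips.
Statements by helper159, proofs by helper49 (sorry-free).  All are elementary facts on absolutely convergent Fourier series.
-/
import Claimed.Agent.R269.S2.Defs

set_option autoImplicit false

namespace Claimed.Agent.R269

open Complex ComplexConjugate Filter Topology

theorem s2A_wt_nonneg (σ : ℝ) (A : ℕ) (k : ℤ) : 0 ≤ s2wt σ A k := by
  unfold s2wt; positivity

theorem s2A_wt_mono {σ σ' : ℝ} (h : σ' ≤ σ) (A : ℕ) (k : ℤ) : s2wt σ' A k ≤ s2wt σ A k := by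
  unfold s2wt
  have : σ' * |(k : ℝ)| ≤ σ * |(k : ℝ)| := mul_le_mul_of_nonneg_right h (abs_nonneg _)
  exact mul_le_mul_of_nonneg_left (Real.exp_le_exp.2 this) (by positivity)

/-- monotonicity of the input class. -/
theorem s2A_in_mono {σ σ' M M' : ℝ} {a : ℤ → ℂ} (hσ : σ' ≤ σ) (hM : M ≤ M')
    (h : S2In σ M a) : S2In σ' M' a := by
  have hle : ∀ k : ℤ, s2wt σ' 4 k * ‖a k‖ ≤ s2wt σ 4 k * ‖a k‖ := fun k =>
    mul_le_mul_of_nonneg_right (s2A_wt_mono hσ 4 k) (norm_nonneg _)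
  have hs : Summable fun k : ℤ => s2wt σ' 4 k * ‖a k‖ :=
    Summable.of_nonneg_of_le (fun k => mul_nonneg (s2A_wt_nonneg _ _ _) (norm_nonneg _)) hle h.summ
  exact ⟨h.real, hs, ((hs.tsum_le_tsum hle h.summ).trans h.le).trans hM⟩

/-- real linear combinations. -/
theorem s2A_in_comb {σ M M' : ℝ} {a b : ℤ → ℂ} (s t : ℝ) (ha : S2In σ M a) (hb : S2In σ M' b) :
    S2In σ (|s| * M + |t| * M') ((s : ℂ) • a + (t : ℂ) • b) := by
  have hle : ∀ k : ℤ, s2wt σ 4 k * ‖((s : ℂ) • a + (t : ℂ) • b) k‖ ≤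
      |s| * (s2wt σ 4 k * ‖a k‖) + |t| * (s2wt σ 4 k * ‖b k‖) := by
    intro k
    have h1 : ‖((s : ℂ) • a + (t : ℂ) • b) k‖ ≤ |s| * ‖a k‖ + |t| * ‖b k‖ := by
      simp only [Pi.add_apply, Pi.smul_apply, smul_eq_mul]
      refine (norm_add_le _ _).trans ?_
      rw [norm_mul, norm_mul, Complex.norm_real, Complex.norm_real, Real.norm_eq_abs, Real.norm_eq_abs]
    calc s2wt σ 4 k * ‖((s : ℂ) • a + (t : ℂ) • b) k‖ ≤ s2wt σ 4 k * (|s| * ‖a k‖ + |t| * ‖b k‖) :=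
          mul_le_mul_of_nonneg_left h1 (s2A_wt_nonneg _ _ _)
      _ = _ := by ring
  have hs2 : Summable fun k : ℤ => |s| * (s2wt σ 4 k * ‖a k‖) + |t| * (s2wt σ 4 k * ‖b k‖) :=
    (ha.summ.mul_left _).add (hb.summ.mul_left _)
  have hs : Summable fun k : ℤ => s2wt σ 4 k * ‖((s : ℂ) • a + (t : ℂ) • b) k‖ :=
    Summable.of_nonneg_of_le (fun k => mul_nonneg (s2A_wt_nonneg _ _ _) (norm_nonneg _)) hle hs2
  refine ⟨?_, hs, ?_⟩
  · intro k
    simp only [Pi.add_apply, Pi.smul_apply, smul_eq_mul, map_add, map_mul, Complex.conj_ofReal]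
    rw [ha.real k, hb.real k]
  · refine (hs.tsum_le_tsum hle hs2).trans ?_
    rw [(ha.summ.mul_left _).tsum_add (hb.summ.mul_left _), tsum_mul_left, tsum_mul_left]
    exact add_le_add (mul_le_mul_of_nonneg_left ha.le (abs_nonneg _))
      (mul_le_mul_of_nonneg_left hb.le (abs_nonneg _))

/-- the zero input. -/
theorem s2A_in_zero {σ M : ℝ} (hM : 0 ≤ M) : S2In σ M 0 := by
  refine ⟨fun k => by simp, ?_, ?_⟩
  · simp
  · simpa [s2wn] using hM

/-- `M` is nonnegative as soon as the class is nonempty. -/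
theorem s2A_in_nonneg {σ M : ℝ} {a : ℤ → ℂ} (h : S2In σ M a) : 0 ≤ M :=
  (tsum_nonneg fun _ => mul_nonneg (s2A_wt_nonneg _ _ _) (norm_nonneg _)).trans h.le

theorem s2A_term_norm (a : ℤ → ℂ) (i : ℕ) (k : ℤ) (z : ℂ) :
    ‖(I * (k : ℂ)) ^ i * a k * exp (I * (k : ℂ) * z)‖
      = |(k : ℝ)| ^ i * ‖a k‖ * Real.exp (-(k : ℝ) * z.im) := by
  rw [norm_mul, norm_mul, norm_pow, norm_mul, Complex.norm_I, one_mul, Complex.norm_intCast,
    Complex.norm_exp]
  congr 2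
  simp [Complex.mul_re, Complex.mul_im]

theorem s2A_exp_le {σ : ℝ} {z : ℂ} (hz : z ∈ s2cs σ) (k : ℤ) :
    Real.exp (-(k : ℝ) * z.im) ≤ Real.exp (σ * |(k : ℝ)|) := by
  apply Real.exp_le_exp.2
  have h1 : -(k : ℝ) * z.im ≤ |(k : ℝ)| * |z.im| := by
    rw [← abs_mul, neg_mul]; exact neg_le_abs _
  have hz' : |z.im| ≤ σ := hz
  calc -(k : ℝ) * z.im ≤ |(k : ℝ)| * |z.im| := h1
    _ ≤ |(k : ℝ)| * σ := mul_le_mul_of_nonneg_left hz' (abs_nonneg _)
    _ = σ * |(k : ℝ)| := mul_comm _ _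

theorem s2A_term_le {σ : ℝ} (a : ℤ → ℂ) {i : ℕ} (hi : i ≤ 4) (k : ℤ) {z : ℂ} (hz : z ∈ s2cs σ) :
    ‖(I * (k : ℂ)) ^ i * a k * exp (I * (k : ℂ) * z)‖ ≤ s2wt σ 4 k * ‖a k‖ := by
  rw [s2A_term_norm, s2wt]
  have h1 : |(k : ℝ)| ^ i ≤ (1 + |(k : ℝ)|) ^ 4 :=
    (pow_le_pow_left₀ (abs_nonneg _) (by linarith [abs_nonneg (k : ℝ)]) i).trans
      (pow_le_pow_right₀ (by linarith [abs_nonneg (k : ℝ)]) hi)
  have h2 := s2A_exp_le hz k
  calc |(k : ℝ)| ^ i * ‖a k‖ * Real.exp (-(k : ℝ) * z.im)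
      ≤ (1 + |(k : ℝ)|) ^ 4 * ‖a k‖ * Real.exp (σ * |(k : ℝ)|) := by gcongr
    _ = _ := by ring

theorem s2A_term_summable {σ M : ℝ} {a : ℤ → ℂ} (h : S2In σ M a) {i : ℕ} (hi : i ≤ 4) {z : ℂ}
    (hz : z ∈ s2cs σ) : Summable fun k : ℤ => (I * (k : ℂ)) ^ i * a k * exp (I * (k : ℂ) * z) :=
  Summable.of_norm_bounded h.summ fun k => s2A_term_le a hi k hz


theorem s2A_convex (σ : ℝ) : Convex ℝ (s2cs σ) := by
  have : s2cs σ = Complex.imLm ⁻¹' (Set.Icc (-σ) σ) := by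
    ext z; simp [s2cs, abs_le]
  rw [this]
  exact (convex_Icc _ _).linear_preimage _

theorem s2A_term_hasDerivAt (a : ℤ → ℂ) (i : ℕ) (k : ℤ) (w : ℂ) :
    HasDerivAt (fun w : ℂ => (I * (k : ℂ)) ^ i * a k * exp (I * (k : ℂ) * w))
      ((I * (k : ℂ)) ^ (i + 1) * a k * exp (I * (k : ℂ) * w)) w := by
  have h1 : HasDerivAt (fun w : ℂ => I * (k : ℂ) * w) (I * (k : ℂ)) w := by
    simpa using (hasDerivAt_id w).const_mul (I * (k : ℂ))
  have h2 := (h1.cexp).const_mul ((I * (k : ℂ)) ^ i * a k)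
  have h3 : (I * (k : ℂ)) ^ (i + 1) * a k * exp (I * (k : ℂ) * w)
      = (I * (k : ℂ)) ^ i * a k * (exp (I * (k : ℂ) * w) * (I * (k : ℂ))) := by ring
  rw [h3]
  exact h2

/-- an input sequence defines an input function. -/
theorem s2A_fun {σ M : ℝ} {a : ℤ → ℂ} (hσ : 0 ≤ σ) (h : S2In σ M a) : S2Fun σ M (s2u a) := by
  refine ⟨?_, ?_, ?_, ?_, ?_⟩
  · intro i hi z hz
    unfold s2u
    refine (norm_tsum_le_tsum_norm ((s2A_term_summable h hi hz).norm)).trans ?_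
    exact ((s2A_term_summable h hi hz).norm.tsum_le_tsum (fun k => s2A_term_le a hi k hz)
      h.summ).trans h.le
  · intro i hi z hz
    rw [hasDerivWithinAt_iff_tendsto_slope]
    have key : ∀ w ∈ s2cs σ, slope (s2u a i) z w =
        ∑' k : ℤ, slope (fun w : ℂ => (I * (k : ℂ)) ^ i * a k * exp (I * (k : ℂ) * w)) z w := by
      intro w hw
      simp only [slope_def_field]
      rw [tsum_div_const, (s2A_term_summable h hi.le hw).tsum_sub (s2A_term_summable h hi.le hz)]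
      rfl
    have hlim : Tendsto (fun w => ∑' k : ℤ,
        slope (fun w : ℂ => (I * (k : ℂ)) ^ i * a k * exp (I * (k : ℂ) * w)) z w)
        (𝓝[s2cs σ \ {z}] z) (𝓝 (∑' k : ℤ, (I * (k : ℂ)) ^ (i + 1) * a k * exp (I * (k : ℂ) * z))) := by
      refine tendsto_tsum_of_dominated_convergence (bound := fun k => s2wt σ 4 k * ‖a k‖) h.summ ?_ ?_
      · intro k
        exact hasDerivWithinAt_iff_tendsto_slope.1 (s2A_term_hasDerivAt a i k z).hasDerivWithinAt
      · filter_upwards [self_mem_nhdsWithin] with w hw k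
        have hb := Convex.norm_image_sub_le_of_norm_hasDerivWithin_le
          (f := fun w : ℂ => (I * (k : ℂ)) ^ i * a k * exp (I * (k : ℂ) * w))
          (fun x _ => (s2A_term_hasDerivAt a i k x).hasDerivWithinAt)
          (fun x hx => s2A_term_le a (Nat.succ_le_of_lt hi) k hx) (s2A_convex σ) hz hw.1
        have hne : w - z ≠ 0 := sub_ne_zero.2 hw.2
        rw [slope_def_field, norm_div, div_le_iff₀ (norm_pos_iff.2 hne)]
        exact hb
    refine hlim.congr' ?_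
    filter_upwards [self_mem_nhdsWithin] with w hw
    exact (key w hw.1).symm
  · change ContinuousOn (fun z => ∑' k : ℤ, (I * (k : ℂ)) ^ 4 * a k * exp (I * (k : ℂ) * z)) (s2cs σ)
    refine continuousOn_tsum (fun k => ?_) h.summ (fun k z hz => s2A_term_le a le_rfl k hz)
    exact (Continuous.continuousOn (by fun_prop))
  · intro z
    unfold s2u
    rw [Complex.conj_tsum, ← (Equiv.neg ℤ).tsum_eq]
    refine tsum_congr fun k => ?_
    simp only [Equiv.neg_apply, pow_zero, one_mul, map_mul, ← Complex.exp_conj, Complex.conj_I,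
      map_intCast, h.real k]
    congr 2
    push_cast
    ring
  · intro z
    unfold s2u
    refine tsum_congr fun k => ?_
    congr 1
    have : I * (k : ℂ) * (z + 2 * Real.pi) = I * (k : ℂ) * z + k * (2 * Real.pi * I) := by ring
    rw [this, Complex.exp_add, Complex.exp_int_mul_two_pi_mul_I, mul_one]

/-- linearity on the strip. -/
theorem s2A_u_comb {σ M M' : ℝ} {a b : ℤ → ℂ} (s t : ℂ) (ha : S2In σ M a) (hb : S2In σ M' b)
    (i : ℕ) (hi : i ≤ 4) (z : ℂ) (hz : z ∈ s2cs σ) :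
    s2u (s • a + t • b) i z = s * s2u a i z + t * s2u b i z := by
  unfold s2u
  rw [← tsum_mul_left, ← tsum_mul_left,
    ← ((s2A_term_summable ha hi hz).mul_left s).tsum_add ((s2A_term_summable hb hi hz).mul_left t)]
  refine tsum_congr fun k => ?_
  simp only [Pi.add_apply, Pi.smul_apply, smul_eq_mul]
  ring


theorem s2A_int_exp (m : ℤ) :
    ∫ x in (0 : ℝ)..(2 * Real.pi), exp (I * (m : ℂ) * (x : ℂ)) = if m = 0 then (2 * Real.pi : ℂ) else 0 := by
  split_ifs with hm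
  · subst hm
    simp
  · have hc : I * (m : ℂ) ≠ 0 := mul_ne_zero I_ne_zero (by exact_mod_cast hm)
    rw [integral_exp_mul_complex hc]
    have h1 : I * (m : ℂ) * ((2 * Real.pi : ℝ) : ℂ) = m * (2 * Real.pi * I) := by push_cast; ring
    rw [h1, Complex.exp_int_mul_two_pi_mul_I]
    simp

theorem s2A_exp_norm (k : ℤ) (x : ℝ) : ‖exp (I * (k : ℂ) * (x : ℂ))‖ = 1 := by
  have : I * (k : ℂ) * (x : ℂ) = (((k : ℝ) * x : ℝ) : ℂ) * I := by push_cast; ring
  rw [this, Complex.norm_exp_ofReal_mul_I]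

theorem s2A_int_tsum {c : ℤ → ℂ} (hc : Summable fun k => ‖c k‖) {g : ℝ → ℂ} (hg : Continuous g) :
    HasSum (fun k : ℤ => ∫ x in (0 : ℝ)..(2 * Real.pi), g x * (c k * exp (I * (k : ℂ) * (x : ℂ))))
      (∫ x in (0 : ℝ)..(2 * Real.pi), g x * ∑' k : ℤ, c k * exp (I * (k : ℂ) * (x : ℂ))) := by
  refine intervalIntegral.hasSum_integral_of_dominated_convergence (fun k x => ‖g x‖ * ‖c k‖) ?_ ?_ ?_ ?_ ?_
  · intro k
    exact (Continuous.aestronglyMeasurable (by fun_prop))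
  · intro k
    refine Filter.Eventually.of_forall fun x _ => ?_
    rw [norm_mul, norm_mul, s2A_exp_norm, mul_one]
  · exact Filter.Eventually.of_forall fun x _ => hc.mul_left _
  · simp_rw [tsum_mul_left]
    exact (Continuous.intervalIntegrable (by fun_prop) _ _)
  · refine Filter.Eventually.of_forall fun x _ => ?_
    have hs : Summable fun k : ℤ => c k * exp (I * (k : ℂ) * (x : ℂ)) :=
      Summable.of_norm_bounded hc fun k => by rw [norm_mul, s2A_exp_norm, mul_one]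
    exact hs.hasSum.mul_left _

theorem s2A_fc_gen {c : ℤ → ℂ} (hc : Summable fun k => ‖c k‖) (n : ℤ) :
    ∫ x in (0 : ℝ)..(2 * Real.pi),
      exp (-I * (n : ℂ) * (x : ℂ)) * ∑' k : ℤ, c k * exp (I * (k : ℂ) * (x : ℂ)) = 2 * Real.pi * c n := by
  have h1 := s2A_int_tsum hc (g := fun x : ℝ => exp (-I * (n : ℂ) * (x : ℂ))) (by fun_prop)
  have h2 : ∀ k : ℤ, ∫ x in (0 : ℝ)..(2 * Real.pi),
      exp (-I * (n : ℂ) * (x : ℂ)) * (c k * exp (I * (k : ℂ) * (x : ℂ)))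
        = if k = n then 2 * Real.pi * c n else 0 := by
    intro k
    have h3 : ∀ x : ℝ, exp (-I * (n : ℂ) * (x : ℂ)) * (c k * exp (I * (k : ℂ) * (x : ℂ)))
        = c k * exp (I * ((k - n : ℤ) : ℂ) * (x : ℂ)) := by
      intro x
      rw [mul_left_comm, ← Complex.exp_add]
      congr 2
      push_cast
      ring
    simp_rw [h3]
    rw [intervalIntegral.integral_const_mul, s2A_int_exp]
    by_cases hk : k = n
    · subst hk
      simp [mul_comm]
    · rw [if_neg hk, if_neg (sub_ne_zero.2 hk), mul_zero]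
  simp_rw [h2] at h1
  exact h1.unique (hasSum_ite_eq n _)

theorem s2A_tsum_continuous {c : ℤ → ℂ} (hc : Summable fun k => ‖c k‖) :
    Continuous fun x : ℝ => ∑' k : ℤ, c k * exp (I * (k : ℂ) * (x : ℂ)) := by
  refine continuous_tsum (fun k => by fun_prop) hc fun k x => ?_
  rw [norm_mul, s2A_exp_norm, mul_one]

theorem s2A_parseval_gen {c : ℤ → ℂ} (hc : Summable fun k => ‖c k‖) :
    HasSum (fun k : ℤ => 2 * Real.pi * ‖c k‖ ^ 2)
      (∫ x in (0 : ℝ)..(2 * Real.pi), ‖∑' k : ℤ, c k * exp (I * (k : ℂ) * (x : ℂ))‖ ^ 2) := by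
  have hf := s2A_tsum_continuous hc
  have h1 := s2A_int_tsum hc
    (g := fun x : ℝ => conj (∑' k : ℤ, c k * exp (I * (k : ℂ) * (x : ℂ))))
    (Complex.continuous_conj.comp hf)
  have h2 : ∀ k : ℤ, ∫ x in (0 : ℝ)..(2 * Real.pi),
      conj (∑' k : ℤ, c k * exp (I * (k : ℂ) * (x : ℂ))) * (c k * exp (I * (k : ℂ) * (x : ℂ)))
        = ((2 * Real.pi * ‖c k‖ ^ 2 : ℝ) : ℂ) := by
    intro k
    have h3 : ∀ x : ℝ,
        conj (∑' k : ℤ, c k * exp (I * (k : ℂ) * (x : ℂ))) * (c k * exp (I * (k : ℂ) * (x : ℂ)))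
        = c k * conj (exp (-I * (k : ℂ) * (x : ℂ)) * ∑' k : ℤ, c k * exp (I * (k : ℂ) * (x : ℂ))) := by
      intro x
      rw [map_mul, ← Complex.exp_conj]
      simp only [map_mul, map_neg, Complex.conj_I, map_intCast, Complex.conj_ofReal, neg_neg]
      ring
    simp_rw [h3]
    rw [intervalIntegral.integral_const_mul]
    have h4 : ∫ x in (0 : ℝ)..(2 * Real.pi),
        conj (exp (-I * (k : ℂ) * (x : ℂ)) * ∑' k : ℤ, c k * exp (I * (k : ℂ) * (x : ℂ)))
        = conj (∫ x in (0 : ℝ)..(2 * Real.pi),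
          exp (-I * (k : ℂ) * (x : ℂ)) * ∑' k : ℤ, c k * exp (I * (k : ℂ) * (x : ℂ))) := by
      simp only [intervalIntegral, map_sub]
      rw [integral_conj, integral_conj]
    rw [h4, s2A_fc_gen hc k]
    simp only [map_mul, Complex.conj_ofReal, map_ofNat]
    rw [mul_left_comm, Complex.mul_conj']
    push_cast
    ring
  have h5 : ∫ x in (0 : ℝ)..(2 * Real.pi),
      conj (∑' k : ℤ, c k * exp (I * (k : ℂ) * (x : ℂ))) * ∑' k : ℤ, c k * exp (I * (k : ℂ) * (x : ℂ))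
      = ((∫ x in (0 : ℝ)..(2 * Real.pi), ‖∑' k : ℤ, c k * exp (I * (k : ℂ) * (x : ℂ))‖ ^ 2 : ℝ) : ℂ) := by
    rw [← intervalIntegral.integral_ofReal]
    refine intervalIntegral.integral_congr fun x _ => ?_
    rw [Complex.conj_mul']
    push_cast
    rfl
  simp_rw [h2] at h1
  rw [h5] at h1
  exact Complex.hasSum_ofReal.1 h1

theorem s2A_wt_ge_exp (σ : ℝ) (A : ℕ) (k : ℤ) : Real.exp (σ * |(k : ℝ)|) ≤ s2wt σ A k := by
  unfold s2wt
  have h1 : (1 : ℝ) ≤ (1 + |(k : ℝ)|) ^ A := one_le_pow₀ (by linarith [abs_nonneg (k : ℝ)])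
  exact le_mul_of_one_le_left (Real.exp_pos _).le h1

/-- Fourier coefficients of the function defined by an input sequence. -/
theorem s2A_fc {M : ℝ} {v : ℤ → ℂ} (h : S2In 0 M v) (n : ℤ) : s2fc (s2u v 0) n = v n := by
  have hc : Summable fun k => ‖v k‖ := by
    refine Summable.of_nonneg_of_le (fun k => norm_nonneg _) (fun k => ?_) h.summ
    have := s2A_wt_ge_exp 0 4 k
    rw [zero_mul, Real.exp_zero] at this
    exact le_mul_of_one_le_left (norm_nonneg _) this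
  unfold s2fc s2u
  simp only [pow_zero, one_mul]
  rw [s2A_fc_gen hc n]
  have : (Real.pi : ℂ) ≠ 0 := by exact_mod_cast Real.pi_ne_zero
  field_simp


/-- `∑ ‖v k‖ e^{σ|k|}` converges. -/
theorem s2A_summable_exp {σ M : ℝ} {v : ℤ → ℂ} (h : S2In σ M v) :
    Summable fun k : ℤ => ‖v k‖ * Real.exp (σ * |(k : ℝ)|) := by
  refine Summable.of_nonneg_of_le (fun k => by positivity) (fun k => ?_) h.summ
  rw [mul_comm]
  exact mul_le_mul_of_nonneg_right (s2A_wt_ge_exp σ 4 k) (norm_nonneg _)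

/-- summability of the squares. -/
theorem s2A_hn_summable {σ M : ℝ} {v : ℤ → ℂ} (h : S2In σ M v) :
    Summable fun k : ℤ => ‖v k‖ ^ 2 * Real.exp (2 * σ * |(k : ℝ)|) := by
  have hs := s2A_summable_exp h
  have hnn : ∀ k : ℤ, 0 ≤ ‖v k‖ * Real.exp (σ * |(k : ℝ)|) := fun k => by positivity
  refine Summable.of_nonneg_of_le (fun k => by positivity) (fun k => ?_)
    (hs.mul_left (∑' k : ℤ, ‖v k‖ * Real.exp (σ * |(k : ℝ)|)))
  have h1 : ‖v k‖ ^ 2 * Real.exp (2 * σ * |(k : ℝ)|)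
      = (‖v k‖ * Real.exp (σ * |(k : ℝ)|)) * (‖v k‖ * Real.exp (σ * |(k : ℝ)|)) := by
    have : 2 * σ * |(k : ℝ)| = σ * |(k : ℝ)| + σ * |(k : ℝ)| := by ring
    rw [this, Real.exp_add]
    ring
  rw [h1]
  exact mul_le_mul_of_nonneg_right (hs.le_tsum k fun j _ => hnn j) (hnn k)

/-- Parseval on the line `Im z = τ`, `|τ| ≤ σ` (only `≤` is needed). -/
theorem s2A_parseval {σ M τ : ℝ} {v : ℤ → ℂ} (h : S2In σ M v) (hτ : |τ| ≤ σ) :
    1 / (2 * Real.pi) * ∫ s in (0 : ℝ)..(2 * Real.pi), ‖s2u v 0 ((s : ℂ) + (τ : ℂ) * I)‖ ^ 2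
      ≤ s2hn σ v ^ 2 := by
  have hle : ∀ k : ℤ, Real.exp (-(k : ℝ) * τ) ≤ Real.exp (σ * |(k : ℝ)|) := by
    intro k
    have hz : ((τ : ℂ) * I) ∈ s2cs σ := by simpa [s2cs] using hτ
    simpa using s2A_exp_le hz k
  have hnorm : ∀ k : ℤ, ‖v k * exp (-((k : ℝ) * τ : ℝ))‖ = ‖v k‖ * Real.exp (-(k : ℝ) * τ) := by
    intro k
    rw [norm_mul, ← Complex.ofReal_neg, ← Complex.ofReal_exp, Complex.norm_real, Real.norm_eq_abs,
      abs_of_pos (Real.exp_pos _), neg_mul]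
  have hc : Summable fun k : ℤ => ‖v k * exp (-((k : ℝ) * τ : ℝ))‖ := by
    refine Summable.of_nonneg_of_le (fun k => norm_nonneg _) (fun k => ?_) (s2A_summable_exp h)
    rw [hnorm]
    exact mul_le_mul_of_nonneg_left (hle k) (norm_nonneg _)
  have hP := s2A_parseval_gen hc
  have hu : ∀ s : ℝ, s2u v 0 ((s : ℂ) + (τ : ℂ) * I)
      = ∑' k : ℤ, v k * exp (-((k : ℝ) * τ : ℝ)) * exp (I * (k : ℂ) * (s : ℂ)) := by
    intro s
    unfold s2u
    refine tsum_congr fun k => ?_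
    rw [pow_zero, one_mul, mul_assoc (v k), ← Complex.exp_add]
    congr 2
    push_cast
    have hI : I * I = -1 := Complex.I_mul_I
    linear_combination ((k : ℂ) * (τ : ℂ)) * hI
  simp_rw [hu]
  rw [← hP.tsum_eq, tsum_mul_left, s2hn, Real.sq_sqrt (tsum_nonneg fun k => by positivity)]
  have hpi : (0 : ℝ) < 2 * Real.pi := by positivity
  rw [← mul_assoc, one_div, inv_mul_cancel₀ hpi.ne', one_mul]
  have hs2 : Summable fun k : ℤ => ‖v k * exp (-((k : ℝ) * τ : ℝ))‖ ^ 2 := by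
    have := hP.summable.mul_left (2 * Real.pi)⁻¹
    simpa [← mul_assoc, inv_mul_cancel₀ hpi.ne'] using this
  refine hs2.tsum_le_tsum (fun k => ?_) (s2A_hn_summable h)
  rw [hnorm, mul_pow]
  refine mul_le_mul_of_nonneg_left ?_ (by positivity)
  have : 2 * σ * |(k : ℝ)| = σ * |(k : ℝ)| + σ * |(k : ℝ)| := by ring
  rw [this, Real.exp_add, sq]
  exact mul_le_mul (hle k) (hle k) (Real.exp_pos _).le (Real.exp_pos _).le

end Claimed.Agent.R269
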