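/-
Row 269, Section 2: INTERFACES between the units B (two-point analysis), C (mesh) and their users
D, E, GT, Zc.   Owner: helper159 (sub-captain sec 2).

All constants depend only on the bound `M` of the input class; they are uniform in the width
`σ ∈ [0,1]` (`σ = 0` is the real axis) and in the input.
-/
import Claimed.Agent.R269.S2.Defs

set_option autoImplicit false

namespace Claimed.Agent.R269

open Complex ComplexConjugate Filter Topology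

/-- admissible pairs: short, and with a RELATIVE margin to the boundary of the strip. -/
def S2Adm (c T0 σ : ℝ) (X Y : ℂ) : Prop :=
  ‖Y - X‖ ≤ T0 ∧ (1 + c * ‖Y - X‖) * max |X.im| |Y.im| ≤ σ

/-- admissible triples with steps `≈ δ`. -/
structure S2Tri (c σ δ : ℝ) (Xm X Xp : ℂ) : Prop where
  sm : ‖X - Xm - δ‖ ≤ δ / 2
  sp : ‖Xp - X - δ‖ ≤ δ / 2
  im : (1 + 2 * c * δ) * max |Xm.im| (max |X.im| |Xp.im|) ≤ σ

/-- EXPORT OF UNIT B for one input `u` on the strip of width `σ`. -/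
structure S2TwoPt (c T0 C σ : ℝ) (u : ℂ → ℂ) : Prop where
  mu_im : ∀ X Y, S2Adm c T0 σ X Y →
    |(s2mu u X Y).im| ≤ (1 + c * ‖Y - X‖) * max |X.im| |Y.im|
  mu_near : ∀ X Y, S2Adm c T0 σ X Y → ‖s2mu u X Y - (X + Y) / 2‖ ≤ C * ‖Y - X‖ ^ 2
  mu_eq : ∀ X Y, S2Adm c T0 σ X Y → s2dphi u X (s2mu u X Y) = s2dphi u (s2mu u X Y) Y
  mu_lip : ∀ X Y X' Y', S2Adm c T0 σ X Y → S2Adm c T0 σ X' Y' →
    ‖(s2mu u X Y - (X + Y) / 2) - (s2mu u X' Y' - (X' + Y') / 2)‖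
      ≤ C * max ‖Y - X‖ ‖Y' - X'‖ * (‖X - X'‖ + ‖Y - Y'‖)
  mu_conj : ∀ X Y, S2Adm c T0 σ X Y → s2mu u (conj X) (conj Y) = conj (s2mu u X Y)
  mu_per : ∀ X Y, S2Adm c T0 σ X Y →
    s2mu u (X + 2 * Real.pi) (Y + 2 * Real.pi) = s2mu u X Y + 2 * Real.pi
  mu_holo : ∀ σ₁ < σ, ∀ Ω : Set ℂ, IsOpen Ω → ∀ X Y : ℂ → ℂ,
    DifferentiableOn ℂ X Ω → DifferentiableOn ℂ Y Ω → (∀ x ∈ Ω, S2Adm c T0 σ₁ (X x) (Y x)) →
    DifferentiableOn ℂ (fun x => s2mu u (X x) (Y x)) Ω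
  f_bd : ∀ δ : ℝ, 0 < δ → 2 * δ ≤ T0 → ∀ Xm X Xp, S2Tri c σ δ Xm X Xp →
    ‖s2f u Xm X Xp‖ ≤ C * (δ ^ 2 * ‖Xp - 2 * X + Xm‖ + δ ^ 4)
  f_lip : ∀ δ : ℝ, 0 < δ → 2 * δ ≤ T0 → ∀ Xm X Xp Xm' X' Xp',
    S2Tri c σ δ Xm X Xp → S2Tri c σ δ Xm' X' Xp' →
    ‖s2f u Xm X Xp - s2f u Xm' X' Xp'‖
      ≤ C * (δ ^ 3 * ‖X - X'‖
          + δ ^ 2 * (‖(X - Xm) - (X' - Xm')‖ + ‖(Xp - X) - (Xp' - X')‖))
  f_conj : ∀ δ : ℝ, 0 < δ → 2 * δ ≤ T0 → ∀ Xm X Xp, S2Tri c σ δ Xm X Xp →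
    s2f u (conj Xm) (conj X) (conj Xp) = conj (s2f u Xm X Xp)
  f_per : ∀ δ : ℝ, 0 < δ → 2 * δ ≤ T0 → ∀ Xm X Xp, S2Tri c σ δ Xm X Xp →
    s2f u (Xm + 2 * Real.pi) (X + 2 * Real.pi) (Xp + 2 * Real.pi) = s2f u Xm X Xp
  f_holo : ∀ δ : ℝ, 0 < δ → 2 * δ ≤ T0 → ∀ σ₁ < σ, ∀ Ω : Set ℂ, IsOpen Ω → ∀ Xm X Xp : ℂ → ℂ,
    DifferentiableOn ℂ Xm Ω → DifferentiableOn ℂ X Ω → DifferentiableOn ℂ Xp Ω →
    (∀ x ∈ Ω, S2Tri c σ₁ δ (Xm x) (X x) (Xp x)) →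
    DifferentiableOn ℂ (fun x => s2f u (Xm x) (X x) (Xp x)) Ω

/-- EXPORT OF UNIT B for two inputs on the real axis (crude Lipschitz dependence on the input). -/
structure S2TwoIn (c T0 C : ℝ) (u u' : ℂ → ℂ) : Prop where
  mu_inp : ∀ ε : ℝ, (∀ x : ℝ, ‖u x - u' x‖ ≤ ε) → ∀ X Y : ℝ, |Y - X| ≤ T0 →
    ‖s2mu u X Y - s2mu u' X Y‖ ≤ C * ε
  f_inp : ∀ ε : ℝ, (∀ x : ℝ, ‖u x - u' x‖ ≤ ε) → ∀ δ : ℝ, 0 < δ → 2 * δ ≤ T0 →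
    ∀ Xm X Xp : ℝ, S2Tri c 0 δ Xm X Xp → ‖s2f u Xm X Xp - s2f u' Xm X Xp‖ ≤ C / δ * ε

/-- domain of the mesh maps: relative loss of width `R/q`. -/
def S2Dom (R σ : ℝ) (q : ℕ) (x : ℂ) : Prop := (1 + R / q) * |x.im| ≤ σ

/-- EXPORT OF UNIT C for one input `u` on the strip of width `σ` and one `q`:
the double mesh `Y_0 = X_0 = x, Y_1 = μ_0, Y_2 = X_1, …, Y_{2q} = X_q = x + 2π`. -/
structure S2Mesh (R σ : ℝ) (u : ℂ → ℂ) (q : ℕ) : Prop where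
  first : ∀ x, S2Dom R σ q x → s2X u q x 0 = x
  last : ∀ x, S2Dom R σ q x → s2X u q x q = x + 2 * Real.pi
  bd : ∀ x, S2Dom R σ q x → ∀ i ≤ 2 * q,
    ‖s2Y u q x i - x - (i : ℂ) * ((Real.pi / q : ℝ) : ℂ)‖ ≤ R / (q : ℝ) ^ 2
  lip : ∀ x x', S2Dom R σ q x → S2Dom R σ q x' → ∀ i ≤ 2 * q,
    ‖(s2Y u q x i - x) - (s2Y u q x' i - x')‖ ≤ R / q * ‖x - x'‖
  im : ∀ x, S2Dom R σ q x → ∀ i ≤ 2 * q, |(s2Y u q x i).im| ≤ (1 + R / q) * |x.im|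
  euler : ∀ x, S2Dom R σ q x → ∀ j, 0 < j → j < q →
    s2J u (s2X u q x j) (s2M u q x j) = s2J u (s2X u q x j) (s2M u q x (j - 1))
  mid : ∀ x, S2Dom R σ q x → ∀ j < q,
    s2dphi u (s2X u q x j) (s2M u q x j) = s2dphi u (s2M u q x j) (s2X u q x (j + 1))
  d1p : ∀ x, S2Dom R σ q x → ∀ j < q,
    s2D1 u (s2X u q x j) (s2X u q x (j + 1)) = exp (u (s2X u q x j)) * s2J u (s2X u q x j) (s2M u q x j)
  d1m : ∀ x, S2Dom R σ q x → ∀ j < q,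
    s2D1 u (s2X u q x (j + 1)) (s2X u q x j)
      = exp (u (s2X u q x (j + 1))) * s2J u (s2X u q x (j + 1)) (s2M u q x j)
  holo : ∀ i ≤ 2 * q, DifferentiableOn ℂ (fun x => s2Y u q x i) {x | (1 + R / q) * |x.im| < σ}
  per : ∀ x, S2Dom R σ q x → ∀ i ≤ 2 * q, s2Y u q (x + 2 * Real.pi) i = s2Y u q x i + 2 * Real.pi
  sym : ∀ x, S2Dom R σ q x → ∀ i ≤ 2 * q, s2Y u q (conj x) i = conj (s2Y u q x i)

/-- forces the equation lemmas of the definitions above to be generated in this file. -/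
theorem s2Iface_eqns_cited : True := by
  have := @S2Adm.eq_1; have := @S2Adm.eq_def; have := @S2Adm.congr_simp
  have := @S2Dom.eq_1; have := @S2Dom.eq_def; have := @S2Dom.congr_simp
  trivial

end Claimed.Agent.R269
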