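/-
Row 269, Section 2, UNIT B: internal definitions and interfaces.   Owner: helper159.
See the header of `S2/B.lean` for the route (B1-B6) and the notation.
-/
import Claimed.Agent.R269.S2.Iface

set_option autoImplicit false

namespace Claimed.Agent.R269

open Complex ComplexConjugate Filter Topology

/-- first divided difference: `F q - F p = (q-p) · s2DD F' p q`. -/
noncomputable def s2DD (F1 : ℂ → ℂ) (p q : ℂ) : ℂ := ∫ t in (0 : ℝ)..1, F1 (p + (t : ℂ) * (q - p))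

/-- symmetric second difference: `F (m+h) + F (m-h) - 2 F m = h² · s2SD F'' m h`. -/
noncomputable def s2SD (F2 : ℂ → ℂ) (m h : ℂ) : ℂ :=
  ∫ r in (0 : ℝ)..1, ((1 - r : ℝ) : ℂ) * (F2 (m + (r : ℂ) * h) + F2 (m - (r : ℂ) * h))

/-- `e^x = 1 + x E₁(x)`. -/
noncomputable def s2E1 (x : ℂ) : ℂ := ∫ t in (0 : ℝ)..1, exp ((t : ℂ) * x)

/-- `sin w = w - w³ S₃(w)`. -/
noncomputable def s2S3 (w : ℂ) : ℂ := ∫ t in (0 : ℝ)..1, (((1 - t) ^ 2 / 2 : ℝ) : ℂ) * cos ((t : ℂ) * w)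

/-- the set of admissible pairs. -/
def s2AdmSet (c T0 σ : ℝ) : Set (ℂ × ℂ) := {P | S2Adm c T0 σ P.1 P.2}

/-- bounded and Lipschitz on a set of pairs. -/
structure S2BL (𝒟 : Set (ℂ × ℂ)) (K : ℝ) (F : ℂ × ℂ → ℂ) : Prop where
  bd : ∀ P ∈ 𝒟, ‖F P‖ ≤ K
  lip : ∀ P ∈ 𝒟, ∀ P' ∈ 𝒟, ‖F P - F P'‖ ≤ K * (‖P.1 - P'.1‖ + ‖P.2 - P'.2‖)

/-- `𝒦 = D₁₂ = ½ e^{u(X)+u(Y)-3u(μ)} sin((φ(Y)-φ(X))/2)`. -/
noncomputable def s2K (u : ℂ → ℂ) (X Y : ℂ) : ℂ :=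
  1 / 2 * exp (u X + u Y - 3 * u (s2mu u X Y)) * sin (s2dphi u X Y / 2)

/-- jets of `H = e^u`. -/
noncomputable def s2H (U : ℕ → ℂ → ℂ) : ℕ → ℂ → ℂ
  | 0 => fun z => exp (U 0 z)
  | 1 => fun z => U 1 z * exp (U 0 z)
  | 2 => fun z => (U 2 z + U 1 z ^ 2) * exp (U 0 z)
  | 3 => fun z => (U 3 z + 3 * U 1 z * U 2 z + U 1 z ^ 3) * exp (U 0 z)
  | _ => fun _ => 0

/-- common bound of the jets of `e^u`. -/
noncomputable def s2KH (M : ℝ) : ℝ := (1 + M) ^ 3 * Real.exp M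

/-- the midpoint: iterates and limit (first part of `S2TwoPt`). -/
structure S2Mid (c T0 C σ : ℝ) (u : ℂ → ℂ) : Prop where
  it_im : ∀ X Y, S2Adm c T0 σ X Y → ∀ k : ℕ,
    |((s2muStep u X Y)^[k] ((X + Y) / 2)).im| ≤ (1 + c * ‖Y - X‖) * max |X.im| |Y.im|
  it_near : ∀ X Y, S2Adm c T0 σ X Y → ∀ k : ℕ,
    ‖(s2muStep u X Y)^[k] ((X + Y) / 2) - (X + Y) / 2‖ ≤ C * ‖Y - X‖ ^ 2
  it_geo : ∀ X Y, S2Adm c T0 σ X Y → ∀ k : ℕ,
    ‖(s2muStep u X Y)^[k + 1] ((X + Y) / 2) - (s2muStep u X Y)^[k] ((X + Y) / 2)‖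
      ≤ C * ‖Y - X‖ ^ 2 * (1 / 2) ^ k
  mu_im : ∀ X Y, S2Adm c T0 σ X Y →
    |(s2mu u X Y).im| ≤ (1 + c * ‖Y - X‖) * max |X.im| |Y.im|
  mu_near : ∀ X Y, S2Adm c T0 σ X Y → ‖s2mu u X Y - (X + Y) / 2‖ ≤ C * ‖Y - X‖ ^ 2
  mu_eq : ∀ X Y, S2Adm c T0 σ X Y → s2dphi u X (s2mu u X Y) = s2dphi u (s2mu u X Y) Y
  mu_lip : ∀ X Y X' Y', S2Adm c T0 σ X Y → S2Adm c T0 σ X' Y' →
    ‖(s2mu u X Y - (X + Y) / 2) - (s2mu u X' Y' - (X' + Y') / 2)‖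
      ≤ C * max ‖Y - X‖ ‖Y' - X'‖ * (‖X - X'‖ + ‖Y - Y'‖)
  mu_conj : ∀ X Y, S2Adm c T0 σ X Y → s2mu u (conj X) (conj Y) = conj (s2mu u X Y)
  mu_per : ∀ X Y, S2Adm c T0 σ X Y →
    s2mu u (X + 2 * Real.pi) (Y + 2 * Real.pi) = s2mu u X Y + 2 * Real.pi

/-- forces the equation lemmas of the definitions above to be generated in this file. -/
theorem s2BDefs_eqns_cited : True := by
  have := @s2DD.eq_1; have := @s2DD.eq_def; have := @s2DD.congr_simp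
  have := @s2SD.eq_1; have := @s2SD.eq_def; have := @s2SD.congr_simp
  have := @s2E1.eq_1; have := @s2E1.eq_def; have := @s2E1.congr_simp
  have := @s2S3.eq_1; have := @s2S3.eq_def; have := @s2S3.congr_simp
  have := @s2AdmSet.eq_1; have := @s2AdmSet.eq_def; have := @s2AdmSet.congr_simp
  have := @s2K.eq_1; have := @s2K.eq_def; have := @s2K.congr_simp
  have := @s2H.eq_1; have := @s2H.eq_2; have := @s2H.eq_3; have := @s2H.eq_4; have := @s2H.eq_5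
  have := @s2H.eq_def; have := @s2H.congr_simp
  have := @s2KH.eq_1; have := @s2KH.eq_def; have := @s2KH.congr_simp
  trivial

end Claimed.Agent.R269
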