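/-
Row 269, Section 2, UNIT P: general lemmas on segment integrals, primitives on closed strips,
parametric integrals, contour shift, limits of Picard iterates.     Statements and proofs by helper159 (sorry-free).

Mathlib facts to use:  `Convex.exists_forall_hasDerivWithinAt` (a function differentiable on ANY convex
subset of `ℂ` has a primitive there; works for closed strips and for the real line `s2cs 0`),
`Complex.isConservativeOn_and_continuousOn_iff_isDifferentiableOn` (Morera),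
`Complex.integral_boundary_rect_eq_zero_of_differentiableOn`, `TendstoLocallyUniformlyOn.differentiableOn`.
-/
import Claimed.Agent.R269.S2.Defs

set_option autoImplicit false

namespace Claimed.Agent.R269

open Complex ComplexConjugate Filter Topology

theorem s2P_convex (σ : ℝ) : Convex ℝ (s2cs σ) := by
  have : s2cs σ = Complex.imLm ⁻¹' (Set.Icc (-σ) σ) := by
    ext z; simp [s2cs, abs_le]
  rw [this]
  exact (convex_Icc _ _).linear_preimage _

theorem s2P_convex_os (σ : ℝ) : Convex ℝ (s2os σ) := by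
  have : s2os σ = Complex.imLm ⁻¹' (Set.Ioo (-σ) σ) := by
    ext z; simp [s2os, abs_lt]
  rw [this]
  exact (convex_Ioo _ _).linear_preimage _

theorem s2P_isOpen_os (σ : ℝ) : IsOpen (s2os σ) := by
  have : s2os σ = Complex.im ⁻¹' (Set.Ioo (-σ) σ) := by
    ext z; simp [s2os, abs_lt]
  rw [this]
  exact isOpen_Ioo.preimage Complex.continuous_im

/-- points of the segment stay in the strip. -/
theorem s2P_seg_mem {σ : ℝ} {p q : ℂ} (hp : p ∈ s2cs σ) (hq : q ∈ s2cs σ) {t : ℝ}
    (ht : t ∈ Set.Icc (0 : ℝ) 1) : p + (t : ℂ) * (q - p) ∈ s2cs σ := by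
  have := (s2P_convex σ).add_smul_sub_mem hp hq ht
  simpa [Complex.real_smul] using this

/-- fundamental theorem of calculus along a segment of the closed strip. -/
theorem s2P_ftc {σ : ℝ} {g f : ℂ → ℂ}
    (hg : ∀ z ∈ s2cs σ, HasDerivWithinAt g (f z) (s2cs σ) z) (hf : ContinuousOn f (s2cs σ))
    {p q : ℂ} (hp : p ∈ s2cs σ) (hq : q ∈ s2cs σ) : s2seg f p q = g q - g p := by
  set γ : ℝ → ℂ := fun t => p + (t : ℂ) * (q - p) with hγ
  have hγmem : ∀ t ∈ Set.Icc (0 : ℝ) 1, γ t ∈ s2cs σ := fun t ht => s2P_seg_mem hp hq ht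
  have hγd : ∀ t : ℝ, HasDerivAt γ (q - p) t := by
    intro t
    have h1 : HasDerivAt (fun t : ℝ => (t : ℂ)) 1 t := Complex.ofRealCLM.hasDerivAt
    have h2 := (h1.mul_const (q - p)).const_add p
    rw [one_mul] at h2
    exact h2
  have hγc : Continuous γ := by
    rw [continuous_iff_continuousAt]; exact fun t => (hγd t).continuousAt
  have hcomp : ∀ t ∈ Set.Icc (0 : ℝ) 1,
      HasDerivWithinAt (g ∘ γ) ((q - p) • f (γ t)) (Set.Icc (0 : ℝ) 1) t := by
    intro t ht
    exact HasDerivWithinAt.scomp t (hg (γ t) (hγmem t ht)) (hγd t).hasDerivWithinAt hγmem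
  have hcont : ContinuousOn (g ∘ γ) (Set.Icc (0 : ℝ) 1) := fun t ht => (hcomp t ht).continuousWithinAt
  have hfc : ContinuousOn (fun t => (q - p) • f (γ t)) (Set.Icc (0 : ℝ) 1) :=
    ContinuousOn.const_smul (g := fun t => f (γ t)) (hf.comp hγc.continuousOn hγmem) (q - p)
  have hint : IntervalIntegrable (fun t => (q - p) • f (γ t)) MeasureTheory.volume 0 1 := by
    apply ContinuousOn.intervalIntegrable
    rwa [Set.uIcc_of_le zero_le_one]
  have key := intervalIntegral.integral_eq_sub_of_hasDeriv_right_of_le zero_le_one hcont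
    (fun t ht => ((hcomp t (Set.Ioo_subset_Icc_self ht)).hasDerivAt
      (Icc_mem_nhds ht.1 ht.2)).hasDerivWithinAt) hint
  have e0 : (g ∘ γ) 0 = g p := by simp [hγ]
  have e1 : (g ∘ γ) 1 = g q := by simp [hγ]
  rw [e0, e1] at key
  rw [← key, s2seg]
  simp only [smul_eq_mul]
  rw [intervalIntegral.integral_const_mul]

/-- additivity (Cauchy's theorem for triangles in the closed strip). -/
theorem s2P_add {σ : ℝ} {f : ℂ → ℂ} (hf : DifferentiableOn ℂ f (s2cs σ))
    {p q r : ℂ} (hp : p ∈ s2cs σ) (hq : q ∈ s2cs σ) (hr : r ∈ s2cs σ) :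
    s2seg f p q + s2seg f q r = s2seg f p r := by
  obtain ⟨g, hg⟩ := (s2P_convex σ).exists_forall_hasDerivWithinAt hf
  rw [s2P_ftc hg hf.continuousOn hp hq, s2P_ftc hg hf.continuousOn hq hr,
    s2P_ftc hg hf.continuousOn hp hr]
  ring

/-- the segment integral is a primitive. -/
theorem s2P_deriv {σ : ℝ} {f : ℂ → ℂ} (hf : DifferentiableOn ℂ f (s2cs σ))
    {p z : ℂ} (hp : p ∈ s2cs σ) (hz : z ∈ s2cs σ) :
    HasDerivWithinAt (fun w => s2seg f p w) (f z) (s2cs σ) z := by
  obtain ⟨g, hg⟩ := (s2P_convex σ).exists_forall_hasDerivWithinAt hf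
  have h1 : HasDerivWithinAt (fun w => g w - g p) (f z) (s2cs σ) z := (hg z hz).sub_const _
  exact h1.congr (fun w hw => s2P_ftc hg hf.continuousOn hp hw) (s2P_ftc hg hf.continuousOn hp hz)

theorem s2P_norm_le {f : ℂ → ℂ} {p q : ℂ} {C : ℝ}
    (h : ∀ t ∈ Set.Icc (0 : ℝ) 1, ‖f (p + (t : ℂ) * (q - p))‖ ≤ C) :
    ‖s2seg f p q‖ ≤ C * ‖q - p‖ := by
  have h1 : ‖∫ t in (0 : ℝ)..1, f (p + (t : ℂ) * (q - p))‖ ≤ C * |(1 : ℝ) - 0| := by
    apply intervalIntegral.norm_integral_le_of_norm_le_const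
    intro t ht
    rw [Set.uIoc_of_le zero_le_one] at ht
    exact h t (Set.Ioc_subset_Icc_self ht)
  rw [s2seg, norm_mul]
  simp only [sub_zero, abs_one, mul_one] at h1
  calc ‖q - p‖ * _ ≤ ‖q - p‖ * C := by gcongr
    _ = C * ‖q - p‖ := mul_comm _ _

theorem s2P_self (f : ℂ → ℂ) (p : ℂ) : s2seg f p p = 0 := by
  simp [s2seg]

theorem s2P_symm (f : ℂ → ℂ) (p q : ℂ) : s2seg f q p = - s2seg f p q := by
  have h := intervalIntegral.integral_comp_sub_left (a := (0 : ℝ)) (b := 1)
    (fun t : ℝ => f (p + (t : ℂ) * (q - p))) 1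
  simp only [sub_self, sub_zero] at h
  have e : (fun t : ℝ => f (q + (t : ℂ) * (p - q)))
      = fun t : ℝ => f (p + (((1 - t : ℝ)) : ℂ) * (q - p)) := by
    funext t; congr 1; push_cast; ring
  rw [s2seg, s2seg, e, h]
  ring

theorem s2P_conj {f f' : ℂ → ℂ} {p q : ℂ}
    (h : ∀ t ∈ Set.Icc (0 : ℝ) 1,
      f' (conj (p + (t : ℂ) * (q - p))) = conj (f (p + (t : ℂ) * (q - p)))) :
    s2seg f' (conj p) (conj q) = conj (s2seg f p q) := by
  have h1 : ∫ t in (0 : ℝ)..1, f' (conj p + (t : ℂ) * (conj q - conj p))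
      = ∫ t in (0 : ℝ)..1, conj (f (p + (t : ℂ) * (q - p))) := by
    apply intervalIntegral.integral_congr
    intro t ht
    rw [Set.uIcc_of_le zero_le_one] at ht
    simp only
    rw [← h t ht]
    congr 1
    simp
  have h2 : ∫ t in (0 : ℝ)..1, conj (f (p + (t : ℂ) * (q - p)))
      = conj (∫ t in (0 : ℝ)..1, f (p + (t : ℂ) * (q - p))) := by
    simp only [intervalIntegral, map_sub]
    rw [integral_conj, integral_conj]
  rw [s2seg, s2seg, h1, h2]
  simp

theorem s2P_translate {f f' : ℂ → ℂ} {p q w : ℂ}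
    (h : ∀ t ∈ Set.Icc (0 : ℝ) 1, f' (p + (t : ℂ) * (q - p) + w) = f (p + (t : ℂ) * (q - p))) :
    s2seg f' (p + w) (q + w) = s2seg f p q := by
  have h1 : ∫ t in (0 : ℝ)..1, f' (p + w + (t : ℂ) * (q + w - (p + w)))
      = ∫ t in (0 : ℝ)..1, f (p + (t : ℂ) * (q - p)) := by
    apply intervalIntegral.integral_congr
    intro t ht
    rw [Set.uIcc_of_le zero_le_one] at ht
    simp only
    rw [← h t ht]
    congr 1
    ring
  rw [s2seg, s2seg, h1]
  ring

theorem s2P_congr {f f' : ℂ → ℂ} {p q : ℂ}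
    (h : ∀ t ∈ Set.Icc (0 : ℝ) 1, f' (p + (t : ℂ) * (q - p)) = f (p + (t : ℂ) * (q - p))) :
    s2seg f' p q = s2seg f p q := by
  have h1 : ∫ t in (0 : ℝ)..1, f' (p + (t : ℂ) * (q - p))
      = ∫ t in (0 : ℝ)..1, f (p + (t : ℂ) * (q - p)) := by
    apply intervalIntegral.integral_congr
    intro t ht
    rw [Set.uIcc_of_le zero_le_one] at ht
    exact h t ht
  rw [s2seg, s2seg, h1]

/-- between real points the segment integral is the interval integral. -/
theorem s2P_real (f : ℂ → ℂ) (p q : ℝ) : s2seg f (p : ℂ) (q : ℂ) = ∫ x in p..q, f (x : ℂ) := by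
  have h := intervalIntegral.smul_integral_comp_mul_add (a := (0 : ℝ)) (b := 1)
    (fun x : ℝ => f (x : ℂ)) (q - p) p
  simp only [mul_zero, zero_add, mul_one, sub_add_cancel] at h
  rw [← h, s2seg, Complex.real_smul]
  congr 1
  · push_cast; ring
  · apply intervalIntegral.integral_congr
    intro t _
    simp only
    congr 1
    push_cast; ring

end Claimed.Agent.R269
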