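/-
Row 269, Section 2, UNIT B, leaf pack BT: divided differences on closed strips, the entire functions `E₁`, `S₃`, jets of `e^u`.
Statements and proofs by helper159 (sorry-free).   (`s2cs σ` is convex: `s2P_convex`; `Convex.norm_image_sub_le_of_norm_hasDerivWithin_le`; `s2P_ftc`.)
-/
import Claimed.Agent.R269.S2.BDefs
import Claimed.Agent.R269.S2.P

set_option autoImplicit false

namespace Claimed.Agent.R269

open Complex ComplexConjugate Filter Topology MeasureTheory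

theorem s2BT_lip {σ K : ℝ} {F F1 : ℂ → ℂ}
    (hd : ∀ z ∈ s2cs σ, HasDerivWithinAt F (F1 z) (s2cs σ) z) (hb : ∀ z ∈ s2cs σ, ‖F1 z‖ ≤ K)
    {p q : ℂ} (hp : p ∈ s2cs σ) (hq : q ∈ s2cs σ) : ‖F q - F p‖ ≤ K * ‖q - p‖ :=
  Convex.norm_image_sub_le_of_norm_hasDerivWithin_le hd hb (s2P_convex σ) hp hq

theorem s2BT_DD_eq {σ : ℝ} {F F1 : ℂ → ℂ}
    (hd : ∀ z ∈ s2cs σ, HasDerivWithinAt F (F1 z) (s2cs σ) z) (hc : ContinuousOn F1 (s2cs σ))
    {p q : ℂ} (hp : p ∈ s2cs σ) (hq : q ∈ s2cs σ) : F q - F p = (q - p) * s2DD F1 p q := by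
  rw [← s2P_ftc hd hc hp hq]; rfl

theorem s2BT_DD_self (F1 : ℂ → ℂ) (p : ℂ) : s2DD F1 p p = F1 p := by
  simp [s2DD]

theorem s2BT_DD_bd {σ K : ℝ} {F1 : ℂ → ℂ} (hb : ∀ z ∈ s2cs σ, ‖F1 z‖ ≤ K)
    {p q : ℂ} (hp : p ∈ s2cs σ) (hq : q ∈ s2cs σ) : ‖s2DD F1 p q‖ ≤ K := by
  have h1 : ‖∫ t in (0 : ℝ)..1, F1 (p + (t : ℂ) * (q - p))‖ ≤ K * |(1 : ℝ) - 0| := by
    apply intervalIntegral.norm_integral_le_of_norm_le_const
    intro t ht
    rw [Set.uIoc_of_le zero_le_one] at ht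
    exact hb _ (s2P_seg_mem hp hq (Set.Ioc_subset_Icc_self ht))
  simpa [s2DD] using h1

/-- continuity along an affine path staying in the strip. -/
theorem s2BT_cont_path {σ : ℝ} {F : ℂ → ℂ} (hc : ContinuousOn F (s2cs σ)) (p v : ℂ)
    (hmem : ∀ r ∈ Set.Icc (0 : ℝ) 1, p + (r : ℂ) * v ∈ s2cs σ) :
    ContinuousOn (fun r : ℝ => F (p + (r : ℂ) * v)) (Set.Icc (0 : ℝ) 1) := by
  have h1 : Continuous fun r : ℝ => p + (r : ℂ) * v := by fun_prop
  exact hc.comp h1.continuousOn hmem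

/-- derivative along an affine path staying in the strip. -/
theorem s2BT_deriv_path {σ : ℝ} {F F1 : ℂ → ℂ}
    (hd : ∀ z ∈ s2cs σ, HasDerivWithinAt F (F1 z) (s2cs σ) z) (p v : ℂ)
    (hmem : ∀ r ∈ Set.Icc (0 : ℝ) 1, p + (r : ℂ) * v ∈ s2cs σ) :
    ∀ r ∈ Set.Icc (0 : ℝ) 1, HasDerivWithinAt (fun r : ℝ => F (p + (r : ℂ) * v))
      (v * F1 (p + (r : ℂ) * v)) (Set.Icc (0 : ℝ) 1) r := by
  intro r hr
  have hγd : HasDerivAt (fun r : ℝ => p + (r : ℂ) * v) v r := by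
    have h1 : HasDerivAt (fun t : ℝ => (t : ℂ)) 1 r := Complex.ofRealCLM.hasDerivAt
    have h2 := (h1.mul_const v).const_add p
    rw [one_mul] at h2
    exact h2
  have := HasDerivWithinAt.scomp r (hd _ (hmem r hr)) hγd.hasDerivWithinAt hmem
  rw [smul_eq_mul] at this
  exact this

theorem s2BT_intervalIntegrable_of_contOn {f : ℝ → ℂ} (h : ContinuousOn f (Set.Icc (0 : ℝ) 1)) :
    IntervalIntegrable f volume 0 1 := by
  apply ContinuousOn.intervalIntegrable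
  rwa [Set.uIcc_of_le zero_le_one]

theorem s2BT_contOn_of_deriv {σ : ℝ} {F F1 : ℂ → ℂ}
    (hd : ∀ z ∈ s2cs σ, HasDerivWithinAt F (F1 z) (s2cs σ) z) : ContinuousOn F (s2cs σ) :=
  fun z hz => (hd z hz).continuousWithinAt

theorem s2BT_DD_lip {σ K : ℝ} {F1 F2 : ℂ → ℂ}
    (hd : ∀ z ∈ s2cs σ, HasDerivWithinAt F1 (F2 z) (s2cs σ) z) (hb : ∀ z ∈ s2cs σ, ‖F2 z‖ ≤ K)
    {p q p' q' : ℂ} (hp : p ∈ s2cs σ) (hq : q ∈ s2cs σ) (hp' : p' ∈ s2cs σ) (hq' : q' ∈ s2cs σ) :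
    ‖s2DD F1 p q - s2DD F1 p' q'‖ ≤ K * (‖p - p'‖ + ‖q - q'‖) := by
  have hc := s2BT_contOn_of_deriv hd
  have hK : 0 ≤ K := (norm_nonneg _).trans (hb p hp)
  have i1 := s2BT_intervalIntegrable_of_contOn
    (s2BT_cont_path hc p (q - p) (fun r hr => s2P_seg_mem hp hq hr))
  have i2 := s2BT_intervalIntegrable_of_contOn
    (s2BT_cont_path hc p' (q' - p') (fun r hr => s2P_seg_mem hp' hq' hr))
  rw [s2DD, s2DD, ← intervalIntegral.integral_sub i1 i2]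
  have h1 : ‖∫ t in (0 : ℝ)..1, (F1 (p + (t : ℂ) * (q - p)) - F1 (p' + (t : ℂ) * (q' - p')))‖
      ≤ (K * (‖p - p'‖ + ‖q - q'‖)) * |(1 : ℝ) - 0| := by
    apply intervalIntegral.norm_integral_le_of_norm_le_const
    intro t ht
    rw [Set.uIoc_of_le zero_le_one] at ht
    have ht' := Set.Ioc_subset_Icc_self ht
    have h2 := s2BT_lip hd hb (s2P_seg_mem hp' hq' ht') (s2P_seg_mem hp hq ht')
    refine h2.trans ?_
    gcongr
    have e : p + (t : ℂ) * (q - p) - (p' + (t : ℂ) * (q' - p'))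
        = ((1 - t : ℝ) : ℂ) * (p - p') + (t : ℂ) * (q - q') := by push_cast; ring
    rw [e]
    refine (norm_add_le _ _).trans ?_
    rw [norm_mul, norm_mul, Complex.norm_real, Complex.norm_real, Real.norm_eq_abs, Real.norm_eq_abs,
      abs_of_nonneg (by linarith [ht'.2] : (0 : ℝ) ≤ 1 - t), abs_of_nonneg ht'.1]
    have := norm_nonneg (p - p'); have := norm_nonneg (q - q')
    nlinarith [ht'.1, ht'.2]
  simpa using h1

theorem s2BT_mid_mem {σ : ℝ} {m h : ℂ} (hp : m + h ∈ s2cs σ) (hq : m - h ∈ s2cs σ) {r : ℝ}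
    (hr : r ∈ Set.Icc (0 : ℝ) 1) : m + (r : ℂ) * h ∈ s2cs σ ∧ m - (r : ℂ) * h ∈ s2cs σ := by
  have h1 : ((1 + r) / 2 : ℝ) ∈ Set.Icc (0 : ℝ) 1 := ⟨by linarith [hr.1], by linarith [hr.2]⟩
  have h2 : ((1 - r) / 2 : ℝ) ∈ Set.Icc (0 : ℝ) 1 := ⟨by linarith [hr.2], by linarith [hr.1]⟩
  have a1 := s2P_seg_mem hq hp h1
  have a2 := s2P_seg_mem hq hp h2
  constructor
  · convert a1 using 1; push_cast; ring
  · convert a2 using 1; push_cast; ring

theorem s2BT_SD_eq {σ : ℝ} {F F1 F2 : ℂ → ℂ}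
    (hd0 : ∀ z ∈ s2cs σ, HasDerivWithinAt F (F1 z) (s2cs σ) z)
    (hd1 : ∀ z ∈ s2cs σ, HasDerivWithinAt F1 (F2 z) (s2cs σ) z) (hc : ContinuousOn F2 (s2cs σ))
    {m h : ℂ} (hp : m + h ∈ s2cs σ) (hq : m - h ∈ s2cs σ) :
    F (m + h) + F (m - h) - 2 * F m = h ^ 2 * s2SD F2 m h := by
  have hmp : ∀ r ∈ Set.Icc (0 : ℝ) 1, m + (r : ℂ) * h ∈ s2cs σ := fun r hr => (s2BT_mid_mem hp hq hr).1
  have hmm : ∀ r ∈ Set.Icc (0 : ℝ) 1, m + (r : ℂ) * (-h) ∈ s2cs σ := fun r hr => by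
    have := (s2BT_mid_mem hp hq hr).2
    convert this using 1; ring
  set Ψ : ℝ → ℂ := fun r => ((1 - r : ℝ) : ℂ) * h * (F1 (m + (r : ℂ) * h) - F1 (m + (r : ℂ) * (-h)))
    + (F (m + (r : ℂ) * h) + F (m + (r : ℂ) * (-h))) with hΨ
  have hΨd : ∀ r ∈ Set.Icc (0 : ℝ) 1, HasDerivWithinAt Ψ
      (h ^ 2 * (((1 - r : ℝ) : ℂ) * (F2 (m + (r : ℂ) * h) + F2 (m - (r : ℂ) * h))))
      (Set.Icc (0 : ℝ) 1) r := by
    intro r hr
    have a1 := s2BT_deriv_path hd1 m h hmp r hr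
    have a2 := s2BT_deriv_path hd1 m (-h) hmm r hr
    have b1 := s2BT_deriv_path hd0 m h hmp r hr
    have b2 := s2BT_deriv_path hd0 m (-h) hmm r hr
    have c1 : HasDerivWithinAt (fun r : ℝ => ((1 - r : ℝ) : ℂ) * h) (-h) (Set.Icc (0 : ℝ) 1) r := by
      have h1 : HasDerivAt (fun t : ℝ => (t : ℂ)) 1 r := Complex.ofRealCLM.hasDerivAt
      have h2 := ((h1.const_sub 1).mul_const h)
      have e : (fun r : ℝ => ((1 - r : ℝ) : ℂ) * h) = fun r : ℝ => (1 - (r : ℂ)) * h := by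
        funext r; push_cast; ring
      rw [e]
      simpa using h2.hasDerivWithinAt
    have := (c1.mul (a1.sub a2)).add (b1.add b2)
    have e2 : m - (r : ℂ) * h = m + (r : ℂ) * (-h) := by ring
    have e3 : h ^ 2 * (((1 - r : ℝ) : ℂ) * (F2 (m + (r : ℂ) * h) + F2 (m - (r : ℂ) * h)))
        = (-h * ((fun r : ℝ => F1 (m + (r : ℂ) * h)) - fun r : ℝ => F1 (m + (r : ℂ) * (-h))) r +
        ((1 - r : ℝ) : ℂ) * h * (h * F2 (m + (r : ℂ) * h) - -h * F2 (m + (r : ℂ) * (-h))) +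
      (h * F1 (m + (r : ℂ) * h) + -h * F1 (m + (r : ℂ) * (-h)))) := by
      rw [e2]
      simp only [Pi.sub_apply]
      ring
    rw [e3]
    exact this
  have hcont : ContinuousOn Ψ (Set.Icc (0 : ℝ) 1) := fun r hr => (hΨd r hr).continuousWithinAt
  have hc1 := s2BT_cont_path hc m h hmp
  have hc2 := s2BT_cont_path hc m (-h) hmm
  have hci : ContinuousOn (fun r : ℝ => h ^ 2 * (((1 - r : ℝ) : ℂ)
      * (F2 (m + (r : ℂ) * h) + F2 (m - (r : ℂ) * h)))) (Set.Icc (0 : ℝ) 1) := by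
    have e : (fun r : ℝ => h ^ 2 * (((1 - r : ℝ) : ℂ) * (F2 (m + (r : ℂ) * h) + F2 (m - (r : ℂ) * h))))
        = fun r : ℝ => h ^ 2 * (((1 - r : ℝ) : ℂ)
          * (F2 (m + (r : ℂ) * h) + F2 (m + (r : ℂ) * (-h)))) := by
      funext r
      have e2 : m - (r : ℂ) * h = m + (r : ℂ) * (-h) := by ring
      rw [e2]
    rw [e]
    have h3 : Continuous fun r : ℝ => ((1 - r : ℝ) : ℂ) := by fun_prop
    exact continuousOn_const.mul (h3.continuousOn.mul (hc1.add hc2))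
  have key := intervalIntegral.integral_eq_sub_of_hasDeriv_right_of_le zero_le_one hcont
    (fun t ht => ((hΨd t (Set.Ioo_subset_Icc_self ht)).hasDerivAt
      (Icc_mem_nhds ht.1 ht.2)).hasDerivWithinAt) (s2BT_intervalIntegrable_of_contOn hci)
  rw [intervalIntegral.integral_const_mul] at key
  rw [s2SD, key]
  simp only [hΨ]
  simp
  ring_nf

theorem s2BT_int_one_sub : ∫ r in (0 : ℝ)..1, (1 - r) = 1 / 2 := by
  rw [intervalIntegral.integral_sub (by simp) (by simp)]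
  simp
  norm_num

theorem s2BT_SD_zero (F2 : ℂ → ℂ) (m : ℂ) : s2SD F2 m 0 = F2 m := by
  simp only [s2SD, mul_zero, add_zero, sub_zero]
  rw [intervalIntegral.integral_mul_const, intervalIntegral.integral_ofReal, s2BT_int_one_sub]
  push_cast; ring

theorem s2BT_SD_bd {σ K : ℝ} {F2 : ℂ → ℂ} (hb : ∀ z ∈ s2cs σ, ‖F2 z‖ ≤ K)
    {m h : ℂ} (hp : m + h ∈ s2cs σ) (hq : m - h ∈ s2cs σ) : ‖s2SD F2 m h‖ ≤ K := by
  have h1 : ‖∫ r in (0 : ℝ)..1, ((1 - r : ℝ) : ℂ) * (F2 (m + (r : ℂ) * h) + F2 (m - (r : ℂ) * h))‖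
      ≤ ∫ r in (0 : ℝ)..1, (1 - r) * (2 * K) := by
    apply intervalIntegral.norm_integral_le_of_norm_le zero_le_one
    · refine Filter.Eventually.of_forall fun r hr => ?_
      have hr' := Set.Ioc_subset_Icc_self hr
      rw [norm_mul, Complex.norm_real, Real.norm_eq_abs,
        abs_of_nonneg (by linarith [hr'.2] : (0 : ℝ) ≤ 1 - r)]
      have := (s2BT_mid_mem hp hq hr')
      have h3 : ‖F2 (m + (r : ℂ) * h) + F2 (m - (r : ℂ) * h)‖ ≤ 2 * K :=
        (norm_add_le _ _).trans (by linarith [hb _ this.1, hb _ this.2])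
      exact mul_le_mul_of_nonneg_left h3 (by linarith [hr'.2])
    · apply Continuous.intervalIntegrable; fun_prop
  rw [intervalIntegral.integral_mul_const, s2BT_int_one_sub] at h1
  rw [s2SD]
  linarith

theorem s2BT_SD_lip {σ K : ℝ} {F2 F3 : ℂ → ℂ}
    (hd : ∀ z ∈ s2cs σ, HasDerivWithinAt F2 (F3 z) (s2cs σ) z) (hb : ∀ z ∈ s2cs σ, ‖F3 z‖ ≤ K)
    {m h m' h' : ℂ} (hp : m + h ∈ s2cs σ) (hq : m - h ∈ s2cs σ)
    (hp' : m' + h' ∈ s2cs σ) (hq' : m' - h' ∈ s2cs σ) :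
    ‖s2SD F2 m h - s2SD F2 m' h'‖ ≤ K * (‖m - m'‖ + ‖h - h'‖) := by
  have hc := s2BT_contOn_of_deriv hd
  have hK : 0 ≤ K := (norm_nonneg _).trans (hb _ hp)
  have hcI : ∀ (m h : ℂ), m + h ∈ s2cs σ → m - h ∈ s2cs σ → ContinuousOn (fun r : ℝ =>
      ((1 - r : ℝ) : ℂ) * (F2 (m + (r : ℂ) * h) + F2 (m - (r : ℂ) * h))) (Set.Icc (0 : ℝ) 1) := by
    intro m h hp hq
    have hc1 := s2BT_cont_path hc m h (fun r hr => (s2BT_mid_mem hp hq hr).1)
    have hc2 := s2BT_cont_path hc m (-h) (fun r hr => by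
      have := (s2BT_mid_mem hp hq hr).2
      convert this using 1; ring)
    have e : (fun r : ℝ => ((1 - r : ℝ) : ℂ) * (F2 (m + (r : ℂ) * h) + F2 (m - (r : ℂ) * h)))
        = fun r : ℝ => ((1 - r : ℝ) : ℂ) * (F2 (m + (r : ℂ) * h) + F2 (m + (r : ℂ) * (-h))) := by
      funext r
      have e2 : m - (r : ℂ) * h = m + (r : ℂ) * (-h) := by ring
      rw [e2]
    rw [e]
    have h3 : Continuous fun r : ℝ => ((1 - r : ℝ) : ℂ) := by fun_prop
    exact h3.continuousOn.mul (hc1.add hc2)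
  rw [s2SD, s2SD, ← intervalIntegral.integral_sub
    (s2BT_intervalIntegrable_of_contOn (hcI m h hp hq))
    (s2BT_intervalIntegrable_of_contOn (hcI m' h' hp' hq'))]
  have h1 : ‖∫ r in (0 : ℝ)..1, (((1 - r : ℝ) : ℂ) * (F2 (m + (r : ℂ) * h) + F2 (m - (r : ℂ) * h))
      - ((1 - r : ℝ) : ℂ) * (F2 (m' + (r : ℂ) * h') + F2 (m' - (r : ℂ) * h')))‖
      ≤ ∫ r in (0 : ℝ)..1, (1 - r) * (2 * (K * (‖m - m'‖ + ‖h - h'‖))) := by
    apply intervalIntegral.norm_integral_le_of_norm_le zero_le_one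
    · refine Filter.Eventually.of_forall fun r hr => ?_
      have hr' := Set.Ioc_subset_Icc_self hr
      rw [← mul_sub, norm_mul, Complex.norm_real, Real.norm_eq_abs,
        abs_of_nonneg (by linarith [hr'.2] : (0 : ℝ) ≤ 1 - r)]
      have a := s2BT_mid_mem hp hq hr'
      have a' := s2BT_mid_mem hp' hq' hr'
      have b1 := s2BT_lip hd hb a'.1 a.1
      have b2 := s2BT_lip hd hb a'.2 a.2
      have n1 : ‖m + (r : ℂ) * h - (m' + (r : ℂ) * h')‖ ≤ ‖m - m'‖ + ‖h - h'‖ := by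
        have e : m + (r : ℂ) * h - (m' + (r : ℂ) * h') = (m - m') + (r : ℂ) * (h - h') := by ring
        rw [e]
        refine (norm_add_le _ _).trans ?_
        rw [norm_mul, Complex.norm_real, Real.norm_eq_abs, abs_of_nonneg hr'.1]
        have := norm_nonneg (h - h')
        nlinarith [hr'.2]
      have n2 : ‖m - (r : ℂ) * h - (m' - (r : ℂ) * h')‖ ≤ ‖m - m'‖ + ‖h - h'‖ := by
        have e : m - (r : ℂ) * h - (m' - (r : ℂ) * h') = (m - m') - (r : ℂ) * (h - h') := by ring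
        rw [e]
        refine (norm_sub_le _ _).trans ?_
        rw [norm_mul, Complex.norm_real, Real.norm_eq_abs, abs_of_nonneg hr'.1]
        have := norm_nonneg (h - h')
        nlinarith [hr'.2]
      have h3 : ‖F2 (m + (r : ℂ) * h) + F2 (m - (r : ℂ) * h)
          - (F2 (m' + (r : ℂ) * h') + F2 (m' - (r : ℂ) * h'))‖
          ≤ 2 * (K * (‖m - m'‖ + ‖h - h'‖)) := by
        have e : F2 (m + (r : ℂ) * h) + F2 (m - (r : ℂ) * h)
            - (F2 (m' + (r : ℂ) * h') + F2 (m' - (r : ℂ) * h'))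
            = (F2 (m + (r : ℂ) * h) - F2 (m' + (r : ℂ) * h'))
              + (F2 (m - (r : ℂ) * h) - F2 (m' - (r : ℂ) * h')) := by ring
        rw [e]
        refine (norm_add_le _ _).trans ?_
        have c1 := b1.trans (mul_le_mul_of_nonneg_left n1 hK)
        have c2 := b2.trans (mul_le_mul_of_nonneg_left n2 hK)
        linarith
      exact mul_le_mul_of_nonneg_left h3 (by linarith [hr'.2])
    · apply Continuous.intervalIntegrable; fun_prop
  rw [intervalIntegral.integral_mul_const, s2BT_int_one_sub] at h1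
  linarith

theorem s2BT_exp_lip {R : ℝ} {a b : ℂ} (ha : ‖a‖ ≤ R) (hb : ‖b‖ ≤ R) :
    ‖exp a - exp b‖ ≤ Real.exp R * ‖a - b‖ := by
  have hs : Convex ℝ (Metric.closedBall (0 : ℂ) R) := convex_closedBall _ _
  refine Convex.norm_image_sub_le_of_norm_hasDerivWithin_le (f := exp) (f' := exp)
    (s := Metric.closedBall (0 : ℂ) R) (fun z _ => (Complex.hasDerivAt_exp z).hasDerivWithinAt)
    (fun z hz => ?_) hs (by simpa using hb) (by simpa using ha)
  refine (Complex.norm_exp_le_exp_norm z).trans (Real.exp_le_exp.2 ?_)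
  simpa using hz

theorem s2BT_norm_cos_le (z : ℂ) : ‖cos z‖ ≤ Real.exp ‖z‖ := by
  rw [Complex.cos]
  have h1 : ‖exp (z * I)‖ ≤ Real.exp ‖z‖ := by
    refine (Complex.norm_exp_le_exp_norm _).trans ?_
    simp
  have h2 : ‖exp (-z * I)‖ ≤ Real.exp ‖z‖ := by
    refine (Complex.norm_exp_le_exp_norm _).trans ?_
    simp
  rw [norm_div]
  have h3 : ‖(2 : ℂ)‖ = 2 := by simp
  rw [h3, div_le_iff₀ (by norm_num)]
  exact (norm_add_le _ _).trans (by linarith)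

theorem s2BT_norm_sin_le (z : ℂ) : ‖sin z‖ ≤ Real.exp ‖z‖ := by
  rw [Complex.sin]
  have h1 : ‖exp (z * I)‖ ≤ Real.exp ‖z‖ := by
    refine (Complex.norm_exp_le_exp_norm _).trans ?_
    simp
  have h2 : ‖exp (-z * I)‖ ≤ Real.exp ‖z‖ := by
    refine (Complex.norm_exp_le_exp_norm _).trans ?_
    simp
  rw [norm_div, norm_mul]
  have h3 : ‖(2 : ℂ)‖ = 2 := by simp
  rw [h3, div_le_iff₀ (by norm_num)]
  simp only [Complex.norm_I, mul_one]
  exact (norm_sub_le _ _).trans (by linarith)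

theorem s2BT_cos_lip {R : ℝ} {a b : ℂ} (ha : ‖a‖ ≤ R) (hb : ‖b‖ ≤ R) :
    ‖cos a - cos b‖ ≤ Real.exp R * ‖a - b‖ := by
  have hs : Convex ℝ (Metric.closedBall (0 : ℂ) R) := convex_closedBall _ _
  refine Convex.norm_image_sub_le_of_norm_hasDerivWithin_le (f := cos) (f' := fun z => -sin z)
    (s := Metric.closedBall (0 : ℂ) R) (fun z _ => (Complex.hasDerivAt_cos z).hasDerivWithinAt)
    (fun z hz => ?_) hs (by simpa using hb) (by simpa using ha)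
  rw [norm_neg]
  refine (s2BT_norm_sin_le z).trans (Real.exp_le_exp.2 ?_)
  simpa using hz

theorem s2BT_sin_lip {R : ℝ} {a b : ℂ} (ha : ‖a‖ ≤ R) (hb : ‖b‖ ≤ R) :
    ‖sin a - sin b‖ ≤ Real.exp R * ‖a - b‖ := by
  have hs : Convex ℝ (Metric.closedBall (0 : ℂ) R) := convex_closedBall _ _
  refine Convex.norm_image_sub_le_of_norm_hasDerivWithin_le (f := sin) (f' := cos)
    (s := Metric.closedBall (0 : ℂ) R) (fun z _ => (Complex.hasDerivAt_sin z).hasDerivWithinAt)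
    (fun z hz => ?_) hs (by simpa using hb) (by simpa using ha)
  refine (s2BT_norm_cos_le z).trans (Real.exp_le_exp.2 ?_)
  simpa using hz

theorem s2BT_exp_one_le : Real.exp 1 ≤ 3 := by
  have := Real.exp_one_lt_d9
  linarith

theorem s2BT_E1_eq (x : ℂ) : exp x = 1 + x * s2E1 x := by
  have hd : ∀ t ∈ Set.uIcc (0 : ℝ) 1, HasDerivAt (fun t : ℝ => exp ((t : ℂ) * x))
      (x * exp ((t : ℂ) * x)) t := by
    intro t _
    have h1 : HasDerivAt (fun t : ℝ => (t : ℂ) * x) x t := by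
      have h0 : HasDerivAt (fun t : ℝ => (t : ℂ)) 1 t := Complex.ofRealCLM.hasDerivAt
      simpa using h0.mul_const x
    have := h1.cexp
    rw [mul_comm] at this
    exact this
  have hi : IntervalIntegrable (fun t : ℝ => x * exp ((t : ℂ) * x)) volume 0 1 := by
    apply Continuous.intervalIntegrable; fun_prop
  have key := intervalIntegral.integral_eq_sub_of_hasDerivAt hd hi
  rw [intervalIntegral.integral_const_mul] at key
  rw [s2E1, key]
  simp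

theorem s2BT_E1_bd {x : ℂ} (hx : ‖x‖ ≤ 1) : ‖s2E1 x‖ ≤ 3 := by
  have h1 : ‖∫ t in (0 : ℝ)..1, exp ((t : ℂ) * x)‖ ≤ 3 * |(1 : ℝ) - 0| := by
    apply intervalIntegral.norm_integral_le_of_norm_le_const
    intro t ht
    rw [Set.uIoc_of_le zero_le_one] at ht
    refine (Complex.norm_exp_le_exp_norm _).trans ((Real.exp_le_exp.2 ?_).trans s2BT_exp_one_le)
    rw [norm_mul, Complex.norm_real, Real.norm_eq_abs, abs_of_pos ht.1]
    have := norm_nonneg x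
    nlinarith [ht.1, ht.2]
  simpa [s2E1] using h1

theorem s2BT_E1_lip {x x' : ℂ} (hx : ‖x‖ ≤ 1) (hx' : ‖x'‖ ≤ 1) : ‖s2E1 x - s2E1 x'‖ ≤ 3 * ‖x - x'‖ := by
  have i1 : ∀ x : ℂ, IntervalIntegrable (fun t : ℝ => exp ((t : ℂ) * x)) volume 0 1 := by
    intro x; apply Continuous.intervalIntegrable; fun_prop
  rw [s2E1, s2E1, ← intervalIntegral.integral_sub (i1 x) (i1 x')]
  have h1 : ‖∫ t in (0 : ℝ)..1, (exp ((t : ℂ) * x) - exp ((t : ℂ) * x'))‖
      ≤ (3 * ‖x - x'‖) * |(1 : ℝ) - 0| := by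
    apply intervalIntegral.norm_integral_le_of_norm_le_const
    intro t ht
    rw [Set.uIoc_of_le zero_le_one] at ht
    have n : ∀ y : ℂ, ‖y‖ ≤ 1 → ‖(t : ℂ) * y‖ ≤ 1 := by
      intro y hy
      rw [norm_mul, Complex.norm_real, Real.norm_eq_abs, abs_of_pos ht.1]
      have := norm_nonneg y
      nlinarith [ht.1, ht.2]
    refine (s2BT_exp_lip (n x hx) (n x' hx')).trans ?_
    rw [← mul_sub, norm_mul, Complex.norm_real, Real.norm_eq_abs, abs_of_pos ht.1]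
    have h0 := norm_nonneg (x - x')
    have h2 : t * ‖x - x'‖ ≤ ‖x - x'‖ := by nlinarith [ht.2]
    exact mul_le_mul s2BT_exp_one_le h2 (by nlinarith [ht.1]) (by norm_num)
  simpa using h1

theorem s2BT_S3_eq (w : ℂ) : sin w = w - w ^ 3 * s2S3 w := by
  set Ψ : ℝ → ℂ := fun t => ((1 - (t : ℂ)) ^ 2 / 2) * w ^ 2 * sin ((t : ℂ) * w)
    - (1 - (t : ℂ)) * w * cos ((t : ℂ) * w) - sin ((t : ℂ) * w) with hΨ
  have hd : ∀ t ∈ Set.uIcc (0 : ℝ) 1, HasDerivAt Ψ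
      (w ^ 3 * ((((1 - t) ^ 2 / 2 : ℝ) : ℂ) * cos ((t : ℂ) * w))) t := by
    intro t _
    have h0 : HasDerivAt (fun t : ℝ => (t : ℂ)) 1 t := Complex.ofRealCLM.hasDerivAt
    have h1 : HasDerivAt (fun t : ℝ => (t : ℂ) * w) w t := by simpa using h0.mul_const w
    have hs : HasDerivAt (fun t : ℝ => sin ((t : ℂ) * w)) (cos ((t : ℂ) * w) * w) t := by
      have := HasDerivAt.scomp t (Complex.hasDerivAt_sin ((t : ℂ) * w)) h1
      rw [smul_eq_mul, mul_comm] at this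
      exact this
    have hc : HasDerivAt (fun t : ℝ => cos ((t : ℂ) * w)) (-sin ((t : ℂ) * w) * w) t := by
      have := HasDerivAt.scomp t (Complex.hasDerivAt_cos ((t : ℂ) * w)) h1
      rw [smul_eq_mul, mul_comm] at this
      exact this
    have h2 : HasDerivAt (fun t : ℝ => 1 - (t : ℂ)) (-1) t := h0.const_sub 1
    have h3 : HasDerivAt (fun t : ℝ => (1 - (t : ℂ)) ^ 2 / 2) (-(1 - (t : ℂ))) t := by
      have := (h2.pow 2).div_const 2
      exact this.congr_deriv (by push_cast; ring)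
    have := (((h3.mul_const (w ^ 2)).mul hs).sub ((h2.mul_const w).mul hc)).sub hs
    exact this.congr_deriv (by push_cast; ring)
  have hi : IntervalIntegrable (fun t : ℝ => w ^ 3 * ((((1 - t) ^ 2 / 2 : ℝ) : ℂ) * cos ((t : ℂ) * w)))
      volume 0 1 := by
    apply Continuous.intervalIntegrable; fun_prop
  have key := intervalIntegral.integral_eq_sub_of_hasDerivAt hd hi
  rw [intervalIntegral.integral_const_mul] at key
  rw [s2S3, key]
  simp [hΨ]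

theorem s2BT_int_sq : ∫ t in (0 : ℝ)..1, (1 - t) ^ 2 / 2 = 1 / 6 := by
  have hd : ∀ t ∈ Set.uIcc (0 : ℝ) 1, HasDerivAt (fun t : ℝ => -(1 - t) ^ 3 / 6) ((1 - t) ^ 2 / 2) t := by
    intro t _
    have h2 : HasDerivAt (fun t : ℝ => 1 - t) (-1) t := (hasDerivAt_id t).const_sub 1
    have := ((h2.pow 3).neg).div_const 6
    exact this.congr_deriv (by push_cast; ring)
  rw [intervalIntegral.integral_eq_sub_of_hasDerivAt hd (by apply Continuous.intervalIntegrable; fun_prop)]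
  norm_num

theorem s2BT_S3_bd {w : ℂ} (hw : ‖w‖ ≤ 1) : ‖s2S3 w‖ ≤ 1 := by
  have h1 : ‖∫ t in (0 : ℝ)..1, (((1 - t) ^ 2 / 2 : ℝ) : ℂ) * cos ((t : ℂ) * w)‖
      ≤ ∫ t in (0 : ℝ)..1, (1 - t) ^ 2 / 2 * 3 := by
    apply intervalIntegral.norm_integral_le_of_norm_le zero_le_one
    · refine Filter.Eventually.of_forall fun t ht => ?_
      rw [norm_mul, Complex.norm_real, Real.norm_eq_abs, abs_of_nonneg (by positivity)]
      apply mul_le_mul_of_nonneg_left _ (by positivity)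
      refine (s2BT_norm_cos_le _).trans ((Real.exp_le_exp.2 ?_).trans s2BT_exp_one_le)
      rw [norm_mul, Complex.norm_real, Real.norm_eq_abs, abs_of_pos ht.1]
      have := norm_nonneg w
      nlinarith [ht.1, ht.2]
    · apply Continuous.intervalIntegrable; fun_prop
  rw [intervalIntegral.integral_mul_const, s2BT_int_sq] at h1
  rw [s2S3]
  linarith

theorem s2BT_S3_lip {w w' : ℂ} (hw : ‖w‖ ≤ 1) (hw' : ‖w'‖ ≤ 1) : ‖s2S3 w - s2S3 w'‖ ≤ ‖w - w'‖ := by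
  have i1 : ∀ w : ℂ, IntervalIntegrable
      (fun t : ℝ => (((1 - t) ^ 2 / 2 : ℝ) : ℂ) * cos ((t : ℂ) * w)) volume 0 1 := by
    intro w; apply Continuous.intervalIntegrable; fun_prop
  rw [s2S3, s2S3, ← intervalIntegral.integral_sub (i1 w) (i1 w')]
  have h1 : ‖∫ t in (0 : ℝ)..1, ((((1 - t) ^ 2 / 2 : ℝ) : ℂ) * cos ((t : ℂ) * w)
      - (((1 - t) ^ 2 / 2 : ℝ) : ℂ) * cos ((t : ℂ) * w'))‖
      ≤ ∫ t in (0 : ℝ)..1, (1 - t) ^ 2 / 2 * (3 * ‖w - w'‖) := by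
    apply intervalIntegral.norm_integral_le_of_norm_le zero_le_one
    · refine Filter.Eventually.of_forall fun t ht => ?_
      rw [← mul_sub, norm_mul, Complex.norm_real, Real.norm_eq_abs, abs_of_nonneg (by positivity)]
      apply mul_le_mul_of_nonneg_left _ (by positivity)
      have n : ∀ y : ℂ, ‖y‖ ≤ 1 → ‖(t : ℂ) * y‖ ≤ 1 := by
        intro y hy
        rw [norm_mul, Complex.norm_real, Real.norm_eq_abs, abs_of_pos ht.1]
        have := norm_nonneg y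
        nlinarith [ht.1, ht.2]
      refine (s2BT_cos_lip (n w hw) (n w' hw')).trans ?_
      rw [← mul_sub, norm_mul, Complex.norm_real, Real.norm_eq_abs, abs_of_pos ht.1]
      have h0 := norm_nonneg (w - w')
      have h2 : t * ‖w - w'‖ ≤ ‖w - w'‖ := by nlinarith [ht.2]
      exact mul_le_mul s2BT_exp_one_le h2 (by nlinarith [ht.1]) (by norm_num)
    · apply Continuous.intervalIntegrable; fun_prop
  rw [intervalIntegral.integral_mul_const, s2BT_int_sq] at h1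
  have h0 := norm_nonneg (w - w')
  linarith

theorem s2BT_zero_mem {σ : ℝ} (hσ : 0 ≤ σ) : (0 : ℂ) ∈ s2cs σ := by simp [s2cs, hσ]

theorem s2BT_M_nonneg {σ M : ℝ} {U : ℕ → ℂ → ℂ} (hσ : 0 ≤ σ) (h : S2Fun σ M U) : 0 ≤ M :=
  (norm_nonneg _).trans (h.bd 0 (by norm_num) 0 (s2BT_zero_mem hσ))

theorem s2BT_H_der {σ M : ℝ} {U : ℕ → ℂ → ℂ} (h : S2Fun σ M U) :
    ∀ i < 3, ∀ z ∈ s2cs σ, HasDerivWithinAt (s2H U i) (s2H U (i + 1) z) (s2cs σ) z := by
  intro i hi z hz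
  have d0 := h.der 0 (by norm_num) z hz
  have d1 := h.der 1 (by norm_num) z hz
  have d2 := h.der 2 (by norm_num) z hz
  have e0 := d0.cexp
  simp only [zero_add, Nat.reduceAdd] at d0 d1 d2 e0
  interval_cases i
  · show HasDerivWithinAt (fun z => exp (U 0 z)) (U 1 z * exp (U 0 z)) (s2cs σ) z
    rw [mul_comm]; exact e0
  · show HasDerivWithinAt (fun z => U 1 z * exp (U 0 z)) ((U 2 z + U 1 z ^ 2) * exp (U 0 z)) (s2cs σ) z
    have := d1.mul e0
    have e : (U 2 z + U 1 z ^ 2) * exp (U 0 z) = U 2 z * exp (U 0 z) + U 1 z * (exp (U 0 z) * U 1 z) := by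
      ring
    rw [e]; exact this
  · show HasDerivWithinAt (fun z => (U 2 z + U 1 z ^ 2) * exp (U 0 z))
      ((U 3 z + 3 * U 1 z * U 2 z + U 1 z ^ 3) * exp (U 0 z)) (s2cs σ) z
    have := (d2.add (d1.pow 2)).mul e0
    have e : (U 3 z + 3 * U 1 z * U 2 z + U 1 z ^ 3) * exp (U 0 z)
        = (U 3 z + ((2 : ℕ) : ℂ) * U 1 z ^ (2 - 1) * U 2 z) * exp (U 0 z)
          + ((U 2 + U 1 ^ 2) z) * (exp (U 0 z) * U 1 z) := by
      simp only [Pi.add_apply, Pi.pow_apply]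
      push_cast
      ring
    rw [e]; exact this

theorem s2BT_norm_exp_le {σ M : ℝ} {U : ℕ → ℂ → ℂ} (h : S2Fun σ M U) {z : ℂ} (hz : z ∈ s2cs σ) :
    ‖exp (U 0 z)‖ ≤ Real.exp M :=
  (Complex.norm_exp_le_exp_norm _).trans (Real.exp_le_exp.2 (h.bd 0 (by norm_num) z hz))

theorem s2BT_H_bd {σ M : ℝ} {U : ℕ → ℂ → ℂ} (hσ : 0 ≤ σ) (h : S2Fun σ M U) :
    ∀ i ≤ 3, ∀ z ∈ s2cs σ, ‖s2H U i z‖ ≤ s2KH M := by
  intro i hi z hz
  have hM := s2BT_M_nonneg hσ h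
  have b1 := h.bd 1 (by norm_num) z hz
  have b2 := h.bd 2 (by norm_num) z hz
  have b3 := h.bd 3 (by norm_num) z hz
  have be := s2BT_norm_exp_le h hz
  have he : 0 ≤ Real.exp M := (Real.exp_pos M).le
  have n1 := norm_nonneg (U 1 z)
  have n2 := norm_nonneg (U 2 z)
  unfold s2KH
  interval_cases i
  · show ‖exp (U 0 z)‖ ≤ _
    calc ‖exp (U 0 z)‖ ≤ 1 * Real.exp M := by linarith
      _ ≤ (1 + M) ^ 3 * Real.exp M := by
        apply mul_le_mul_of_nonneg_right _ he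
        nlinarith [pow_nonneg hM 2, pow_nonneg hM 3]
  · show ‖U 1 z * exp (U 0 z)‖ ≤ _
    rw [norm_mul]
    apply mul_le_mul _ be (norm_nonneg _) (by positivity)
    nlinarith [pow_nonneg hM 2, pow_nonneg hM 3]
  · show ‖(U 2 z + U 1 z ^ 2) * exp (U 0 z)‖ ≤ _
    rw [norm_mul]
    apply mul_le_mul _ be (norm_nonneg _) (by positivity)
    have : ‖U 2 z + U 1 z ^ 2‖ ≤ M + M ^ 2 := by
      refine (norm_add_le _ _).trans ?_
      rw [norm_pow]
      have : ‖U 1 z‖ ^ 2 ≤ M ^ 2 := by gcongr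
      linarith
    nlinarith [pow_nonneg hM 2, pow_nonneg hM 3]
  · show ‖(U 3 z + 3 * U 1 z * U 2 z + U 1 z ^ 3) * exp (U 0 z)‖ ≤ _
    rw [norm_mul]
    apply mul_le_mul _ be (norm_nonneg _) (by positivity)
    have : ‖U 3 z + 3 * U 1 z * U 2 z + U 1 z ^ 3‖ ≤ M + 3 * M * M + M ^ 3 := by
      refine (norm_add_le _ _).trans ?_
      refine add_le_add ((norm_add_le _ _).trans (add_le_add b3 ?_)) ?_
      · rw [norm_mul, norm_mul]
        have : ‖(3 : ℂ)‖ = 3 := by simp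
        rw [this]
        gcongr
      · rw [norm_pow]; gcongr
    nlinarith [pow_nonneg hM 2, pow_nonneg hM 3]

theorem s2BT_H_lower {σ M : ℝ} {U : ℕ → ℂ → ℂ} (h : S2Fun σ M U) :
    ∀ z ∈ s2cs σ, Real.exp (-M) ≤ ‖s2H U 0 z‖ := by
  intro z hz
  show Real.exp (-M) ≤ ‖exp (U 0 z)‖
  rw [Complex.norm_exp]
  apply Real.exp_le_exp.2
  have h1 := h.bd 0 (by norm_num) z hz
  have h2 := Complex.abs_re_le_norm (U 0 z)
  have h3 := neg_abs_le (U 0 z).re
  linarith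

theorem s2BT_U_cont {σ M : ℝ} {U : ℕ → ℂ → ℂ} (h : S2Fun σ M U) :
    ∀ i ≤ 4, ContinuousOn (U i) (s2cs σ) := by
  intro i hi
  rcases Nat.lt_or_ge i 4 with h4 | h4
  · exact fun z hz => (h.der i h4 z hz).continuousWithinAt
  · have : i = 4 := le_antisymm hi h4
    rw [this]; exact h.cont

theorem s2BT_H_cont {σ M : ℝ} {U : ℕ → ℂ → ℂ} (h : S2Fun σ M U) :
    ∀ i ≤ 3, ContinuousOn (s2H U i) (s2cs σ) := by
  intro i hi
  rcases Nat.lt_or_ge i 3 with h3 | h3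
  · exact fun z hz => (s2BT_H_der h i h3 z hz).continuousWithinAt
  · have : i = 3 := le_antisymm hi h3
    rw [this]
    have c0 := s2BT_U_cont h 0 (by norm_num)
    have c1 := s2BT_U_cont h 1 (by norm_num)
    have c2 := s2BT_U_cont h 2 (by norm_num)
    have c3 := s2BT_U_cont h 3 (by norm_num)
    show ContinuousOn (fun z => (U 3 z + 3 * U 1 z * U 2 z + U 1 z ^ 3) * exp (U 0 z)) (s2cs σ)
    exact ((c3.add ((continuousOn_const.mul c1).mul c2)).add (c1.pow 3)).mul c0.cexp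

/-- `s2dphi` as a divided difference. -/
theorem s2BT_dphi (U : ℕ → ℂ → ℂ) (p q : ℂ) : s2dphi (U 0) p q = (q - p) * s2DD (s2H U 0) p q := rfl

/-! ### calculus of bounded Lipschitz functions of a pair -/

theorem s2BT_bl_mono {𝒟 𝒟' : Set (ℂ × ℂ)} {K K' : ℝ} {F : ℂ × ℂ → ℂ} (h : S2BL 𝒟 K F)
    (hD : 𝒟' ⊆ 𝒟) (hK : K ≤ K') : S2BL 𝒟' K' F where
  bd P hP := (h.bd P (hD hP)).trans hK
  lip P hP P' hP' := (h.lip P (hD hP) P' (hD hP')).trans (by gcongr)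

theorem s2BT_bl_const (𝒟 : Set (ℂ × ℂ)) (a : ℂ) : S2BL 𝒟 ‖a‖ (fun _ => a) where
  bd _ _ := le_rfl
  lip P _ P' _ := by simp only [sub_self, norm_zero]; positivity

theorem s2BT_bl_add {𝒟 : Set (ℂ × ℂ)} {K K' : ℝ} {F G : ℂ × ℂ → ℂ} (hF : S2BL 𝒟 K F)
    (hG : S2BL 𝒟 K' G) : S2BL 𝒟 (K + K') (fun P => F P + G P) where
  bd P hP := (norm_add_le _ _).trans (add_le_add (hF.bd P hP) (hG.bd P hP))
  lip P hP P' hP' := by
    have e : F P + G P - (F P' + G P') = (F P - F P') + (G P - G P') := by ring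
    rw [e, add_mul]
    exact (norm_add_le _ _).trans (add_le_add (hF.lip P hP P' hP') (hG.lip P hP P' hP'))

theorem s2BT_bl_sub {𝒟 : Set (ℂ × ℂ)} {K K' : ℝ} {F G : ℂ × ℂ → ℂ} (hF : S2BL 𝒟 K F)
    (hG : S2BL 𝒟 K' G) : S2BL 𝒟 (K + K') (fun P => F P - G P) where
  bd P hP := (norm_sub_le _ _).trans (add_le_add (hF.bd P hP) (hG.bd P hP))
  lip P hP P' hP' := by
    have e : F P - G P - (F P' - G P') = (F P - F P') - (G P - G P') := by ring
    rw [e, add_mul]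
    exact (norm_sub_le _ _).trans (add_le_add (hF.lip P hP P' hP') (hG.lip P hP P' hP'))

theorem s2BT_bl_mul {𝒟 : Set (ℂ × ℂ)} {K K' : ℝ} {F G : ℂ × ℂ → ℂ} (hF : S2BL 𝒟 K F)
    (hG : S2BL 𝒟 K' G) : S2BL 𝒟 (2 * K * K') (fun P => F P * G P) where
  bd P hP := by
    have hK : 0 ≤ K := (norm_nonneg _).trans (hF.bd P hP)
    have hK' : 0 ≤ K' := (norm_nonneg _).trans (hG.bd P hP)
    rw [norm_mul]
    have := mul_le_mul (hF.bd P hP) (hG.bd P hP) (norm_nonneg _) hK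
    nlinarith [mul_nonneg hK hK']
  lip P hP P' hP' := by
    have hK : 0 ≤ K := (norm_nonneg _).trans (hF.bd P hP)
    have hK' : 0 ≤ K' := (norm_nonneg _).trans (hG.bd P hP)
    have e : F P * G P - F P' * G P' = (F P - F P') * G P + F P' * (G P - G P') := by ring
    rw [e]
    refine (norm_add_le _ _).trans ?_
    rw [norm_mul, norm_mul]
    set d := ‖P.1 - P'.1‖ + ‖P.2 - P'.2‖ with hd
    have hd0 : 0 ≤ d := by positivity
    have a1 : ‖F P - F P'‖ * ‖G P‖ ≤ (K * d) * K' :=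
      mul_le_mul (hF.lip P hP P' hP') (hG.bd P hP) (norm_nonneg _) (by positivity)
    have a2 : ‖F P'‖ * ‖G P - G P'‖ ≤ K * (K' * d) :=
      mul_le_mul (hF.bd P' hP') (hG.lip P hP P' hP') (norm_nonneg _) hK
    nlinarith

theorem s2BT_bl_comp {𝒟 : Set (ℂ × ℂ)} {K K' L : ℝ} {F : ℂ × ℂ → ℂ} {G : ℂ → ℂ} (hF : S2BL 𝒟 K F)
    (hb : ∀ z, ‖z‖ ≤ K → ‖G z‖ ≤ K')
    (hl : ∀ z z', ‖z‖ ≤ K → ‖z'‖ ≤ K → ‖G z - G z'‖ ≤ L * ‖z - z'‖) (hL : 0 ≤ L) :
    S2BL 𝒟 (max K' (L * K)) (fun P => G (F P)) where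
  bd P hP := (hb _ (hF.bd P hP)).trans (le_max_left _ _)
  lip P hP P' hP' := by
    refine (hl _ _ (hF.bd P hP) (hF.bd P' hP')).trans ?_
    have h1 := mul_le_mul_of_nonneg_left (hF.lip P hP P' hP') hL
    refine h1.trans ?_
    rw [← mul_assoc]
    gcongr
    exact le_max_right _ _

theorem s2BT_bl_integral {𝒟 : Set (ℂ × ℂ)} {K : ℝ} {F : ℝ → ℂ × ℂ → ℂ}
    (h : ∀ l ∈ Set.Icc (0 : ℝ) 1, S2BL 𝒟 K (F l))
    (hi : ∀ P ∈ 𝒟, IntervalIntegrable (fun l => F l P) MeasureTheory.volume 0 1) :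
    S2BL 𝒟 K (fun P => ∫ l in (0 : ℝ)..1, F l P) where
  bd P hP := by
    have h1 : ‖∫ l in (0 : ℝ)..1, F l P‖ ≤ K * |(1 : ℝ) - 0| := by
      apply intervalIntegral.norm_integral_le_of_norm_le_const
      intro t ht
      rw [Set.uIoc_of_le zero_le_one] at ht
      exact (h t (Set.Ioc_subset_Icc_self ht)).bd P hP
    simpa using h1
  lip P hP P' hP' := by
    rw [← intervalIntegral.integral_sub (hi P hP) (hi P' hP')]
    have h1 : ‖∫ l in (0 : ℝ)..1, (F l P - F l P')‖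
        ≤ (K * (‖P.1 - P'.1‖ + ‖P.2 - P'.2‖)) * |(1 : ℝ) - 0| := by
      apply intervalIntegral.norm_integral_le_of_norm_le_const
      intro t ht
      rw [Set.uIoc_of_le zero_le_one] at ht
      exact (h t (Set.Ioc_subset_Icc_self ht)).lip P hP P' hP'
    simpa using h1

end Claimed.Agent.R269
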