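/-
Row 269, Section 2, UNIT Q: global primitives.  On the closed strip all the integrals of the normalized
action are finite combinations of FOUR one-variable functions `φ, A, B, E`; every derivative / holomorphy /
continuity statement about `s2dphi, s2J, s2Lam, s2ker` follows from this by the ordinary rules.
Statement and proof by helper159 (sorry-free).

PROOF.  `φ z = s2seg (exp ∘ u) 0 z`, `A z = s2seg (sin φ · e^{-2u}) 0 z`, … ; `s2P_deriv`, `s2P_add`, `s2P_ftc`,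
`sin (φ ζ - φ V) = sin (φ ζ) cos (φ V) - cos (φ ζ) sin (φ V)`, linearity of `s2seg` (continuity of integrands).
-/
import Claimed.Agent.R269.S2.P

set_option autoImplicit false

namespace Claimed.Agent.R269

open Complex ComplexConjugate Filter Topology

theorem s2Q_rep {σ M : ℝ} {U : ℕ → ℂ → ℂ} (hσ : 0 ≤ σ) (h : S2Fun σ M U) :
    ∃ φ A B E : ℂ → ℂ,
      (∀ z ∈ s2cs σ, HasDerivWithinAt φ (exp (U 0 z)) (s2cs σ) z) ∧
      (∀ z ∈ s2cs σ, HasDerivWithinAt A (sin (φ z) * exp (-2 * U 0 z)) (s2cs σ) z) ∧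
      (∀ z ∈ s2cs σ, HasDerivWithinAt B (cos (φ z) * exp (-2 * U 0 z)) (s2cs σ) z) ∧
      (∀ z ∈ s2cs σ, HasDerivWithinAt E (exp (-2 * U 0 z)) (s2cs σ) z) ∧
      (∀ X ∈ s2cs σ, ∀ Z ∈ s2cs σ, s2dphi (U 0) X Z = φ Z - φ X) ∧
      (∀ V ∈ s2cs σ, ∀ z ∈ s2cs σ, ∀ w ∈ s2cs σ,
        s2seg (fun ζ => sin (s2dphi (U 0) V ζ) * exp (-2 * U 0 ζ)) z w
          = cos (φ V) * (A w - A z) - sin (φ V) * (B w - B z)) ∧
      (∀ X ∈ s2cs σ, ∀ Z ∈ s2cs σ,
        s2Lam (U 0) X Z = (E Z - E X) - cos (φ X) * (B Z - B X) - sin (φ X) * (A Z - A X)) := by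
  have h0 : (0 : ℂ) ∈ s2cs σ := by simp [s2cs, hσ]
  have hu : DifferentiableOn ℂ (U 0) (s2cs σ) :=
    fun z hz => (h.der 0 (by norm_num) z hz).differentiableWithinAt
  have hf0 : DifferentiableOn ℂ (fun z => exp (U 0 z)) (s2cs σ) := hu.cexp
  have hfE : DifferentiableOn ℂ (fun z => exp (-2 * U 0 z)) (s2cs σ) := (hu.const_mul (-2)).cexp
  set φ : ℂ → ℂ := fun z => s2seg (fun z => exp (U 0 z)) 0 z with hφdef
  have hφ : ∀ z ∈ s2cs σ, HasDerivWithinAt φ (exp (U 0 z)) (s2cs σ) z :=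
    fun z hz => s2P_deriv hf0 h0 hz
  have hφd : DifferentiableOn ℂ φ (s2cs σ) := fun z hz => (hφ z hz).differentiableWithinAt
  have hfA : DifferentiableOn ℂ (fun z => sin (φ z) * exp (-2 * U 0 z)) (s2cs σ) := hφd.csin.mul hfE
  have hfB : DifferentiableOn ℂ (fun z => cos (φ z) * exp (-2 * U 0 z)) (s2cs σ) := hφd.ccos.mul hfE
  set A : ℂ → ℂ := fun z => s2seg (fun z => sin (φ z) * exp (-2 * U 0 z)) 0 z with hAdef
  set B : ℂ → ℂ := fun z => s2seg (fun z => cos (φ z) * exp (-2 * U 0 z)) 0 z with hBdef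
  set E : ℂ → ℂ := fun z => s2seg (fun z => exp (-2 * U 0 z)) 0 z with hEdef
  have hA : ∀ z ∈ s2cs σ, HasDerivWithinAt A (sin (φ z) * exp (-2 * U 0 z)) (s2cs σ) z :=
    fun z hz => s2P_deriv hfA h0 hz
  have hB : ∀ z ∈ s2cs σ, HasDerivWithinAt B (cos (φ z) * exp (-2 * U 0 z)) (s2cs σ) z :=
    fun z hz => s2P_deriv hfB h0 hz
  have hE : ∀ z ∈ s2cs σ, HasDerivWithinAt E (exp (-2 * U 0 z)) (s2cs σ) z :=
    fun z hz => s2P_deriv hfE h0 hz
  have hdphi : ∀ X ∈ s2cs σ, ∀ Z ∈ s2cs σ, s2dphi (U 0) X Z = φ Z - φ X :=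
    fun X hX Z hZ => s2P_ftc hφ hf0.continuousOn hX hZ
  refine ⟨φ, A, B, E, hφ, hA, hB, hE, hdphi, ?_, ?_⟩
  · intro V hV z hz w hw
    have e1 : s2seg (fun ζ => sin (s2dphi (U 0) V ζ) * exp (-2 * U 0 ζ)) z w
        = s2seg (fun ζ => sin (φ ζ - φ V) * exp (-2 * U 0 ζ)) z w := by
      apply s2P_congr
      intro t ht
      rw [hdphi V hV _ (s2P_seg_mem hz hw ht)]
    have hG : ∀ ζ ∈ s2cs σ, HasDerivWithinAt (fun ζ => cos (φ V) * A ζ - sin (φ V) * B ζ)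
        (sin (φ ζ - φ V) * exp (-2 * U 0 ζ)) (s2cs σ) ζ := by
      intro ζ hζ
      have := ((hA ζ hζ).const_mul (cos (φ V))).sub ((hB ζ hζ).const_mul (sin (φ V)))
      have e : sin (φ ζ - φ V) * exp (-2 * U 0 ζ) = cos (φ V) * (sin (φ ζ) * exp (-2 * U 0 ζ))
          - sin (φ V) * (cos (φ ζ) * exp (-2 * U 0 ζ)) := by
        rw [Complex.sin_sub]; ring
      rw [e]
      exact this
    have hc : ContinuousOn (fun ζ => sin (φ ζ - φ V) * exp (-2 * U 0 ζ)) (s2cs σ) :=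
      ((hφd.sub_const (φ V)).csin.mul hfE).continuousOn
    rw [e1, s2P_ftc hG hc hz hw]
    ring
  · intro X hX Z hZ
    have e1 : s2Lam (U 0) X Z
        = s2seg (fun ζ => (1 - cos (φ ζ - φ X)) * exp (-2 * U 0 ζ)) X Z := by
      unfold s2Lam
      apply s2P_congr
      intro t ht
      rw [hdphi X hX _ (s2P_seg_mem hX hZ ht)]
    have hG : ∀ ζ ∈ s2cs σ, HasDerivWithinAt (fun ζ => E ζ - cos (φ X) * B ζ - sin (φ X) * A ζ)
        ((1 - cos (φ ζ - φ X)) * exp (-2 * U 0 ζ)) (s2cs σ) ζ := by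
      intro ζ hζ
      have := ((hE ζ hζ).sub ((hB ζ hζ).const_mul (cos (φ X)))).sub
        ((hA ζ hζ).const_mul (sin (φ X)))
      have e : (1 - cos (φ ζ - φ X)) * exp (-2 * U 0 ζ) = exp (-2 * U 0 ζ)
          - cos (φ X) * (cos (φ ζ) * exp (-2 * U 0 ζ))
          - sin (φ X) * (sin (φ ζ) * exp (-2 * U 0 ζ)) := by
        rw [Complex.cos_sub]; ring
      rw [e]
      exact this
    have hc : ContinuousOn (fun ζ => (1 - cos (φ ζ - φ X)) * exp (-2 * U 0 ζ)) (s2cs σ) :=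
      (((hφd.sub_const (φ X)).ccos.const_sub 1).mul hfE).continuousOn
    rw [e1, s2P_ftc hG hc hX hZ]
    ring

end Claimed.Agent.R269
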