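/-
Row 269, Section 2, UNIT B, package BMid, part A (helper159): the remainder `s2d0` of the frozen derivative, bounds.
-/
import Claimed.Agent.R269.S2.BT
import Claimed.Agent.R269.S2.Q
import Claimed.Agent.R269.S2.PH

set_option autoImplicit false

namespace Claimed.Agent.R269

open Complex ComplexConjugate Filter Topology MeasureTheory

/-- `∫₀¹ (H(m+tε) - H(m)) dt`. -/
noncomputable def s2d0 (U : ℕ → ℂ → ℂ) (m ε : ℂ) : ℂ := s2DD (s2H U 0) m (m + ε) - s2H U 0 m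

theorem s2BM_a_bd {σ M : ℝ} {U : ℕ → ℂ → ℂ} (hU : S2Fun σ M U) {m : ℂ} (hm : m ∈ s2cs σ) :
    ‖exp (-(U 0 m))‖ ≤ Real.exp M := by
  refine (Complex.norm_exp_le_exp_norm _).trans (Real.exp_le_exp.2 ?_)
  rw [norm_neg]; exact hU.bd 0 (by norm_num) m hm

theorem s2BM_a_lip {σ M : ℝ} {U : ℕ → ℂ → ℂ} (hU : S2Fun σ M U) {m m' : ℂ} (hm : m ∈ s2cs σ)
    (hm' : m' ∈ s2cs σ) : ‖exp (-(U 0 m)) - exp (-(U 0 m'))‖ ≤ Real.exp M * M * ‖m - m'‖ := by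
  have h1 : ‖-(U 0 m)‖ ≤ M := by rw [norm_neg]; exact hU.bd 0 (by norm_num) m hm
  have h2 : ‖-(U 0 m')‖ ≤ M := by rw [norm_neg]; exact hU.bd 0 (by norm_num) m' hm'
  refine (s2BT_exp_lip h1 h2).trans ?_
  have h3 : ‖-(U 0 m) - -(U 0 m')‖ ≤ M * ‖m - m'‖ := by
    have := s2BT_lip (hU.der 0 (by norm_num)) (hU.bd 1 (by norm_num)) hm' hm
    have e : -(U 0 m) - -(U 0 m') = -(U 0 m - U 0 m') := by ring
    rw [e, norm_neg]; exact this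
  rw [mul_assoc]
  exact mul_le_mul_of_nonneg_left h3 (Real.exp_pos M).le

theorem s2BM_a_mul {U : ℕ → ℂ → ℂ} (m : ℂ) : exp (-(U 0 m)) * s2H U 0 m = 1 := by
  show exp (-(U 0 m)) * exp (U 0 m) = 1
  rw [← Complex.exp_add]; simp

theorem s2BM_d0_int {σ M : ℝ} {U : ℕ → ℂ → ℂ} (hU : S2Fun σ M U) {m ε : ℂ} (hm : m ∈ s2cs σ)
    (hme : m + ε ∈ s2cs σ) :
    s2d0 U m ε = ∫ t in (0 : ℝ)..1, (s2H U 0 (m + (t : ℂ) * ε) - s2H U 0 m) := by
  have hmem : ∀ r ∈ Set.Icc (0 : ℝ) 1, m + (r : ℂ) * ε ∈ s2cs σ := by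
    intro r hr
    have := s2P_seg_mem hm hme hr
    simpa using this
  have i1 := s2BT_intervalIntegrable_of_contOn
    (s2BT_cont_path (s2BT_H_cont hU 0 (by norm_num)) m ε hmem)
  rw [intervalIntegral.integral_sub i1 (by simp)]
  simp [s2d0, s2DD]

theorem s2BM_seg_mem {σ : ℝ} {m ε : ℂ} (hm : m ∈ s2cs σ) (hme : m + ε ∈ s2cs σ) {r : ℝ}
    (hr : r ∈ Set.Icc (0 : ℝ) 1) : m + (r : ℂ) * ε ∈ s2cs σ := by
  have := s2P_seg_mem hm hme hr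
  simpa using this

theorem s2BM_d0_bd {σ M : ℝ} {U : ℕ → ℂ → ℂ} (hσ : 0 ≤ σ) (hU : S2Fun σ M U) {m ε : ℂ}
    (hm : m ∈ s2cs σ) (hme : m + ε ∈ s2cs σ) : ‖s2d0 U m ε‖ ≤ s2KH M * ‖ε‖ := by
  rw [s2BM_d0_int hU hm hme]
  have hK : 0 ≤ s2KH M := (norm_nonneg _).trans (s2BT_H_bd hσ hU 0 (by norm_num) m hm)
  have h1 : ‖∫ t in (0 : ℝ)..1, (s2H U 0 (m + (t : ℂ) * ε) - s2H U 0 m)‖
      ≤ (s2KH M * ‖ε‖) * |(1 : ℝ) - 0| := by
    apply intervalIntegral.norm_integral_le_of_norm_le_const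
    intro t ht
    rw [Set.uIoc_of_le zero_le_one] at ht
    have ht' := Set.Ioc_subset_Icc_self ht
    have := s2BT_lip (s2BT_H_der hU 0 (by norm_num)) (s2BT_H_bd hσ hU 1 (by norm_num)) hm
      (s2BM_seg_mem hm hme ht')
    refine this.trans ?_
    apply mul_le_mul_of_nonneg_left _ hK
    rw [add_sub_cancel_left, norm_mul, Complex.norm_real, Real.norm_eq_abs, abs_of_nonneg ht'.1]
    have := norm_nonneg ε
    nlinarith [ht'.2]
  simpa using h1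

theorem s2BM_d0_lip {σ M : ℝ} {U : ℕ → ℂ → ℂ} (hσ : 0 ≤ σ) (hU : S2Fun σ M U) {m ε m' ε' : ℂ}
    (hm : m ∈ s2cs σ) (hme : m + ε ∈ s2cs σ) (hm' : m' ∈ s2cs σ) (hme' : m' + ε' ∈ s2cs σ) :
    ‖s2d0 U m ε - s2d0 U m' ε'‖
      ≤ s2KH M * ((1 + ‖ε'‖) * ‖ε - ε'‖ + 2 * ‖ε'‖ * ‖m - m'‖) := by
  have hK : 0 ≤ s2KH M := (norm_nonneg _).trans (s2BT_H_bd hσ hU 0 (by norm_num) m hm)
  have hc0 := s2BT_H_cont hU 0 (by norm_num)
  have i1 : IntervalIntegrable (fun t : ℝ => s2H U 0 (m + (t : ℂ) * ε) - s2H U 0 m) volume 0 1 :=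
    (s2BT_intervalIntegrable_of_contOn
      (s2BT_cont_path hc0 m ε (fun r hr => s2BM_seg_mem hm hme hr))).sub (by simp)
  have i2 : IntervalIntegrable (fun t : ℝ => s2H U 0 (m' + (t : ℂ) * ε') - s2H U 0 m') volume 0 1 :=
    (s2BT_intervalIntegrable_of_contOn
      (s2BT_cont_path hc0 m' ε' (fun r hr => s2BM_seg_mem hm' hme' hr))).sub (by simp)
  rw [s2BM_d0_int hU hm hme, s2BM_d0_int hU hm' hme', ← intervalIntegral.integral_sub i1 i2]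
  have h1 : ‖∫ t in (0 : ℝ)..1, ((s2H U 0 (m + (t : ℂ) * ε) - s2H U 0 m)
      - (s2H U 0 (m' + (t : ℂ) * ε') - s2H U 0 m'))‖
      ≤ (s2KH M * ((1 + ‖ε'‖) * ‖ε - ε'‖ + 2 * ‖ε'‖ * ‖m - m'‖)) * |(1 : ℝ) - 0| := by
    apply intervalIntegral.norm_integral_le_of_norm_le_const
    intro t ht
    rw [Set.uIoc_of_le zero_le_one] at ht
    have ht' := Set.Ioc_subset_Icc_self ht
    have hz := s2BM_seg_mem hm hme ht'
    have hz' := s2BM_seg_mem hm' hme' ht'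
    have d0 := s2BT_H_der hU 0 (by norm_num)
    have d1 := s2BT_H_der hU 1 (by norm_num)
    have c1 := s2BT_H_cont hU 1 (by norm_num)
    have e1 := s2BT_DD_eq d0 c1 hm hz
    have e2 := s2BT_DD_eq d0 c1 hm' hz'
    rw [add_sub_cancel_left] at e1 e2
    rw [e1, e2]
    have e3 : (t : ℂ) * ε * s2DD (s2H U (0 + 1)) m (m + (t : ℂ) * ε)
        - (t : ℂ) * ε' * s2DD (s2H U (0 + 1)) m' (m' + (t : ℂ) * ε')
        = (t : ℂ) * ((ε - ε') * s2DD (s2H U (0 + 1)) m (m + (t : ℂ) * ε)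
          + ε' * (s2DD (s2H U (0 + 1)) m (m + (t : ℂ) * ε)
            - s2DD (s2H U (0 + 1)) m' (m' + (t : ℂ) * ε'))) := by ring
    rw [e3, norm_mul, Complex.norm_real, Real.norm_eq_abs, abs_of_nonneg ht'.1]
    have b1 := s2BT_DD_bd (s2BT_H_bd hσ hU 1 (by norm_num)) hm hz
    have b2 := s2BT_DD_lip d1 (s2BT_H_bd hσ hU 2 (by norm_num)) hm hz hm' hz'
    have n3 : ‖m + (t : ℂ) * ε - (m' + (t : ℂ) * ε')‖ ≤ ‖m - m'‖ + ‖ε - ε'‖ := by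
      have e : m + (t : ℂ) * ε - (m' + (t : ℂ) * ε') = (m - m') + (t : ℂ) * (ε - ε') := by ring
      rw [e]
      refine (norm_add_le _ _).trans ?_
      rw [norm_mul, Complex.norm_real, Real.norm_eq_abs, abs_of_nonneg ht'.1]
      have := norm_nonneg (ε - ε')
      nlinarith [ht'.2]
    have n4 : ‖(ε - ε') * s2DD (s2H U (0 + 1)) m (m + (t : ℂ) * ε)
          + ε' * (s2DD (s2H U (0 + 1)) m (m + (t : ℂ) * ε)
            - s2DD (s2H U (0 + 1)) m' (m' + (t : ℂ) * ε'))‖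
        ≤ s2KH M * ((1 + ‖ε'‖) * ‖ε - ε'‖ + 2 * ‖ε'‖ * ‖m - m'‖) := by
      refine (norm_add_le _ _).trans ?_
      rw [norm_mul, norm_mul]
      have a1 : ‖ε - ε'‖ * ‖s2DD (s2H U (0 + 1)) m (m + (t : ℂ) * ε)‖ ≤ ‖ε - ε'‖ * s2KH M :=
        mul_le_mul_of_nonneg_left b1 (norm_nonneg _)
      have a2 : ‖ε'‖ * ‖s2DD (s2H U (0 + 1)) m (m + (t : ℂ) * ε)
            - s2DD (s2H U (0 + 1)) m' (m' + (t : ℂ) * ε')‖
          ≤ ‖ε'‖ * (s2KH M * (‖m - m'‖ + (‖m - m'‖ + ‖ε - ε'‖))) := by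
        apply mul_le_mul_of_nonneg_left _ (norm_nonneg _)
        refine b2.trans ?_
        apply mul_le_mul_of_nonneg_left _ hK
        linarith
      nlinarith
    have n5 : 0 ≤ s2KH M * ((1 + ‖ε'‖) * ‖ε - ε'‖ + 2 * ‖ε'‖ * ‖m - m'‖) := by positivity
    calc t * _ ≤ 1 * (s2KH M * ((1 + ‖ε'‖) * ‖ε - ε'‖ + 2 * ‖ε'‖ * ‖m - m'‖)) :=
          mul_le_mul ht'.2 n4 (norm_nonneg _) zero_le_one
      _ = _ := one_mul _
  simpa using h1

/-- forces the equation lemmas of the definitions above to be generated in this file. -/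
theorem s2BMidA_eqns_cited : True := by
  have := @s2d0.eq_1; have := @s2d0.eq_def; have := @s2d0.congr_simp
  trivial

end Claimed.Agent.R269
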