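/-
Row 269, Section 2, UNIT B, package BMid, part B (helper159): the Picard map `s2Xi` in the variable `ε = μ - m`:
step formula, bound, Lipschitz estimate in all variables.
-/
import Claimed.Agent.R269.S2.BMidA

set_option autoImplicit false

namespace Claimed.Agent.R269

open Complex ComplexConjugate Filter Topology MeasureTheory

/-- the Picard map of the midpoint equation in the variable `ε = μ - m`. -/
noncomputable def s2Xi (U : ℕ → ℂ → ℂ) (X Y ε : ℂ) : ℂ :=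
  exp (-(U 0 ((X + Y) / 2))) * ((Y - X) ^ 2 / 8 * s2SD (s2H U 1) ((X + Y) / 2) ((Y - X) / 2)
    - ε * s2d0 U ((X + Y) / 2) ε)

theorem s2BM_mid_mem {σ : ℝ} {X Y : ℂ} (hX : X ∈ s2cs σ) (hY : Y ∈ s2cs σ) :
    (X + Y) / 2 ∈ s2cs σ := by
  have := s2P_seg_mem hX hY (t := 1 / 2) ⟨by norm_num, by norm_num⟩
  convert this using 1
  push_cast; ring

theorem s2BM_step_eq {σ M : ℝ} {U : ℕ → ℂ → ℂ} (hσ : 0 ≤ σ) (hU : S2Fun σ M U) {X Y ε : ℂ}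
    (hX : X ∈ s2cs σ) (hY : Y ∈ s2cs σ) :
    s2muStep (U 0) X Y ((X + Y) / 2 + ε) = (X + Y) / 2 + s2Xi U X Y ε := by
  obtain ⟨φ, A, B, E, hφ, -, -, -, hdphi, -, -⟩ := s2Q_rep hσ hU
  set m : ℂ := (X + Y) / 2 with hm
  have hmS : m ∈ s2cs σ := s2BM_mid_mem hX hY
  have eY : m + (Y - X) / 2 = Y := by rw [hm]; ring
  have eX : m - (Y - X) / 2 = X := by rw [hm]; ring
  have hSD := s2BT_SD_eq (F := φ) (F1 := s2H U 0) (F2 := s2H U 1) hφ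
    (s2BT_H_der hU 0 (by norm_num)) (s2BT_H_cont hU 1 (by norm_num))
    (m := m) (h := (Y - X) / 2) (by rw [eY]; exact hY) (by rw [eX]; exact hX)
  rw [eY, eX] at hSD
  have h1 : s2dphi (U 0) m X + s2dphi (U 0) m Y
      = ((Y - X) / 2) ^ 2 * s2SD (s2H U 1) m ((Y - X) / 2) := by
    rw [hdphi m hmS X hX, hdphi m hmS Y hY, ← hSD]; ring
  have h2 : s2dphi (U 0) m (m + ε) = ε * (s2d0 U m ε + s2H U 0 m) := by
    rw [s2BT_dphi, s2d0]; ring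
  have h3 := s2BM_a_mul (U := U) m
  unfold s2muStep s2Xi
  rw [← hm, h1, h2]
  linear_combination (-ε) * h3

/-- the constant of the midpoint analysis. -/
noncomputable def s2LM (M : ℝ) : ℝ := 3 * Real.exp M * s2KH M * (M + 2)

theorem s2BM_KH_pos {M : ℝ} (hM : 0 ≤ M) : 1 ≤ s2KH M := by
  unfold s2KH
  have h1 : (1 : ℝ) ≤ (1 + M) ^ 3 := one_le_pow₀ (by linarith)
  have h2 : (1 : ℝ) ≤ Real.exp M := Real.one_le_exp hM
  nlinarith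

theorem s2BM_LM_ge {M : ℝ} (hM : 0 ≤ M) : 6 ≤ s2LM M := by
  unfold s2LM
  have h1 := s2BM_KH_pos hM
  have h2 : (1 : ℝ) ≤ Real.exp M := Real.one_le_exp hM
  have h3 : 1 ≤ Real.exp M * s2KH M := by nlinarith
  nlinarith

theorem s2BM_Bterm_bd {σ M : ℝ} {U : ℕ → ℂ → ℂ} (hσ : 0 ≤ σ) (hU : S2Fun σ M U) {X Y ε : ℂ}
    (hX : X ∈ s2cs σ) (hY : Y ∈ s2cs σ) (hμ : (X + Y) / 2 + ε ∈ s2cs σ) :
    ‖(Y - X) ^ 2 / 8 * s2SD (s2H U 1) ((X + Y) / 2) ((Y - X) / 2) - ε * s2d0 U ((X + Y) / 2) ε‖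
      ≤ s2KH M * (‖Y - X‖ ^ 2 / 8 + ‖ε‖ ^ 2) := by
  set m : ℂ := (X + Y) / 2 with hm
  have hmS : m ∈ s2cs σ := s2BM_mid_mem hX hY
  have eY : m + (Y - X) / 2 = Y := by rw [hm]; ring
  have eX : m - (Y - X) / 2 = X := by rw [hm]; ring
  have b1 := s2BT_SD_bd (s2BT_H_bd hσ hU 1 (by norm_num)) (m := m) (h := (Y - X) / 2)
    (by rw [eY]; exact hY) (by rw [eX]; exact hX)
  have b2 := s2BM_d0_bd hσ hU hmS hμ
  refine (norm_sub_le _ _).trans ?_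
  rw [norm_mul, norm_mul, norm_div, norm_pow]
  have h8 : ‖(8 : ℂ)‖ = 8 := by simp
  rw [h8]
  have a1 : ‖Y - X‖ ^ 2 / 8 * ‖s2SD (s2H U 1) m ((Y - X) / 2)‖ ≤ ‖Y - X‖ ^ 2 / 8 * s2KH M :=
    mul_le_mul_of_nonneg_left b1 (by positivity)
  have a2 : ‖ε‖ * ‖s2d0 U m ε‖ ≤ ‖ε‖ * (s2KH M * ‖ε‖) :=
    mul_le_mul_of_nonneg_left b2 (norm_nonneg _)
  nlinarith

theorem s2BM_Xi_bd {σ M : ℝ} {U : ℕ → ℂ → ℂ} (hσ : 0 ≤ σ) (hU : S2Fun σ M U) {X Y ε : ℂ}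
    (hX : X ∈ s2cs σ) (hY : Y ∈ s2cs σ) (hμ : (X + Y) / 2 + ε ∈ s2cs σ) :
    ‖s2Xi U X Y ε‖ ≤ s2LM M * (‖ε‖ ^ 2 + ‖Y - X‖ ^ 2) := by
  have hM := s2BT_M_nonneg hσ hU
  have hK := s2BM_KH_pos hM
  have hE : (1 : ℝ) ≤ Real.exp M := Real.one_le_exp hM
  have b := s2BM_Bterm_bd hσ hU hX hY hμ
  have a := s2BM_a_bd hU (s2BM_mid_mem hX hY)
  unfold s2Xi
  rw [norm_mul]
  have h1 := mul_le_mul a b (norm_nonneg _) (by positivity)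
  refine h1.trans ?_
  unfold s2LM
  have hEK : 0 ≤ Real.exp M * s2KH M := by positivity
  have n1 := sq_nonneg ‖ε‖
  have n2 := sq_nonneg ‖Y - X‖
  have h2 : ‖Y - X‖ ^ 2 / 8 + ‖ε‖ ^ 2 ≤ 3 * (M + 2) * (‖ε‖ ^ 2 + ‖Y - X‖ ^ 2) := by nlinarith
  calc Real.exp M * (s2KH M * (‖Y - X‖ ^ 2 / 8 + ‖ε‖ ^ 2))
      = (Real.exp M * s2KH M) * (‖Y - X‖ ^ 2 / 8 + ‖ε‖ ^ 2) := by ring
    _ ≤ (Real.exp M * s2KH M) * (3 * (M + 2) * (‖ε‖ ^ 2 + ‖Y - X‖ ^ 2)) :=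
        mul_le_mul_of_nonneg_left h2 hEK
    _ = _ := by ring

theorem s2BM_real_q {M dm dT de eb tb : ℝ} (hM : 0 ≤ M) (hdm0 : 0 ≤ dm) (hdT0 : 0 ≤ dT)
    (hde0 : 0 ≤ de) (heb0 : 0 ≤ eb) (htb0 : 0 ≤ tb) (htb : tb ≤ 1) :
    M * dm * (tb ^ 2 / 8 + eb ^ 2)
      + ((tb / 4 + tb ^ 2 / 16) * dT + (tb ^ 2 / 8 + 2 * eb ^ 2) * dm + 3 * eb * de)
      ≤ 3 * (M + 2) * (eb * de + (eb ^ 2 + tb ^ 2) * dm + tb * dT) := by
  have t1 : tb ^ 2 ≤ tb := by nlinarith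
  have z1 : 0 ≤ eb * de := by positivity
  have z2 : 0 ≤ eb ^ 2 * dm := by positivity
  have z3 : 0 ≤ tb ^ 2 * dm := by positivity
  have z4 : 0 ≤ tb * dT := by positivity
  have z5 : tb ^ 2 * dT ≤ tb * dT := mul_le_mul_of_nonneg_right t1 hdT0
  have z6 : 0 ≤ M * (eb * de) := by positivity
  have z7 : 0 ≤ M * (eb ^ 2 * dm) := by positivity
  have z8 : 0 ≤ M * (tb ^ 2 * dm) := by positivity
  have z9 : 0 ≤ M * (tb * dT) := by positivity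
  linarith

theorem s2BM_Xi_lip {σ M : ℝ} {U : ℕ → ℂ → ℂ} (hσ : 0 ≤ σ) (hU : S2Fun σ M U)
    {X Y ε X' Y' ε' : ℂ} {eb tb : ℝ}
    (hX : X ∈ s2cs σ) (hY : Y ∈ s2cs σ) (hμ : (X + Y) / 2 + ε ∈ s2cs σ)
    (hX' : X' ∈ s2cs σ) (hY' : Y' ∈ s2cs σ) (hμ' : (X' + Y') / 2 + ε' ∈ s2cs σ)
    (he : ‖ε‖ ≤ eb) (he' : ‖ε'‖ ≤ eb) (heb : eb ≤ 1)
    (ht : ‖Y - X‖ ≤ tb) (ht' : ‖Y' - X'‖ ≤ tb) (htb : tb ≤ 1) :
    ‖s2Xi U X Y ε - s2Xi U X' Y' ε'‖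
      ≤ s2LM M * (eb * ‖ε - ε'‖ + (eb ^ 2 + tb ^ 2) * ‖(X + Y) / 2 - (X' + Y') / 2‖
          + tb * ‖(Y - X) - (Y' - X')‖) := by
  have hM := s2BT_M_nonneg hσ hU
  have hK := s2BM_KH_pos hM
  have hE : (1 : ℝ) ≤ Real.exp M := Real.one_le_exp hM
  set m : ℂ := (X + Y) / 2 with hm
  set m' : ℂ := (X' + Y') / 2 with hm'
  set T : ℂ := Y - X with hT
  set T' : ℂ := Y' - X' with hT'
  have hmS : m ∈ s2cs σ := s2BM_mid_mem hX hY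
  have hmS' : m' ∈ s2cs σ := s2BM_mid_mem hX' hY'
  have eY : m + T / 2 = Y := by rw [hm, hT]; ring
  have eX : m - T / 2 = X := by rw [hm, hT]; ring
  have eY' : m' + T' / 2 = Y' := by rw [hm', hT']; ring
  have eX' : m' - T' / 2 = X' := by rw [hm', hT']; ring
  have heb0 : 0 ≤ eb := (norm_nonneg _).trans he
  have htb0 : 0 ≤ tb := (norm_nonneg _).trans ht
  set K := s2KH M with hKdef
  set E := Real.exp M with hEdef
  set SD := s2SD (s2H U 1) m (T / 2) with hSD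
  set SD' := s2SD (s2H U 1) m' (T' / 2) with hSD'
  set d := s2d0 U m ε with hd
  set d' := s2d0 U m' ε' with hd'
  set a := exp (-(U 0 m)) with ha
  set a' := exp (-(U 0 m')) with ha'
  set dm := ‖m - m'‖ with hdm
  set dT := ‖T - T'‖ with hdT
  set de := ‖ε - ε'‖ with hde
  have hdm0 : 0 ≤ dm := norm_nonneg _
  have hdT0 : 0 ≤ dT := norm_nonneg _
  have hde0 : 0 ≤ de := norm_nonneg _
  -- bounds
  have bSD : ‖SD‖ ≤ K := s2BT_SD_bd (s2BT_H_bd hσ hU 1 (by norm_num))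
    (by rw [eY]; exact hY) (by rw [eX]; exact hX)
  have lSD : ‖SD - SD'‖ ≤ K * (dm + ‖T / 2 - T' / 2‖) :=
    s2BT_SD_lip (s2BT_H_der hU 1 (by norm_num)) (s2BT_H_bd hσ hU 2 (by norm_num))
      (by rw [eY]; exact hY) (by rw [eX]; exact hX) (by rw [eY']; exact hY') (by rw [eX']; exact hX')
  have hT2 : ‖T / 2 - T' / 2‖ = dT / 2 := by
    have e : T / 2 - T' / 2 = (T - T') / 2 := by ring
    rw [e, norm_div]; simp [hdT]
  rw [hT2] at lSD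
  have bd : ‖d‖ ≤ K * eb := (s2BM_d0_bd hσ hU hmS hμ).trans (by gcongr)
  have ld : ‖d - d'‖ ≤ K * ((1 + eb) * de + 2 * eb * dm) :=
    (s2BM_d0_lip hσ hU hmS hμ hmS' hμ').trans (by gcongr)
  have ba' : ‖a'‖ ≤ E := s2BM_a_bd hU hmS'
  have la : ‖a - a'‖ ≤ E * M * dm := s2BM_a_lip hU hmS hmS'
  have bB : ‖T ^ 2 / 8 * SD - ε * d‖ ≤ K * (tb ^ 2 / 8 + eb ^ 2) := by
    refine (s2BM_Bterm_bd hσ hU hX hY hμ).trans ?_
    gcongr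
  -- difference of the B terms
  have lB : ‖(T ^ 2 / 8 * SD - ε * d) - (T' ^ 2 / 8 * SD' - ε' * d')‖
      ≤ K * ((tb / 4 + tb ^ 2 / 16) * dT + (tb ^ 2 / 8 + 2 * eb ^ 2) * dm + 3 * eb * de) := by
    have e : (T ^ 2 / 8 * SD - ε * d) - (T' ^ 2 / 8 * SD' - ε' * d')
        = (T - T') * (T + T') / 8 * SD + T' ^ 2 / 8 * (SD - SD') - (ε - ε') * d - ε' * (d - d') := by
      ring
    rw [e]
    have n1 : ‖(T - T') * (T + T') / 8 * SD‖ ≤ dT * (2 * tb) / 8 * K := by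
      rw [norm_mul, norm_div, norm_mul]
      have h8 : ‖(8 : ℂ)‖ = 8 := by simp
      rw [h8]
      have : ‖T + T'‖ ≤ 2 * tb := (norm_add_le _ _).trans (by linarith)
      gcongr
    have n2 : ‖T' ^ 2 / 8 * (SD - SD')‖ ≤ tb ^ 2 / 8 * (K * (dm + dT / 2)) := by
      rw [norm_mul, norm_div, norm_pow]
      have h8 : ‖(8 : ℂ)‖ = 8 := by simp
      rw [h8]
      gcongr
    have n3 : ‖(ε - ε') * d‖ ≤ de * (K * eb) := by
      rw [norm_mul]; gcongr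
    have n4 : ‖ε' * (d - d')‖ ≤ eb * (K * ((1 + eb) * de + 2 * eb * dm)) := by
      rw [norm_mul]; gcongr
    have n5 : eb * (K * ((1 + eb) * de + 2 * eb * dm)) ≤ eb * (K * (2 * de + 2 * eb * dm)) := by
      gcongr
      linarith
    calc _ ≤ ‖(T - T') * (T + T') / 8 * SD‖ + ‖T' ^ 2 / 8 * (SD - SD')‖ + ‖(ε - ε') * d‖
          + ‖ε' * (d - d')‖ := by
          refine (norm_sub_le _ _).trans (add_le_add ((norm_sub_le _ _).trans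
            (add_le_add (norm_add_le _ _) le_rfl)) le_rfl)
      _ ≤ dT * (2 * tb) / 8 * K + tb ^ 2 / 8 * (K * (dm + dT / 2)) + de * (K * eb)
          + eb * (K * (2 * de + 2 * eb * dm)) := by linarith
      _ = _ := by ring
  have e0 : s2Xi U X Y ε - s2Xi U X' Y' ε'
      = (a - a') * (T ^ 2 / 8 * SD - ε * d)
        + a' * ((T ^ 2 / 8 * SD - ε * d) - (T' ^ 2 / 8 * SD' - ε' * d')) := by
    unfold s2Xi
    rw [← hm, ← hm', ← hT, ← hT', ← hSD, ← hSD', ← hd, ← hd', ← ha, ← ha']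
    ring
  rw [e0]
  refine (norm_add_le _ _).trans ?_
  rw [norm_mul, norm_mul]
  have p1 : ‖a - a'‖ * ‖T ^ 2 / 8 * SD - ε * d‖ ≤ (E * M * dm) * (K * (tb ^ 2 / 8 + eb ^ 2)) :=
    mul_le_mul la bB (norm_nonneg _) (by positivity)
  have p2 : ‖a'‖ * ‖(T ^ 2 / 8 * SD - ε * d) - (T' ^ 2 / 8 * SD' - ε' * d')‖
      ≤ E * (K * ((tb / 4 + tb ^ 2 / 16) * dT + (tb ^ 2 / 8 + 2 * eb ^ 2) * dm + 3 * eb * de)) :=
    mul_le_mul ba' lB (norm_nonneg _) (by positivity)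
  have hEK : 0 ≤ E * K := by positivity
  have q : M * dm * (tb ^ 2 / 8 + eb ^ 2)
      + ((tb / 4 + tb ^ 2 / 16) * dT + (tb ^ 2 / 8 + 2 * eb ^ 2) * dm + 3 * eb * de)
      ≤ 3 * (M + 2) * (eb * de + (eb ^ 2 + tb ^ 2) * dm + tb * dT) :=
    s2BM_real_q hM hdm0 hdT0 hde0 heb0 htb0 htb
  calc _ ≤ (E * M * dm) * (K * (tb ^ 2 / 8 + eb ^ 2))
        + E * (K * ((tb / 4 + tb ^ 2 / 16) * dT + (tb ^ 2 / 8 + 2 * eb ^ 2) * dm + 3 * eb * de)) :=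
        add_le_add p1 p2
    _ = (E * K) * (M * dm * (tb ^ 2 / 8 + eb ^ 2)
      + ((tb / 4 + tb ^ 2 / 16) * dT + (tb ^ 2 / 8 + 2 * eb ^ 2) * dm + 3 * eb * de)) := by ring
    _ ≤ (E * K) * (3 * (M + 2) * (eb * de + (eb ^ 2 + tb ^ 2) * dm + tb * dT)) :=
        mul_le_mul_of_nonneg_left q hEK
    _ = _ := by unfold s2LM; ring

/-- forces the equation lemmas of the definitions above to be generated in this file. -/
theorem s2BMidB_eqns_cited : True := by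
  have := @s2Xi.eq_1; have := @s2Xi.eq_def; have := @s2Xi.congr_simp
  have := @s2LM.eq_1; have := @s2LM.eq_def; have := @s2LM.congr_simp
  trivial

end Claimed.Agent.R269
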