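/-
Row 269, Section 2, UNIT B (helper159): general facts on admissible pairs and on the midpoint, used by BNu, BRep, BChi, BG, BF.
-/
import Claimed.Agent.R269.S2.BMidB

set_option autoImplicit false

namespace Claimed.Agent.R269

open Complex ComplexConjugate Filter Topology MeasureTheory

theorem s2BA_max_le {c T σ : ℝ} {X Y : ℂ} (hc : 0 < c) (h : S2Adm c T σ X Y) :
    max |X.im| |Y.im| ≤ σ := by
  have h0 : 0 ≤ max |X.im| |Y.im| := le_max_of_le_left (abs_nonneg _)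
  have h1 : 0 ≤ c * ‖Y - X‖ * max |X.im| |Y.im| := by positivity
  have := h.2
  nlinarith

theorem s2BA_X {c T σ : ℝ} {X Y : ℂ} (hc : 0 < c) (h : S2Adm c T σ X Y) : X ∈ s2cs σ :=
  (le_max_left _ _).trans (s2BA_max_le hc h)

theorem s2BA_Y {c T σ : ℝ} {X Y : ℂ} (hc : 0 < c) (h : S2Adm c T σ X Y) : Y ∈ s2cs σ :=
  (le_max_right _ _).trans (s2BA_max_le hc h)

theorem s2BA_m {c T σ : ℝ} {X Y : ℂ} (hc : 0 < c) (h : S2Adm c T σ X Y) : (X + Y) / 2 ∈ s2cs σ :=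
  s2BM_mid_mem (s2BA_X hc h) (s2BA_Y hc h)

theorem s2BA_mu {c T C σ : ℝ} {u : ℂ → ℂ} {X Y : ℂ} (hm : S2Mid c T C σ u) (h : S2Adm c T σ X Y) :
    s2mu u X Y ∈ s2cs σ := (hm.mu_im X Y h).trans h.2

theorem s2BA_mono {c T T' σ : ℝ} {X Y : ℂ} (hT : T' ≤ T) (h : S2Adm c T' σ X Y) :
    S2Adm c T σ X Y := ⟨h.1.trans hT, h.2⟩

/-- the pairs `(X, X + l (Y - X))` are admissible. -/
theorem s2BA_seg {c T σ : ℝ} {X Y : ℂ} (hc : 0 < c) (h : S2Adm c T σ X Y) {l : ℝ}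
    (hl : l ∈ Set.Icc (0 : ℝ) 1) : S2Adm c T σ X (X + (l : ℂ) * (Y - X)) := by
  have e : X + (l : ℂ) * (Y - X) - X = (l : ℂ) * (Y - X) := by ring
  have n : ‖X + (l : ℂ) * (Y - X) - X‖ ≤ ‖Y - X‖ := by
    rw [e, norm_mul, Complex.norm_real, Real.norm_eq_abs, abs_of_nonneg hl.1]
    have := norm_nonneg (Y - X)
    nlinarith [hl.2]
  refine ⟨n.trans h.1, le_trans ?_ h.2⟩
  have h0 : 0 ≤ max |X.im| |Y.im| := le_max_of_le_left (abs_nonneg _)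
  have i1 : |(X + (l : ℂ) * (Y - X)).im| ≤ max |X.im| |Y.im| :=
    s2P_seg_mem (σ := max |X.im| |Y.im|) (show |X.im| ≤ _ from le_max_left _ _)
      (show |Y.im| ≤ _ from le_max_right _ _) hl
  have i2 : max |X.im| |(X + (l : ℂ) * (Y - X)).im| ≤ max |X.im| |Y.im| :=
    max_le (le_max_left _ _) i1
  have i3 : 1 + c * ‖X + (l : ℂ) * (Y - X) - X‖ ≤ 1 + c * ‖Y - X‖ := by nlinarith
  exact mul_le_mul i3 i2 (le_max_of_le_left (abs_nonneg _)) (by positivity)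

/-- second difference of the primitive. -/
theorem s2BA_sum_eq {σ M : ℝ} {U : ℕ → ℂ → ℂ} (hσ : 0 ≤ σ) (hU : S2Fun σ M U) {X Y : ℂ}
    (hX : X ∈ s2cs σ) (hY : Y ∈ s2cs σ) :
    s2dphi (U 0) ((X + Y) / 2) X + s2dphi (U 0) ((X + Y) / 2) Y
      = ((Y - X) / 2) ^ 2 * s2SD (s2H U 1) ((X + Y) / 2) ((Y - X) / 2) := by
  obtain ⟨φ, A, B, E, hφ, -, -, -, hdphi, -, -⟩ := s2Q_rep hσ hU
  set m : ℂ := (X + Y) / 2 with hm
  have hmS : m ∈ s2cs σ := s2BM_mid_mem hX hY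
  have eY : m + (Y - X) / 2 = Y := by rw [hm]; ring
  have eX : m - (Y - X) / 2 = X := by rw [hm]; ring
  have hSD := s2BT_SD_eq (F := φ) (F1 := s2H U 0) (F2 := s2H U 1) hφ
    (s2BT_H_der hU 0 (by norm_num)) (s2BT_H_cont hU 1 (by norm_num))
    (m := m) (h := (Y - X) / 2) (by rw [eY]; exact hY) (by rw [eX]; exact hX)
  rw [eY, eX] at hSD
  rw [hdphi m hmS X hX, hdphi m hmS Y hY, ← hSD]; ring

/-- the midpoint equation in divided-difference form. -/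
theorem s2BA_mid_eq {M c T C σ : ℝ} {U : ℕ → ℂ → ℂ} (hσ : 0 ≤ σ) (hU : S2Fun σ M U) (hc : 0 < c)
    (hm : S2Mid c T C σ (U 0)) {X Y : ℂ} (h : S2Adm c T σ X Y) :
    (s2mu (U 0) X Y - (X + Y) / 2) * s2DD (s2H U 0) ((X + Y) / 2) (s2mu (U 0) X Y)
      = (Y - X) ^ 2 / 8 * s2SD (s2H U 1) ((X + Y) / 2) ((Y - X) / 2) := by
  obtain ⟨φ, A, B, E, hφ, -, -, -, hdphi, -, -⟩ := s2Q_rep hσ hU
  have hX := s2BA_X hc h
  have hY := s2BA_Y hc h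
  have hmS := s2BA_m hc h
  have hμ := s2BA_mu hm h
  have h1 := s2BA_sum_eq hσ hU hX hY
  have h2 := hm.mu_eq X Y h
  rw [← s2BT_dphi]
  rw [hdphi _ hX _ hμ, hdphi _ hμ _ hY] at h2
  rw [hdphi _ hmS _ hX, hdphi _ hmS _ hY] at h1
  rw [hdphi _ hmS _ hμ]
  linear_combination (1 / 2 : ℂ) * h1 + (1 / 2 : ℂ) * h2

/-- lower bound of the divided difference of `φ` near the diagonal. -/
theorem s2BA_DD_lower {σ M : ℝ} {U : ℕ → ℂ → ℂ} (hσ : 0 ≤ σ) (hU : S2Fun σ M U) {p q : ℂ}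
    (hp : p ∈ s2cs σ) (hq : q ∈ s2cs σ) (hpq : s2KH M * ‖q - p‖ ≤ Real.exp (-M) / 2) :
    Real.exp (-M) / 2 ≤ ‖s2DD (s2H U 0) p q‖ := by
  have l1 : ‖s2DD (s2H U 0) p q - s2H U 0 p‖ ≤ s2KH M * ‖q - p‖ := by
    have := s2BT_DD_lip (s2BT_H_der hU 0 (by norm_num)) (s2BT_H_bd hσ hU 1 (by norm_num))
      hp hq hp hp
    rw [s2BT_DD_self] at this
    simpa using this
  have l3 := s2BT_H_lower hU p hp
  have := norm_sub_norm_le (s2H U 0 p) (s2H U 0 p - s2DD (s2H U 0) p q)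
  rw [sub_sub_cancel, norm_sub_rev] at this
  linarith

theorem s2BA_dm (X Y X' Y' : ℂ) :
    ‖(X + Y) / 2 - (X' + Y') / 2‖ ≤ (‖X - X'‖ + ‖Y - Y'‖) / 2 := by
  have e1 : (X + Y) / 2 - (X' + Y') / 2 = ((X - X') + (Y - Y')) / 2 := by ring
  rw [e1, norm_div]
  have : ‖(2 : ℂ)‖ = 2 := by simp
  rw [this]
  have := norm_add_le (X - X') (Y - Y')
  linarith

theorem s2BA_dT (X Y X' Y' : ℂ) : ‖(Y - X) - (Y' - X')‖ ≤ ‖X - X'‖ + ‖Y - Y'‖ := by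
  have e1 : (Y - X) - (Y' - X') = (Y - Y') - (X - X') := by ring
  rw [e1]
  have := norm_sub_le (Y - Y') (X - X')
  linarith

end Claimed.Agent.R269
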