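/-
Row 269, Section 2, UNIT B, leaf BRep: `D₁(X,X+T) = T ∫₀¹ 𝒦(X,X+λT) dλ`  (B3 in the header of S2/B.lean).   PROVED (helper159).
`Y_λ = X+λT`, `μ_λ = s2mu u X Y_λ` (the pairs `(X,Y_λ)` are admissible).  With `φ, A, B` of `s2Q_rep`: `φ μ_λ = (φ X + φ Y_λ)/2` (mu_eq).
SLOPE:  `(μ_λ-μ_{λ₀}) s2DD H μ_{λ₀} μ_λ = (λ-λ₀)(T/2) s2DD H Y_{λ₀} Y_λ`;  `λ ↦ μ_λ` is Lipschitz (mu_lip), `s2DD H` is continuous and
`s2DD H p p = H p ≠ 0`, so `HasDerivWithinAt (fun λ => μ_λ) (T e^{u(Y_λ₀)-u(μ_λ₀)}/2) (Icc 0 1) λ₀`.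
`G(λ) = e^{u(X)} s2J u X μ_λ`, `G(0) = 0` (`μ_0 = X` by mu_near), `G' = e^{u(X)} sin(φ μ_λ - φ X) e^{-2u(μ_λ)} μ_λ' = T 𝒦(X,Y_λ)`, continuous;
conclude by the fundamental theorem of calculus.
-/
import Claimed.Agent.R269.S2.BAdm

set_option autoImplicit false

namespace Claimed.Agent.R269

open Complex ComplexConjugate Filter Topology MeasureTheory

theorem s2BR_contOn_of_lip {f : ℝ → ℂ} {s : Set ℝ} {K : ℝ}
    (h : ∀ x ∈ s, ∀ y ∈ s, ‖f x - f y‖ ≤ K * |x - y|) : ContinuousOn f s := by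
  have : LipschitzOnWith (Real.toNNReal K) f s := by
    apply LipschitzOnWith.of_dist_le_mul
    intro x hx y hy
    rw [dist_eq_norm, Real.dist_eq]
    refine (h x hx y hy).trans ?_
    exact mul_le_mul_of_nonneg_right (Real.le_coe_toNNReal K) (abs_nonneg _)
  exact this.continuousOn

/-- implicit differentiation of `φ (f l) = ψ l`. -/
theorem s2BR_implicit {σ K : ℝ} {φ H H1 : ℂ → ℂ}
    (hφ : ∀ z ∈ s2cs σ, HasDerivWithinAt φ (H z) (s2cs σ) z)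
    (hH : ∀ z ∈ s2cs σ, HasDerivWithinAt H (H1 z) (s2cs σ) z) (hb : ∀ z ∈ s2cs σ, ‖H1 z‖ ≤ K)
    {f ψ : ℝ → ℂ} {s : Set ℝ} (hf : ∀ l ∈ s, f l ∈ s2cs σ) (hfc : ContinuousOn f s)
    (heq : ∀ l ∈ s, φ (f l) = ψ l) {l0 : ℝ} (hl0 : l0 ∈ s) {ψ' : ℂ}
    (hψ : HasDerivWithinAt ψ ψ' s l0) (hne : H (f l0) ≠ 0) :
    HasDerivWithinAt f (ψ' / H (f l0)) s l0 := by
  rw [hasDerivWithinAt_iff_tendsto_slope] at hψ ⊢
  have hsub : 𝓝[s \ {l0}] l0 ≤ 𝓝[s] l0 := nhdsWithin_mono _ Set.sdiff_subset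
  have hDD : Tendsto (fun l => s2DD H (f l0) (f l)) (𝓝[s \ {l0}] l0) (𝓝 (H (f l0))) := by
    rw [tendsto_iff_norm_sub_tendsto_zero]
    have h2 : Tendsto (fun l => K * ‖f l - f l0‖) (𝓝[s \ {l0}] l0) (𝓝 0) := by
      have h3 : Tendsto f (𝓝[s \ {l0}] l0) (𝓝 (f l0)) := (hfc l0 hl0).mono_left hsub
      have := (tendsto_iff_norm_sub_tendsto_zero.1 h3).const_mul K
      simpa using this
    refine squeeze_zero' (Eventually.of_forall fun _ => norm_nonneg _) ?_ h2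
    filter_upwards [self_mem_nhdsWithin] with l hl
    have := s2BT_DD_lip hH hb (hf l0 hl0) (hf l hl.1) (hf l0 hl0) (hf l0 hl0)
    rw [s2BT_DD_self] at this
    simpa using this
  have h1 := hψ.div hDD hne
  refine h1.congr' ?_
  filter_upwards [hDD.eventually_ne hne, self_mem_nhdsWithin] with l hl1 hl2
  have e := s2BT_DD_eq hφ (s2BT_contOn_of_deriv hH) (hf l0 hl0) (hf l hl2.1)
  rw [Pi.div_apply, slope_def_module, slope_def_module, ← heq l hl2.1, ← heq l0 hl0, e,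
    Complex.real_smul, Complex.real_smul]
  field_simp

theorem s2BR_path_sub (X T : ℂ) (l l' : ℝ) :
    ‖(X + (l : ℂ) * T) - (X + (l' : ℂ) * T)‖ = |l - l'| * ‖T‖ := by
  have e : (X + (l : ℂ) * T) - (X + (l' : ℂ) * T) = ((l - l' : ℝ) : ℂ) * T := by push_cast; ring
  rw [e, norm_mul, Complex.norm_real, Real.norm_eq_abs]

theorem s2BR_mu_path_lip {c T0 C σ : ℝ} {u : ℂ → ℂ} (hc : 0 < c) (hm : S2Mid c T0 C σ u) {X Y : ℂ}
    (h : S2Adm c T0 σ X Y) : ∀ l ∈ Set.Icc (0 : ℝ) 1, ∀ l' ∈ Set.Icc (0 : ℝ) 1,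
    ‖s2mu u X (X + (l : ℂ) * (Y - X)) - s2mu u X (X + (l' : ℂ) * (Y - X))‖
      ≤ ((1 / 2 + |C| * ‖Y - X‖) * ‖Y - X‖) * |l - l'| := by
  intro l hl l' hl'
  have h1 := hm.mu_lip _ _ _ _ (s2BA_seg hc h hl) (s2BA_seg hc h hl')
  rw [sub_self, norm_zero, zero_add, s2BR_path_sub] at h1
  have n : ∀ l ∈ Set.Icc (0 : ℝ) 1, ‖X + (l : ℂ) * (Y - X) - X‖ ≤ ‖Y - X‖ := by
    intro l hl
    rw [add_sub_cancel_left, norm_mul, Complex.norm_real, Real.norm_eq_abs, abs_of_nonneg hl.1]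
    have := norm_nonneg (Y - X)
    nlinarith [hl.2]
  have h2 : C * max ‖X + (l : ℂ) * (Y - X) - X‖ ‖X + (l' : ℂ) * (Y - X) - X‖ ≤ |C| * ‖Y - X‖ := by
    calc _ ≤ |C| * max ‖X + (l : ℂ) * (Y - X) - X‖ ‖X + (l' : ℂ) * (Y - X) - X‖ :=
          mul_le_mul_of_nonneg_right (le_abs_self C) (le_max_of_le_left (norm_nonneg _))
      _ ≤ _ := mul_le_mul_of_nonneg_left (max_le (n l hl) (n l' hl')) (abs_nonneg C)
  have h3 := h1.trans (mul_le_mul_of_nonneg_right h2 (by positivity))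
  have e : s2mu u X (X + (l : ℂ) * (Y - X)) - s2mu u X (X + (l' : ℂ) * (Y - X))
      = ((s2mu u X (X + (l : ℂ) * (Y - X)) - (X + (X + (l : ℂ) * (Y - X))) / 2)
        - (s2mu u X (X + (l' : ℂ) * (Y - X)) - (X + (X + (l' : ℂ) * (Y - X))) / 2))
        + ((X + (l : ℂ) * (Y - X)) - (X + (l' : ℂ) * (Y - X))) / 2 := by ring
  rw [e]
  refine (norm_add_le _ _).trans ?_
  rw [norm_div, s2BR_path_sub]
  have : ‖(2 : ℂ)‖ = 2 := by simp
  rw [this]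
  nlinarith

theorem s2BR_mu_path_cont {c T0 C σ : ℝ} {u : ℂ → ℂ} (hc : 0 < c) (hm : S2Mid c T0 C σ u) {X Y : ℂ}
    (h : S2Adm c T0 σ X Y) :
    ContinuousOn (fun l : ℝ => s2mu u X (X + (l : ℂ) * (Y - X))) (Set.Icc (0 : ℝ) 1) :=
  s2BR_contOn_of_lip (s2BR_mu_path_lip hc hm h)

/-- continuity needed to integrate `𝒦` along the segment. -/
theorem s2B_rep_cont {M c T0 C σ : ℝ} {U : ℕ → ℂ → ℂ} (hσ : 0 ≤ σ) (hU : S2Fun σ M U)
    (hc : 0 < c) (hT1 : T0 ≤ 1) (hm : S2Mid c T0 C σ (U 0)) (X Y : ℂ) (h : S2Adm c T0 σ X Y) :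
    ContinuousOn (fun l : ℝ => s2K (U 0) X (X + (l : ℂ) * (Y - X))) (Set.Icc 0 1) := by
  obtain ⟨φ, A, B, E, hφ, -, -, -, hdphi, -, -⟩ := s2Q_rep hσ hU
  have hX := s2BA_X hc h
  have hY := s2BA_Y hc h
  have hYl : ∀ l ∈ Set.Icc (0 : ℝ) 1, X + (l : ℂ) * (Y - X) ∈ s2cs σ := fun l hl =>
    s2P_seg_mem hX hY hl
  have hμl : ∀ l ∈ Set.Icc (0 : ℝ) 1, s2mu (U 0) X (X + (l : ℂ) * (Y - X)) ∈ s2cs σ := fun l hl =>
    s2BA_mu hm (s2BA_seg hc h hl)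
  have cu := s2BT_U_cont hU 0 (by norm_num)
  have c1 : ContinuousOn (fun l : ℝ => U 0 (X + (l : ℂ) * (Y - X))) (Set.Icc 0 1) :=
    s2BT_cont_path cu X (Y - X) hYl
  have c2 : ContinuousOn (fun l : ℝ => U 0 (s2mu (U 0) X (X + (l : ℂ) * (Y - X)))) (Set.Icc 0 1) :=
    cu.comp (s2BR_mu_path_cont hc hm h) hμl
  have c3 : ContinuousOn (fun l : ℝ => φ (X + (l : ℂ) * (Y - X))) (Set.Icc 0 1) :=
    s2BT_cont_path (s2BT_contOn_of_deriv hφ) X (Y - X) hYl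
  have c4 : ContinuousOn (fun l : ℝ => 1 / 2 * exp (U 0 X + U 0 (X + (l : ℂ) * (Y - X))
      - 3 * U 0 (s2mu (U 0) X (X + (l : ℂ) * (Y - X)))) * sin ((φ (X + (l : ℂ) * (Y - X)) - φ X) / 2))
      (Set.Icc 0 1) := by
    refine ContinuousOn.mul (ContinuousOn.mul continuousOn_const ?_) ?_
    · exact ((continuousOn_const.add c1).sub (continuousOn_const.mul c2)).cexp
    · exact Complex.continuous_sin.comp_continuousOn ((c3.sub continuousOn_const).div_const 2)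
  refine c4.congr fun l hl => ?_
  rw [s2K, hdphi _ hX _ (hYl l hl)]

theorem s2B_rep {M c T0 C σ : ℝ} {U : ℕ → ℂ → ℂ} (hσ : 0 ≤ σ) (hU : S2Fun σ M U)
    (hc : 0 < c) (hT1 : T0 ≤ 1) (hm : S2Mid c T0 C σ (U 0)) (X Y : ℂ) (h : S2Adm c T0 σ X Y) :
    s2D1 (U 0) X Y = (Y - X) * ∫ l in (0 : ℝ)..1, s2K (U 0) X (X + (l : ℂ) * (Y - X)) := by
  obtain ⟨φ, A, B, E, hφ, hA, hB, -, hdphi, hJ, -⟩ := s2Q_rep hσ hU
  have hX := s2BA_X hc h
  have hY := s2BA_Y hc h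
  have hYl : ∀ l ∈ Set.Icc (0 : ℝ) 1, X + (l : ℂ) * (Y - X) ∈ s2cs σ := fun l hl =>
    s2P_seg_mem hX hY hl
  set μ : ℝ → ℂ := fun l => s2mu (U 0) X (X + (l : ℂ) * (Y - X)) with hμdef
  have hμl : ∀ l ∈ Set.Icc (0 : ℝ) 1, μ l ∈ s2cs σ := fun l hl => s2BA_mu hm (s2BA_seg hc h hl)
  have hμc : ContinuousOn μ (Set.Icc (0 : ℝ) 1) := s2BR_mu_path_cont hc hm h
  -- the midpoint equation along the path
  have heq : ∀ l ∈ Set.Icc (0 : ℝ) 1, φ (μ l) = (φ X + φ (X + (l : ℂ) * (Y - X))) / 2 := by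
    intro l hl
    have h1 := hm.mu_eq _ _ (s2BA_seg hc h hl)
    rw [hdphi _ hX _ (hμl l hl), hdphi _ (hμl l hl) _ (hYl l hl)] at h1
    linear_combination (1 / 2 : ℂ) * h1
  have hψ : ∀ l ∈ Set.Icc (0 : ℝ) 1, HasDerivWithinAt
      (fun l : ℝ => (φ X + φ (X + (l : ℂ) * (Y - X))) / 2)
      (((Y - X) * s2H U 0 (X + (l : ℂ) * (Y - X))) / 2) (Set.Icc (0 : ℝ) 1) l := by
    intro l hl
    exact ((s2BT_deriv_path (F1 := s2H U 0) hφ X (Y - X) hYl l hl).const_add (φ X)).div_const 2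
  have hμd : ∀ l ∈ Set.Icc (0 : ℝ) 1, HasDerivWithinAt μ
      ((((Y - X) * s2H U 0 (X + (l : ℂ) * (Y - X))) / 2) / s2H U 0 (μ l)) (Set.Icc (0 : ℝ) 1) l := by
    intro l hl
    exact s2BR_implicit (H := s2H U 0) hφ (s2BT_H_der hU 0 (by norm_num))
      (s2BT_H_bd hσ hU 1 (by norm_num)) hμl hμc heq hl (hψ l hl) (Complex.exp_ne_zero _)
  set G : ℝ → ℂ := fun l => exp (U 0 X) * (cos (φ X) * (A (μ l) - A X) - sin (φ X) * (B (μ l) - B X))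
    with hG
  have hGd : ∀ l ∈ Set.Icc (0 : ℝ) 1, HasDerivWithinAt G
      ((Y - X) * s2K (U 0) X (X + (l : ℂ) * (Y - X))) (Set.Icc (0 : ℝ) 1) l := by
    intro l hl
    have dA := HasDerivWithinAt.scomp l (hA (μ l) (hμl l hl)) (hμd l hl) hμl
    have dB := HasDerivWithinAt.scomp l (hB (μ l) (hμl l hl)) (hμd l hl) hμl
    have d := (((dA.sub_const (A X)).const_mul (cos (φ X))).sub
      ((dB.sub_const (B X)).const_mul (sin (φ X)))).const_mul (exp (U 0 X))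
    refine d.congr_deriv ?_
    rw [s2K, hdphi _ hX _ (hYl l hl)]
    have e1 : (φ (X + (l : ℂ) * (Y - X)) - φ X) / 2 = φ (μ l) - φ X := by
      rw [heq l hl]; ring
    have e2 : exp (U 0 X + U 0 (X + (l : ℂ) * (Y - X)) - 3 * U 0 (μ l))
        = exp (U 0 X) * exp (U 0 (X + (l : ℂ) * (Y - X))) * exp (-2 * U 0 (μ l)) / exp (U 0 (μ l)) := by
      rw [← Complex.exp_add, ← Complex.exp_add, ← Complex.exp_sub]; congr 1; ring
    rw [e1, Complex.sin_sub, e2]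
    simp only [smul_eq_mul]
    show _ * (_ * (_ * exp (U 0 (X + (l : ℂ) * (Y - X))) / 2 / exp (U 0 (μ l)) * _)
      - _ * (_ * exp (U 0 (X + (l : ℂ) * (Y - X))) / 2 / exp (U 0 (μ l)) * _)) = _
    ring
  have hcont : ContinuousOn G (Set.Icc (0 : ℝ) 1) := fun t ht => (hGd t ht).continuousWithinAt
  have hint : IntervalIntegrable (fun l : ℝ => (Y - X) * s2K (U 0) X (X + (l : ℂ) * (Y - X)))
      volume 0 1 := by
    apply ContinuousOn.intervalIntegrable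
    rw [Set.uIcc_of_le zero_le_one]
    exact continuousOn_const.mul (s2B_rep_cont hσ hU hc hT1 hm X Y h)
  have key := intervalIntegral.integral_eq_sub_of_hasDeriv_right_of_le zero_le_one hcont
    (fun t ht => ((hGd t (Set.Ioo_subset_Icc_self ht)).hasDerivAt
      (Icc_mem_nhds ht.1 ht.2)).hasDerivWithinAt) hint
  rw [intervalIntegral.integral_const_mul] at key
  rw [key]
  have e0 : μ 0 = X := by
    have h0 := hm.mu_near _ _ (s2BA_seg hc h (l := 0) ⟨le_rfl, zero_le_one⟩)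
    simp only [Complex.ofReal_zero, zero_mul, add_zero, sub_self, norm_zero] at h0
    have h1 : s2mu (U 0) X X - (X + X) / 2 = 0 := by
      apply norm_eq_zero.1
      apply le_antisymm _ (norm_nonneg _)
      simpa using h0
    simp only [hμdef, Complex.ofReal_zero, zero_mul, add_zero]
    linear_combination h1
  have e1 : μ 1 = s2mu (U 0) X Y := by
    simp only [hμdef, Complex.ofReal_one, one_mul, add_sub_cancel]
  have g0 : G 0 = 0 := by simp only [hG, e0]; ring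
  have g1 : G 1 = s2D1 (U 0) X Y := by
    simp only [hG, e1]
    rw [s2D1, s2J, hJ X hX X hX _ (s2BA_mu hm h)]
  rw [g0, g1, sub_zero]

end Claimed.Agent.R269
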