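/-
Row 269, Section 2, UNIT B, leaf BG: `D₁(X,Y) = T²/8 + T⁴ g(X,Y)`, `g` bounded and Lipschitz  (B5).   PROVED (helper159).
`g P = ∫₀¹ λ³ χ(X, X+λT) dλ`;  `(X, X+λT)` is admissible;  `‖Δ(X+λT)‖ ≤ ‖ΔX‖+‖ΔY‖`;  integrability of `λ ↦ λ³χ(…)`: for `T ≠ 0` from
`s2B_rep_cont` and `χ = (𝒦 - T_λ/4)/T_λ³` on `λ > 0`, or from the Lipschitz bound of `χ` (continuity in `λ`).  Then `s2B_rep`, `s2B_chi`:
`D₁ = T ∫₀¹ (λT/4 + λ³T³χ) dλ`.
-/
import Claimed.Agent.R269.S2.BChi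
import Claimed.Agent.R269.S2.BRep

set_option autoImplicit false

namespace Claimed.Agent.R269

open Complex ComplexConjugate Filter Topology MeasureTheory

theorem s2BG_int_l : ∫ l in (0 : ℝ)..1, ((l : ℂ) : ℂ) = 1 / 2 := by
  rw [intervalIntegral.integral_ofReal]
  simp

theorem s2B_g (M c T0 C : ℝ) (hc : 0 < c) (hT0 : 0 < T0) (hT1 : T0 ≤ 1) (hC : 0 < C) :
    ∃ T3 K : ℝ, 0 < T3 ∧ T3 ≤ T0 ∧ 0 < K ∧
    ∀ (σ : ℝ) (U : ℕ → ℂ → ℂ), 0 ≤ σ → σ ≤ 1 → S2Fun σ M U → S2Mid c T0 C σ (U 0) →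
      ∃ g : ℂ × ℂ → ℂ, S2BL (s2AdmSet c T3 σ) K g ∧
        ∀ P ∈ s2AdmSet c T3 σ,
          s2D1 (U 0) P.1 P.2 = (P.2 - P.1) ^ 2 / 8 + (P.2 - P.1) ^ 4 * g P := by
  obtain ⟨T2, Kχ, hT2, hT20, hKχ, hχ⟩ := s2B_chi M c T0 C hc hT0 hT1 hC
  refine ⟨T2, 2 * Kχ, hT2, hT20, by positivity, ?_⟩
  intro σ U hσ hσ1 hU hm
  obtain ⟨χ, hbl, hK⟩ := hχ σ U hσ hσ1 hU hm
  have hseg : ∀ P ∈ s2AdmSet c T2 σ, ∀ l ∈ Set.Icc (0 : ℝ) 1,
      (P.1, P.1 + (l : ℂ) * (P.2 - P.1)) ∈ s2AdmSet c T2 σ := fun P hP l hl => s2BA_seg hc hP hl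
  have hcont : ∀ P ∈ s2AdmSet c T2 σ,
      ContinuousOn (fun l : ℝ => χ (P.1, P.1 + (l : ℂ) * (P.2 - P.1))) (Set.Icc (0 : ℝ) 1) := by
    intro P hP
    apply s2BR_contOn_of_lip (K := Kχ * ‖P.2 - P.1‖)
    intro l hl l' hl'
    have := hbl.lip _ (hseg P hP l hl) _ (hseg P hP l' hl')
    simp only [sub_self, norm_zero, zero_add] at this
    rw [s2BR_path_sub] at this
    linarith
  have hcont3 : ∀ P ∈ s2AdmSet c T2 σ, ContinuousOn
      (fun l : ℝ => (l : ℂ) ^ 3 * χ (P.1, P.1 + (l : ℂ) * (P.2 - P.1))) (Set.Icc (0 : ℝ) 1) := by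
    intro P hP
    exact ContinuousOn.mul (by fun_prop) (hcont P hP)
  refine ⟨fun P => ∫ l in (0 : ℝ)..1, (l : ℂ) ^ 3 * χ (P.1, P.1 + (l : ℂ) * (P.2 - P.1)), ?_, ?_⟩
  · apply s2BT_bl_integral (F := fun l P => (l : ℂ) ^ 3 * χ (P.1, P.1 + (l : ℂ) * (P.2 - P.1)))
    · intro l hl
      have hl3 : ‖(l : ℂ) ^ 3‖ ≤ 1 := by
        rw [norm_pow, Complex.norm_real, Real.norm_eq_abs, abs_of_nonneg hl.1]
        exact pow_le_one₀ hl.1 hl.2
      constructor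
      · intro P hP
        rw [norm_mul]
        have := hbl.bd _ (hseg P hP l hl)
        calc _ ≤ 1 * Kχ := mul_le_mul hl3 this (norm_nonneg _) zero_le_one
          _ ≤ _ := by linarith
      · intro P hP P' hP'
        rw [← mul_sub, norm_mul]
        have h1 := hbl.lip _ (hseg P hP l hl) _ (hseg P' hP' l hl)
        simp only at h1
        have h2 : ‖P.1 + (l : ℂ) * (P.2 - P.1) - (P'.1 + (l : ℂ) * (P'.2 - P'.1))‖
            ≤ ‖P.1 - P'.1‖ + ‖P.2 - P'.2‖ := by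
          have e : P.1 + (l : ℂ) * (P.2 - P.1) - (P'.1 + (l : ℂ) * (P'.2 - P'.1))
              = ((1 - l : ℝ) : ℂ) * (P.1 - P'.1) + (l : ℂ) * (P.2 - P'.2) := by push_cast; ring
          rw [e]
          refine (norm_add_le _ _).trans ?_
          rw [norm_mul, norm_mul, Complex.norm_real, Complex.norm_real, Real.norm_eq_abs,
            Real.norm_eq_abs, abs_of_nonneg hl.1, abs_of_nonneg (by linarith [hl.2] : (0 : ℝ) ≤ 1 - l)]
          have a1 := norm_nonneg (P.1 - P'.1)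
          have a2 := norm_nonneg (P.2 - P'.2)
          nlinarith [hl.1, hl.2]
        have h3 : Kχ * (‖P.1 - P'.1‖ + ‖P.1 + (l : ℂ) * (P.2 - P.1) - (P'.1 + (l : ℂ) * (P'.2 - P'.1))‖)
            ≤ 2 * Kχ * (‖P.1 - P'.1‖ + ‖P.2 - P'.2‖) := by
          have a2 := norm_nonneg (P.2 - P'.2)
          nlinarith
        calc _ ≤ 1 * (2 * Kχ * (‖P.1 - P'.1‖ + ‖P.2 - P'.2‖)) :=
              mul_le_mul hl3 (h1.trans h3) (norm_nonneg _) zero_le_one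
          _ = _ := one_mul _
    · intro P hP
      exact s2BT_intervalIntegrable_of_contOn (hcont3 P hP)
  · intro P hP
    have hadm : S2Adm c T0 σ P.1 P.2 := s2BA_mono hT20 hP
    rw [s2B_rep hσ hU hc hT1 hm P.1 P.2 hadm]
    have e1 : ∫ l in (0 : ℝ)..1, s2K (U 0) P.1 (P.1 + (l : ℂ) * (P.2 - P.1))
        = ∫ l in (0 : ℝ)..1, ((l : ℂ) * ((P.2 - P.1) / 4)
          + (P.2 - P.1) ^ 3 * ((l : ℂ) ^ 3 * χ (P.1, P.1 + (l : ℂ) * (P.2 - P.1)))) := by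
      apply intervalIntegral.integral_congr
      intro l hl
      rw [Set.uIcc_of_le zero_le_one] at hl
      have := hK _ (hseg P hP l hl)
      simp only at this
      simp only [this]
      ring
    rw [e1, intervalIntegral.integral_add, intervalIntegral.integral_mul_const,
      intervalIntegral.integral_const_mul, s2BG_int_l]
    · ring
    · apply Continuous.intervalIntegrable; fun_prop
    · exact (s2BT_intervalIntegrable_of_contOn (hcont3 P hP)).const_mul _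

end Claimed.Agent.R269
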