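/-
Row 269, Section 2, UNIT B, package BMid, part C (helper159): invariant set of the Picard map, symmetries, iterates, limit.
-/
import Claimed.Agent.R269.S2.BMidB

set_option autoImplicit false

namespace Claimed.Agent.R269

open Complex ComplexConjugate Filter Topology MeasureTheory

/-- hypotheses on the pair. -/
structure S2BMp (σ L : ℝ) (X Y : ℂ) : Prop where
  short : 2 * L * ‖Y - X‖ ≤ 1
  marg : (1 + 8 * L * ‖Y - X‖) * max |X.im| |Y.im| ≤ σ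

/-- the invariant set of the Picard map. -/
structure S2BMe (L : ℝ) (X Y ε : ℂ) : Prop where
  nrm : ‖ε‖ ≤ 2 * L * ‖Y - X‖ ^ 2
  im : |ε.im| ≤ 8 * L * ‖Y - X‖ * max |X.im| |Y.im|

theorem s2BM_norm_sub_conj (z : ℂ) : ‖z - conj z‖ = 2 * |z.im| := by
  rw [Complex.sub_conj, norm_mul, Complex.norm_I, mul_one, Complex.norm_real, Real.norm_eq_abs,
    abs_mul]
  norm_num

theorem s2BM_p_max {σ L : ℝ} {X Y : ℂ} (hL : 0 ≤ L) (h : S2BMp σ L X Y) :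
    max |X.im| |Y.im| ≤ σ := by
  have h0 : 0 ≤ max |X.im| |Y.im| := le_max_of_le_left (abs_nonneg _)
  have h1 : 0 ≤ 8 * L * ‖Y - X‖ * max |X.im| |Y.im| := by positivity
  have := h.marg
  nlinarith

theorem s2BM_p_X {σ L : ℝ} {X Y : ℂ} (hL : 0 ≤ L) (h : S2BMp σ L X Y) : X ∈ s2cs σ :=
  (le_max_left _ _).trans (s2BM_p_max hL h)

theorem s2BM_p_Y {σ L : ℝ} {X Y : ℂ} (hL : 0 ≤ L) (h : S2BMp σ L X Y) : Y ∈ s2cs σ :=
  (le_max_right _ _).trans (s2BM_p_max hL h)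

theorem s2BM_m_im (X Y : ℂ) : |((X + Y) / 2).im| ≤ max |X.im| |Y.im| := by
  have e : ((X + Y) / 2).im = (X.im + Y.im) / 2 := by
    simp
  rw [e, abs_le]
  have h1 := le_max_left |X.im| |Y.im|
  have h2 := le_max_right |X.im| |Y.im|
  have a1 := abs_le.1 h1
  have a2 := abs_le.1 h2
  constructor <;> linarith [a1.1, a1.2, a2.1, a2.2]

theorem s2BM_T_im (X Y : ℂ) : |(Y - X).im| ≤ 2 * max |X.im| |Y.im| := by
  rw [Complex.sub_im, abs_le]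
  have h1 := le_max_left |X.im| |Y.im|
  have h2 := le_max_right |X.im| |Y.im|
  have a1 := abs_le.1 h1
  have a2 := abs_le.1 h2
  constructor <;> linarith [a1.1, a1.2, a2.1, a2.2]

theorem s2BM_e_im {L : ℝ} {X Y ε : ℂ} (he : S2BMe L X Y ε) :
    |((X + Y) / 2 + ε).im| ≤ (1 + 8 * L * ‖Y - X‖) * max |X.im| |Y.im| := by
  rw [Complex.add_im]
  refine (abs_add_le _ _).trans ?_
  have := s2BM_m_im X Y
  have := he.im
  linarith

theorem s2BM_e_mem {σ L : ℝ} {X Y ε : ℂ} (h : S2BMp σ L X Y) (he : S2BMe L X Y ε) :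
    (X + Y) / 2 + ε ∈ s2cs σ := (s2BM_e_im he).trans h.marg

theorem s2BM_p_conj {σ L : ℝ} {X Y : ℂ} (h : S2BMp σ L X Y) : S2BMp σ L (conj X) (conj Y) := by
  have e : ‖conj Y - conj X‖ = ‖Y - X‖ := by rw [← map_sub, Complex.norm_conj]
  constructor
  · rw [e]; exact h.short
  · rw [e]; simpa using h.marg

theorem s2BM_e_conj {L : ℝ} {X Y ε : ℂ} (h : S2BMe L X Y ε) :
    S2BMe L (conj X) (conj Y) (conj ε) := by
  have e : ‖conj Y - conj X‖ = ‖Y - X‖ := by rw [← map_sub, Complex.norm_conj]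
  constructor
  · rw [e, Complex.norm_conj]; exact h.nrm
  · rw [e]; simpa using h.im

theorem s2BM_dphi_conj {u : ℂ → ℂ} (hs : ∀ z, u (conj z) = conj (u z)) (p q : ℂ) :
    s2dphi u (conj p) (conj q) = conj (s2dphi u p q) := by
  unfold s2dphi
  apply s2P_conj
  intro t _
  rw [hs, Complex.exp_conj]

theorem s2BM_dphi_per {u : ℂ → ℂ} (hp : ∀ z, u (z + 2 * Real.pi) = u z) (p q : ℂ) :
    s2dphi u (p + 2 * Real.pi) (q + 2 * Real.pi) = s2dphi u p q := by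
  unfold s2dphi
  apply s2P_translate
  intro t _
  rw [hp]

theorem s2BM_step_conj {u : ℂ → ℂ} (hs : ∀ z, u (conj z) = conj (u z)) (X Y μ : ℂ) :
    s2muStep u (conj X) (conj Y) (conj μ) = conj (s2muStep u X Y μ) := by
  have em : (conj X + conj Y) / 2 = conj ((X + Y) / 2) := by
    rw [map_div₀, map_add, Complex.conj_ofNat]
  unfold s2muStep
  rw [em, s2BM_dphi_conj hs, s2BM_dphi_conj hs, s2BM_dphi_conj hs, hs]
  rw [map_sub, map_mul, map_sub, map_div₀, map_add, Complex.conj_ofNat, ← Complex.exp_conj, map_neg]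

theorem s2BM_step_per {u : ℂ → ℂ} (hp : ∀ z, u (z + 2 * Real.pi) = u z) (X Y μ : ℂ) :
    s2muStep u (X + 2 * Real.pi) (Y + 2 * Real.pi) (μ + 2 * Real.pi)
      = s2muStep u X Y μ + 2 * Real.pi := by
  have em : (X + 2 * Real.pi + (Y + 2 * Real.pi)) / 2 = (X + Y) / 2 + 2 * Real.pi := by ring
  unfold s2muStep
  rw [em, s2BM_dphi_per hp, s2BM_dphi_per hp, s2BM_dphi_per hp, hp]
  ring

theorem s2BM_Xi_conj {σ M : ℝ} {U : ℕ → ℂ → ℂ} (hσ : 0 ≤ σ) (hU : S2Fun σ M U) {X Y : ℂ} (ε : ℂ)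
    (hX : X ∈ s2cs σ) (hY : Y ∈ s2cs σ) :
    s2Xi U (conj X) (conj Y) (conj ε) = conj (s2Xi U X Y ε) := by
  have hX' : conj X ∈ s2cs σ := by simpa [s2cs] using hX
  have hY' : conj Y ∈ s2cs σ := by simpa [s2cs] using hY
  have em : (conj X + conj Y) / 2 = conj ((X + Y) / 2) := by
    rw [map_div₀, map_add, Complex.conj_ofNat]
  have h1 := s2BM_step_eq hσ hU (ε := conj ε) hX' hY'
  have h2 := s2BM_step_eq hσ hU (ε := ε) hX hY
  have h3 := s2BM_step_conj hU.sym X Y ((X + Y) / 2 + ε)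
  rw [map_add, ← em, h1, h2, map_add, ← em] at h3
  exact add_left_cancel h3

theorem s2BM_real_eb {L t : ℝ} (hL : 6 ≤ L) (ht : 0 ≤ t) (h : 2 * L * t ≤ 1) :
    2 * L * t ^ 2 ≤ t ∧ L * (2 * L * t ^ 2) ≤ 1 / 2 ∧ t ≤ 1 := by
  have h0 : 0 ≤ L * t := by positivity
  refine ⟨by nlinarith, ?_, by nlinarith⟩
  have : (2 * L * t) * (2 * L * t) ≤ 1 * 1 := mul_le_mul h h (by positivity) (by norm_num)
  nlinarith

theorem s2BM_real_two {L eb tb de dm dT : ℝ} (hL : 0 ≤ L) (heb0 : 0 ≤ eb) (h1 : eb ≤ tb)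
    (h2 : L * eb ≤ 1 / 2) (hde : 0 ≤ de) (hdm : 0 ≤ dm) :
    L * (eb * de + (eb ^ 2 + tb ^ 2) * dm + tb * dT)
      ≤ 1 / 2 * de + L * (2 * tb ^ 2 * dm + tb * dT) := by
  have a1 : L * eb * de ≤ 1 / 2 * de := mul_le_mul_of_nonneg_right h2 hde
  have a2 : eb ^ 2 ≤ tb ^ 2 := by nlinarith
  have a3 : L * (eb ^ 2 * dm) ≤ L * (tb ^ 2 * dm) :=
    mul_le_mul_of_nonneg_left (mul_le_mul_of_nonneg_right a2 hdm) hL
  nlinarith

theorem s2BM_two {σ M : ℝ} {U : ℕ → ℂ → ℂ} (hσ : 0 ≤ σ) (hU : S2Fun σ M U)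
    {X Y ε X' Y' ε' : ℂ} {tb : ℝ} (hp : S2BMp σ (s2LM M) X Y) (hp' : S2BMp σ (s2LM M) X' Y')
    (he : S2BMe (s2LM M) X Y ε) (he' : S2BMe (s2LM M) X' Y' ε')
    (ht : ‖Y - X‖ ≤ tb) (ht' : ‖Y' - X'‖ ≤ tb) (htb : 2 * s2LM M * tb ≤ 1) :
    ‖s2Xi U X Y ε - s2Xi U X' Y' ε'‖
      ≤ 1 / 2 * ‖ε - ε'‖ + s2LM M * (2 * tb ^ 2 * ‖(X + Y) / 2 - (X' + Y') / 2‖
          + tb * ‖(Y - X) - (Y' - X')‖) := by
  have hM := s2BT_M_nonneg hσ hU
  have hL := s2BM_LM_ge hM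
  have hL0 : 0 ≤ s2LM M := by linarith
  have htb0 : 0 ≤ tb := (norm_nonneg _).trans ht
  obtain ⟨r1, r2, r3⟩ := s2BM_real_eb hL htb0 htb
  have e1 : ‖ε‖ ≤ 2 * s2LM M * tb ^ 2 := he.nrm.trans (by gcongr)
  have e2 : ‖ε'‖ ≤ 2 * s2LM M * tb ^ 2 := he'.nrm.trans (by gcongr)
  refine (s2BM_Xi_lip hσ hU (s2BM_p_X hL0 hp) (s2BM_p_Y hL0 hp) (s2BM_e_mem hp he)
    (s2BM_p_X hL0 hp') (s2BM_p_Y hL0 hp') (s2BM_e_mem hp' he') e1 e2 (r1.trans r3) ht ht' r3).trans ?_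
  exact s2BM_real_two hL0 (by positivity) r1 r2 (norm_nonneg _) (norm_nonneg _)

theorem s2BM_contr {σ M : ℝ} {U : ℕ → ℂ → ℂ} (hσ : 0 ≤ σ) (hU : S2Fun σ M U)
    {X Y ε ε' : ℂ} (hp : S2BMp σ (s2LM M) X Y)
    (he : S2BMe (s2LM M) X Y ε) (he' : S2BMe (s2LM M) X Y ε') :
    ‖s2Xi U X Y ε - s2Xi U X Y ε'‖ ≤ 1 / 2 * ‖ε - ε'‖ := by
  have := s2BM_two hσ hU hp hp he he' le_rfl le_rfl hp.short
  simpa using this

theorem s2BM_e_step {σ M : ℝ} {U : ℕ → ℂ → ℂ} (hσ : 0 ≤ σ) (hU : S2Fun σ M U)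
    {X Y ε : ℂ} (hp : S2BMp σ (s2LM M) X Y) (he : S2BMe (s2LM M) X Y ε) :
    S2BMe (s2LM M) X Y (s2Xi U X Y ε) := by
  have hM := s2BT_M_nonneg hσ hU
  have hL := s2BM_LM_ge hM
  have hL0 : 0 ≤ s2LM M := by linarith
  obtain ⟨r1, r2, r3⟩ := s2BM_real_eb hL (norm_nonneg (Y - X)) hp.short
  constructor
  · refine (s2BM_Xi_bd hσ hU (s2BM_p_X hL0 hp) (s2BM_p_Y hL0 hp) (s2BM_e_mem hp he)).trans ?_
    have h1 : ‖ε‖ ≤ ‖Y - X‖ := he.nrm.trans r1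
    have h2 : ‖ε‖ ^ 2 ≤ ‖Y - X‖ ^ 2 := by
      have := norm_nonneg ε
      nlinarith
    nlinarith
  · have h := s2BM_two hσ hU hp (s2BM_p_conj hp) he (s2BM_e_conj he) le_rfl
      (by rw [← map_sub, Complex.norm_conj]) hp.short
    have em : (conj X + conj Y) / 2 = conj ((X + Y) / 2) := by
      rw [map_div₀, map_add, Complex.conj_ofNat]
    rw [s2BM_Xi_conj hσ hU ε (s2BM_p_X hL0 hp) (s2BM_p_Y hL0 hp), em, ← map_sub,
      s2BM_norm_sub_conj, s2BM_norm_sub_conj, s2BM_norm_sub_conj, s2BM_norm_sub_conj] at h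
    have i1 := s2BM_m_im X Y
    have i2 := s2BM_T_im X Y
    have i3 := he.im
    set I := max |X.im| |Y.im| with hI
    have hI0 : 0 ≤ I := le_max_of_le_left (abs_nonneg _)
    set t := ‖Y - X‖ with ht
    have ht0 : 0 ≤ t := norm_nonneg _
    set L := s2LM M with hLdef
    have j1 : t ^ 2 * |((X + Y) / 2).im| ≤ t * I := by
      have : t ^ 2 ≤ t := by nlinarith
      exact mul_le_mul this i1 (abs_nonneg _) ht0
    have j2 : t * |(Y - X).im| ≤ t * (2 * I) := mul_le_mul_of_nonneg_left i2 ht0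
    have j3 : L * (2 * t ^ 2 * (2 * |((X + Y) / 2).im|) + t * (2 * |(Y - X).im|))
        ≤ L * (8 * (t * I)) := by
      apply mul_le_mul_of_nonneg_left _ hL0
      linarith
    nlinarith

theorem s2BM_e_zero {L : ℝ} (hL : 0 ≤ L) (X Y : ℂ) : S2BMe L X Y 0 := by
  have hI0 : 0 ≤ max |X.im| |Y.im| := le_max_of_le_left (abs_nonneg _)
  constructor
  · rw [norm_zero]; positivity
  · simp only [Complex.zero_im, abs_zero]; positivity

theorem s2BM_iter_eq {σ M : ℝ} {U : ℕ → ℂ → ℂ} (hσ : 0 ≤ σ) (hU : S2Fun σ M U) {X Y : ℂ}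
    (hX : X ∈ s2cs σ) (hY : Y ∈ s2cs σ) (k : ℕ) :
    (s2muStep (U 0) X Y)^[k] ((X + Y) / 2) = (X + Y) / 2 + (s2Xi U X Y)^[k] 0 := by
  induction k with
  | zero => simp
  | succ k ih =>
    rw [Function.iterate_succ_apply', Function.iterate_succ_apply', ih, s2BM_step_eq hσ hU hX hY]

theorem s2BM_iter_e {σ M : ℝ} {U : ℕ → ℂ → ℂ} (hσ : 0 ≤ σ) (hU : S2Fun σ M U)
    {X Y : ℂ} (hp : S2BMp σ (s2LM M) X Y) (k : ℕ) : S2BMe (s2LM M) X Y ((s2Xi U X Y)^[k] 0) := by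
  have hM := s2BT_M_nonneg hσ hU
  have hL := s2BM_LM_ge hM
  induction k with
  | zero => exact s2BM_e_zero (by linarith) X Y
  | succ k ih => rw [Function.iterate_succ_apply']; exact s2BM_e_step hσ hU hp ih

theorem s2BM_iter_geo {σ M : ℝ} {U : ℕ → ℂ → ℂ} (hσ : 0 ≤ σ) (hU : S2Fun σ M U)
    {X Y : ℂ} (hp : S2BMp σ (s2LM M) X Y) (k : ℕ) :
    ‖(s2Xi U X Y)^[k + 1] 0 - (s2Xi U X Y)^[k] 0‖ ≤ 2 * s2LM M * ‖Y - X‖ ^ 2 * (1 / 2) ^ k := by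
  induction k with
  | zero => simpa using (s2BM_iter_e hσ hU hp 1).nrm
  | succ k ih =>
    have h1 := s2BM_contr hσ hU hp (s2BM_iter_e hσ hU hp (k + 1)) (s2BM_iter_e hσ hU hp k)
    rw [← Function.iterate_succ_apply' (s2Xi U X Y) (k + 1) 0,
      ← Function.iterate_succ_apply' (s2Xi U X Y) k 0] at h1
    refine h1.trans ?_
    rw [pow_succ (1 / 2 : ℝ) k]
    linarith

theorem s2BM_lim {σ M : ℝ} {U : ℕ → ℂ → ℂ} (hσ : 0 ≤ σ) (hU : S2Fun σ M U)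
    {X Y : ℂ} (hp : S2BMp σ (s2LM M) X Y) :
    ∃ e : ℂ, Tendsto (fun k : ℕ => (s2muStep (U 0) X Y)^[k] ((X + Y) / 2)) atTop
        (𝓝 ((X + Y) / 2 + e)) ∧
      s2mu (U 0) X Y = (X + Y) / 2 + e ∧ S2BMe (s2LM M) X Y e ∧ s2Xi U X Y e = e := by
  have hM := s2BT_M_nonneg hσ hU
  have hL := s2BM_LM_ge hM
  have hL0 : 0 ≤ s2LM M := by linarith
  obtain ⟨ht, -⟩ := s2P_lim (a := fun k : ℕ => (s2Xi U X Y)^[k] 0) (κ := 1 / 2)
    (D := 2 * s2LM M * ‖Y - X‖ ^ 2) (by norm_num) (by norm_num) (s2BM_iter_geo hσ hU hp)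
  set e := limUnder atTop (fun k : ℕ => (s2Xi U X Y)^[k] 0) with he
  have ht2 : Tendsto (fun k : ℕ => (s2muStep (U 0) X Y)^[k] ((X + Y) / 2)) atTop
      (𝓝 ((X + Y) / 2 + e)) := by
    have := ht.const_add ((X + Y) / 2)
    refine this.congr fun k => ?_
    exact (s2BM_iter_eq hσ hU (s2BM_p_X hL0 hp) (s2BM_p_Y hL0 hp) k).symm
  have hee : S2BMe (s2LM M) X Y e := by
    constructor
    · exact le_of_tendsto ht.norm (Eventually.of_forall fun k => (s2BM_iter_e hσ hU hp k).nrm)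
    · have h1 : Tendsto (fun k : ℕ => |((s2Xi U X Y)^[k] 0).im|) atTop (𝓝 |e.im|) :=
        ((Complex.continuous_im.tendsto e).comp ht).abs
      exact le_of_tendsto h1 (Eventually.of_forall fun k => (s2BM_iter_e hσ hU hp k).im)
  refine ⟨e, ht2, ht2.limUnder_eq, hee, ?_⟩
  -- fixed point
  have h1 : Tendsto (fun k : ℕ => (s2Xi U X Y)^[k + 1] 0) atTop (𝓝 (s2Xi U X Y e)) := by
    rw [tendsto_iff_norm_sub_tendsto_zero]
    have h2 : Tendsto (fun k : ℕ => 1 / 2 * ‖(s2Xi U X Y)^[k] 0 - e‖) atTop (𝓝 0) := by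
      have := (tendsto_iff_norm_sub_tendsto_zero.1 ht).const_mul (1 / 2 : ℝ)
      simpa using this
    refine squeeze_zero (fun _ => norm_nonneg _) (fun k => ?_) h2
    rw [Function.iterate_succ_apply']
    exact s2BM_contr hσ hU hp (s2BM_iter_e hσ hU hp k) hee
  exact tendsto_nhds_unique h1 (ht.comp (tendsto_add_atTop_nat 1))

end Claimed.Agent.R269
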