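/-
Row 269, Section 2, UNIT B, package BMid: the midpoint.   PROVED (helper159; parts BMidA, BMidB, BMidC).  Statement + route by helper159  (B1 in the header of S2/B.lean).

`u = U 0`, `H = s2H U 0`, `K = s2KH M`, `m = (X+Y)/2`, `T = Y-X`, `τ = ‖T‖`, `I = max |Im X| |Im Y|`.
STEP FORMULA (all points in `s2cs σ`; `s2Q_rep`/`s2P_add` for additivity of `s2dphi`, `s2BT_SD_eq` for `F = φ`, jets `φ, H, s2H U 1`):
   `s2muStep u X Y μ - m = (μ-m) ρ + e^{-u(m)} (T²/8) s2SD (s2H U 1) m (T/2)`,   `ρ = 1 - e^{-u(m)} s2DD H m μ`,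
   `|ρ| ≤ e^M K |μ-m|`   (`H(m) - s2DD H m μ`, `H` is `K`-Lipschitz).
LIPSCHITZ: for two data `(X,Y,μ)`, `(X',Y',μ')` with `τ,τ' ≤ τ̄ ≤ 1`, `|μ-m|,|μ'-m'| ≤ C₀τ̄²`:
   `|Δ(step - m)| ≤ C₁ τ̄² |Δ(μ-m)| + C₁ τ̄ (|ΔX|+|ΔY|)`.
SYMMETRY: `s2muStep u (conj X) (conj Y) (conj μ) = conj (s2muStep u X Y μ)`, and the step commutes with `+2π` (unconditional, from
   `S2Fun.sym`, `S2Fun.per`, `s2P_conj`, `s2P_translate`).
INVARIANTS of the iterates `μ_k`:  `|μ_k-m| ≤ C₀τ²`, `|Im(μ_k-m)| ≤ c₁ τ I`  [apply LIPSCHITZ to `(X,Y,μ_k)` and its conjugate: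
   `2|Im(step-m)| ≤ C₁τ²·2|Im(μ_k-m)| + C₁τ·4I`],   so `|Im μ_k| ≤ (1+c₁τ) I ≤ σ`;  `|μ_{k+1}-μ_k| ≤ (C₁τ²)^k C₀τ²`, `C₁T0² ≤ 1/2`.
LIMIT: `s2P_lim`; the step is continuous on the invariant set, so the limit is a fixed point: `s2dphi u m μ = (s2dphi u m X + s2dphi u m Y)/2`,
   which is mu_eq by additivity.  mu_lip: LIPSCHITZ at the two fixed points.  mu_conj / mu_per: the iterates have the symmetry.
-/
import Claimed.Agent.R269.S2.BMidC

set_option autoImplicit false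

namespace Claimed.Agent.R269

open Complex ComplexConjugate Filter Topology

/-- the midpoint is symmetric (by definition). -/
theorem s2B_mu_symm (u : ℂ → ℂ) (X Y : ℂ) : s2mu u Y X = s2mu u X Y := by
  have h : s2muStep u Y X = s2muStep u X Y := by
    funext μ
    unfold s2muStep
    rw [add_comm Y X, add_comm (s2dphi u ((X + Y) / 2) Y)]
  unfold s2mu
  rw [h, add_comm Y X]

theorem s2BM_adm {L σ : ℝ} (hL : 0 < L) {X Y : ℂ} (h : S2Adm (8 * L) (1 / (2 * L)) σ X Y) :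
    S2BMp σ L X Y := by
  constructor
  · have := h.1
    rw [le_div_iff₀ (by positivity)] at this
    linarith
  · exact h.2

theorem s2BM_iter_conj {u : ℂ → ℂ} (hs : ∀ z, u (conj z) = conj (u z)) (X Y : ℂ) (k : ℕ) :
    (s2muStep u (conj X) (conj Y))^[k] ((conj X + conj Y) / 2)
      = conj ((s2muStep u X Y)^[k] ((X + Y) / 2)) := by
  induction k with
  | zero => simp only [Function.iterate_zero, id]; rw [map_div₀, map_add, Complex.conj_ofNat]
  | succ k ih =>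
    rw [Function.iterate_succ_apply', Function.iterate_succ_apply', ih, s2BM_step_conj hs]

theorem s2BM_iter_per {u : ℂ → ℂ} (hp : ∀ z, u (z + 2 * Real.pi) = u z) (X Y : ℂ) (k : ℕ) :
    (s2muStep u (X + 2 * Real.pi) (Y + 2 * Real.pi))^[k] ((X + 2 * Real.pi + (Y + 2 * Real.pi)) / 2)
      = (s2muStep u X Y)^[k] ((X + Y) / 2) + 2 * Real.pi := by
  induction k with
  | zero => simp only [Function.iterate_zero, id]; ring
  | succ k ih =>
    rw [Function.iterate_succ_apply', Function.iterate_succ_apply', ih, s2BM_step_per hp]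

theorem s2BM_real_lip {L tb x dm dT d : ℝ} (hL : 0 ≤ L) (htb0 : 0 ≤ tb) (htb : tb ≤ 1)
    (hdm : dm ≤ d / 2) (hdT : dT ≤ d) (hd : 0 ≤ d)
    (h : x ≤ 1 / 2 * x + L * (2 * tb ^ 2 * dm + tb * dT)) : x ≤ 4 * L * tb * d := by
  have a1 : tb ^ 2 * dm ≤ tb * (d / 2) := by
    have : tb ^ 2 ≤ tb := by nlinarith
    calc tb ^ 2 * dm ≤ tb ^ 2 * (d / 2) := mul_le_mul_of_nonneg_left hdm (by positivity)
      _ ≤ tb * (d / 2) := mul_le_mul_of_nonneg_right this (by positivity)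
  have a2 : tb * dT ≤ tb * d := mul_le_mul_of_nonneg_left hdT htb0
  have a3 : L * (2 * tb ^ 2 * dm + tb * dT) ≤ L * (2 * (tb * d)) :=
    mul_le_mul_of_nonneg_left (by linarith) hL
  nlinarith

theorem s2B_mid (M : ℝ) : ∃ c T0 C : ℝ, 0 < c ∧ 0 < T0 ∧ T0 ≤ 1 ∧ 0 < C ∧
    ∀ (σ : ℝ) (U : ℕ → ℂ → ℂ), 0 ≤ σ → σ ≤ 1 → S2Fun σ M U → S2Mid c T0 C σ (U 0) := by
  by_cases hM : 0 ≤ M
  swap
  · exact ⟨1, 1, 1, one_pos, one_pos, le_rfl, one_pos,
      fun σ U hσ _ hU => absurd (s2BT_M_nonneg hσ hU) hM⟩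
  have hL := s2BM_LM_ge hM
  set L := s2LM M with hLdef
  have hL0 : 0 < L := by linarith
  refine ⟨8 * L, 1 / (2 * L), 4 * L, by positivity, by positivity, ?_, by positivity, ?_⟩
  · rw [div_le_one (by positivity)]; linarith
  intro σ U hσ _ hU
  have hit : ∀ X Y, S2Adm (8 * L) (1 / (2 * L)) σ X Y → ∀ k : ℕ,
      (s2muStep (U 0) X Y)^[k] ((X + Y) / 2) = (X + Y) / 2 + (s2Xi U X Y)^[k] 0 := by
    intro X Y h k
    have hp := s2BM_adm hL0 h
    exact s2BM_iter_eq hσ hU (s2BM_p_X hL0.le hp) (s2BM_p_Y hL0.le hp) k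
  constructor
  · intro X Y h k
    rw [hit X Y h k]
    exact s2BM_e_im (s2BM_iter_e hσ hU (s2BM_adm hL0 h) k)
  · intro X Y h k
    rw [hit X Y h k, add_sub_cancel_left]
    refine (s2BM_iter_e hσ hU (s2BM_adm hL0 h) k).nrm.trans ?_
    have := sq_nonneg ‖Y - X‖
    nlinarith
  · intro X Y h k
    rw [hit X Y h k, hit X Y h (k + 1), add_sub_add_left_eq_sub]
    refine (s2BM_iter_geo hσ hU (s2BM_adm hL0 h) k).trans ?_
    have : 0 ≤ ‖Y - X‖ ^ 2 * (1 / 2 : ℝ) ^ k := by positivity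
    nlinarith
  · intro X Y h
    obtain ⟨e, -, he, hee, -⟩ := s2BM_lim hσ hU (s2BM_adm hL0 h)
    rw [he]
    exact s2BM_e_im hee
  · intro X Y h
    obtain ⟨e, -, he, hee, -⟩ := s2BM_lim hσ hU (s2BM_adm hL0 h)
    rw [he, add_sub_cancel_left]
    refine hee.nrm.trans ?_
    have := sq_nonneg ‖Y - X‖
    nlinarith
  · intro X Y h
    have hp := s2BM_adm hL0 h
    obtain ⟨e, -, he, hee, hfix⟩ := s2BM_lim hσ hU hp
    have hX := s2BM_p_X hL0.le hp
    have hY := s2BM_p_Y hL0.le hp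
    have hμ := s2BM_e_mem hp hee
    have hm := s2BM_mid_mem hX hY
    obtain ⟨φ, A, B, E, -, -, -, -, hdphi, -, -⟩ := s2Q_rep hσ hU
    have h1 := s2BM_step_eq hσ hU (ε := e) hX hY
    rw [hfix] at h1
    unfold s2muStep at h1
    rw [hdphi _ hm _ hμ, hdphi _ hm _ hX, hdphi _ hm _ hY] at h1
    have h2 : exp (-(U 0 ((X + Y) / 2))) * (φ ((X + Y) / 2 + e) - φ ((X + Y) / 2)
        - (φ X - φ ((X + Y) / 2) + (φ Y - φ ((X + Y) / 2))) / 2) = 0 := by
      linear_combination -h1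
    have h3 := (mul_eq_zero.1 h2).resolve_left (Complex.exp_ne_zero _)
    rw [he, hdphi _ hX _ hμ, hdphi _ hμ _ hY]
    linear_combination 2 * h3
  · intro X Y X' Y' h h'
    have hp := s2BM_adm hL0 h
    have hp' := s2BM_adm hL0 h'
    obtain ⟨e, -, he, hee, hfix⟩ := s2BM_lim hσ hU hp
    obtain ⟨e', -, he', hee', hfix'⟩ := s2BM_lim hσ hU hp'
    rw [he, he', add_sub_cancel_left, add_sub_cancel_left]
    have htb : 2 * L * max ‖Y - X‖ ‖Y' - X'‖ ≤ 1 := by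
      rcases max_cases ‖Y - X‖ ‖Y' - X'‖ with ⟨hh, -⟩ | ⟨hh, -⟩
      · rw [hh]; exact hp.short
      · rw [hh]; exact hp'.short
    have h2 := s2BM_two hσ hU hp hp' hee hee' (le_max_left _ _) (le_max_right _ _) htb
    rw [hfix, hfix'] at h2
    have htb0 : 0 ≤ max ‖Y - X‖ ‖Y' - X'‖ := le_max_of_le_left (norm_nonneg _)
    obtain ⟨-, -, r3⟩ := s2BM_real_eb hL htb0 htb
    have n1 : ‖(X + Y) / 2 - (X' + Y') / 2‖ ≤ (‖X - X'‖ + ‖Y - Y'‖) / 2 := by
      have e1 : (X + Y) / 2 - (X' + Y') / 2 = ((X - X') + (Y - Y')) / 2 := by ring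
      rw [e1, norm_div]
      have : ‖(2 : ℂ)‖ = 2 := by simp
      rw [this]
      have := norm_add_le (X - X') (Y - Y')
      linarith
    have n2 : ‖(Y - X) - (Y' - X')‖ ≤ ‖X - X'‖ + ‖Y - Y'‖ := by
      have e1 : (Y - X) - (Y' - X') = (Y - Y') - (X - X') := by ring
      rw [e1]
      have := norm_sub_le (Y - Y') (X - X')
      linarith
    exact s2BM_real_lip hL0.le htb0 r3 n1 n2 (by positivity) h2
  · intro X Y h
    obtain ⟨e, ht, he, -, -⟩ := s2BM_lim hσ hU (s2BM_adm hL0 h)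
    rw [he]
    have h1 : Tendsto (fun k : ℕ => (s2muStep (U 0) (conj X) (conj Y))^[k] ((conj X + conj Y) / 2))
        atTop (𝓝 (conj ((X + Y) / 2 + e))) := by
      have := (Complex.continuous_conj.tendsto _).comp ht
      refine this.congr fun k => ?_
      exact (s2BM_iter_conj hU.sym X Y k).symm
    exact h1.limUnder_eq
  · intro X Y h
    obtain ⟨e, ht, he, -, -⟩ := s2BM_lim hσ hU (s2BM_adm hL0 h)
    rw [he]
    have h1 : Tendsto (fun k : ℕ => (s2muStep (U 0) (X + 2 * Real.pi) (Y + 2 * Real.pi))^[k]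
        ((X + 2 * Real.pi + (Y + 2 * Real.pi)) / 2)) atTop (𝓝 ((X + Y) / 2 + e + 2 * Real.pi)) := by
      have := ht.add_const (2 * (Real.pi : ℂ))
      refine this.congr fun k => ?_
      exact (s2BM_iter_per hU.per X Y k).symm
    exact h1.limUnder_eq

end Claimed.Agent.R269
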