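/-
Row 269, Section 2, UNIT B, leaf BMidH: holomorphic dependence of the midpoint.   PROVED (helper159).
The iterates `x ↦ (s2muStep u (X x) (Y x))^[k] ((X x + Y x)/2)` are holomorphic on `Ω` by induction: they take values in
`s2cs σ₁ ⊆ s2os σ` (`S2Mid.it_im` at width `σ₁`: note `S2Fun σ₁ M U` holds too, or use the bound `(1+cτ)I ≤ σ₁` directly), where `u` and the
primitive `φ` of `s2Q_rep` are complex differentiable, and `s2dphi u p q = φ q - φ p`.  Uniform geometric convergence: `S2Mid.it_geo`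
(`‖Y-X‖ ≤ T0`), then `s2P_lim_holo`.
-/
import Claimed.Agent.R269.S2.BT
import Claimed.Agent.R269.S2.Q
import Claimed.Agent.R269.S2.PH

set_option autoImplicit false

namespace Claimed.Agent.R269

open Complex ComplexConjugate Filter Topology

theorem s2BH_os_sub_cs (σ : ℝ) : s2os σ ⊆ s2cs σ := by
  intro z hz
  have h : |z.im| < σ := hz
  exact h.le

theorem s2BH_cs_nhds {σ : ℝ} {z : ℂ} (hz : z ∈ s2os σ) : s2cs σ ∈ 𝓝 z :=
  Filter.mem_of_superset ((s2P_isOpen_os σ).mem_nhds hz) (s2BH_os_sub_cs σ)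

theorem s2BH_diffOn {σ : ℝ} {F F1 : ℂ → ℂ}
    (hd : ∀ z ∈ s2cs σ, HasDerivWithinAt F (F1 z) (s2cs σ) z) : DifferentiableOn ℂ F (s2os σ) :=
  fun z hz => ((hd z (s2BH_os_sub_cs σ hz)).hasDerivAt (s2BH_cs_nhds hz)).differentiableAt.differentiableWithinAt

theorem s2B_mid_holo {M c T0 C σ : ℝ} {U : ℕ → ℂ → ℂ} (hσ : 0 ≤ σ) (hU : S2Fun σ M U)
    (hc : 0 < c) (hm : S2Mid c T0 C σ (U 0)) :
    ∀ σ₁ < σ, ∀ Ω : Set ℂ, IsOpen Ω → ∀ X Y : ℂ → ℂ,
      DifferentiableOn ℂ X Ω → DifferentiableOn ℂ Y Ω → (∀ x ∈ Ω, S2Adm c T0 σ₁ (X x) (Y x)) →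
      DifferentiableOn ℂ (fun x => s2mu (U 0) (X x) (Y x)) Ω := by
  intro σ₁ hσ₁ Ω hΩ X Y hX hY hadm
  obtain ⟨φ, A, B, E, hφ, -, -, -, hdphi, -, -⟩ := s2Q_rep hσ hU
  have hφd : DifferentiableOn ℂ φ (s2os σ) := s2BH_diffOn hφ
  have hud : DifferentiableOn ℂ (U 0) (s2os σ) := s2BH_diffOn (hU.der 0 (by norm_num))
  have hadm' : ∀ x ∈ Ω, S2Adm c T0 σ (X x) (Y x) := fun x hx =>
    ⟨(hadm x hx).1, (hadm x hx).2.trans hσ₁.le⟩
  have hmax : ∀ x ∈ Ω, max |(X x).im| |(Y x).im| ≤ σ₁ := by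
    intro x hx
    have h0 : 0 ≤ max |(X x).im| |(Y x).im| := le_max_of_le_left (abs_nonneg _)
    have h1 : 0 ≤ c * ‖Y x - X x‖ * max |(X x).im| |(Y x).im| := by positivity
    have := (hadm x hx).2
    nlinarith
  have hXo : ∀ x ∈ Ω, X x ∈ s2os σ := fun x hx =>
    lt_of_le_of_lt ((le_max_left _ _).trans (hmax x hx)) hσ₁
  have hYo : ∀ x ∈ Ω, Y x ∈ s2os σ := fun x hx =>
    lt_of_le_of_lt ((le_max_right _ _).trans (hmax x hx)) hσ₁
  have hmo : ∀ x ∈ Ω, (X x + Y x) / 2 ∈ s2os σ := by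
    intro x hx
    have := (s2P_convex_os σ).add_smul_sub_mem (hXo x hx) (hYo x hx) (t := 1 / 2)
      ⟨by norm_num, by norm_num⟩
    convert this using 1
    rw [Complex.real_smul]; push_cast; ring
  set a : ℕ → ℂ → ℂ := fun k x => (s2muStep (U 0) (X x) (Y x))^[k] ((X x + Y x) / 2) with ha
  have hao : ∀ k, ∀ x ∈ Ω, a k x ∈ s2os σ := fun k x hx =>
    lt_of_le_of_lt ((hm.it_im _ _ (hadm' x hx) k).trans (hadm x hx).2) hσ₁
  have hmd : DifferentiableOn ℂ (fun x => (X x + Y x) / 2) Ω := (hX.add hY).div_const 2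
  have had : ∀ k, DifferentiableOn ℂ (a k) Ω := by
    intro k
    induction k with
    | zero => exact hmd
    | succ k ih =>
      have h1 : DifferentiableOn ℂ (fun x => a k x - exp (-(U 0 ((X x + Y x) / 2))) *
          (φ (a k x) - (φ (X x) + φ (Y x)) / 2)) Ω := by
        have d1 : DifferentiableOn ℂ (fun x => U 0 ((X x + Y x) / 2)) Ω := hud.comp hmd hmo
        have d2 : DifferentiableOn ℂ (fun x => φ (a k x)) Ω := hφd.comp ih (hao k)
        have d3 : DifferentiableOn ℂ (fun x => φ (X x)) Ω := hφd.comp hX hXo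
        have d4 : DifferentiableOn ℂ (fun x => φ (Y x)) Ω := hφd.comp hY hYo
        exact ih.sub (d1.neg.cexp.mul (d2.sub ((d3.add d4).div_const 2)))
      refine h1.congr fun x hx => ?_
      have e1 : a (k + 1) x = s2muStep (U 0) (X x) (Y x) (a k x) := by
        simp only [ha]; rw [Function.iterate_succ_apply']
      have s := s2BH_os_sub_cs σ
      rw [e1, s2muStep, hdphi _ (s (hmo x hx)) _ (s (hao k x hx)), hdphi _ (s (hmo x hx)) _ (s (hXo x hx)),
        hdphi _ (s (hmo x hx)) _ (s (hYo x hx))]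
      ring
  have hgeo : ∀ k, ∀ x ∈ Ω, ‖a (k + 1) x - a k x‖ ≤ (|C| * T0 ^ 2) * (1 / 2) ^ k := by
    intro k x hx
    refine (hm.it_geo _ _ (hadm' x hx) k).trans ?_
    apply mul_le_mul_of_nonneg_right _ (by positivity)
    have h1 : ‖Y x - X x‖ ^ 2 ≤ T0 ^ 2 := by
      have := (hadm x hx).1
      have := norm_nonneg (Y x - X x)
      nlinarith
    calc C * ‖Y x - X x‖ ^ 2 ≤ |C| * ‖Y x - X x‖ ^ 2 :=
          mul_le_mul_of_nonneg_right (le_abs_self C) (by positivity)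
      _ ≤ |C| * T0 ^ 2 := mul_le_mul_of_nonneg_left h1 (abs_nonneg C)
  exact s2P_lim_holo hΩ (by norm_num) (by norm_num) had hgeo

end Claimed.Agent.R269
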