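/-
Row 269, Section 2, UNIT B, leaf BMidI: dependence of the midpoint on the input (real axis, crude).   PROVED (helper159).
A PRIORI ESTIMATE from the equation.  For real `X,Y`, `ε = μ-m` solves `ε · s2DD H m μ = (T²/8) s2SD H₁ m (T/2) =: S` (both inputs; from mu_eq).
Crude form avoiding jets of the difference:  `S = (s2dphi u m X + s2dphi u m Y)/2`, `|S_u - S_u'| ≤ τ e^M e^{…}ε₀`-type bounds from
`|e^{u} - e^{u'}| ≤ e^M |u-u'|`;  `|s2DD H_u m μ_u - s2DD H_u' m μ_u'| ≤ K|μ_u-μ_u'| + e^M ε₀`;  `|s2DD| ≥ e^{-M}/2`, `|S| ≤ Kτ²/8`: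
absorb the term with `|μ_u-μ_u'|` for `T1` small.
-/
import Claimed.Agent.R269.S2.BMidB

set_option autoImplicit false

namespace Claimed.Agent.R269

open Complex ComplexConjugate Filter Topology MeasureTheory

theorem s2BI_real_mem (x : ℝ) : (x : ℂ) ∈ s2cs 0 := by simp [s2cs]

theorem s2BI_eq_re {z : ℂ} (hz : z ∈ s2cs 0) : z = (z.re : ℂ) := by
  have h : |z.im| ≤ 0 := hz
  have h2 : z.im = 0 := abs_eq_zero.1 (le_antisymm h (abs_nonneg _))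
  apply Complex.ext <;> simp [h2]

theorem s2BI_pt {u u' : ℂ → ℂ} {ε : ℝ} (hε : ∀ x : ℝ, ‖u x - u' x‖ ≤ ε) {z : ℂ} (hz : z ∈ s2cs 0) :
    ‖u z - u' z‖ ≤ ε := by
  rw [s2BI_eq_re hz]; exact hε _

/-- dependence of `φ(q) - φ(p)` on the input, real axis. -/
theorem s2BI_dphi_inp {M ε : ℝ} {U U' : ℕ → ℂ → ℂ} (hU : S2Fun 0 M U) (hU' : S2Fun 0 M U')
    (hε : ∀ x : ℝ, ‖U 0 x - U' 0 x‖ ≤ ε) {p q : ℂ} (hp : p ∈ s2cs 0) (hq : q ∈ s2cs 0) :
    ‖s2dphi (U 0) p q - s2dphi (U' 0) p q‖ ≤ Real.exp M * ε * ‖q - p‖ := by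
  have i1 := s2BT_intervalIntegrable_of_contOn
    (s2BT_cont_path (s2BT_H_cont hU 0 (by norm_num)) p (q - p) (fun r hr => s2P_seg_mem hp hq hr))
  have i2 := s2BT_intervalIntegrable_of_contOn
    (s2BT_cont_path (s2BT_H_cont hU' 0 (by norm_num)) p (q - p) (fun r hr => s2P_seg_mem hp hq hr))
  rw [s2BT_dphi, s2BT_dphi, ← mul_sub, s2DD, s2DD, ← intervalIntegral.integral_sub i1 i2, norm_mul,
    mul_comm]
  apply mul_le_mul_of_nonneg_right _ (norm_nonneg _)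
  have h1 : ‖∫ t in (0 : ℝ)..1, (s2H U 0 (p + (t : ℂ) * (q - p)) - s2H U' 0 (p + (t : ℂ) * (q - p)))‖
      ≤ (Real.exp M * ε) * |(1 : ℝ) - 0| := by
    apply intervalIntegral.norm_integral_le_of_norm_le_const
    intro t ht
    rw [Set.uIoc_of_le zero_le_one] at ht
    have hz := s2P_seg_mem hp hq (Set.Ioc_subset_Icc_self ht)
    show ‖exp (U 0 _) - exp (U' 0 _)‖ ≤ _
    refine (s2BT_exp_lip (hU.bd 0 (by norm_num) _ hz) (hU'.bd 0 (by norm_num) _ hz)).trans ?_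
    exact mul_le_mul_of_nonneg_left (s2BI_pt hε hz) (Real.exp_pos M).le
  simpa using h1

theorem s2B_mid_inp (M c T0 C : ℝ) (hc : 0 < c) (hT0 : 0 < T0) (hT1 : T0 ≤ 1) (hC : 0 < C) :
    ∃ T1 K : ℝ, 0 < T1 ∧ T1 ≤ T0 ∧ 0 < K ∧
    ∀ U U' : ℕ → ℂ → ℂ, S2Fun 0 M U → S2Fun 0 M U' → S2Mid c T0 C 0 (U 0) → S2Mid c T0 C 0 (U' 0) →
      ∀ ε : ℝ, (∀ x : ℝ, ‖U 0 x - U' 0 x‖ ≤ ε) → ∀ X Y : ℝ, |Y - X| ≤ T1 →
        ‖s2mu (U 0) X Y - s2mu (U' 0) X Y‖ ≤ K * ε := by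
  by_cases hM : 0 ≤ M
  swap
  · exact ⟨T0, 1, hT0, le_rfl, one_pos, fun U U' hU => absurd (s2BT_M_nonneg le_rfl hU) hM⟩
  have hKH := s2BM_KH_pos hM
  set KH := s2KH M with hKHdef
  have hE : 0 < Real.exp (-M) := Real.exp_pos _
  have hE2 : 0 < Real.exp M := Real.exp_pos _
  refine ⟨min T0 (Real.exp (-M) / (4 * KH * C)), 2 * (C + 1) * Real.exp M * Real.exp M,
    lt_min hT0 (by positivity), min_le_left _ _, by positivity, ?_⟩
  intro U U' hU hU' hm hm' ε hε X Y hXY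
  have hτ0 : ‖(Y : ℂ) - (X : ℂ)‖ = |Y - X| := by
    rw [← Complex.ofReal_sub, Complex.norm_real, Real.norm_eq_abs]
  have hτ1 : |Y - X| ≤ T0 := hXY.trans (min_le_left _ _)
  have hτ2 : |Y - X| ≤ Real.exp (-M) / (4 * KH * C) := hXY.trans (min_le_right _ _)
  have hadm : S2Adm c T0 0 (X : ℂ) (Y : ℂ) := by
    refine ⟨by rw [hτ0]; exact hτ1, ?_⟩
    simp
  have hX := s2BI_real_mem X
  have hY := s2BI_real_mem Y
  have him : ∀ {u : ℂ → ℂ}, S2Mid c T0 C 0 u → s2mu u X Y ∈ s2cs 0 := by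
    intro u h
    have := h.mu_im _ _ hadm
    simpa [s2cs] using this
  set μ := s2mu (U 0) X Y with hμ
  set μ' := s2mu (U' 0) X Y with hμ'
  have hμS : μ ∈ s2cs 0 := him hm
  have hμS' : μ' ∈ s2cs 0 := him hm'
  set τ := |Y - X| with hτ
  have hτn : 0 ≤ τ := abs_nonneg _
  have hτ1' : τ ≤ 1 := hτ1.trans hT1
  have hτsq : τ ^ 2 ≤ τ := by nlinarith
  have n1 : ‖μ - ((X : ℂ) + Y) / 2‖ ≤ C * τ ^ 2 := by
    have := hm.mu_near _ _ hadm; rwa [hτ0] at this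
  have n2 : ‖μ' - ((X : ℂ) + Y) / 2‖ ≤ C * τ ^ 2 := by
    have := hm'.mu_near _ _ hadm; rwa [hτ0] at this
  have hε0 : 0 ≤ ε := (norm_nonneg _).trans (hε 0)
  obtain ⟨φ, A, B, E, -, -, -, -, hdphi, -, -⟩ := s2Q_rep le_rfl hU
  have eq1 := hm.mu_eq _ _ hadm
  have eq2 := hm'.mu_eq _ _ hadm
  rw [← hμ] at eq1
  rw [← hμ'] at eq2
  -- the key identity
  have key : 2 * s2dphi (U 0) μ μ' = (s2dphi (U 0) X μ' - s2dphi (U' 0) X μ')
      - (s2dphi (U 0) μ' Y - s2dphi (U' 0) μ' Y) := by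
    rw [hdphi _ hX _ hμS, hdphi _ hμS _ hY] at eq1
    rw [hdphi _ hμS _ hμS', hdphi _ hX _ hμS', hdphi _ hμS' _ hY, eq2]
    linear_combination (-1 : ℂ) * eq1
  have b1 := s2BI_dphi_inp hU hU' hε hX hμS'
  have b2 := s2BI_dphi_inp hU hU' hε hμS' hY
  have d1 : ‖μ' - (X : ℂ)‖ ≤ C + 1 := by
    have e : μ' - (X : ℂ) = (μ' - ((X : ℂ) + Y) / 2) + ((Y : ℂ) - X) / 2 := by ring
    rw [e]
    refine (norm_add_le _ _).trans ?_
    rw [norm_div, hτ0]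
    have : ‖(2 : ℂ)‖ = 2 := by simp
    rw [this]
    nlinarith
  have d2 : ‖(Y : ℂ) - μ'‖ ≤ C + 1 := by
    have e : (Y : ℂ) - μ' = ((Y : ℂ) - X) / 2 - (μ' - ((X : ℂ) + Y) / 2) := by ring
    rw [e]
    refine (norm_sub_le _ _).trans ?_
    rw [norm_div, hτ0]
    have : ‖(2 : ℂ)‖ = 2 := by simp
    rw [this]
    nlinarith
  have up : ‖2 * s2dphi (U 0) μ μ'‖ ≤ 2 * (Real.exp M * ε * (C + 1)) := by
    rw [key]
    refine (norm_sub_le _ _).trans ?_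
    have hEe : 0 ≤ Real.exp M * ε := by positivity
    have c1 := b1.trans (mul_le_mul_of_nonneg_left d1 hEe)
    have c2 := b2.trans (mul_le_mul_of_nonneg_left d2 hEe)
    linarith
  -- lower bound of the divided difference
  have dμ : ‖μ' - μ‖ ≤ 2 * C * τ := by
    have e : μ' - μ = (μ' - ((X : ℂ) + Y) / 2) - (μ - ((X : ℂ) + Y) / 2) := by ring
    rw [e]
    refine (norm_sub_le _ _).trans ?_
    nlinarith
  have l1 : ‖s2DD (s2H U 0) μ μ' - s2H U 0 μ‖ ≤ KH * ‖μ' - μ‖ := by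
    have := s2BT_DD_lip (s2BT_H_der hU 0 (by norm_num)) (s2BT_H_bd le_rfl hU 1 (by norm_num))
      hμS hμS' hμS hμS
    rw [s2BT_DD_self] at this
    simpa using this
  have l2 : KH * ‖μ' - μ‖ ≤ Real.exp (-M) / 2 := by
    have h1 : KH * ‖μ' - μ‖ ≤ KH * (2 * C * τ) := mul_le_mul_of_nonneg_left dμ (by linarith)
    have h2 : τ * (4 * KH * C) ≤ Real.exp (-M) := by
      rwa [le_div_iff₀ (by positivity)] at hτ2
    nlinarith
  have l3 := s2BT_H_lower hU μ hμS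
  have l4 : Real.exp (-M) / 2 ≤ ‖s2DD (s2H U 0) μ μ'‖ := by
    have := norm_sub_norm_le (s2H U 0 μ) (s2H U 0 μ - s2DD (s2H U 0) μ μ')
    rw [sub_sub_cancel, norm_sub_rev] at this
    linarith
  rw [s2BT_dphi, norm_mul, norm_mul] at up
  have h2 : ‖(2 : ℂ)‖ = 2 := by simp
  rw [h2] at up
  have f1 : ‖μ' - μ‖ * (Real.exp (-M) / 2) ≤ Real.exp M * ε * (C + 1) := by
    have := mul_le_mul_of_nonneg_left l4 (norm_nonneg (μ' - μ))
    linarith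
  have hEE : Real.exp (-M) * Real.exp M = 1 := by rw [← Real.exp_add]; simp
  rw [norm_sub_rev]
  have f2 := mul_le_mul_of_nonneg_right f1 hE2.le
  have f3 : ‖μ' - μ‖ * (Real.exp (-M) / 2) * Real.exp M = ‖μ' - μ‖ / 2 := by
    calc _ = ‖μ' - μ‖ / 2 * (Real.exp (-M) * Real.exp M) := by ring
      _ = _ := by rw [hEE, mul_one]
  rw [f3] at f2
  linarith

end Claimed.Agent.R269
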