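/-
Row 269, Section 2, UNIT B (export): two-point analysis (midpoint, `D₁`, forcing `f`), uniform on closed strips.
Replaces P1 Section 2.2 (expansions) and the composition estimates in the proof of Lemma 2.3.
Statement + route + glue by helper159 (owner of this file).  Leaves: S2/BT, BMid, BMidH, BMidI, BNu, BRep, BChi, BG, BF.

NOTATION. `u = U 0`, `H = e^u`, `m = (X+Y)/2`, `T = Y-X`, `τ = ‖T‖`, `S = s2cs σ` (convex).  "BL" = bounded and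
Lipschitz in `(X,Y)` w.r.t. `‖ΔX‖+‖ΔY‖` on the set of admissible pairs, constants depending on `M` only.

TOOLS (for a function `F` with jets `F,F₁,F₂,F₃` on `S`: `HasDerivWithinAt` within `S`, all bounded):
  DD[F](p,q) = ∫₀¹ F₁(p+t(q-p)) dt :     F(q)-F(p) = (q-p) DD[F](p,q),  |DD| ≤ sup|F₁|,  Lipschitz with sup|F₂|;
  SD[F](m,h) = ∫₀¹ (1-r)(F₂(m+rh)+F₂(m-rh)) dr :  F(m+h)+F(m-h)-2F(m) = h² SD[F](m,h), |SD| ≤ sup|F₂|, Lip. sup|F₃|.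
  Apply them to `u` (jets U 0..3), `H = e^u`, `φ` (`φ' = H`, from `s2Q_rep`).  BL functions are closed under
  `+, *`, averaging `∫₀¹ … dλ`, and composition with `exp, sin, cos` and with
  `E₁(x) = ∫₀¹ e^{tx} dt`  (`e^x = 1 + x E₁(x)`),   `s(w) = ∫₀¹ (1-t)²/2 · cos(tw) dt`  (`sin w = w - w³ s(w)`).

B1 MIDPOINT.  With `ε = μ - m` the Picard map is
    `ε ↦ ε·ρ(m,ε) + e^{-u(m)} (T²/8) SD[φ](m,T/2)`,  `ρ(m,ε) = 1 - e^{-u(m)} DD[φ](m,m+ε) = O(|ε|)`.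
  Invariant set  `{|ε| ≤ C₀τ², |Im ε| ≤ c₁ τ max(|Im X|,|Im Y|)}`; contraction constant `O(τ²)`.
  The Im-bound is preserved because the map commutes with conjugation of `(X,Y,ε)`, so that
  `Im(image) = (image(X,Y,ε) - image(X̄,Ȳ,ε̄))/2i`, and the map is Lipschitz:
  `|Δ image| ≤ Cτ²|Δε| + C(τ|ΔT| + τ²|Δm|)`.  With `c ≥ c₁`, admissibility keeps every evaluation point in `S`.
  This gives mu_im, mu_near, mu_eq (additivity of `s2dphi`), mu_lip, mu_conj, mu_per; mu_holo by `s2P_lim_holo`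
  (iterates are compositions of `u, φ`, holomorphic on `s2os σ ⊇ s2cs σ₁`); mu_inp by comparing the two maps.
B2  For `T ≠ 0`, `ν = ε/T²` solves `ν · DD[φ](m, m+T²ν) = SD[φ](m,T/2)/8`; hence `ν` is BL (a priori estimate from the
  equation; no iteration).  [`ν ≈ u'(m)/8`.]
B3  `λ ↦ μ(X, X+λT)` is differentiable on `[0,1]` with derivative `T e^{u(Y_λ)-u(μ_λ)}/2` (Lipschitz + mu_eq + `φ' ≠ 0`), so
    `D₁(X,X+T) = T ∫₀¹ 𝒦(X,X+λT) dλ`,   `𝒦(X,Y) = ½ e^{u(X)+u(Y)-3u(μ)} sin(dφ(X,Y)/2)`     (`= D₁₂`).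
B4  `u(X)+u(Y)-2u(m) = T² α₁`, `α₁ = SD[u](m,T/2)/4`;  `u(μ)-u(m) = T² α₂`, `α₂ = ν DD[u](m,μ)`;
    `dφ(X,Y) = T (H(m) + T² a₃)`, `a₃ = ∫₀^{1/2} r² SD[H](m,rT) dr`;  `β = α₁-3α₂`, `α₃ = e^{-u(m)} a₃`,
    `w = (T/2)(H(m)+T²a₃)`, `γ = (H(m)+T²a₃)² s(w)/4`.  Then
    `𝒦 = (T/4)(1+T²α₃)(1+T²β E₁(T²β))(1-T²γ) = T/4 + T³ χ`,  `χ` a polynomial in BL functions and `T`: BL.
B5  `D₁(X,X+T) = T²/8 + T⁴ g(X,T)`, `g = ∫₀¹ λ³ χ(X,X+λT) dλ` BL.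
B6  With `s = X-X₋`, `t = X₊-X`:  `f = -8[(t-s)(t²+s²) g(X,t) + s⁴ (g(X,t)-g(X,-s))/(t+s)]`, `‖t+s‖ ≥ δ`:
    f_bd and f_lip are algebra.  f_conj, f_per from `s2P_conj`, `s2P_translate`; f_holo from mu_holo + `s2Q_rep`;
    f_inp: crude, `|D₁ᵘ - D₁ᵘ'| ≤ Cε`, divide by `‖X₊-X₋‖ ≥ δ`.
-/
import Claimed.Agent.R269.S2.BMid
import Claimed.Agent.R269.S2.BMidH
import Claimed.Agent.R269.S2.BMidI
import Claimed.Agent.R269.S2.BG
import Claimed.Agent.R269.S2.BF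

set_option autoImplicit false

namespace Claimed.Agent.R269

open Complex ComplexConjugate Filter Topology

theorem s2B_adm_mono {c T T' σ : ℝ} {X Y : ℂ} (hT : T' ≤ T) (h : S2Adm c T' σ X Y) :
    S2Adm c T σ X Y := ⟨h.1.trans hT, h.2⟩

theorem s2B_tri_norm_p {c σ δ : ℝ} {Xm X Xp : ℂ} (h : S2Tri c σ δ Xm X Xp) (hδ : 0 < δ) :
    ‖Xp - X‖ ≤ 3 / 2 * δ := by
  have h1 : ‖Xp - X‖ ≤ ‖Xp - X - δ‖ + ‖(δ : ℂ)‖ := by
    have := norm_add_le (Xp - X - δ) (δ : ℂ)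
    simpa using this
  have h2 : ‖(δ : ℂ)‖ = δ := by simp [abs_of_pos hδ]
  linarith [h.sp]

theorem s2B_tri_norm_m {c σ δ : ℝ} {Xm X Xp : ℂ} (h : S2Tri c σ δ Xm X Xp) (hδ : 0 < δ) :
    ‖Xm - X‖ ≤ 3 / 2 * δ := by
  have h1 : ‖X - Xm‖ ≤ ‖X - Xm - δ‖ + ‖(δ : ℂ)‖ := by
    have := norm_add_le (X - Xm - δ) (δ : ℂ)
    simpa using this
  have h2 : ‖(δ : ℂ)‖ = δ := by simp [abs_of_pos hδ]
  rw [norm_sub_rev]
  linarith [h.sm]

theorem s2B_tri_adm_p {c σ δ T : ℝ} {Xm X Xp : ℂ} (h : S2Tri c σ δ Xm X Xp) (hc : 0 < c)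
    (hδ : 0 < δ) (hT : 2 * δ ≤ T) : S2Adm c T σ X Xp := by
  have hn := s2B_tri_norm_p h hδ
  refine ⟨by linarith, le_trans ?_ h.im⟩
  have h1 : max |X.im| |Xp.im| ≤ max |Xm.im| (max |X.im| |Xp.im|) := le_max_right _ _
  have h0 : 0 ≤ max |X.im| |Xp.im| := le_max_of_le_left (abs_nonneg _)
  have h2 : 1 + c * ‖Xp - X‖ ≤ 1 + 2 * c * δ := by nlinarith
  have h3 : 0 ≤ 1 + 2 * c * δ := by positivity
  exact mul_le_mul h2 h1 h0 h3

theorem s2B_tri_adm_m {c σ δ T : ℝ} {Xm X Xp : ℂ} (h : S2Tri c σ δ Xm X Xp) (hc : 0 < c)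
    (hδ : 0 < δ) (hT : 2 * δ ≤ T) : S2Adm c T σ X Xm := by
  have hn := s2B_tri_norm_m h hδ
  refine ⟨by linarith, le_trans ?_ h.im⟩
  have h1 : max |X.im| |Xm.im| ≤ max |Xm.im| (max |X.im| |Xp.im|) :=
    max_le (le_max_of_le_right (le_max_left _ _)) (le_max_left _ _)
  have h0 : 0 ≤ max |X.im| |Xm.im| := le_max_of_le_left (abs_nonneg _)
  have h2 : 1 + c * ‖Xm - X‖ ≤ 1 + 2 * c * δ := by nlinarith
  have h3 : 0 ≤ 1 + 2 * c * δ := by positivity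
  exact mul_le_mul h2 h1 h0 h3

theorem s2B_tri_gap {c σ δ : ℝ} {Xm X Xp : ℂ} (h : S2Tri c σ δ Xm X Xp) (hδ : 0 < δ) :
    δ ≤ ‖Xp - Xm‖ := by
  have e : (2 * δ : ℂ) = (Xp - Xm) - ((Xp - X - δ) + (X - Xm - δ)) := by ring
  have h1 : ‖(2 * δ : ℂ)‖ ≤ ‖Xp - Xm‖ + (‖Xp - X - δ‖ + ‖X - Xm - δ‖) := by
    rw [e]
    exact (norm_sub_le _ _).trans (by gcongr; exact norm_add_le _ _)
  have h2 : ‖(2 * δ : ℂ)‖ = 2 * δ := by simp [abs_of_pos hδ]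
  linarith [h.sp, h.sm]

theorem s2B_mid_mono {c T T' C σ : ℝ} {u : ℂ → ℂ} (hT : T' ≤ T) (h : S2Mid c T C σ u) :
    S2Mid c T' C σ u where
  it_im X Y hA := h.it_im X Y (s2B_adm_mono hT hA)
  it_near X Y hA := h.it_near X Y (s2B_adm_mono hT hA)
  it_geo X Y hA := h.it_geo X Y (s2B_adm_mono hT hA)
  mu_im X Y hA := h.mu_im X Y (s2B_adm_mono hT hA)
  mu_near X Y hA := h.mu_near X Y (s2B_adm_mono hT hA)
  mu_eq X Y hA := h.mu_eq X Y (s2B_adm_mono hT hA)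
  mu_lip X Y X' Y' hA hA' := h.mu_lip X Y X' Y' (s2B_adm_mono hT hA) (s2B_adm_mono hT hA')
  mu_conj X Y hA := h.mu_conj X Y (s2B_adm_mono hT hA)
  mu_per X Y hA := h.mu_per X Y (s2B_adm_mono hT hA)

/-- EXPORT of unit B. -/
theorem s2B_main (M : ℝ) : ∃ c T0 C : ℝ, 0 < c ∧ 0 < T0 ∧ T0 ≤ 1 ∧ 0 < C ∧
    (∀ (σ : ℝ) (U : ℕ → ℂ → ℂ), 0 ≤ σ → σ ≤ 1 → S2Fun σ M U → S2TwoPt c T0 C σ (U 0)) ∧
    (∀ U U' : ℕ → ℂ → ℂ, S2Fun 0 M U → S2Fun 0 M U' → S2TwoIn c T0 C (U 0) (U' 0)) := by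
  obtain ⟨c, T0, C, hc, hT0, hT01, hC, hmid⟩ := s2B_mid M
  obtain ⟨T1, K1, hT1, hT1le, hK1, hinp⟩ := s2B_mid_inp M c T0 C hc hT0 hT01 hC
  obtain ⟨T3, K3, hT3, hT3le, hK3, hg⟩ := s2B_g M c T0 C hc hT0 hT01 hC
  obtain ⟨c0, hc0, halg⟩ := s2B_f_alg
  obtain ⟨K4, hK4, hD1inp⟩ := s2B_D1_inp M c T0 C K1 hc hT0 hT01 hC hK1
  set Tf : ℝ := min T1 T3 with hTf
  have hTf0 : 0 < Tf := lt_min hT1 hT3
  have hTf1 : Tf ≤ T1 := min_le_left _ _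
  have hTf3 : Tf ≤ T3 := min_le_right _ _
  have hTfT0 : Tf ≤ T0 := hTf1.trans hT1le
  set Cf : ℝ := C + c0 * K3 + K1 + 16 * K4 with hCf
  have hCf0 : 0 < Cf := by positivity
  have hCC : C ≤ Cf := by rw [hCf]; nlinarith [mul_pos hc0 hK3]
  have hCK3 : c0 * K3 ≤ Cf := by rw [hCf]; nlinarith [mul_pos hc0 hK3]
  have hCK1 : K1 ≤ Cf := by rw [hCf]; nlinarith [mul_pos hc0 hK3]
  have hCK4 : 16 * K4 ≤ Cf := by rw [hCf]; nlinarith [mul_pos hc0 hK3]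
  refine ⟨c, Tf, Cf, hc, hTf0, hTfT0.trans hT01, hCf0, ?_, ?_⟩
  · intro σ U hσ0 hσ1 hU
    have hm := hmid σ U hσ0 hσ1 hU
    obtain ⟨g, hgBL, hgD⟩ := hg σ U hσ0 hσ1 hU hm
    have hholo := s2B_mid_holo hσ0 hU hc hm
    have hD1holo := s2B_D1_holo hσ0 hU hc hm hholo
    refine
      { mu_im := fun X Y hA => hm.mu_im X Y (s2B_adm_mono hTfT0 hA)
        mu_near := fun X Y hA => (hm.mu_near X Y (s2B_adm_mono hTfT0 hA)).trans (by gcongr)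
        mu_eq := fun X Y hA => hm.mu_eq X Y (s2B_adm_mono hTfT0 hA)
        mu_lip := fun X Y X' Y' hA hA' =>
          (hm.mu_lip X Y X' Y' (s2B_adm_mono hTfT0 hA) (s2B_adm_mono hTfT0 hA')).trans (by gcongr)
        mu_conj := fun X Y hA => hm.mu_conj X Y (s2B_adm_mono hTfT0 hA)
        mu_per := fun X Y hA => hm.mu_per X Y (s2B_adm_mono hTfT0 hA)
        mu_holo := fun σ₁ hσ₁ Ω hΩ X Y hX hY hA =>
          hholo σ₁ hσ₁ Ω hΩ X Y hX hY (fun x hx => s2B_adm_mono hTfT0 (hA x hx))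
        f_bd := ?_, f_lip := ?_, f_conj := ?_, f_per := ?_, f_holo := ?_ }
    · intro δ hδ hδT Xm X Xp hT
      have hδ1 : δ ≤ 1 := by linarith [hTfT0.trans hT01]
      have h1 := (halg (s2D1 (U 0)) g _ K3 δ hδ hδ1 hgBL hgD).1 Xm X Xp
        (s2B_tri_adm_p hT hc hδ (hδT.trans hTf3)) (s2B_tri_adm_m hT hc hδ (hδT.trans hTf3)) hT.sm hT.sp
      refine h1.trans ?_
      gcongr
    · intro δ hδ hδT Xm X Xp Xm' X' Xp' hT hT'
      have hδ1 : δ ≤ 1 := by linarith [hTfT0.trans hT01]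
      have h1 := (halg (s2D1 (U 0)) g _ K3 δ hδ hδ1 hgBL hgD).2 Xm X Xp Xm' X' Xp'
        (s2B_tri_adm_p hT hc hδ (hδT.trans hTf3)) (s2B_tri_adm_m hT hc hδ (hδT.trans hTf3))
        (s2B_tri_adm_p hT' hc hδ (hδT.trans hTf3)) (s2B_tri_adm_m hT' hc hδ (hδT.trans hTf3))
        hT.sm hT.sp hT'.sm hT'.sp
      refine h1.trans ?_
      gcongr
    · intro δ hδ hδT Xm X Xp hT
      have hp := s2B_D1_conj hσ0 hU hm X Xp (s2B_tri_adm_p hT hc hδ (hδT.trans hTfT0))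
      have hq := s2B_D1_conj hσ0 hU hm X Xm (s2B_tri_adm_m hT hc hδ (hδT.trans hTfT0))
      simp only [s2f, hp, hq, map_sub, map_add, map_mul, map_div₀, map_ofNat]
    · intro δ hδ hδT Xm X Xp hT
      have hp := s2B_D1_per hσ0 hU hm X Xp (s2B_tri_adm_p hT hc hδ (hδT.trans hTfT0))
      have hq := s2B_D1_per hσ0 hU hm X Xm (s2B_tri_adm_m hT hc hδ (hδT.trans hTfT0))
      simp only [s2f, hp, hq]
      congr 1
      · ring
      · congr 1; ring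
    · intro δ hδ hδT σ₁ hσ₁ Ω hΩ Xm X Xp hXm hX hXp hT
      have hp := hD1holo σ₁ hσ₁ Ω hΩ X Xp hX hXp
        (fun x hx => s2B_tri_adm_p (hT x hx) hc hδ (hδT.trans hTfT0))
      have hq := hD1holo σ₁ hσ₁ Ω hΩ X Xm hX hXm
        (fun x hx => s2B_tri_adm_m (hT x hx) hc hδ (hδT.trans hTfT0))
      have hne : ∀ x ∈ Ω, Xp x - Xm x ≠ 0 := by
        intro x hx h0
        have := s2B_tri_gap (hT x hx) hδ
        rw [h0] at this
        simp at this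
        linarith
      unfold s2f
      exact ((hXp.sub (hX.const_mul 2)).add hXm).sub (((hp.sub hq).const_mul 8).div (hXp.sub hXm) hne)
  · intro U U' hU hU'
    have hm := hmid 0 U le_rfl zero_le_one hU
    have hm' := hmid 0 U' le_rfl zero_le_one hU'
    refine { mu_inp := ?_, f_inp := ?_ }
    · intro ε hε X Y hXY
      have hε0 : 0 ≤ ε := (norm_nonneg _).trans (hε 0)
      exact (hinp U U' hU hU' hm hm' ε hε X Y (hXY.trans hTf1)).trans (by gcongr)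
    · intro ε hε δ hδ hδT Xm X Xp hT
      have hε0 : 0 ≤ ε := (norm_nonneg _).trans (hε 0)
      have hnp : |Xp - X| ≤ 3 / 2 * δ := by
        have := s2B_tri_norm_p hT hδ
        rwa [← Complex.ofReal_sub, Complex.norm_real, Real.norm_eq_abs] at this
      have hnm : |Xm - X| ≤ 3 / 2 * δ := by
        have := s2B_tri_norm_m hT hδ
        rwa [← Complex.ofReal_sub, Complex.norm_real, Real.norm_eq_abs] at this
      have hp := hD1inp U U' hU hU' hm hm' ε hε X Xp (by linarith)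
        (hinp U U' hU hU' hm hm' ε hε X Xp (by linarith))
      have hq := hD1inp U U' hU hU' hm hm' ε hε X Xm (by linarith)
        (hinp U U' hU hU' hm hm' ε hε X Xm (by linarith))
      have hgap := s2B_tri_gap hT hδ
      have hgap0 : 0 < ‖(Xp : ℂ) - Xm‖ := lt_of_lt_of_le hδ hgap
      have e : s2f (U 0) Xm X Xp - s2f (U' 0) Xm X Xp
          = - (8 * ((s2D1 (U 0) X Xp - s2D1 (U' 0) X Xp) - (s2D1 (U 0) X Xm - s2D1 (U' 0) X Xm))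
              / ((Xp : ℂ) - Xm)) := by
        unfold s2f; ring
      rw [e, norm_neg, norm_div, norm_mul]
      have h8 : ‖(8 : ℂ)‖ = 8 := by simp
      rw [h8, div_le_iff₀ hgap0]
      have h1 : ‖(s2D1 (U 0) X Xp - s2D1 (U' 0) X Xp) - (s2D1 (U 0) X Xm - s2D1 (U' 0) X Xm)‖
          ≤ K4 * ε + K4 * ε := (norm_sub_le _ _).trans (add_le_add hp hq)
      have h2 : Cf / δ * ε * δ ≤ Cf / δ * ε * ‖(Xp : ℂ) - Xm‖ := by gcongr
      have h3 : Cf / δ * ε * δ = Cf * ε := by field_simp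
      nlinarith

end Claimed.Agent.R269
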