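/-
Row 269, Section 2, UNIT B, leaf BNu: `μ = m + T² ν` with `ν` bounded and Lipschitz (B2 in the header of S2/B.lean).
Statement by helper159, proof by helper202 (sorry-free).
PROOF ACTUALLY USED (simpler): `ν := (SD[H₁](m,T/2)/8) / DD[H₀](m,μ)`; both factors are BL (`μ` is Lipschitz by `S2Mid.mu_lip`),
`|DD| ≥ e^{-M}/2`, and `μ - m = T² ν` is the midpoint equation.  The general lemmas `s2BChi_*` on BL functions of `(m,T,μ)` live here.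
Define `ν P = (μ-m)/T²` for `T ≠ 0` and `ν P = U 1 m / 8` for `T = 0`.  In both cases
      `ν · s2DD H m μ = s2SD (s2H U 1) m (T/2) / 8`,   `μ = m + T² ν`       (fixed point equation / `s2BT_SD_zero`, `s2BT_DD_self`).
`|s2DD H m μ| ≥ e^{-M} - K C τ² ≥ e^{-M}/2`.  A priori:  `(ν-ν') DD = (SD-SD')/8 - ν' (DD-DD')`,
`|DD-DD'| ≤ K(|Δm|+|Δμ|)`, `|Δμ| ≤ |Δm| + 2τ̄|ν||ΔT| + τ̄²|Δν|`;  absorb `τ̄²|Δν|` for `T1` small.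
-/
import Claimed.Agent.R269.S2.BT
import Claimed.Agent.R269.S2.Q

set_option autoImplicit false

namespace Claimed.Agent.R269

open Complex ComplexConjugate Filter Topology

/-! ### membership -/

theorem s2BChi_mem {c T σ : ℝ} (hc : 0 ≤ c) {P : ℂ × ℂ} (hP : P ∈ s2AdmSet c T σ) :
    P.1 ∈ s2cs σ ∧ P.2 ∈ s2cs σ := by
  obtain ⟨_, h2⟩ := hP
  have h0 : 0 ≤ max |P.1.im| |P.2.im| := le_max_of_le_left (abs_nonneg _)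
  have h3 : max |P.1.im| |P.2.im| ≤ σ := by
    have : 0 ≤ c * ‖P.2 - P.1‖ := by positivity
    nlinarith
  exact ⟨(le_max_left _ _).trans h3, (le_max_right _ _).trans h3⟩

theorem s2BChi_mem_mid {c T σ : ℝ} (hc : 0 ≤ c) {P : ℂ × ℂ} (hP : P ∈ s2AdmSet c T σ) {r : ℝ}
    (hr : r ∈ Set.Icc (0 : ℝ) 1) :
    (P.1 + P.2) / 2 + (r : ℂ) * ((P.2 - P.1) / 2) ∈ s2cs σ ∧
      (P.1 + P.2) / 2 - (r : ℂ) * ((P.2 - P.1) / 2) ∈ s2cs σ := by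
  obtain ⟨h1, h2⟩ := s2BChi_mem hc hP
  refine s2BT_mid_mem ?_ ?_ hr
  · convert h2 using 1; ring
  · convert h1 using 1; ring

theorem s2BChi_mem_m {c T σ : ℝ} (hc : 0 ≤ c) {P : ℂ × ℂ} (hP : P ∈ s2AdmSet c T σ) :
    (P.1 + P.2) / 2 ∈ s2cs σ := by
  have := (s2BChi_mem_mid hc hP (r := 0) ⟨le_rfl, zero_le_one⟩).1
  simpa using this

theorem s2BChi_mem_mu {c T C σ : ℝ} {u : ℂ → ℂ} (hm : S2Mid c T C σ u) {P : ℂ × ℂ}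
    (hP : P ∈ s2AdmSet c T σ) : s2mu u P.1 P.2 ∈ s2cs σ :=
  (hm.mu_im P.1 P.2 hP).trans hP.2

theorem s2BChi_dm (P P' : ℂ × ℂ) :
    ‖(P.1 + P.2) / 2 - (P'.1 + P'.2) / 2‖ ≤ (‖P.1 - P'.1‖ + ‖P.2 - P'.2‖) / 2 := by
  have e : (P.1 + P.2) / 2 - (P'.1 + P'.2) / 2 = ((P.1 - P'.1) + (P.2 - P'.2)) / 2 := by ring
  rw [e, norm_div]
  have : ‖(2 : ℂ)‖ = 2 := by simp
  rw [this]
  gcongr
  exact norm_add_le _ _

theorem s2BChi_dh (P P' : ℂ × ℂ) {r : ℝ} (hr : r ∈ Set.Icc (0 : ℝ) 1) :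
    ‖(r : ℂ) * ((P.2 - P.1) / 2) - (r : ℂ) * ((P'.2 - P'.1) / 2)‖
      ≤ (‖P.1 - P'.1‖ + ‖P.2 - P'.2‖) / 2 := by
  have e : (r : ℂ) * ((P.2 - P.1) / 2) - (r : ℂ) * ((P'.2 - P'.1) / 2)
      = (r : ℂ) * (((P.2 - P'.2) - (P.1 - P'.1)) / 2) := by ring
  rw [e, norm_mul, norm_div]
  have h2 : ‖(2 : ℂ)‖ = 2 := by simp
  have hr' : ‖(r : ℂ)‖ ≤ 1 := by
    rw [Complex.norm_real, Real.norm_eq_abs, abs_of_nonneg hr.1]; exact hr.2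
  rw [h2]
  have h3 : ‖(P.2 - P'.2) - (P.1 - P'.1)‖ ≤ ‖P.1 - P'.1‖ + ‖P.2 - P'.2‖ := by
    rw [add_comm]; exact norm_sub_le _ _
  calc ‖(r : ℂ)‖ * (‖(P.2 - P'.2) - (P.1 - P'.1)‖ / 2)
      ≤ 1 * ((‖P.1 - P'.1‖ + ‖P.2 - P'.2‖) / 2) := by gcongr
    _ = _ := one_mul _

/-! ### the basic bounded Lipschitz functions -/

theorem s2BChi_bl_T {c T σ : ℝ} (hT : T ≤ 1) :
    S2BL (s2AdmSet c T σ) 1 (fun P => P.2 - P.1) where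
  bd P hP := hP.1.trans hT
  lip P _ P' _ := by
    have e : P.2 - P.1 - (P'.2 - P'.1) = (P.2 - P'.2) - (P.1 - P'.1) := by ring
    rw [e, one_mul, add_comm]
    exact norm_sub_le _ _

theorem s2BChi_bl_m {c T σ K : ℝ} (hc : 0 ≤ c) {F F1 : ℂ → ℂ}
    (hd : ∀ z ∈ s2cs σ, HasDerivWithinAt F (F1 z) (s2cs σ) z)
    (hb : ∀ z ∈ s2cs σ, ‖F z‖ ≤ K) (hb1 : ∀ z ∈ s2cs σ, ‖F1 z‖ ≤ K) :
    S2BL (s2AdmSet c T σ) K (fun P => F ((P.1 + P.2) / 2)) where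
  bd P hP := hb _ (s2BChi_mem_m hc hP)
  lip P hP P' hP' := by
    have hK : 0 ≤ K := (norm_nonneg _).trans (hb _ (s2BChi_mem_m hc hP))
    refine (s2BT_lip hd hb1 (s2BChi_mem_m hc hP') (s2BChi_mem_m hc hP)).trans ?_
    have := s2BChi_dm P P'
    have h0 : 0 ≤ ‖P.1 - P'.1‖ + ‖P.2 - P'.2‖ := by positivity
    gcongr
    linarith

theorem s2BChi_bl_SD {c T σ K : ℝ} (hc : 0 ≤ c) {F2 F3 : ℂ → ℂ}
    (hd : ∀ z ∈ s2cs σ, HasDerivWithinAt F2 (F3 z) (s2cs σ) z)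
    (hb2 : ∀ z ∈ s2cs σ, ‖F2 z‖ ≤ K) (hb3 : ∀ z ∈ s2cs σ, ‖F3 z‖ ≤ K)
    {r : ℝ} (hr : r ∈ Set.Icc (0 : ℝ) 1) :
    S2BL (s2AdmSet c T σ) K
      (fun P => s2SD F2 ((P.1 + P.2) / 2) ((r : ℂ) * ((P.2 - P.1) / 2))) where
  bd P hP := s2BT_SD_bd hb2 (s2BChi_mem_mid hc hP hr).1 (s2BChi_mem_mid hc hP hr).2
  lip P hP P' hP' := by
    have hK : 0 ≤ K := (norm_nonneg _).trans (hb2 _ (s2BChi_mem_m hc hP))
    refine (s2BT_SD_lip hd hb3 (s2BChi_mem_mid hc hP hr).1 (s2BChi_mem_mid hc hP hr).2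
      (s2BChi_mem_mid hc hP' hr).1 (s2BChi_mem_mid hc hP' hr).2).trans ?_
    have h1 := s2BChi_dm P P'
    have h2 := s2BChi_dh P P' hr
    exact mul_le_mul_of_nonneg_left (by linarith) hK

theorem s2BChi_bl_DD {c T C σ K : ℝ} (hc : 0 ≤ c) (hT : T ≤ 1) (hC : 0 ≤ C) {u : ℂ → ℂ}
    (hm : S2Mid c T C σ u) {F1 F2 : ℂ → ℂ}
    (hd : ∀ z ∈ s2cs σ, HasDerivWithinAt F1 (F2 z) (s2cs σ) z)
    (hb1 : ∀ z ∈ s2cs σ, ‖F1 z‖ ≤ K) (hb2 : ∀ z ∈ s2cs σ, ‖F2 z‖ ≤ K) :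
    S2BL (s2AdmSet c T σ) (K * (1 + C))
      (fun P => s2DD F1 ((P.1 + P.2) / 2) (s2mu u P.1 P.2)) where
  bd P hP := by
    have hK : 0 ≤ K := (norm_nonneg _).trans (hb1 _ (s2BChi_mem_m hc hP))
    refine (s2BT_DD_bd hb1 (s2BChi_mem_m hc hP) (s2BChi_mem_mu hm hP)).trans ?_
    nlinarith
  lip P hP P' hP' := by
    have hK : 0 ≤ K := (norm_nonneg _).trans (hb1 _ (s2BChi_mem_m hc hP))
    refine (s2BT_DD_lip hd hb2 (s2BChi_mem_m hc hP) (s2BChi_mem_mu hm hP)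
      (s2BChi_mem_m hc hP') (s2BChi_mem_mu hm hP')).trans ?_
    have h1 := s2BChi_dm P P'
    have h2 := hm.mu_lip P.1 P.2 P'.1 P'.2 hP hP'
    set d := ‖P.1 - P'.1‖ + ‖P.2 - P'.2‖ with hd
    have hd0 : 0 ≤ d := by positivity
    have h3 : max ‖P.2 - P.1‖ ‖P'.2 - P'.1‖ ≤ 1 := max_le (hP.1.trans hT) (hP'.1.trans hT)
    have h4 : C * max ‖P.2 - P.1‖ ‖P'.2 - P'.1‖ * d ≤ C * 1 * d := by gcongr
    have h5 : ‖s2mu u P.1 P.2 - s2mu u P'.1 P'.2‖ ≤ C * d + d / 2 := by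
      have e : s2mu u P.1 P.2 - s2mu u P'.1 P'.2
          = ((s2mu u P.1 P.2 - (P.1 + P.2) / 2) - (s2mu u P'.1 P'.2 - (P'.1 + P'.2) / 2))
            + ((P.1 + P.2) / 2 - (P'.1 + P'.2) / 2) := by ring
      rw [e]
      refine (norm_add_le _ _).trans ?_
      linarith
    rw [mul_assoc]
    gcongr
    linarith

theorem s2BChi_bl_smul {𝒟 : Set (ℂ × ℂ)} {K : ℝ} {F : ℂ × ℂ → ℂ} (hF : S2BL 𝒟 K F) {a : ℂ}
    (ha : ‖a‖ ≤ 1) : S2BL 𝒟 K (fun P => a * F P) where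
  bd P hP := by
    rw [norm_mul]
    calc ‖a‖ * ‖F P‖ ≤ 1 * K := by
          gcongr
          exact hF.bd P hP
      _ = K := one_mul _
  lip P hP P' hP' := by
    rw [← mul_sub, norm_mul]
    calc ‖a‖ * ‖F P - F P'‖ ≤ 1 * (K * (‖P.1 - P'.1‖ + ‖P.2 - P'.2‖)) := by
          gcongr
          exact hF.lip P hP P' hP'
      _ = _ := one_mul _

/-- composition with a function which is controlled on the ball of radius `B` only. -/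
theorem s2BChi_bl_comp {𝒟 : Set (ℂ × ℂ)} {K B K' L : ℝ} {F : ℂ × ℂ → ℂ} {G : ℂ → ℂ}
    (hF : S2BL 𝒟 K F) (hB : ∀ P ∈ 𝒟, ‖F P‖ ≤ B)
    (hb : ∀ z, ‖z‖ ≤ B → ‖G z‖ ≤ K')
    (hl : ∀ z z', ‖z‖ ≤ B → ‖z'‖ ≤ B → ‖G z - G z'‖ ≤ L * ‖z - z'‖) (hL : 0 ≤ L) :
    S2BL 𝒟 (max K' (L * K)) (fun P => G (F P)) where
  bd P hP := (hb _ (hB P hP)).trans (le_max_left _ _)
  lip P hP P' hP' := by
    refine (hl _ _ (hB P hP) (hB P' hP')).trans ?_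
    have h1 := mul_le_mul_of_nonneg_left (hF.lip P hP P' hP') hL
    refine h1.trans ?_
    rw [← mul_assoc]
    gcongr
    exact le_max_right _ _


/-- inverse of a bounded Lipschitz function which is bounded below. -/
theorem s2BChi_bl_inv {𝒟 : Set (ℂ × ℂ)} {K ρ : ℝ} {F : ℂ × ℂ → ℂ} (hF : S2BL 𝒟 K F) (hρ : 0 < ρ)
    (hlow : ∀ P ∈ 𝒟, ρ ≤ ‖F P‖) : S2BL 𝒟 (max (1 / ρ) (K / ρ ^ 2)) (fun P => (F P)⁻¹) where
  bd P hP := by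
    rw [norm_inv]
    refine le_trans ?_ (le_max_left _ _)
    rw [one_div]
    exact inv_anti₀ hρ (hlow P hP)
  lip P hP P' hP' := by
    have h1 : 0 < ‖F P‖ := lt_of_lt_of_le hρ (hlow P hP)
    have h2 : 0 < ‖F P'‖ := lt_of_lt_of_le hρ (hlow P' hP')
    have n1 : F P ≠ 0 := norm_pos_iff.1 h1
    have n2 : F P' ≠ 0 := norm_pos_iff.1 h2
    have e : (F P)⁻¹ - (F P')⁻¹ = (F P' - F P) / (F P * F P') := by
      field_simp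
    set d := ‖P.1 - P'.1‖ + ‖P.2 - P'.2‖ with hd
    have hd0 : 0 ≤ d := by positivity
    have hK : 0 ≤ K := (norm_nonneg _).trans (hF.bd P hP)
    rw [e, norm_div, norm_mul, norm_sub_rev]
    have h3 : ρ ^ 2 ≤ ‖F P‖ * ‖F P'‖ := by
      rw [sq]; exact mul_le_mul (hlow P hP) (hlow P' hP') hρ.le h1.le
    calc ‖F P - F P'‖ / (‖F P‖ * ‖F P'‖) ≤ (K * d) / ρ ^ 2 := by
          gcongr
          exact hF.lip P hP P' hP'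
      _ = K / ρ ^ 2 * d := by ring
      _ ≤ max (1 / ρ) (K / ρ ^ 2) * d := by
          gcongr
          exact le_max_right _ _

/-- the midpoint equation in divided-difference form. -/
theorem s2BNu_eq {c T C σ M : ℝ} {U : ℕ → ℂ → ℂ} (hc : 0 ≤ c) (hσ : 0 ≤ σ) (hU : S2Fun σ M U)
    (hm : S2Mid c T C σ (U 0)) {P : ℂ × ℂ} (hP : P ∈ s2AdmSet c T σ) :
    (s2mu (U 0) P.1 P.2 - (P.1 + P.2) / 2) * s2DD (s2H U 0) ((P.1 + P.2) / 2) (s2mu (U 0) P.1 P.2)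
      = (P.2 - P.1) ^ 2 *
        (1 / 8 * s2SD (s2H U 1) ((P.1 + P.2) / 2) (((1 : ℝ) : ℂ) * ((P.2 - P.1) / 2))) := by
  obtain ⟨φ, _, _, _, hφ, _, _, _, hrep, _, _⟩ := s2Q_rep hσ hU
  obtain ⟨X, Y⟩ := P
  have hXY := s2BChi_mem hc hP
  have hmm := s2BChi_mem_m hc hP
  have hmu := s2BChi_mem_mu hm hP
  have h1 := s2BChi_mem_mid hc hP (r := 1) ⟨zero_le_one, le_rfl⟩
  simp only at hXY hmm hmu h1 ⊢
  have hφ' : ∀ z ∈ s2cs σ, HasDerivWithinAt φ (s2H U 0 z) (s2cs σ) z := hφ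
  have i0 := hm.mu_eq X Y hP
  rw [hrep X hXY.1 _ hmu, hrep _ hmu Y hXY.2] at i0
  have i1 := s2BT_SD_eq hφ' (s2BT_H_der hU 0 (by norm_num)) (s2BT_H_cont hU 1 (by norm_num))
    h1.1 h1.2
  have a1 : (X + Y) / 2 + ((1 : ℝ) : ℂ) * ((Y - X) / 2) = Y := by push_cast; ring
  have a2 : (X + Y) / 2 - ((1 : ℝ) : ℂ) * ((Y - X) / 2) = X := by push_cast; ring
  have a3 : (((1 : ℝ) : ℂ) * ((Y - X) / 2)) ^ 2 = (Y - X) ^ 2 / 4 := by push_cast; ring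
  rw [a1, a2, a3] at i1
  have i2 := s2BT_DD_eq hφ' (s2BT_H_cont hU 0 (by norm_num)) hmm hmu
  rw [← i2]
  linear_combination (1 / 2 : ℂ) * i1 + (1 / 2 : ℂ) * i0

theorem s2B_nu (M c T0 C : ℝ) (hc : 0 < c) (hT0 : 0 < T0) (hT1 : T0 ≤ 1) (hC : 0 < C) :
    ∃ T1 K : ℝ, 0 < T1 ∧ T1 ≤ T0 ∧ 0 < K ∧
    ∀ (σ : ℝ) (U : ℕ → ℂ → ℂ), 0 ≤ σ → σ ≤ 1 → S2Fun σ M U → S2Mid c T0 C σ (U 0) →
      ∃ ν : ℂ × ℂ → ℂ, S2BL (s2AdmSet c T1 σ) K ν ∧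
        ∀ P ∈ s2AdmSet c T1 σ, s2mu (U 0) P.1 P.2 = (P.1 + P.2) / 2 + (P.2 - P.1) ^ 2 * ν P := by
  by_cases hM : 0 ≤ M
  swap
  · exact ⟨T0, 1, hT0, le_rfl, one_pos, fun σ U hσ0 _ hU _ => absurd (s2BT_M_nonneg hσ0 hU) hM⟩
  have hKH : 0 < s2KH M := by unfold s2KH; positivity
  set ρ : ℝ := Real.exp (-M) / 2 with hρ
  have hρ0 : 0 < ρ := by positivity
  set T1 : ℝ := min T0 (ρ / (s2KH M * C)) with hT1def
  have hT1p : 0 < T1 := lt_min hT0 (by positivity)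
  have hT1T0 : T1 ≤ T0 := min_le_left _ _
  have hT11 : T1 ≤ 1 := hT1T0.trans hT1
  have hT1s : s2KH M * (C * T1) ≤ ρ := by
    have : T1 ≤ ρ / (s2KH M * C) := min_le_right _ _
    rw [le_div_iff₀ (by positivity)] at this
    linarith
  refine ⟨T1, max (2 * (2 * ‖(1 / 8 : ℂ)‖ * s2KH M)
    * max (1 / ρ) (s2KH M * (1 + C) / ρ ^ 2)) 1, hT1p, hT1T0, lt_max_of_lt_right one_pos, ?_⟩
  intro σ U hσ0 hσ1 hU hm
  have hsub0 : s2AdmSet c T1 σ ⊆ s2AdmSet c T0 σ := fun P hP => ⟨hP.1.trans hT1T0, hP.2⟩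
  have bs : S2BL (s2AdmSet c T1 σ) (s2KH M)
      (fun P => s2SD (s2H U 1) ((P.1 + P.2) / 2) (((1 : ℝ) : ℂ) * ((P.2 - P.1) / 2))) :=
    s2BChi_bl_SD hc.le (s2BT_H_der hU 1 (by norm_num)) (s2BT_H_bd hσ0 hU 1 (by norm_num))
      (s2BT_H_bd hσ0 hU 2 (by norm_num)) ⟨zero_le_one, le_rfl⟩
  have bd : S2BL (s2AdmSet c T1 σ) (s2KH M * (1 + C))
      (fun P => s2DD (s2H U 0) ((P.1 + P.2) / 2) (s2mu (U 0) P.1 P.2)) :=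
    s2BT_bl_mono (s2BChi_bl_DD hc.le hT1 hC.le hm (s2BT_H_der hU 0 (by norm_num))
      (s2BT_H_bd hσ0 hU 0 (by norm_num)) (s2BT_H_bd hσ0 hU 1 (by norm_num))) hsub0 le_rfl
  have hlow : ∀ P ∈ s2AdmSet c T1 σ,
      ρ ≤ ‖s2DD (s2H U 0) ((P.1 + P.2) / 2) (s2mu (U 0) P.1 P.2)‖ := by
    intro P hP
    have hmm := s2BChi_mem_m hc.le hP
    have hmu := s2BChi_mem_mu hm (hsub0 hP)
    have h1 := s2BT_DD_lip (s2BT_H_der hU 0 (by norm_num)) (s2BT_H_bd hσ0 hU 1 (by norm_num))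
      hmm hmu hmm hmm
    rw [s2BT_DD_self, sub_self, norm_zero, zero_add] at h1
    have h2 := hm.mu_near P.1 P.2 (hsub0 hP)
    have h3 := s2BT_H_lower hU _ hmm
    have h4 : ‖P.2 - P.1‖ ^ 2 ≤ T1 := by
      have h5 : ‖P.2 - P.1‖ ≤ T1 := hP.1
      have h6 : 0 ≤ ‖P.2 - P.1‖ := norm_nonneg _
      nlinarith
    have h7 : s2KH M * ‖s2mu (U 0) P.1 P.2 - (P.1 + P.2) / 2‖ ≤ s2KH M * (C * T1) := by
      gcongr
      exact h2.trans (by gcongr)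
    have h8 : ‖s2H U 0 ((P.1 + P.2) / 2)‖
        ≤ ‖s2DD (s2H U 0) ((P.1 + P.2) / 2) (s2mu (U 0) P.1 P.2)‖
          + ‖s2DD (s2H U 0) ((P.1 + P.2) / 2) (s2mu (U 0) P.1 P.2) - s2H U 0 ((P.1 + P.2) / 2)‖ := by
      have := norm_sub_le (s2DD (s2H U 0) ((P.1 + P.2) / 2) (s2mu (U 0) P.1 P.2))
        (s2DD (s2H U 0) ((P.1 + P.2) / 2) (s2mu (U 0) P.1 P.2) - s2H U 0 ((P.1 + P.2) / 2))
      simpa using this
    have h9 : Real.exp (-M) = 2 * ρ := by rw [hρ]; ring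
    linarith
  have bν := s2BT_bl_mul (s2BT_bl_mul (s2BT_bl_const (s2AdmSet c T1 σ) (1 / 8)) bs)
    (s2BChi_bl_inv bd hρ0 hlow)
  refine ⟨_, s2BT_bl_mono bν subset_rfl (le_max_left _ _), ?_⟩
  intro P hP
  have hne : s2DD (s2H U 0) ((P.1 + P.2) / 2) (s2mu (U 0) P.1 P.2) ≠ 0 :=
    norm_pos_iff.1 (lt_of_lt_of_le hρ0 (hlow P hP))
  have heq := s2BNu_eq hc.le hσ0 hU hm (hsub0 hP)
  rw [← eq_mul_inv_iff_mul_eq₀ hne] at heq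
  linear_combination heq

end Claimed.Agent.R269
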