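/-
Row 269, Section 2, UNIT B, package BChi: `𝒦 = T/4 + T³ χ`, `χ` bounded and Lipschitz  (B4 in the header of S2/B.lean).
Statement by helper159, proof by helper202 (sorry-free; depends on `s2B_nu`).     `P = (X,Y)`, `m, T` as usual, `ν` from `s2B_nu`, `μ = m+T²ν`, `H_i = s2H U i`.
   `α₁ = s2SD (U 2) m (T/2) / 4`                 `u X + u Y - 2 u m = T² α₁`            (`s2BT_SD_eq`, `h = T/2`)
   `α₂ = ν · s2DD (U 1) m μ`                     `u μ - u m = T² α₂`                     (`s2BT_DD_eq`)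
   `a₃ = ∫_0^1 (r²/8) s2SD H₂ m (rT/2) dr`       `s2dphi u X Y = T (H₀ m + T² a₃)`
        [`∫_0^1 H₀(X+tT) dt = ∫_0^1 (H₀(m+rT/2)+H₀(m-rT/2))/2 dr = H₀ m + ∫_0^1 (rT/2)² s2SD H₂ m (rT/2)/2 dr`]
   `β = α₁-3α₂`, `α₃ = e^{-u m} a₃`, `hh = H₀ m + T² a₃`, `w = (T/2) hh`, `γ = hh² s2S3 w / 4`, `e₁ = s2E1 (T²β)`
   `𝒦 = ½ e^{-u m} e^{T²β} sin w = (T/4)(1+T²α₃)(1+T²β e₁)(1-T²γ)`
   `χ = ¼ [α₃ + β e₁ - γ + T²(α₃ β e₁ - α₃ γ - β e₁ γ) - T⁴ α₃ β e₁ γ]`.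
All factors are `S2BL` on `s2AdmSet c T2 σ` (`s2BT_bl_*`; `P ↦ m, T` are Lipschitz and `T` is bounded by `1`; `P ↦ F(m)` for `F` bounded with
bounded derivative; `T2` so small that `|T²β| ≤ 1`, `|w| ≤ 1`).
-/
import Claimed.Agent.R269.S2.BNu

set_option autoImplicit false

namespace Claimed.Agent.R269

open Complex ComplexConjugate Filter Topology


/-! ### the expansion of `s2dphi` -/

theorem s2BChi_contOn_of_lip {f : ℝ → ℂ} {L : ℝ} {s : Set ℝ}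
    (h : ∀ x ∈ s, ∀ y ∈ s, ‖f x - f y‖ ≤ L * |x - y|) : ContinuousOn f s := by
  have : LipschitzOnWith (Real.toNNReal L) f s := by
    refine LipschitzOnWith.of_dist_le_mul ?_
    intro x hx y hy
    rw [dist_eq_norm, Real.dist_eq]
    refine (h x hx y hy).trans ?_
    gcongr
    exact Real.le_coe_toNNReal L
  exact this.continuousOn

theorem s2BChi_SD_cont {σ K : ℝ} {F2 F3 : ℂ → ℂ}
    (hd : ∀ z ∈ s2cs σ, HasDerivWithinAt F2 (F3 z) (s2cs σ) z) (hb : ∀ z ∈ s2cs σ, ‖F3 z‖ ≤ K)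
    {m h : ℂ} (hp : m + h ∈ s2cs σ) (hq : m - h ∈ s2cs σ) :
    ContinuousOn (fun r : ℝ => s2SD F2 m ((r : ℂ) * h)) (Set.Icc (0 : ℝ) 1) := by
  refine s2BChi_contOn_of_lip (L := K * ‖h‖) ?_
  intro x hx y hy
  refine (s2BT_SD_lip hd hb (s2BT_mid_mem hp hq hx).1 (s2BT_mid_mem hp hq hx).2
    (s2BT_mid_mem hp hq hy).1 (s2BT_mid_mem hp hq hy).2).trans ?_
  rw [sub_self, norm_zero, zero_add, ← sub_mul, norm_mul, ← Complex.ofReal_sub, Complex.norm_real,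
    Real.norm_eq_abs]
  apply le_of_eq; ring

theorem s2BChi_a3_int {σ K : ℝ} {F2 F3 : ℂ → ℂ}
    (hd : ∀ z ∈ s2cs σ, HasDerivWithinAt F2 (F3 z) (s2cs σ) z) (hb : ∀ z ∈ s2cs σ, ‖F3 z‖ ≤ K)
    {m h : ℂ} (hp : m + h ∈ s2cs σ) (hq : m - h ∈ s2cs σ) :
    IntervalIntegrable (fun r : ℝ => ((r ^ 2 / 8 : ℝ) : ℂ) * s2SD F2 m ((r : ℂ) * h))
      MeasureTheory.volume 0 1 := by
  apply s2BT_intervalIntegrable_of_contOn
  refine ContinuousOn.mul ?_ (s2BChi_SD_cont hd hb hp hq)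
  exact (Complex.continuous_ofReal.comp (by fun_prop)).continuousOn

theorem s2BChi_dphi {σ M : ℝ} {U : ℕ → ℂ → ℂ} (hσ : 0 ≤ σ) (h : S2Fun σ M U) {X Y : ℂ}
    (hX : X ∈ s2cs σ) (hY : Y ∈ s2cs σ) :
    s2dphi (U 0) X Y = (Y - X) * (s2H U 0 ((X + Y) / 2) + (Y - X) ^ 2 *
      ∫ r in (0 : ℝ)..1, ((r ^ 2 / 8 : ℝ) : ℂ) * s2SD (s2H U 2) ((X + Y) / 2) ((r : ℂ) * ((Y - X) / 2))) := by
  rw [s2BT_dphi]
  congr 1
  set m : ℂ := (X + Y) / 2 with hm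
  set hh : ℂ := (Y - X) / 2 with hhh
  have hp : m + hh ∈ s2cs σ := by convert hY using 1; rw [hm, hhh]; ring
  have hq : m - hh ∈ s2cs σ := by convert hX using 1; rw [hm, hhh]; ring
  set F : ℝ → ℂ := fun t => s2H U 0 (X + (t : ℂ) * (Y - X)) with hF
  have hFc : ContinuousOn F (Set.Icc (0 : ℝ) 1) :=
    s2BT_cont_path (s2BT_H_cont h 0 (by norm_num)) X (Y - X) (fun r hr => s2P_seg_mem hX hY hr)
  have hFi : ∀ a b : ℝ, a ∈ Set.Icc (0 : ℝ) 1 → b ∈ Set.Icc (0 : ℝ) 1 →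
      IntervalIntegrable F MeasureTheory.volume a b := by
    intro a b ha hb
    apply ContinuousOn.intervalIntegrable
    exact hFc.mono (Set.uIcc_subset_Icc ha hb)
  have h12 : (1 / 2 : ℝ) ∈ Set.Icc (0 : ℝ) 1 := by constructor <;> norm_num
  have h00 : (0 : ℝ) ∈ Set.Icc (0 : ℝ) 1 := by constructor <;> norm_num
  have h11 : (1 : ℝ) ∈ Set.Icc (0 : ℝ) 1 := by constructor <;> norm_num
  have e1 : s2DD (s2H U 0) X Y = (∫ t in (0 : ℝ)..(1 / 2), F t) + ∫ t in (1 / 2 : ℝ)..1, F t := by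
    rw [intervalIntegral.integral_add_adjacent_intervals (hFi _ _ h00 h12) (hFi _ _ h12 h11)]
    rfl
  have e2 : ∫ r in (0 : ℝ)..1, F (1 / 2 + 1 / 2 * r) = 2 * ∫ t in (1 / 2 : ℝ)..1, F t := by
    rw [intervalIntegral.integral_comp_add_mul F (by norm_num : (1 / 2 : ℝ) ≠ 0) (1 / 2)]
    norm_num
  have e3 : ∫ r in (0 : ℝ)..1, F (1 / 2 - 1 / 2 * r) = 2 * ∫ t in (0 : ℝ)..(1 / 2), F t := by
    rw [intervalIntegral.integral_comp_sub_mul F (by norm_num : (1 / 2 : ℝ) ≠ 0) (1 / 2)]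
    norm_num
  have c2 : ContinuousOn (fun r : ℝ => F (1 / 2 + 1 / 2 * r)) (Set.Icc (0 : ℝ) 1) := by
    refine hFc.comp (by fun_prop) ?_
    intro r hr
    constructor <;> linarith [hr.1, hr.2]
  have c3 : ContinuousOn (fun r : ℝ => F (1 / 2 - 1 / 2 * r)) (Set.Icc (0 : ℝ) 1) := by
    refine hFc.comp (by fun_prop) ?_
    intro r hr
    constructor <;> linarith [hr.1, hr.2]
  have i2 := s2BT_intervalIntegrable_of_contOn c2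
  have i3 := s2BT_intervalIntegrable_of_contOn c3
  have ia := s2BChi_a3_int (s2BT_H_der h 2 (by norm_num)) (s2BT_H_bd hσ h 3 (by norm_num)) hp hq
  have e4 : ∫ r in (0 : ℝ)..1, (F (1 / 2 + 1 / 2 * r) + F (1 / 2 - 1 / 2 * r))
      = ∫ r in (0 : ℝ)..1, (2 * s2H U 0 m + (2 * (Y - X) ^ 2) *
          (((r ^ 2 / 8 : ℝ) : ℂ) * s2SD (s2H U 2) m ((r : ℂ) * hh))) := by
    apply intervalIntegral.integral_congr
    intro r hr
    rw [Set.uIcc_of_le zero_le_one] at hr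
    have hmm := s2BT_mid_mem hp hq hr
    have := s2BT_SD_eq (s2BT_H_der h 0 (by norm_num)) (s2BT_H_der h 1 (by norm_num))
      (s2BT_H_cont h 2 (by norm_num)) hmm.1 hmm.2
    simp only [hF]
    have a1 : X + ((1 / 2 + 1 / 2 * r : ℝ) : ℂ) * (Y - X) = m + (r : ℂ) * hh := by
      rw [hm, hhh]; push_cast; ring
    have a2 : X + ((1 / 2 - 1 / 2 * r : ℝ) : ℂ) * (Y - X) = m - (r : ℂ) * hh := by
      rw [hm, hhh]; push_cast; ring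
    rw [a1, a2]
    have a3 : ((r : ℂ) * hh) ^ 2 = 2 * (Y - X) ^ 2 * ((r ^ 2 / 8 : ℝ) : ℂ) := by
      rw [hhh]; push_cast; ring
    rw [a3] at this
    linear_combination this
  rw [intervalIntegral.integral_add i2 i3, e2, e3,
    intervalIntegral.integral_add (by simp) (ia.const_mul _)] at e4
  have e5 : ∫ r in (0 : ℝ)..1, (2 * (Y - X) ^ 2) *
          (((r ^ 2 / 8 : ℝ) : ℂ) * s2SD (s2H U 2) m ((r : ℂ) * hh))
      = (2 * (Y - X) ^ 2) * ∫ r in (0 : ℝ)..1,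
          (((r ^ 2 / 8 : ℝ) : ℂ) * s2SD (s2H U 2) m ((r : ℂ) * hh)) :=
    intervalIntegral.integral_const_mul _ _
  rw [e5] at e4
  simp only [intervalIntegral.integral_const, sub_zero, one_smul] at e4
  rw [e1]
  linear_combination (1 / 2 : ℂ) * e4


/-! ### abstract calculus: the constants depend only on the constants of the inputs -/

theorem s2BChi_c_beta (Ks Kν Kd : ℝ) : ∃ K : ℝ, ∀ (𝒟 : Set (ℂ × ℂ)) (s ν d : ℂ × ℂ → ℂ),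
    S2BL 𝒟 Ks s → S2BL 𝒟 Kν ν → S2BL 𝒟 Kd d →
    S2BL 𝒟 K (fun P => 1 / 4 * s P - 3 * (ν P * d P)) := by
  refine ⟨?K, fun 𝒟 s ν d hs hν hd => ?g⟩
  case g =>
    exact s2BT_bl_sub (s2BT_bl_mul (s2BT_bl_const 𝒟 (1 / 4)) hs)
      (s2BT_bl_mul (s2BT_bl_const 𝒟 3) (s2BT_bl_mul hν hd))

theorem s2BChi_c_hh (Kh Ka : ℝ) : ∃ K : ℝ, ∀ (𝒟 : Set (ℂ × ℂ)) (T h a : ℂ × ℂ → ℂ),
    S2BL 𝒟 1 T → S2BL 𝒟 Kh h → S2BL 𝒟 Ka a →
    S2BL 𝒟 K (fun P => h P + T P * T P * a P) := by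
  refine ⟨?K, fun 𝒟 T h a hT hh ha => ?g⟩
  case g =>
    exact s2BT_bl_add hh (s2BT_bl_mul (s2BT_bl_mul hT hT) ha)

theorem s2BChi_c_be (Kβ : ℝ) : ∃ K : ℝ, ∀ (𝒟 : Set (ℂ × ℂ)) (T β : ℂ × ℂ → ℂ),
    S2BL 𝒟 1 T → S2BL 𝒟 Kβ β → (∀ P ∈ 𝒟, ‖T P * T P * β P‖ ≤ 1) →
    S2BL 𝒟 K (fun P => β P * s2E1 (T P * T P * β P)) := by
  refine ⟨?K, fun 𝒟 T β hT hβ hB => ?g⟩
  case g =>
    exact s2BT_bl_mul hβ (s2BChi_bl_comp (G := s2E1) (s2BT_bl_mul (s2BT_bl_mul hT hT) hβ) hB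
      (fun z hz => s2BT_E1_bd hz) (fun z z' hz hz' => s2BT_E1_lip hz hz') (by norm_num))

theorem s2BChi_c_gam (Kh : ℝ) : ∃ K : ℝ, ∀ (𝒟 : Set (ℂ × ℂ)) (T h : ℂ × ℂ → ℂ),
    S2BL 𝒟 1 T → S2BL 𝒟 Kh h → (∀ P ∈ 𝒟, ‖1 / 2 * (T P * h P)‖ ≤ 1) →
    S2BL 𝒟 K (fun P => 1 / 4 * (h P * h P * s2S3 (1 / 2 * (T P * h P)))) := by
  refine ⟨?K, fun 𝒟 T h hT hh hB => ?g⟩
  case g =>
    exact s2BT_bl_mul (s2BT_bl_const 𝒟 (1 / 4)) (s2BT_bl_mul (s2BT_bl_mul hh hh)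
      (s2BChi_bl_comp (G := s2S3) (L := 1) (s2BT_bl_mul (s2BT_bl_const 𝒟 (1 / 2)) (s2BT_bl_mul hT hh)) hB
      (fun z hz => s2BT_S3_bd hz)
      (fun z z' hz hz' => by rw [one_mul]; exact s2BT_S3_lip hz hz') (by norm_num)))

theorem s2BChi_c_chi (Ka Kb Kg : ℝ) : ∃ K : ℝ, ∀ (𝒟 : Set (ℂ × ℂ)) (T a b g : ℂ × ℂ → ℂ),
    S2BL 𝒟 1 T → S2BL 𝒟 Ka a → S2BL 𝒟 Kb b → S2BL 𝒟 Kg g →
    S2BL 𝒟 K (fun P => 1 / 4 * (a P + b P - g P + T P * T P * (a P * b P - a P * g P - b P * g P)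
      - T P * T P * (T P * T P) * (a P * b P * g P))) := by
  refine ⟨?K, fun 𝒟 T a b g hT ha hb hg => ?g⟩
  case g =>
    have hTT := s2BT_bl_mul hT hT
    exact s2BT_bl_mul (s2BT_bl_const 𝒟 (1 / 4))
      (s2BT_bl_sub (s2BT_bl_add (s2BT_bl_sub (s2BT_bl_add ha hb) hg)
        (s2BT_bl_mul hTT (s2BT_bl_sub (s2BT_bl_sub (s2BT_bl_mul ha hb) (s2BT_bl_mul ha hg))
          (s2BT_bl_mul hb hg))))
        (s2BT_bl_mul (s2BT_bl_mul hTT hTT) (s2BT_bl_mul (s2BT_bl_mul ha hb) hg)))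


theorem s2BChi_bl_e {c T σ M : ℝ} (hc : 0 ≤ c) (hM : 0 ≤ M) {U : ℕ → ℂ → ℂ} (hU : S2Fun σ M U) :
    S2BL (s2AdmSet c T σ) ((1 + M) * Real.exp M) (fun P => exp (-(U 0 ((P.1 + P.2) / 2)))) := by
  have hb0 : ∀ z ∈ s2cs σ, ‖exp (-(U 0 z))‖ ≤ Real.exp M := by
    intro z hz
    refine (Complex.norm_exp_le_exp_norm _).trans ?_
    rw [norm_neg]
    exact Real.exp_le_exp.2 (hU.bd 0 (by norm_num) z hz)
  have hE : 0 < Real.exp M := Real.exp_pos M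
  refine s2BChi_bl_m (F := fun z => exp (-(U 0 z))) (F1 := fun z => exp (-(U 0 z)) * (-(U 1 z))) hc
    ?_ ?_ ?_
  · intro z hz
    exact (hU.der 0 (by norm_num) z hz).neg.cexp
  · intro z hz
    refine (hb0 z hz).trans ?_
    nlinarith
  · intro z hz
    rw [norm_mul, norm_neg]
    have h1 := hU.bd 1 (by norm_num) z hz
    have h2 := hb0 z hz
    calc ‖exp (-(U 0 z))‖ * ‖U 1 z‖ ≤ Real.exp M * M := by gcongr
      _ ≤ (1 + M) * Real.exp M := by nlinarith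

/-- the algebraic identity behind `𝒦 = T/4 + T³ χ`. -/
theorem s2BChi_identity (T e h a β E S : ℂ) (hEH : e * h = 1) :
    1 / 2 * (e * (1 + T * T * β * E))
        * (1 / 2 * (T * (h + T * T * a)) - (1 / 2 * (T * (h + T * T * a))) ^ 3 * S)
      = T / 4 + T ^ 3 * (1 / 4 * (e * a + β * E - 1 / 4 * ((h + T * T * a) * (h + T * T * a) * S)
          + T * T * (e * a * (β * E) - e * a * (1 / 4 * ((h + T * T * a) * (h + T * T * a) * S))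
              - β * E * (1 / 4 * ((h + T * T * a) * (h + T * T * a) * S)))
          - T * T * (T * T) * (e * a * (β * E) * (1 / 4 * ((h + T * T * a) * (h + T * T * a) * S))))) := by
  linear_combination (1 / 4 * T * (1 + T * T * β * E)
    * (1 - T * T * (1 / 4 * ((h + T * T * a) * (h + T * T * a) * S)))) * hEH

theorem s2B_chi (M c T0 C : ℝ) (hc : 0 < c) (hT0 : 0 < T0) (hT1 : T0 ≤ 1) (hC : 0 < C) :
    ∃ T2 K : ℝ, 0 < T2 ∧ T2 ≤ T0 ∧ 0 < K ∧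
    ∀ (σ : ℝ) (U : ℕ → ℂ → ℂ), 0 ≤ σ → σ ≤ 1 → S2Fun σ M U → S2Mid c T0 C σ (U 0) →
      ∃ χ : ℂ × ℂ → ℂ, S2BL (s2AdmSet c T2 σ) K χ ∧
        ∀ P ∈ s2AdmSet c T2 σ, s2K (U 0) P.1 P.2 = (P.2 - P.1) / 4 + (P.2 - P.1) ^ 3 * χ P := by
  by_cases hM : 0 ≤ M
  swap
  · exact ⟨T0, 1, hT0, le_rfl, one_pos, fun σ U hσ0 _ hU _ => absurd (s2BT_M_nonneg hσ0 hU) hM⟩
  obtain ⟨T1, K1, hT1p, hT1le, hK1, hν⟩ := s2B_nu M c T0 C hc hT0 hT1 hC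
  obtain ⟨Kβ, hβ⟩ := s2BChi_c_beta M K1 (M * (1 + C))
  obtain ⟨Kh, hh⟩ := s2BChi_c_hh (s2KH M) (s2KH M)
  obtain ⟨Kb, hb⟩ := s2BChi_c_be Kβ
  obtain ⟨Kg, hg⟩ := s2BChi_c_gam Kh
  obtain ⟨K, hK⟩ := s2BChi_c_chi (2 * ((1 + M) * Real.exp M) * s2KH M) Kb Kg
  set T2 := min T1 (1 / (1 + |Kβ| + |Kh|)) with hT2
  have hT2p : 0 < T2 := lt_min hT1p (by positivity)
  have hT2T1 : T2 ≤ T1 := min_le_left _ _
  have hT2s : T2 * (1 + |Kβ| + |Kh|) ≤ 1 := by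
    have : T2 ≤ 1 / (1 + |Kβ| + |Kh|) := min_le_right _ _
    rwa [le_div_iff₀ (by positivity)] at this
  have hT21 : T2 ≤ 1 := hT2T1.trans (hT1le.trans hT1)
  refine ⟨T2, max K 1, hT2p, hT2T1.trans hT1le, lt_max_of_lt_right one_pos, ?_⟩
  intro σ U hσ0 hσ1 hU hm
  obtain ⟨ν, hνBL, hνeq⟩ := hν σ U hσ0 hσ1 hU hm
  have hsub1 : s2AdmSet c T2 σ ⊆ s2AdmSet c T1 σ := fun P hP => ⟨hP.1.trans hT2T1, hP.2⟩
  have hsub0 : s2AdmSet c T2 σ ⊆ s2AdmSet c T0 σ :=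
    fun P hP => ⟨hP.1.trans (hT2T1.trans hT1le), hP.2⟩
  -- the basic functions
  have bT : S2BL (s2AdmSet c T2 σ) 1 (fun P => P.2 - P.1) := s2BChi_bl_T hT21
  have bs : S2BL (s2AdmSet c T2 σ) M
      (fun P => s2SD (U 2) ((P.1 + P.2) / 2) (((1 : ℝ) : ℂ) * ((P.2 - P.1) / 2))) :=
    s2BChi_bl_SD hc.le (hU.der 2 (by norm_num)) (hU.bd 2 (by norm_num)) (hU.bd 3 (by norm_num))
      ⟨zero_le_one, le_rfl⟩
  have bν : S2BL (s2AdmSet c T2 σ) K1 ν := s2BT_bl_mono hνBL hsub1 le_rfl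
  have bd : S2BL (s2AdmSet c T2 σ) (M * (1 + C))
      (fun P => s2DD (U 1) ((P.1 + P.2) / 2) (s2mu (U 0) P.1 P.2)) :=
    s2BT_bl_mono (s2BChi_bl_DD hc.le hT1 hC.le hm (hU.der 1 (by norm_num)) (hU.bd 1 (by norm_num))
      (hU.bd 2 (by norm_num))) hsub0 le_rfl
  have bh : S2BL (s2AdmSet c T2 σ) (s2KH M) (fun P => s2H U 0 ((P.1 + P.2) / 2)) :=
    s2BChi_bl_m hc.le (s2BT_H_der hU 0 (by norm_num)) (s2BT_H_bd hσ0 hU 0 (by norm_num))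
      (s2BT_H_bd hσ0 hU 1 (by norm_num))
  have ba : S2BL (s2AdmSet c T2 σ) (s2KH M) (fun P => ∫ r in (0 : ℝ)..1, ((r ^ 2 / 8 : ℝ) : ℂ) *
      s2SD (s2H U 2) ((P.1 + P.2) / 2) ((r : ℂ) * ((P.2 - P.1) / 2))) := by
    refine s2BT_bl_integral (F := fun r P => ((r ^ 2 / 8 : ℝ) : ℂ) *
      s2SD (s2H U 2) ((P.1 + P.2) / 2) ((r : ℂ) * ((P.2 - P.1) / 2))) ?_ ?_
    · intro r hr
      refine s2BChi_bl_smul (s2BChi_bl_SD hc.le (s2BT_H_der hU 2 (by norm_num))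
        (s2BT_H_bd hσ0 hU 2 (by norm_num)) (s2BT_H_bd hσ0 hU 3 (by norm_num)) hr) ?_
      rw [Complex.norm_real, Real.norm_eq_abs, abs_of_nonneg (by positivity)]
      nlinarith [hr.1, hr.2]
    · intro P hP
      have h1 := s2BChi_mem_mid hc.le hP (r := 1) ⟨zero_le_one, le_rfl⟩
      simp only [Complex.ofReal_one, one_mul] at h1
      exact s2BChi_a3_int (s2BT_H_der hU 2 (by norm_num)) (s2BT_H_bd hσ0 hU 3 (by norm_num))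
        h1.1 h1.2
  have be := s2BChi_bl_e (c := c) (T := T2) hc.le hM hU
  have bβ := hβ _ _ _ _ bs bν bd
  have bhh := hh _ _ _ _ bT bh ba
  have hB1 : ∀ P ∈ s2AdmSet c T2 σ, ‖(P.2 - P.1) * (P.2 - P.1) *
      (1 / 4 * s2SD (U 2) ((P.1 + P.2) / 2) (((1 : ℝ) : ℂ) * ((P.2 - P.1) / 2))
        - 3 * (ν P * s2DD (U 1) ((P.1 + P.2) / 2) (s2mu (U 0) P.1 P.2)))‖ ≤ 1 := by
    intro P hP
    have h1 := bβ.bd P hP
    have h2 : ‖P.2 - P.1‖ ≤ T2 := hP.1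
    rw [norm_mul, norm_mul]
    have h3 : ‖P.2 - P.1‖ * ‖P.2 - P.1‖ ≤ T2 * 1 := by
      gcongr
      exact h2.trans hT21
    calc _ ≤ (T2 * 1) * |Kβ| := by
          gcongr
          exact h1.trans (le_abs_self _)
      _ ≤ T2 * (1 + |Kβ| + |Kh|) := by
          rw [mul_one]
          gcongr
          linarith [abs_nonneg Kh]
      _ ≤ 1 := hT2s
  have hB2 : ∀ P ∈ s2AdmSet c T2 σ, ‖1 / 2 * ((P.2 - P.1) * (s2H U 0 ((P.1 + P.2) / 2) +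
      (P.2 - P.1) * (P.2 - P.1) * ∫ r in (0 : ℝ)..1, ((r ^ 2 / 8 : ℝ) : ℂ) *
      s2SD (s2H U 2) ((P.1 + P.2) / 2) ((r : ℂ) * ((P.2 - P.1) / 2))))‖ ≤ 1 := by
    intro P hP
    have h1 := bhh.bd P hP
    have h2 : ‖P.2 - P.1‖ ≤ T2 := hP.1
    rw [norm_mul, norm_mul]
    have h3 : ‖(1 / 2 : ℂ)‖ ≤ 1 := by norm_num
    calc _ ≤ 1 * (T2 * |Kh|) := by
          gcongr
          exact h1.trans (le_abs_self _)
      _ ≤ T2 * (1 + |Kβ| + |Kh|) := by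
          rw [one_mul]
          gcongr
          linarith [abs_nonneg Kβ]
      _ ≤ 1 := hT2s
  have bbe := hb _ _ _ bT bβ hB1
  have bg := hg _ _ _ bT bhh hB2
  have bα := s2BT_bl_mul be ba
  have bχ := hK _ _ _ _ _ bT bα bbe bg
  refine ⟨_, s2BT_bl_mono bχ subset_rfl (le_max_left _ _), ?_⟩
  intro P hP
  obtain ⟨X, Y⟩ := P
  simp only
  have hXY := s2BChi_mem hc.le hP
  have hmm := s2BChi_mem_m hc.le hP
  have hmu := s2BChi_mem_mu hm (hsub0 hP)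
  simp only at hXY hmm hmu
  have h1 := s2BChi_mem_mid hc.le hP (r := 1) ⟨zero_le_one, le_rfl⟩
  simp only at h1
  have i1 := s2BT_SD_eq (hU.der 0 (by norm_num)) (hU.der 1 (by norm_num))
    (s2BT_U_cont hU 2 (by norm_num)) h1.1 h1.2
  have a1 : (X + Y) / 2 + ((1 : ℝ) : ℂ) * ((Y - X) / 2) = Y := by push_cast; ring
  have a2 : (X + Y) / 2 - ((1 : ℝ) : ℂ) * ((Y - X) / 2) = X := by push_cast; ring
  have a3 : (((1 : ℝ) : ℂ) * ((Y - X) / 2)) ^ 2 = (Y - X) * (Y - X) / 4 := by push_cast; ring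
  rw [a1, a2, a3] at i1
  have i2 := s2BT_DD_eq (hU.der 0 (by norm_num)) (s2BT_U_cont hU 1 (by norm_num)) hmm hmu
  have i3 := hνeq (X, Y) (hsub1 hP)
  simp only at i3
  have i4 := s2BChi_dphi hσ0 hU hXY.1 hXY.2
  have hEH : exp (-(U 0 ((X + Y) / 2))) * s2H U 0 ((X + Y) / 2) = 1 := by
    show exp (-(U 0 ((X + Y) / 2))) * exp (U 0 ((X + Y) / 2)) = 1
    rw [← Complex.exp_add]; simp
  set sP := s2SD (U 2) ((X + Y) / 2) (((1 : ℝ) : ℂ) * ((Y - X) / 2)) with hsP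
  set dP := s2DD (U 1) ((X + Y) / 2) (s2mu (U 0) X Y) with hdP
  set aP := ∫ r in (0 : ℝ)..1, ((r ^ 2 / 8 : ℝ) : ℂ) *
      s2SD (s2H U 2) ((X + Y) / 2) ((r : ℂ) * ((Y - X) / 2)) with haP
  set hP' := s2H U 0 ((X + Y) / 2) with hhP
  set eP := exp (-(U 0 ((X + Y) / 2))) with heP
  set T := Y - X with hT
  set β := 1 / 4 * sP - 3 * (ν (X, Y) * dP) with hβdef
  have e1 : U 0 X + U 0 Y - 3 * U 0 (s2mu (U 0) X Y) = -(U 0 ((X + Y) / 2)) + T * T * β := by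
    have i2' : U 0 (s2mu (U 0) X Y) - U 0 ((X + Y) / 2) = T ^ 2 * ν (X, Y) * dP := by
      rw [i2]
      have : s2mu (U 0) X Y - (X + Y) / 2 = T ^ 2 * ν (X, Y) := by rw [i3]; ring
      rw [this]
    rw [hβdef]
    linear_combination i1 - 3 * i2'
  have e2 : s2dphi (U 0) X Y / 2 = 1 / 2 * (T * (hP' + T * T * aP)) := by
    rw [i4]; ring
  unfold s2K
  rw [e1, e2, Complex.exp_add, s2BT_E1_eq (T * T * β), s2BT_S3_eq (1 / 2 * (T * (hP' + T * T * aP)))]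
  exact s2BChi_identity T eP hP' aP β _ _ hEH

end Claimed.Agent.R269
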