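/-
Row 269, Section 2, UNIT B, leaf BF-alg (helper159, PROVED): the algebra of the forcing `f`  (B6 in the header of S2/B.lean).
-/
import Claimed.Agent.R269.S2.BT

set_option autoImplicit false

namespace Claimed.Agent.R269

open Complex ComplexConjugate Filter Topology

theorem s2BF_mul {x y x' y' : ℂ} {Bx By Dx Dy : ℝ} (hx' : ‖x'‖ ≤ Bx) (hy : ‖y‖ ≤ By)
    (dx : ‖x - x'‖ ≤ Dx) (dy : ‖y - y'‖ ≤ Dy) : ‖x * y - x' * y'‖ ≤ Dx * By + Bx * Dy := by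
  have e : x * y - x' * y' = (x - x') * y + x' * (y - y') := by ring
  rw [e]
  refine (norm_add_le _ _).trans ?_
  rw [norm_mul, norm_mul]
  have hBy : 0 ≤ By := (norm_nonneg _).trans hy
  have hBx : 0 ≤ Bx := (norm_nonneg _).trans hx'
  have hDx : 0 ≤ Dx := (norm_nonneg _).trans dx
  exact add_le_add (mul_le_mul dx hy (norm_nonneg _) hDx) (mul_le_mul hx' dy (norm_nonneg _) hBx)

theorem s2BF_mul_bd {x y : ℂ} {Bx By : ℝ} (hx : ‖x‖ ≤ Bx) (hy : ‖y‖ ≤ By) : ‖x * y‖ ≤ Bx * By := by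
  rw [norm_mul]
  exact mul_le_mul hx hy (norm_nonneg _) ((norm_nonneg _).trans hx)

theorem s2BF_near {s : ℂ} {δ : ℝ} (hδ : 0 < δ) (hs : ‖s - δ‖ ≤ δ / 2) : ‖s‖ ≤ 3 / 2 * δ := by
  have h1 : ‖s‖ ≤ ‖s - δ‖ + ‖(δ : ℂ)‖ := by
    have := norm_add_le (s - δ) (δ : ℂ)
    simpa using this
  have h2 : ‖(δ : ℂ)‖ = δ := by simp [abs_of_pos hδ]
  linarith

theorem s2BF_sum_lower {s t : ℂ} {δ : ℝ} (hδ : 0 < δ) (hs : ‖s - δ‖ ≤ δ / 2) (ht : ‖t - δ‖ ≤ δ / 2) :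
    δ ≤ ‖t + s‖ := by
  have e : (2 * δ : ℂ) = (t + s) - ((t - δ) + (s - δ)) := by ring
  have h1 : ‖(2 * δ : ℂ)‖ ≤ ‖t + s‖ + (‖t - δ‖ + ‖s - δ‖) := by
    rw [e]
    exact (norm_sub_le _ _).trans (add_le_add le_rfl (norm_add_le _ _))
  have h2 : ‖(2 * δ : ℂ)‖ = 2 * δ := by
    rw [norm_mul]; simp [abs_of_pos hδ]
  linarith

theorem s2BF_diff_le {s t : ℂ} {δ : ℝ} (hs : ‖s - δ‖ ≤ δ / 2) (ht : ‖t - δ‖ ≤ δ / 2) :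
    ‖t - s‖ ≤ δ := by
  have e : t - s = (t - δ) - (s - δ) := by ring
  rw [e]
  exact (norm_sub_le _ _).trans (by linarith)

/-- the normal form of the forcing. -/
noncomputable def s2Phi (s t a b : ℂ) : ℂ := (t - s) * (t ^ 2 + s ^ 2) * a + s ^ 4 * ((a - b) / (t + s))

theorem s2BF_Phi_bd {s t a b : ℂ} {K δ : ℝ} (hδ : 0 < δ) (hs : ‖s - δ‖ ≤ δ / 2)
    (ht : ‖t - δ‖ ≤ δ / 2) (ha : ‖a‖ ≤ K) (hab : ‖a - b‖ ≤ K * ‖t + s‖) :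
    ‖s2Phi s t a b‖ ≤ 6 * K * (δ ^ 2 * ‖t - s‖ + δ ^ 4) := by
  have hK : 0 ≤ K := (norm_nonneg _).trans ha
  have ns := s2BF_near hδ hs
  have nt := s2BF_near hδ ht
  have low := s2BF_sum_lower hδ hs ht
  have hpos : 0 < ‖t + s‖ := lt_of_lt_of_le hδ low
  have b2 : ‖t ^ 2 + s ^ 2‖ ≤ 9 / 2 * δ ^ 2 := by
    refine (norm_add_le _ _).trans ?_
    rw [norm_pow, norm_pow]
    have h1 : ‖t‖ ^ 2 ≤ (3 / 2 * δ) ^ 2 := pow_le_pow_left₀ (norm_nonneg _) nt 2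
    have h2 : ‖s‖ ^ 2 ≤ (3 / 2 * δ) ^ 2 := pow_le_pow_left₀ (norm_nonneg _) ns 2
    nlinarith
  have b4 : ‖s ^ 4‖ ≤ 81 / 16 * δ ^ 4 := by
    rw [norm_pow]
    have h2 : ‖s‖ ^ 4 ≤ (3 / 2 * δ) ^ 4 := pow_le_pow_left₀ (norm_nonneg _) ns 4
    nlinarith
  have br : ‖(a - b) / (t + s)‖ ≤ K := by
    rw [norm_div, div_le_iff₀ hpos]; exact hab
  have c1 := s2BF_mul_bd (s2BF_mul_bd (le_refl ‖t - s‖) b2) ha
  have c2 := s2BF_mul_bd b4 br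
  unfold s2Phi
  refine (norm_add_le _ _).trans ((add_le_add c1 c2).trans ?_)
  have z1 : 0 ≤ K * (δ ^ 2 * ‖t - s‖) := by positivity
  have z2 : 0 ≤ K * δ ^ 4 := by positivity
  nlinarith

theorem s2BF_real_fin {K δ dX ds dt : ℝ} (hK : 0 ≤ K) (hδ : 0 < δ) (hδ1 : δ ≤ 1) (hdX : 0 ≤ dX)
    (hds : 0 ≤ ds) (hdt : 0 ≤ dt) :
    ((ds + dt) * (9 / 2 * δ ^ 2) + δ * (3 * δ * dt + 3 * δ * ds)) * K
        + δ * (9 / 2 * δ ^ 2) * (K * (2 * dX + dt))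
      + ((3 * δ * ds * (9 / 4 * δ ^ 2) + 9 / 4 * δ ^ 2 * (3 * δ * ds)) * K
        + 9 / 4 * δ ^ 2 * (9 / 4 * δ ^ 2) * (K * (4 * dX + 2 * (ds + dt)) / δ))
      ≤ 36 * K * (δ ^ 3 * dX + δ ^ 2 * (ds + dt)) := by
  have e : 9 / 4 * δ ^ 2 * (9 / 4 * δ ^ 2) * (K * (4 * dX + 2 * (ds + dt)) / δ)
      = 81 / 16 * δ ^ 3 * (K * (4 * dX + 2 * (ds + dt))) := by
    field_simp
    ring
  rw [e]
  have h3 : δ ^ 3 ≤ δ ^ 2 := by nlinarith [sq_nonneg δ]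
  have z1 : 0 ≤ K * ds := by positivity
  have z2 : 0 ≤ K * dt := by positivity
  have z3 : 0 ≤ K * dX * δ ^ 3 := by positivity
  have w1 : K * ds * δ ^ 3 ≤ K * ds * δ ^ 2 := mul_le_mul_of_nonneg_left h3 z1
  have w2 : K * dt * δ ^ 3 ≤ K * dt * δ ^ 2 := mul_le_mul_of_nonneg_left h3 z2
  have z4 : 0 ≤ K * ds * δ ^ 2 := by positivity
  have z5 : 0 ≤ K * dt * δ ^ 2 := by positivity
  nlinarith

theorem s2BF_Phi_lip {s t a b s' t' a' b' : ℂ} {K δ dX : ℝ} (hδ : 0 < δ) (hδ1 : δ ≤ 1)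
    (hdX : 0 ≤ dX)
    (hs : ‖s - δ‖ ≤ δ / 2) (ht : ‖t - δ‖ ≤ δ / 2) (hs' : ‖s' - δ‖ ≤ δ / 2) (ht' : ‖t' - δ‖ ≤ δ / 2)
    (ha : ‖a‖ ≤ K) (hab : ‖a - b‖ ≤ K * ‖t + s‖) (hab' : ‖a' - b'‖ ≤ K * ‖t' + s'‖)
    (haa : ‖a - a'‖ ≤ K * (2 * dX + ‖t - t'‖)) (hbb : ‖b - b'‖ ≤ K * (2 * dX + ‖s - s'‖)) :
    ‖s2Phi s t a b - s2Phi s' t' a' b'‖
      ≤ 36 * K * (δ ^ 3 * dX + δ ^ 2 * (‖s - s'‖ + ‖t - t'‖)) := by
  have hK : 0 ≤ K := (norm_nonneg _).trans ha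
  have ns := s2BF_near hδ hs
  have nt := s2BF_near hδ ht
  have ns' := s2BF_near hδ hs'
  have nt' := s2BF_near hδ ht'
  have low := s2BF_sum_lower hδ hs ht
  have low' := s2BF_sum_lower hδ hs' ht'
  have hpos : 0 < ‖t + s‖ := lt_of_lt_of_le hδ low
  have hpos' : 0 < ‖t' + s'‖ := lt_of_lt_of_le hδ low'
  have hne : t + s ≠ 0 := norm_pos_iff.1 hpos
  have hne' : t' + s' ≠ 0 := norm_pos_iff.1 hpos'
  set ds := ‖s - s'‖ with hds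
  set dt := ‖t - t'‖ with hdt
  have hds0 : 0 ≤ ds := norm_nonneg _
  have hdt0 : 0 ≤ dt := norm_nonneg _
  -- squares
  have sq_bd : ∀ {z : ℂ}, ‖z‖ ≤ 3 / 2 * δ → ‖z ^ 2‖ ≤ 9 / 4 * δ ^ 2 := by
    intro z hz
    rw [norm_pow]
    have h1 : ‖z‖ ^ 2 ≤ (3 / 2 * δ) ^ 2 := pow_le_pow_left₀ (norm_nonneg _) hz 2
    nlinarith
  have sq_lip : ∀ {z z' : ℂ}, ‖z‖ ≤ 3 / 2 * δ → ‖z'‖ ≤ 3 / 2 * δ →
      ‖z ^ 2 - z' ^ 2‖ ≤ 3 * δ * ‖z - z'‖ := by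
    intro z z' hz hz'
    have := s2BF_mul hz' hz (le_refl ‖z - z'‖) (le_refl ‖z - z'‖)
    rw [sq, sq]
    linarith
  have d1 : ‖(t - s) - (t' - s')‖ ≤ ds + dt := by
    have e : (t - s) - (t' - s') = (t - t') - (s - s') := by ring
    rw [e]
    exact (norm_sub_le _ _).trans (by linarith)
  have d2 : ‖(t ^ 2 + s ^ 2) - (t' ^ 2 + s' ^ 2)‖ ≤ 3 * δ * dt + 3 * δ * ds := by
    have e : (t ^ 2 + s ^ 2) - (t' ^ 2 + s' ^ 2) = (t ^ 2 - t' ^ 2) + (s ^ 2 - s' ^ 2) := by ring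
    rw [e]
    exact (norm_add_le _ _).trans (add_le_add (sq_lip nt nt') (sq_lip ns ns'))
  have b2 : ‖t ^ 2 + s ^ 2‖ ≤ 9 / 2 * δ ^ 2 :=
    (norm_add_le _ _).trans (by linarith [sq_bd nt, sq_bd ns])
  have b2' : ‖t' ^ 2 + s' ^ 2‖ ≤ 9 / 2 * δ ^ 2 :=
    (norm_add_le _ _).trans (by linarith [sq_bd nt', sq_bd ns'])
  have p_lip := s2BF_mul (s2BF_diff_le hs' ht') b2 d1 d2
  have p_bd' := s2BF_mul_bd (s2BF_diff_le hs' ht') b2'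
  have F1 := s2BF_mul p_bd' ha p_lip haa
  -- fourth power
  have q_lip : ‖s ^ 4 - s' ^ 4‖ ≤ 3 * δ * ds * (9 / 4 * δ ^ 2) + 9 / 4 * δ ^ 2 * (3 * δ * ds) := by
    have := s2BF_mul (sq_bd ns') (sq_bd ns) (sq_lip ns ns') (sq_lip ns ns')
    have e1 : s ^ 4 = s ^ 2 * s ^ 2 := by ring
    have e2 : s' ^ 4 = s' ^ 2 * s' ^ 2 := by ring
    rw [e1, e2]; exact this
  have q_bd' : ‖s' ^ 4‖ ≤ 9 / 4 * δ ^ 2 * (9 / 4 * δ ^ 2) := by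
    have e2 : s' ^ 4 = s' ^ 2 * s' ^ 2 := by ring
    rw [e2]; exact s2BF_mul_bd (sq_bd ns') (sq_bd ns')
  have br : ‖(a - b) / (t + s)‖ ≤ K := by
    rw [norm_div, div_le_iff₀ hpos]; exact hab
  have br' : ‖(a' - b') / (t' + s')‖ ≤ K := by
    rw [norm_div, div_le_iff₀ hpos']; exact hab'
  have r_lip : ‖(a - b) / (t + s) - (a' - b') / (t' + s')‖ ≤ K * (4 * dX + 2 * (ds + dt)) / δ := by
    have e : (a - b) / (t + s) - (a' - b') / (t' + s')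
        = ((a - a') - (b - b')) / (t + s)
          + (a' - b') / (t' + s') * (((t' - t) + (s' - s)) / (t + s)) := by
      field_simp
      ring
    rw [e]
    refine (norm_add_le _ _).trans ?_
    have h1 : ‖((a - a') - (b - b')) / (t + s)‖ ≤ K * (4 * dX + (ds + dt)) / δ := by
      rw [norm_div]
      have h2 : ‖(a - a') - (b - b')‖ ≤ K * (4 * dX + (ds + dt)) :=
        (norm_sub_le _ _).trans (by linarith)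
      exact div_le_div₀ (by positivity) h2 hδ low
    have h3 : ‖((t' - t) + (s' - s)) / (t + s)‖ ≤ (ds + dt) / δ := by
      rw [norm_div]
      have h4 : ‖(t' - t) + (s' - s)‖ ≤ ds + dt := by
        refine (norm_add_le _ _).trans ?_
        rw [norm_sub_rev t' t, norm_sub_rev s' s]
        linarith
      exact div_le_div₀ (by positivity) h4 hδ low
    have h5 := s2BF_mul_bd br' h3
    have e2 : K * (4 * dX + 2 * (ds + dt)) / δ = K * (4 * dX + (ds + dt)) / δ + K * ((ds + dt) / δ) := by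
      ring
    rw [e2]
    exact add_le_add h1 h5
  have F2 := s2BF_mul q_bd' br q_lip r_lip
  have e : s2Phi s t a b - s2Phi s' t' a' b'
      = ((t - s) * (t ^ 2 + s ^ 2) * a - (t' - s') * (t' ^ 2 + s' ^ 2) * a')
        + (s ^ 4 * ((a - b) / (t + s)) - s' ^ 4 * ((a' - b') / (t' + s'))) := by
    unfold s2Phi; ring
  rw [e]
  refine (norm_add_le _ _).trans ((add_le_add F1 F2).trans ?_)
  exact s2BF_real_fin hK hδ hδ1 hdX hds0 hdt0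

theorem s2BF_key {D : ℂ → ℂ → ℂ} {g : ℂ × ℂ → ℂ} {𝒟 : Set (ℂ × ℂ)}
    (hD : ∀ P ∈ 𝒟, D P.1 P.2 = (P.2 - P.1) ^ 2 / 8 + (P.2 - P.1) ^ 4 * g P) {Xm X Xp : ℂ}
    (h1 : (X, Xp) ∈ 𝒟) (h2 : (X, Xm) ∈ 𝒟) (hne : (Xp - X) + (X - Xm) ≠ 0) :
    (Xp - 2 * X + Xm) - 8 * (D X Xp - D X Xm) / (Xp - Xm)
      = -8 * s2Phi (X - Xm) (Xp - X) (g (X, Xp)) (g (X, Xm)) := by
  have e1 := hD _ h1
  have e2 := hD _ h2
  simp only at e1 e2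
  have e3 : Xp - Xm = (Xp - X) + (X - Xm) := by ring
  unfold s2Phi
  rw [e1, e2, e3]
  field_simp
  ring

/-- (BF-alg) pure algebra.  `s = X-X₋`, `t = X₊-X`, `g_t = g(X,X₊)`, `g_s = g(X,X₋)`:
`f = -8[(t-s)(t²+s²) g_t + s⁴ (g_t-g_s)/(t+s)]`, `‖s‖,‖t‖ ≤ 3δ/2`, `‖t+s‖ ≥ δ`, `‖g_t-g_s‖ ≤ K‖t+s‖`. -/
theorem s2B_f_alg : ∃ c0 : ℝ, 0 < c0 ∧ ∀ (D : ℂ → ℂ → ℂ) (g : ℂ × ℂ → ℂ) (𝒟 : Set (ℂ × ℂ)) (K δ : ℝ),
    0 < δ → δ ≤ 1 → S2BL 𝒟 K g →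
    (∀ P ∈ 𝒟, D P.1 P.2 = (P.2 - P.1) ^ 2 / 8 + (P.2 - P.1) ^ 4 * g P) →
    (∀ Xm X Xp : ℂ, (X, Xp) ∈ 𝒟 → (X, Xm) ∈ 𝒟 → ‖X - Xm - δ‖ ≤ δ / 2 → ‖Xp - X - δ‖ ≤ δ / 2 →
      ‖(Xp - 2 * X + Xm) - 8 * (D X Xp - D X Xm) / (Xp - Xm)‖
        ≤ c0 * K * (δ ^ 2 * ‖Xp - 2 * X + Xm‖ + δ ^ 4)) ∧
    (∀ Xm X Xp Xm' X' Xp' : ℂ, (X, Xp) ∈ 𝒟 → (X, Xm) ∈ 𝒟 → (X', Xp') ∈ 𝒟 → (X', Xm') ∈ 𝒟 →
      ‖X - Xm - δ‖ ≤ δ / 2 → ‖Xp - X - δ‖ ≤ δ / 2 → ‖X' - Xm' - δ‖ ≤ δ / 2 → ‖Xp' - X' - δ‖ ≤ δ / 2 →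
      ‖((Xp - 2 * X + Xm) - 8 * (D X Xp - D X Xm) / (Xp - Xm))
          - ((Xp' - 2 * X' + Xm') - 8 * (D X' Xp' - D X' Xm') / (Xp' - Xm'))‖
        ≤ c0 * K * (δ ^ 3 * ‖X - X'‖
            + δ ^ 2 * (‖(X - Xm) - (X' - Xm')‖ + ‖(Xp - X) - (Xp' - X')‖))) := by
  refine ⟨288, by norm_num, ?_⟩
  intro D g 𝒟 K δ hδ hδ1 hg hD
  have hne : ∀ {Xm X Xp : ℂ}, ‖X - Xm - δ‖ ≤ δ / 2 → ‖Xp - X - δ‖ ≤ δ / 2 →
      (Xp - X) + (X - Xm) ≠ 0 := by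
    intro Xm X Xp hs ht
    exact norm_pos_iff.1 (lt_of_lt_of_le hδ (s2BF_sum_lower hδ hs ht))
  have hab : ∀ {Xm X Xp : ℂ}, (X, Xp) ∈ 𝒟 → (X, Xm) ∈ 𝒟 →
      ‖g (X, Xp) - g (X, Xm)‖ ≤ K * ‖(Xp - X) + (X - Xm)‖ := by
    intro Xm X Xp h1 h2
    have := hg.lip _ h1 _ h2
    simp only [sub_self, norm_zero, zero_add] at this
    have e3 : (Xp - X) + (X - Xm) = Xp - Xm := by ring
    rw [e3]; exact this
  have h8 : ‖(-8 : ℂ)‖ = 8 := by simp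
  constructor
  · intro Xm X Xp h1 h2 hs ht
    have hK : 0 ≤ K := (norm_nonneg _).trans (hg.bd _ h1)
    rw [s2BF_key hD h1 h2 (hne hs ht), norm_mul, h8]
    have := s2BF_Phi_bd hδ hs ht (hg.bd _ h1) (hab h1 h2)
    have e : Xp - X - (X - Xm) = Xp - 2 * X + Xm := by ring
    rw [e] at this
    have z : 0 ≤ K * (δ ^ 2 * ‖Xp - 2 * X + Xm‖ + δ ^ 4) := by positivity
    nlinarith
  · intro Xm X Xp Xm' X' Xp' h1 h2 h1' h2' hs ht hs' ht'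
    rw [s2BF_key hD h1 h2 (hne hs ht), s2BF_key hD h1' h2' (hne hs' ht'), ← mul_sub, norm_mul, h8]
    have haa : ‖g (X, Xp) - g (X', Xp')‖ ≤ K * (2 * ‖X - X'‖ + ‖(Xp - X) - (Xp' - X')‖) := by
      have hK : 0 ≤ K := (norm_nonneg _).trans (hg.bd _ h1)
      refine (hg.lip _ h1 _ h1').trans (mul_le_mul_of_nonneg_left ?_ hK)
      simp only
      have e : Xp - Xp' = (X - X') + ((Xp - X) - (Xp' - X')) := by ring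
      have := norm_add_le (X - X') ((Xp - X) - (Xp' - X'))
      rw [← e] at this
      linarith
    have hbb : ‖g (X, Xm) - g (X', Xm')‖ ≤ K * (2 * ‖X - X'‖ + ‖(X - Xm) - (X' - Xm')‖) := by
      have hK : 0 ≤ K := (norm_nonneg _).trans (hg.bd _ h1)
      refine (hg.lip _ h2 _ h2').trans (mul_le_mul_of_nonneg_left ?_ hK)
      simp only
      have e : Xm - Xm' = (X - X') - ((X - Xm) - (X' - Xm')) := by ring
      have := norm_sub_le (X - X') ((X - Xm) - (X' - Xm'))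
      rw [← e] at this
      linarith
    have := s2BF_Phi_lip hδ hδ1 (norm_nonneg (X - X')) hs ht hs' ht' (hg.bd _ h1) (hab h1 h2)
      (hab h1' h2') haa hbb
    linarith

/-- forces the equation lemmas of the definitions above to be generated in this file. -/
theorem s2BFalg_eqns_cited : True := by
  have := @s2Phi.eq_1; have := @s2Phi.eq_def; have := @s2Phi.congr_simp
  trivial

end Claimed.Agent.R269
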