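/-
Row 269, Section 2, UNIT B, leaves BF: the forcing `f`  (B6 in the header of S2/B.lean).   PROVED (helper159).
`s2B_f_alg` is in S2/BFalg.lean.
-/
import Claimed.Agent.R269.S2.BFalg
import Claimed.Agent.R269.S2.BMidC
import Claimed.Agent.R269.S2.BMidH
import Claimed.Agent.R269.S2.BMidI
import Claimed.Agent.R269.S2.BAdm

set_option autoImplicit false

namespace Claimed.Agent.R269

open Complex ComplexConjugate Filter Topology MeasureTheory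

theorem s2BF_J_conj {u : ℂ → ℂ} (hs : ∀ z, u (conj z) = conj (u z)) (X Z : ℂ) :
    s2J u (conj X) (conj Z) = conj (s2J u X Z) := by
  unfold s2J
  apply s2P_conj
  intro t _
  rw [s2BM_dphi_conj hs, hs, map_mul, ← Complex.sin_conj, ← Complex.exp_conj, map_mul, map_neg,
    Complex.conj_ofNat]

theorem s2BF_J_per {u : ℂ → ℂ} (hp : ∀ z, u (z + 2 * Real.pi) = u z) (X Z : ℂ) :
    s2J u (X + 2 * Real.pi) (Z + 2 * Real.pi) = s2J u X Z := by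
  unfold s2J
  apply s2P_translate
  intro t _
  rw [s2BM_dphi_per hp, hp]

/-- (BF-sym) conjugation. -/
theorem s2B_D1_conj {M c T0 C σ : ℝ} {U : ℕ → ℂ → ℂ} (hσ : 0 ≤ σ) (hU : S2Fun σ M U)
    (hm : S2Mid c T0 C σ (U 0)) (X Y : ℂ) (h : S2Adm c T0 σ X Y) :
    s2D1 (U 0) (conj X) (conj Y) = conj (s2D1 (U 0) X Y) := by
  unfold s2D1
  rw [hm.mu_conj X Y h, s2BF_J_conj hU.sym, hU.sym, map_mul, ← Complex.exp_conj]

/-- (BF-sym) periodicity. -/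
theorem s2B_D1_per {M c T0 C σ : ℝ} {U : ℕ → ℂ → ℂ} (hσ : 0 ≤ σ) (hU : S2Fun σ M U)
    (hm : S2Mid c T0 C σ (U 0)) (X Y : ℂ) (h : S2Adm c T0 σ X Y) :
    s2D1 (U 0) (X + 2 * Real.pi) (Y + 2 * Real.pi) = s2D1 (U 0) X Y := by
  unfold s2D1
  rw [hm.mu_per X Y h, s2BF_J_per hU.per, hU.per]

/-- (BF-holo) `D₁` along holomorphic curves: `s2Q_rep` (`J(X,Z) = cos φX (A Z - A X) - sin φX (B Z - B X)`), the midpoint stays in
`s2cs σ₁ ⊆ s2os σ` by `mu_im`. -/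
theorem s2B_D1_holo {M c T0 C σ : ℝ} {U : ℕ → ℂ → ℂ} (hσ : 0 ≤ σ) (hU : S2Fun σ M U)
    (hc : 0 < c) (hm : S2Mid c T0 C σ (U 0))
    (hh : ∀ σ₁ < σ, ∀ Ω : Set ℂ, IsOpen Ω → ∀ X Y : ℂ → ℂ,
      DifferentiableOn ℂ X Ω → DifferentiableOn ℂ Y Ω → (∀ x ∈ Ω, S2Adm c T0 σ₁ (X x) (Y x)) →
      DifferentiableOn ℂ (fun x => s2mu (U 0) (X x) (Y x)) Ω) :
    ∀ σ₁ < σ, ∀ Ω : Set ℂ, IsOpen Ω → ∀ X Y : ℂ → ℂ,
      DifferentiableOn ℂ X Ω → DifferentiableOn ℂ Y Ω → (∀ x ∈ Ω, S2Adm c T0 σ₁ (X x) (Y x)) →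
      DifferentiableOn ℂ (fun x => s2D1 (U 0) (X x) (Y x)) Ω := by
  intro σ₁ hσ₁ Ω hΩ X Y hX hY hadm
  obtain ⟨φ, A, B, E, hφ, hA, hB, -, -, hJ, -⟩ := s2Q_rep hσ hU
  have hφd : DifferentiableOn ℂ φ (s2os σ) := s2BH_diffOn hφ
  have hAd : DifferentiableOn ℂ A (s2os σ) := s2BH_diffOn hA
  have hBd : DifferentiableOn ℂ B (s2os σ) := s2BH_diffOn hB
  have hud : DifferentiableOn ℂ (U 0) (s2os σ) := s2BH_diffOn (hU.der 0 (by norm_num))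
  have hadm' : ∀ x ∈ Ω, S2Adm c T0 σ (X x) (Y x) := fun x hx =>
    ⟨(hadm x hx).1, (hadm x hx).2.trans hσ₁.le⟩
  have hXo : ∀ x ∈ Ω, X x ∈ s2os σ := fun x hx =>
    lt_of_le_of_lt (s2BA_X hc (hadm x hx)) hσ₁
  have hμo : ∀ x ∈ Ω, s2mu (U 0) (X x) (Y x) ∈ s2os σ := fun x hx =>
    lt_of_le_of_lt ((hm.mu_im _ _ (hadm' x hx)).trans (hadm x hx).2) hσ₁
  have hμd := hh σ₁ hσ₁ Ω hΩ X Y hX hY hadm
  have d1 : DifferentiableOn ℂ (fun x => U 0 (X x)) Ω := hud.comp hX hXo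
  have d2 : DifferentiableOn ℂ (fun x => φ (X x)) Ω := hφd.comp hX hXo
  have d3 : DifferentiableOn ℂ (fun x => A (X x)) Ω := hAd.comp hX hXo
  have d4 : DifferentiableOn ℂ (fun x => B (X x)) Ω := hBd.comp hX hXo
  have d5 : DifferentiableOn ℂ (fun x => A (s2mu (U 0) (X x) (Y x))) Ω := hAd.comp hμd hμo
  have d6 : DifferentiableOn ℂ (fun x => B (s2mu (U 0) (X x) (Y x))) Ω := hBd.comp hμd hμo
  have h1 : DifferentiableOn ℂ (fun x => exp (U 0 (X x)) *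
      (cos (φ (X x)) * (A (s2mu (U 0) (X x) (Y x)) - A (X x))
        - sin (φ (X x)) * (B (s2mu (U 0) (X x) (Y x)) - B (X x)))) Ω :=
    d1.cexp.mul ((d2.ccos.mul (d5.sub d3)).sub (d2.csin.mul (d6.sub d4)))
  refine h1.congr fun x hx => ?_
  have s := s2BH_os_sub_cs σ
  rw [s2D1, s2J, hJ _ (s (hXo x hx)) _ (s (hXo x hx)) _ (s (hμo x hx))]

theorem s2BF_f_cont {σ M : ℝ} {U : ℕ → ℂ → ℂ} (hσ : 0 ≤ σ) (hU : S2Fun σ M U) {X : ℂ}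
    (hX : X ∈ s2cs σ) :
    ContinuousOn (fun z => sin (s2dphi (U 0) X z) * exp (-2 * U 0 z)) (s2cs σ) := by
  obtain ⟨φ, A, B, E, hφ, -, -, -, hdphi, -, -⟩ := s2Q_rep hσ hU
  have cu := s2BT_U_cont hU 0 (by norm_num)
  have cφ := s2BT_contOn_of_deriv hφ
  have h1 : ContinuousOn (fun z => sin (φ z - φ X) * exp (-2 * U 0 z)) (s2cs σ) :=
    (Complex.continuous_sin.comp_continuousOn (cφ.sub continuousOn_const)).mul
      (continuousOn_const.mul cu).cexp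
  refine h1.congr fun z hz => ?_
  rw [hdphi _ hX _ hz]

theorem s2BF_seg_sub {f f' : ℂ → ℂ} {p q : ℂ} {D : ℝ}
    (hf : ContinuousOn (fun t : ℝ => f (p + (t : ℂ) * (q - p))) (Set.Icc (0 : ℝ) 1))
    (hf' : ContinuousOn (fun t : ℝ => f' (p + (t : ℂ) * (q - p))) (Set.Icc (0 : ℝ) 1))
    (h : ∀ t ∈ Set.Icc (0 : ℝ) 1, ‖f (p + (t : ℂ) * (q - p)) - f' (p + (t : ℂ) * (q - p))‖ ≤ D) :
    ‖s2seg f p q - s2seg f' p q‖ ≤ D * ‖q - p‖ := by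
  have e : s2seg f p q - s2seg f' p q = s2seg (fun z => f z - f' z) p q := by
    unfold s2seg
    rw [intervalIntegral.integral_sub (s2BT_intervalIntegrable_of_contOn hf)
      (s2BT_intervalIntegrable_of_contOn hf')]
    ring
  rw [e]
  exact s2P_norm_le h

theorem s2BF_ball {X p q : ℂ} {r : ℝ} (hp : ‖p - X‖ ≤ r) (hq : ‖q - X‖ ≤ r) {t : ℝ}
    (ht : t ∈ Set.Icc (0 : ℝ) 1) : ‖p + (t : ℂ) * (q - p) - X‖ ≤ r := by
  have e : p + (t : ℂ) * (q - p) - X = ((1 - t : ℝ) : ℂ) * (p - X) + (t : ℂ) * (q - X) := by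
    push_cast; ring
  rw [e]
  refine (norm_add_le _ _).trans ?_
  rw [norm_mul, norm_mul, Complex.norm_real, Complex.norm_real, Real.norm_eq_abs, Real.norm_eq_abs,
    abs_of_nonneg ht.1, abs_of_nonneg (by linarith [ht.2] : (0 : ℝ) ≤ 1 - t)]
  nlinarith [ht.1, ht.2]

theorem s2BF_dphi_bd {σ M : ℝ} {U : ℕ → ℂ → ℂ} (hU : S2Fun σ M U) {p q : ℂ} (hp : p ∈ s2cs σ)
    (hq : q ∈ s2cs σ) : ‖s2dphi (U 0) p q‖ ≤ Real.exp M * ‖q - p‖ :=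
  s2P_norm_le fun _ ht => s2BT_norm_exp_le hU (s2P_seg_mem hp hq ht)

theorem s2BF_exp2_bd {σ M : ℝ} {U : ℕ → ℂ → ℂ} (hU : S2Fun σ M U) {z : ℂ} (hz : z ∈ s2cs σ) :
    ‖-2 * U 0 z‖ ≤ 2 * M := by
  rw [norm_mul]
  have : ‖(-2 : ℂ)‖ = 2 := by simp
  rw [this]
  have := hU.bd 0 (by norm_num) z hz
  linarith

/-- bound of the integrand of `J`. -/
theorem s2BF_f_bd {σ M r : ℝ} {U : ℕ → ℂ → ℂ} (hU : S2Fun σ M U) {X z : ℂ} (hX : X ∈ s2cs σ)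
    (hz : z ∈ s2cs σ) (hr : ‖z - X‖ ≤ r) :
    ‖sin (s2dphi (U 0) X z) * exp (-2 * U 0 z)‖
      ≤ Real.exp (Real.exp M * r) * Real.exp (2 * M) := by
  apply s2BF_mul_bd
  · refine (s2BT_norm_sin_le _).trans (Real.exp_le_exp.2 ?_)
    exact (s2BF_dphi_bd hU hX hz).trans (mul_le_mul_of_nonneg_left hr (Real.exp_pos M).le)
  · exact (Complex.norm_exp_le_exp_norm _).trans (Real.exp_le_exp.2 (s2BF_exp2_bd hU hz))

/-- dependence of the integrand of `J` on the input. -/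
theorem s2BF_f_inp {M r ε : ℝ} {U U' : ℕ → ℂ → ℂ} (hU : S2Fun 0 M U) (hU' : S2Fun 0 M U')
    (hε : ∀ x : ℝ, ‖U 0 x - U' 0 x‖ ≤ ε) {X z : ℂ} (hX : X ∈ s2cs 0)
    (hz : z ∈ s2cs 0) (hr : ‖z - X‖ ≤ r) :
    ‖sin (s2dphi (U 0) X z) * exp (-2 * U 0 z) - sin (s2dphi (U' 0) X z) * exp (-2 * U' 0 z)‖
      ≤ Real.exp (Real.exp M * r) * (Real.exp M * ε * r) * Real.exp (2 * M)
        + Real.exp (Real.exp M * r) * (Real.exp (2 * M) * (2 * ε)) := by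
  have hε0 : 0 ≤ ε := (norm_nonneg _).trans (hε 0)
  have hE := (Real.exp_pos M).le
  have a1 : ‖s2dphi (U 0) X z‖ ≤ Real.exp M * r :=
    (s2BF_dphi_bd hU hX hz).trans (mul_le_mul_of_nonneg_left hr hE)
  have a2 : ‖s2dphi (U' 0) X z‖ ≤ Real.exp M * r :=
    (s2BF_dphi_bd hU' hX hz).trans (mul_le_mul_of_nonneg_left hr hE)
  apply s2BF_mul
  · exact (s2BT_norm_sin_le _).trans (Real.exp_le_exp.2 a2)
  · exact (Complex.norm_exp_le_exp_norm _).trans (Real.exp_le_exp.2 (s2BF_exp2_bd hU hz))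
  · refine (s2BT_sin_lip a1 a2).trans (mul_le_mul_of_nonneg_left ?_ (Real.exp_pos _).le)
    exact (s2BI_dphi_inp hU hU' hε hX hz).trans (mul_le_mul_of_nonneg_left hr (by positivity))
  · refine (s2BT_exp_lip (s2BF_exp2_bd hU hz) (s2BF_exp2_bd hU' hz)).trans
      (mul_le_mul_of_nonneg_left ?_ (Real.exp_pos _).le)
    rw [← mul_sub, norm_mul]
    have : ‖(-2 : ℂ)‖ = 2 := by simp
    rw [this]
    have := s2BI_pt hε hz
    linarith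

/-- (BF-inp) crude dependence of `D₁` on the input, real axis:
`D₁ = e^{u(X)} ∫_X^μ sin(dφ(X,z)) e^{-2u(z)} dz`; every ingredient changes by `O(ε)`, the end point `μ` by `Kμ ε`. -/
theorem s2B_D1_inp (M c T0 C Kμ : ℝ) (hc : 0 < c) (hT0 : 0 < T0) (hT1 : T0 ≤ 1) (hC : 0 < C)
    (hK : 0 < Kμ) : ∃ K : ℝ, 0 < K ∧
    ∀ U U' : ℕ → ℂ → ℂ, S2Fun 0 M U → S2Fun 0 M U' → S2Mid c T0 C 0 (U 0) → S2Mid c T0 C 0 (U' 0) →
      ∀ ε : ℝ, (∀ x : ℝ, ‖U 0 x - U' 0 x‖ ≤ ε) → ∀ X Y : ℝ, |Y - X| ≤ T0 →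
        ‖s2mu (U 0) X Y - s2mu (U' 0) X Y‖ ≤ Kμ * ε →
        ‖s2D1 (U 0) X Y - s2D1 (U' 0) X Y‖ ≤ K * ε := by
  set r : ℝ := C + 1 with hr
  set S0 : ℝ := Real.exp (Real.exp M * r) with hS0
  set E1 : ℝ := Real.exp M with hE1
  set E2 : ℝ := Real.exp (2 * M) with hE2
  have hS0p : 0 < S0 := Real.exp_pos _
  have hE1p : 0 < E1 := Real.exp_pos _
  have hE2p : 0 < E2 := Real.exp_pos _
  have hrp : 0 < r := by positivity
  refine ⟨E1 * (S0 * E2 * r) + E1 * (S0 * E2 * Kμ + (S0 * (E1 * r) * E2 + S0 * (E2 * 2)) * r),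
    by positivity, ?_⟩
  intro U U' hU hU' hm hm' ε hε X Y hXY hμμ
  have hε0 : 0 ≤ ε := (norm_nonneg _).trans (hε 0)
  have hτ0 : ‖(Y : ℂ) - (X : ℂ)‖ = |Y - X| := by
    rw [← Complex.ofReal_sub, Complex.norm_real, Real.norm_eq_abs]
  have hadm : S2Adm c T0 0 (X : ℂ) (Y : ℂ) := by
    refine ⟨by rw [hτ0]; exact hXY, ?_⟩
    simp
  have hX := s2BI_real_mem X
  set μ := s2mu (U 0) X Y with hμ
  set μ' := s2mu (U' 0) X Y with hμ'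
  have hμS : μ ∈ s2cs 0 := s2BA_mu hm hadm
  have hμS' : μ' ∈ s2cs 0 := s2BA_mu hm' hadm
  have hτn : 0 ≤ |Y - X| := abs_nonneg _
  have hτ1' : |Y - X| ≤ 1 := hXY.trans hT1
  have hτsq : |Y - X| ^ 2 ≤ 1 := by nlinarith
  have near : ∀ {ν : ℂ}, ‖ν - ((X : ℂ) + Y) / 2‖ ≤ C * ‖(Y : ℂ) - X‖ ^ 2 → ‖ν - (X : ℂ)‖ ≤ r := by
    intro ν hν
    rw [hτ0] at hν
    have e : ν - (X : ℂ) = (ν - ((X : ℂ) + Y) / 2) + ((Y : ℂ) - X) / 2 := by ring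
    rw [e]
    refine (norm_add_le _ _).trans ?_
    rw [norm_div, hτ0]
    have : ‖(2 : ℂ)‖ = 2 := by simp
    rw [this]
    nlinarith
  have d1 : ‖μ - (X : ℂ)‖ ≤ r := near (hm.mu_near _ _ hadm)
  have d2 : ‖μ' - (X : ℂ)‖ ≤ r := near (hm'.mu_near _ _ hadm)
  have d0 : ‖(X : ℂ) - (X : ℂ)‖ ≤ r := by simp [hrp.le]
  obtain ⟨φ, A, B, E, -, -, -, -, -, hJ, -⟩ := s2Q_rep le_rfl hU
  -- first difference
  have j1 : ‖s2J (U 0) X μ - s2J (U 0) X μ'‖ ≤ S0 * E2 * (Kμ * ε) := by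
    have e : s2J (U 0) X μ - s2J (U 0) X μ'
        = s2seg (fun ζ => sin (s2dphi (U 0) X ζ) * exp (-2 * U 0 ζ)) μ' μ := by
      rw [s2J, s2J, hJ _ hX _ hX _ hμS, hJ _ hX _ hX _ hμS', hJ _ hX _ hμS' _ hμS]; ring
    rw [e]
    refine (s2P_norm_le (C := S0 * E2) fun t ht => ?_).trans
      (mul_le_mul_of_nonneg_left hμμ (by positivity))
    exact s2BF_f_bd hU hX (s2P_seg_mem hμS' hμS ht) (s2BF_ball d2 d1 ht)
  -- second difference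
  have j2 : ‖s2J (U 0) X μ' - s2J (U' 0) X μ'‖
      ≤ (S0 * (E1 * ε * r) * E2 + S0 * (E2 * (2 * ε))) * r := by
    refine (s2BF_seg_sub
      (s2BT_cont_path (s2BF_f_cont le_rfl hU hX) _ _ (fun t ht => s2P_seg_mem hX hμS' ht))
      (s2BT_cont_path (s2BF_f_cont le_rfl hU' hX) _ _ (fun t ht => s2P_seg_mem hX hμS' ht))
      (fun t ht => s2BF_f_inp hU hU' hε hX (s2P_seg_mem hX hμS' ht) (s2BF_ball d0 d2 ht))).trans ?_
    exact mul_le_mul_of_nonneg_left d2 (by positivity)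
  have j3 : ‖s2J (U 0) X μ - s2J (U' 0) X μ'‖
      ≤ S0 * E2 * (Kμ * ε) + (S0 * (E1 * ε * r) * E2 + S0 * (E2 * (2 * ε))) * r := by
    have e : s2J (U 0) X μ - s2J (U' 0) X μ'
        = (s2J (U 0) X μ - s2J (U 0) X μ') + (s2J (U 0) X μ' - s2J (U' 0) X μ') := by ring
    rw [e]
    exact (norm_add_le _ _).trans (add_le_add j1 j2)
  have jb : ‖s2J (U 0) X μ‖ ≤ S0 * E2 * r := by
    refine (s2P_norm_le (C := S0 * E2) fun t ht => ?_).trans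
      (mul_le_mul_of_nonneg_left d1 (by positivity))
    exact s2BF_f_bd hU hX (s2P_seg_mem hX hμS ht) (s2BF_ball d0 d1 ht)
  have x1 : ‖exp (U 0 X) - exp (U' 0 X)‖ ≤ E1 * ε :=
    (s2BT_exp_lip (hU.bd 0 (by norm_num) _ hX) (hU'.bd 0 (by norm_num) _ hX)).trans
      (mul_le_mul_of_nonneg_left (hε X) hE1p.le)
  have fin := s2BF_mul (s2BT_norm_exp_le hU' hX) jb x1 j3
  unfold s2D1
  refine fin.trans (le_of_eq ?_)
  ring

end Claimed.Agent.R269
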