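/-
Row 269, Section 2, UNIT C, part 1 (helper196): Green operator of the discrete Dirichlet Laplacian and the starred ball.
Crude constants are enough: `|G(j,i)| ≤ q`, `|G(j+1,i)-G(j,i)| ≤ 1`.
-/
import Claimed.Agent.R269.S2.B

set_option autoImplicit false

namespace Claimed.Agent.R269

open Complex ComplexConjugate Filter Topology

/-- Green operator `h ↦ -∑ G(j,i) h_i`. -/
noncomputable def s2CGr (q : ℕ) (h : ℕ → ℂ) (j : ℕ) : ℂ :=
  - ∑ i ∈ Finset.Ico 1 q, (s2G q j i : ℂ) * h i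

/-- forcing sequence of a configuration. -/
noncomputable def s2CF (u : ℂ → ℂ) (q : ℕ) (x : ℂ) (w : ℕ → ℂ) (i : ℕ) : ℂ :=
  s2f u (s2pt q x w (i - 1)) (s2pt q x w i) (s2pt q x w (i + 1))

/-- starred ball: `|w_j| ≤ E/q²`, `|w_{j+1}-w_j| ≤ E/q³`. -/
def S2CN (q : ℕ) (w : ℕ → ℂ) (E : ℝ) : Prop :=
  (∀ j ≤ q, ‖w j‖ ≤ E / (q : ℝ) ^ 2) ∧ (∀ j < q, ‖w (j + 1) - w j‖ ≤ E / (q : ℝ) ^ 3)

/-- Picard iterates of the mesh equation. -/
noncomputable def s2Cit (u : ℂ → ℂ) (q : ℕ) (x : ℂ) (k : ℕ) : ℕ → ℂ :=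
  (s2T u q x)^[k] (fun _ => 0)

theorem s2CGreen_eqns_cited : True := by
  have := @s2CGr.eq_1; have := @s2CGr.eq_def; have := @s2CGr.congr_simp
  have := @s2CF.eq_1; have := @s2CF.eq_def; have := @s2CF.congr_simp
  have := @S2CN.eq_1; have := @S2CN.eq_def; have := @S2CN.congr_simp
  have := @s2Cit.eq_1; have := @s2Cit.eq_def; have := @s2Cit.congr_simp
  trivial

theorem s2C_T_eq (u : ℂ → ℂ) (q : ℕ) (x : ℂ) (w : ℕ → ℂ) :
    s2T u q x w = s2CGr q (s2CF u q x w) := rfl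

theorem s2C_it_zero (u : ℂ → ℂ) (q : ℕ) (x : ℂ) : s2Cit u q x 0 = fun _ => 0 := rfl

theorem s2C_it_succ (u : ℂ → ℂ) (q : ℕ) (x : ℂ) (k : ℕ) :
    s2Cit u q x (k + 1) = s2T u q x (s2Cit u q x k) := by
  unfold s2Cit
  rw [Function.iterate_succ_apply']

theorem s2C_w_eq (u : ℂ → ℂ) (q : ℕ) (x : ℂ) (j : ℕ) :
    s2w u q x j = limUnder atTop (fun k : ℕ => s2Cit u q x k j) := rfl

/-! ### the Green function -/

theorem s2C_G_le {q j i : ℕ} (h : i ≤ j) : s2G q j i = (i : ℝ) * ((q : ℝ) - j) / q := by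
  have h' : (i : ℝ) ≤ j := by exact_mod_cast h
  unfold s2G
  rw [min_eq_left h', max_eq_right h']

theorem s2C_G_ge {q j i : ℕ} (h : j ≤ i) : s2G q j i = (j : ℝ) * ((q : ℝ) - i) / q := by
  have h' : (j : ℝ) ≤ i := by exact_mod_cast h
  unfold s2G
  rw [min_eq_right h', max_eq_left h']

theorem s2C_G_zero (q i : ℕ) : s2G q 0 i = 0 := by
  rw [s2C_G_ge (Nat.zero_le i)]; simp

theorem s2C_G_last {q i : ℕ} (h : i ≤ q) : s2G q q i = 0 := by
  rw [s2C_G_le h]; simp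

theorem s2C_G_abs_le {q j i : ℕ} (hq : 0 < q) (hj : j ≤ q) (hi : i ≤ q) : |s2G q j i| ≤ q := by
  have hQ : (0 : ℝ) < q := by exact_mod_cast hq
  have hj' : (j : ℝ) ≤ q := by exact_mod_cast hj
  have hi' : (i : ℝ) ≤ q := by exact_mod_cast hi
  have hj0 : (0 : ℝ) ≤ j := Nat.cast_nonneg j
  have hi0 : (0 : ℝ) ≤ i := Nat.cast_nonneg i
  rcases le_total i j with h | h
  · rw [s2C_G_le h, abs_of_nonneg (by apply div_nonneg (mul_nonneg hi0 (by linarith)) hQ.le),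
      div_le_iff₀ hQ]
    nlinarith
  · rw [s2C_G_ge h, abs_of_nonneg (by apply div_nonneg (mul_nonneg hj0 (by linarith)) hQ.le),
      div_le_iff₀ hQ]
    nlinarith

theorem s2C_G_diff_le {q j i : ℕ} (hq : 0 < q) (hi : i ≤ q) :
    |s2G q (j + 1) i - s2G q j i| ≤ 1 := by
  have hQ : (0 : ℝ) < q := by exact_mod_cast hq
  have hi' : (i : ℝ) ≤ q := by exact_mod_cast hi
  have hi0 : (0 : ℝ) ≤ i := Nat.cast_nonneg i
  rcases Nat.lt_or_ge j i with h | h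
  · rw [s2C_G_ge (show j + 1 ≤ i from h), s2C_G_ge h.le]
    have e : ((j + 1 : ℕ) : ℝ) * ((q : ℝ) - i) / q - (j : ℝ) * ((q : ℝ) - i) / q = ((q : ℝ) - i) / q := by
      push_cast; ring
    rw [e, abs_of_nonneg (div_nonneg (by linarith) hQ.le), div_le_one hQ]
    linarith
  · rw [s2C_G_le (show i ≤ j + 1 by omega), s2C_G_le h]
    have e : (i : ℝ) * ((q : ℝ) - ((j + 1 : ℕ) : ℝ)) / q - (i : ℝ) * ((q : ℝ) - j) / q = -((i : ℝ) / q) := by
      push_cast; ring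
    rw [e, abs_neg, abs_of_nonneg (div_nonneg hi0 hQ.le), div_le_one hQ]
    exact hi'

theorem s2C_G_lap {q j i : ℕ} (hq : 0 < q) :
    s2G q (j + 2) i - 2 * s2G q (j + 1) i + s2G q j i = if i = j + 1 then -1 else 0 := by
  have hQ : (q : ℝ) ≠ 0 := by exact_mod_cast hq.ne'
  rcases Nat.lt_trichotomy i (j + 1) with h | h | h
  · rw [if_neg (by omega), s2C_G_le (show i ≤ j + 2 by omega), s2C_G_le (show i ≤ j + 1 by omega),
      s2C_G_le (show i ≤ j by omega)]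
    push_cast; ring
  · subst h
    rw [if_pos rfl, s2C_G_le (show j + 1 ≤ j + 2 by omega), s2C_G_le le_rfl,
      s2C_G_ge (show j ≤ j + 1 by omega)]
    push_cast; field_simp; ring
  · rw [if_neg (by omega), s2C_G_ge (show j + 2 ≤ i by omega), s2C_G_ge (show j + 1 ≤ i by omega),
      s2C_G_ge (show j ≤ i by omega)]
    push_cast; ring

/-! ### the Green operator -/

theorem s2C_Gr_sub (q : ℕ) (h h' : ℕ → ℂ) (j : ℕ) :
    s2CGr q h j - s2CGr q h' j = s2CGr q (fun i => h i - h' i) j := by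
  unfold s2CGr
  rw [neg_sub_neg, ← Finset.sum_sub_distrib, ← Finset.sum_neg_distrib]
  apply Finset.sum_congr rfl
  intro i _
  ring

theorem s2C_Gr_congr {q : ℕ} {h h' : ℕ → ℂ} (e : ∀ i ∈ Finset.Ico 1 q, h i = h' i) :
    s2CGr q h = s2CGr q h' := by
  funext j
  unfold s2CGr
  congr 1
  apply Finset.sum_congr rfl
  intro i hi
  rw [e i hi]

theorem s2C_Gr_conj (q : ℕ) (h : ℕ → ℂ) (j : ℕ) :
    conj (s2CGr q h j) = s2CGr q (fun i => conj (h i)) j := by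
  unfold s2CGr
  rw [map_neg, map_sum]
  congr 1
  apply Finset.sum_congr rfl
  intro i _
  rw [map_mul, Complex.conj_ofReal]

theorem s2C_Gr_zero (q : ℕ) (h : ℕ → ℂ) : s2CGr q h 0 = 0 := by
  unfold s2CGr
  simp [s2C_G_zero]

theorem s2C_Gr_last (q : ℕ) (h : ℕ → ℂ) : s2CGr q h q = 0 := by
  unfold s2CGr
  rw [neg_eq_zero]
  apply Finset.sum_eq_zero
  intro i hi
  rw [s2C_G_last (Finset.mem_Ico.mp hi).2.le]
  simp

theorem s2C_Gr_lap {q j : ℕ} (hj : j + 2 ≤ q) (h : ℕ → ℂ) :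
    s2CGr q h (j + 2) - 2 * s2CGr q h (j + 1) + s2CGr q h j = h (j + 1) := by
  have hq : 0 < q := by omega
  unfold s2CGr
  have e : -∑ i ∈ Finset.Ico 1 q, (s2G q (j + 2) i : ℂ) * h i
      - 2 * -∑ i ∈ Finset.Ico 1 q, (s2G q (j + 1) i : ℂ) * h i
      + -∑ i ∈ Finset.Ico 1 q, (s2G q j i : ℂ) * h i
      = ∑ i ∈ Finset.Ico 1 q, (if i = j + 1 then h i else 0) := by
    rw [← Finset.sum_neg_distrib, ← Finset.sum_neg_distrib, ← Finset.sum_neg_distrib, Finset.mul_sum,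
      ← Finset.sum_sub_distrib, ← Finset.sum_add_distrib]
    apply Finset.sum_congr rfl
    intro i _
    have h1 := s2C_G_lap (q := q) (j := j) (i := i) hq
    have h2 : ((s2G q (j + 2) i : ℂ) - 2 * (s2G q (j + 1) i : ℂ) + (s2G q j i : ℂ))
        = if i = j + 1 then -1 else 0 := by
      have := congrArg (fun r : ℝ => (r : ℂ)) h1
      push_cast at this
      rw [this]
      split_ifs <;> simp
    split_ifs with hi
    · rw [if_pos hi] at h2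
      linear_combination (-h i) * h2
    · rw [if_neg hi] at h2
      linear_combination (-h i) * h2
  rw [e, Finset.sum_ite_eq' (Finset.Ico 1 q) (j + 1) h, if_pos (Finset.mem_Ico.mpr ⟨by omega, by omega⟩)]

theorem s2C_Gr_N {q : ℕ} (hq : 0 < q) {h : ℕ → ℂ} {F : ℝ} (hF0 : 0 ≤ F)
    (hF : ∀ i ∈ Finset.Ico 1 q, ‖h i‖ ≤ F) : S2CN q (s2CGr q h) ((q : ℝ) ^ 4 * F) := by
  have hQ : (0 : ℝ) < q := by exact_mod_cast hq
  have hcard : ((Finset.Ico 1 q).card : ℝ) ≤ q := by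
    rw [Nat.card_Ico]; exact_mod_cast Nat.sub_le q 1
  constructor
  · intro j hj
    have e : (q : ℝ) ^ 4 * F / (q : ℝ) ^ 2 = (q : ℝ) * ((q : ℝ) * F) := by field_simp
    rw [e]
    unfold s2CGr
    rw [norm_neg]
    refine (norm_sum_le _ _).trans ?_
    refine (Finset.sum_le_card_nsmul _ _ ((q : ℝ) * F) ?_).trans ?_
    · intro i hi
      rw [norm_mul, Complex.norm_real, Real.norm_eq_abs]
      exact mul_le_mul (s2C_G_abs_le hq hj (Finset.mem_Ico.mp hi).2.le) (hF i hi) (norm_nonneg _) hQ.le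
    · rw [nsmul_eq_mul]
      exact mul_le_mul_of_nonneg_right hcard (by positivity)
  · intro j hj
    have e : (q : ℝ) ^ 4 * F / (q : ℝ) ^ 3 = (q : ℝ) * F := by field_simp
    rw [e]
    unfold s2CGr
    rw [neg_sub_neg, ← Finset.sum_sub_distrib]
    refine (norm_sum_le _ _).trans ?_
    refine (Finset.sum_le_card_nsmul _ _ F ?_).trans ?_
    · intro i hi
      rw [← sub_mul, norm_mul, ← Complex.ofReal_sub, Complex.norm_real, Real.norm_eq_abs, abs_sub_comm]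
      calc |s2G q (j + 1) i - s2G q j i| * ‖h i‖ ≤ 1 * F :=
            mul_le_mul (s2C_G_diff_le hq (Finset.mem_Ico.mp hi).2.le) (hF i hi) (norm_nonneg _) zero_le_one
        _ = F := one_mul F
    · rw [nsmul_eq_mul]
      exact mul_le_mul_of_nonneg_right hcard hF0

/-! ### the starred ball -/

theorem S2CN.mono {q : ℕ} {w : ℕ → ℂ} {E E' : ℝ} (h : S2CN q w E) (hE : E ≤ E') : S2CN q w E' :=
  ⟨fun j hj => (h.1 j hj).trans (by gcongr), fun j hj => (h.2 j hj).trans (by gcongr)⟩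

theorem S2CN.add {q : ℕ} {w w' : ℕ → ℂ} {E E' : ℝ} (h : S2CN q w E) (h' : S2CN q w' E') :
    S2CN q (fun j => w j + w' j) (E + E') := by
  constructor
  · intro j hj
    rw [add_div]
    exact (norm_add_le _ _).trans (add_le_add (h.1 j hj) (h'.1 j hj))
  · intro j hj
    rw [add_div]
    have e : w (j + 1) + w' (j + 1) - (w j + w' j) = (w (j + 1) - w j) + (w' (j + 1) - w' j) := by ring
    rw [e]
    exact (norm_add_le _ _).trans (add_le_add (h.2 j hj) (h'.2 j hj))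

theorem S2CN.congr {q : ℕ} {w w' : ℕ → ℂ} {E : ℝ} (h : S2CN q w E) (e : ∀ j ≤ q, w j = w' j) :
    S2CN q w' E :=
  ⟨fun j hj => by rw [← e j hj]; exact h.1 j hj,
   fun j hj => by rw [← e j hj.le, ← e (j + 1) hj]; exact h.2 j hj⟩

theorem s2C_N_zero {q : ℕ} {E : ℝ} (hE : 0 ≤ E) : S2CN q (fun _ => 0) E :=
  ⟨fun j _ => by rw [norm_zero]; positivity, fun j _ => by rw [sub_zero, norm_zero]; positivity⟩

theorem s2C_N_lim {q : ℕ} {a : ℕ → ℕ → ℂ} {b : ℕ → ℂ} {E : ℝ}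
    (hl : ∀ j ≤ q, Tendsto (fun k => a k j) atTop (𝓝 (b j))) (h : ∀ k, S2CN q (a k) E) :
    S2CN q b E :=
  ⟨fun j hj => le_of_tendsto' (hl j hj).norm (fun k => (h k).1 j hj),
   fun j hj => le_of_tendsto' ((hl (j + 1) hj).sub (hl j hj.le)).norm (fun k => (h k).2 j hj)⟩

/-! ### constants, mesh points -/

/-- contraction constant (times `q`). -/
noncomputable def s2CK (C : ℝ) : ℝ := C * (8 * Real.pi ^ 3 + 8 * Real.pi ^ 2)

/-- radius of the invariant ball. -/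
noncomputable def s2CR0 (C : ℝ) : ℝ := 32 * Real.pi ^ 4 * C

/-- the constant `R` of the mesh. -/
noncomputable def s2CR (c C : ℝ) : ℝ :=
  (4 * Real.pi * c + 2 * s2CK C + 4 * Real.pi * c * (2 * s2CK C))
    + (9 * Real.pi ^ 2 * C + s2CR0 C) + (6 * Real.pi * C * (1 + 2 * s2CK C) + 2 * s2CK C)

/-- largeness of `q`. -/
structure S2CHyp (c T0 C : ℝ) (q : ℕ) : Prop where
  c_pos : 0 < c
  C_pos : 0 < C
  q_pos : 0 < q
  hK : 2 * s2CK C ≤ q
  hR0 : s2CR0 C ≤ q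
  hT : 2 * s2del q ≤ T0

/-- the invariant set. -/
structure S2CInv (C : ℝ) (q : ℕ) (x : ℂ) (w : ℕ → ℂ) : Prop where
  nb : S2CN q w (s2CR0 C)
  ib : S2CN q (fun j => w j - conj (w j)) (4 * s2CK C * q * |x.im|)

/-- all triples of the configuration are admissible. -/
def S2CAdm (c σ : ℝ) (q : ℕ) (x : ℂ) (w : ℕ → ℂ) : Prop :=
  ∀ k, k + 2 ≤ q → S2Tri c σ (s2del q) (s2pt q x w k) (s2pt q x w (k + 1)) (s2pt q x w (k + 2))

theorem s2CGreen_eqns_cited2 : True := by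
  have := @s2CK.eq_1; have := @s2CK.eq_def; have := @s2CK.congr_simp
  have := @s2CR0.eq_1; have := @s2CR0.eq_def; have := @s2CR0.congr_simp
  have := @s2CR.eq_1; have := @s2CR.eq_def; have := @s2CR.congr_simp
  have := @S2CAdm.eq_1; have := @S2CAdm.eq_def; have := @S2CAdm.congr_simp
  trivial

theorem s2C_K_pos {C : ℝ} (hC : 0 < C) : 0 < s2CK C := by
  unfold s2CK; have := Real.pi_pos; positivity

theorem s2C_R0_pos {C : ℝ} (hC : 0 < C) : 0 < s2CR0 C := by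
  unfold s2CR0; have := Real.pi_pos; positivity

theorem s2C_F_succ (u : ℂ → ℂ) (q : ℕ) (x : ℂ) (w : ℕ → ℂ) (k : ℕ) :
    s2CF u q x w (k + 1) = s2f u (s2pt q x w k) (s2pt q x w (k + 1)) (s2pt q x w (k + 2)) := rfl

theorem s2C_Ico_cases {q i : ℕ} (hi : i ∈ Finset.Ico 1 q) : ∃ k, i = k + 1 ∧ k + 2 ≤ q := by
  have := Finset.mem_Ico.mp hi
  exact ⟨i - 1, by omega, by omega⟩

theorem s2C_del_pos {q : ℕ} (hq : 0 < q) : 0 < s2del q := by
  have hQ : (0 : ℝ) < q := by exact_mod_cast hq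
  unfold s2del; have := Real.pi_pos; positivity

theorem s2C_pt_step (q : ℕ) (x : ℂ) (w : ℕ → ℂ) (k : ℕ) :
    s2pt q x w (k + 1) - s2pt q x w k - (s2del q : ℂ) = w (k + 1) - w k := by
  unfold s2pt; push_cast; ring

theorem s2C_pt_im (q : ℕ) (x : ℂ) (w : ℕ → ℂ) (j : ℕ) :
    (s2pt q x w j).im = x.im + (w j).im := by
  unfold s2pt
  simp [Complex.add_im, Complex.mul_im]

theorem s2C_pt_conj (q : ℕ) (x : ℂ) (w : ℕ → ℂ) (j : ℕ) :
    s2pt q (conj x) (fun j => conj (w j)) j = conj (s2pt q x w j) := by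
  unfold s2pt
  simp [map_add, map_mul, Complex.conj_ofReal]

theorem s2C_pt_per (q : ℕ) (x : ℂ) (w : ℕ → ℂ) (j : ℕ) :
    s2pt q (x + 2 * Real.pi) w j = s2pt q x w j + 2 * Real.pi := by
  unfold s2pt; ring

theorem s2C_tri_conj {c σ δ : ℝ} {Xm X Xp : ℂ} (h : S2Tri c σ δ Xm X Xp) :
    S2Tri c σ δ (conj Xm) (conj X) (conj Xp) where
  sm := by
    have e : conj X - conj Xm - (δ : ℂ) = conj (X - Xm - δ) := by
      simp [map_sub, Complex.conj_ofReal]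
    rw [e, Complex.norm_conj]; exact h.sm
  sp := by
    have e : conj Xp - conj X - (δ : ℂ) = conj (Xp - X - δ) := by
      simp [map_sub, Complex.conj_ofReal]
    rw [e, Complex.norm_conj]; exact h.sp
  im := by
    simp only [Complex.conj_im, abs_neg]; exact h.im

theorem s2C_adm_conj {c σ : ℝ} {q : ℕ} {x : ℂ} {w : ℕ → ℂ} (h : S2CAdm c σ q x w) :
    S2CAdm c σ q (conj x) (fun j => conj (w j)) := by
  intro k hk
  rw [s2C_pt_conj, s2C_pt_conj, s2C_pt_conj]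
  exact s2C_tri_conj (h k hk)

theorem s2C_norm_sub_conj (z : ℂ) : ‖z - conj z‖ = 2 * |z.im| := by
  rw [Complex.sub_conj, norm_mul, Complex.norm_I, mul_one, Complex.norm_real, Real.norm_eq_abs, abs_mul]
  simp

theorem s2C_inv_im {C : ℝ} {q : ℕ} {x : ℂ} {w : ℕ → ℂ} (hq : 0 < q) (h : S2CInv C q x w) {j : ℕ}
    (hj : j ≤ q) : |(w j).im| ≤ 2 * s2CK C / q * |x.im| := by
  have hQ : (0 : ℝ) < q := by exact_mod_cast hq
  have h1 := h.ib.1 j hj
  rw [s2C_norm_sub_conj] at h1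
  have e : 4 * s2CK C * q * |x.im| / (q : ℝ) ^ 2 = 2 * (2 * s2CK C / q * |x.im|) := by
    field_simp; ring
  rw [e] at h1
  linarith

theorem s2C_inv_pt_im {C : ℝ} {q : ℕ} {x : ℂ} {w : ℕ → ℂ} (hq : 0 < q) (h : S2CInv C q x w) {j : ℕ}
    (hj : j ≤ q) : |(s2pt q x w j).im| ≤ (1 + 2 * s2CK C / q) * |x.im| := by
  rw [s2C_pt_im]
  have := s2C_inv_im hq h hj
  have h2 := abs_add_le x.im (w j).im
  linarith

theorem s2C_R_prod {c T0 C : ℝ} {q : ℕ} (H : S2CHyp c T0 C q) :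
    (1 + 2 * c * s2del q) * (1 + 2 * s2CK C / q) ≤ 1 + s2CR c C / q := by
  have hQ : (0 : ℝ) < q := by exact_mod_cast H.q_pos
  have hQ1 : (1 : ℝ) ≤ q := by exact_mod_cast H.q_pos
  have hK := s2C_K_pos H.C_pos
  have hR0 := s2C_R0_pos H.C_pos
  have hc := H.c_pos
  have hC := H.C_pos
  have hpi := Real.pi_pos
  have e : (1 + 2 * c * s2del q) * (1 + 2 * s2CK C / q)
      = 1 + (4 * Real.pi * c + 2 * s2CK C + 4 * Real.pi * c * (2 * s2CK C) / q) / q := by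
    unfold s2del; field_simp; ring
  rw [e]
  have h2 : 4 * Real.pi * c * (2 * s2CK C) / q ≤ 4 * Real.pi * c * (2 * s2CK C) :=
    div_le_self (by positivity) hQ1
  have h3 : 4 * Real.pi * c + 2 * s2CK C + 4 * Real.pi * c * (2 * s2CK C) / q ≤ s2CR c C := by
    unfold s2CR
    have : 0 ≤ (9 * Real.pi ^ 2 * C + s2CR0 C) + (6 * Real.pi * C * (1 + 2 * s2CK C) + 2 * s2CK C) := by
      positivity
    linarith
  gcongr

theorem s2C_small_step {c T0 C : ℝ} {q : ℕ} (H : S2CHyp c T0 C q) :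
    s2CR0 C / (q : ℝ) ^ 3 ≤ s2del q / 2 := by
  have hQ : (0 : ℝ) < q := by exact_mod_cast H.q_pos
  have hQ1 : (1 : ℝ) ≤ q := by exact_mod_cast H.q_pos
  have hpi := Real.pi_gt_three
  have h0 := H.hR0
  unfold s2del
  rw [div_le_iff₀ (by positivity)]
  have e : 2 * Real.pi / q / 2 * (q : ℝ) ^ 3 = Real.pi * (q : ℝ) ^ 2 := by field_simp
  rw [e]
  nlinarith

theorem s2C_adm {c T0 C σ : ℝ} {q : ℕ} {x : ℂ} {w : ℕ → ℂ} (H : S2CHyp c T0 C q)
    (hI : S2CInv C q x w) (hx : S2Dom (s2CR c C) σ q x) : S2CAdm c σ q x w := by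
  intro k hk
  have hδ := s2C_del_pos H.q_pos
  refine ⟨?_, ?_, ?_⟩
  · rw [s2C_pt_step]
    exact (hI.nb.2 k (by omega)).trans (s2C_small_step H)
  · rw [show k + 2 = k + 1 + 1 from rfl, s2C_pt_step]
    exact (hI.nb.2 (k + 1) (by omega)).trans (s2C_small_step H)
  · have h1 := s2C_inv_pt_im H.q_pos hI (show k ≤ q by omega)
    have h2 := s2C_inv_pt_im H.q_pos hI (show k + 1 ≤ q by omega)
    have h3 := s2C_inv_pt_im H.q_pos hI (show k + 2 ≤ q by omega)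
    have h4 : max |(s2pt q x w k).im| (max |(s2pt q x w (k + 1)).im| |(s2pt q x w (k + 2)).im|)
        ≤ (1 + 2 * s2CK C / q) * |x.im| := max_le h1 (max_le h2 h3)
    have h5 : 0 ≤ 1 + 2 * c * s2del q := by have := H.c_pos; positivity
    calc (1 + 2 * c * s2del q) * max |(s2pt q x w k).im| (max |(s2pt q x w (k + 1)).im| |(s2pt q x w (k + 2)).im|)
        ≤ (1 + 2 * c * s2del q) * ((1 + 2 * s2CK C / q) * |x.im|) := mul_le_mul_of_nonneg_left h4 h5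
      _ = ((1 + 2 * c * s2del q) * (1 + 2 * s2CK C / q)) * |x.im| := by ring
      _ ≤ (1 + s2CR c C / q) * |x.im| := mul_le_mul_of_nonneg_right (s2C_R_prod H) (abs_nonneg _)
      _ ≤ σ := hx

/-- LEMMA L: Lipschitz estimate of the Picard map in the starred norm, two base points. -/
theorem s2C_L {c T0 C σ : ℝ} {u : ℂ → ℂ} {q : ℕ} (H : S2CHyp c T0 C q) (hB : S2TwoPt c T0 C σ u)
    {x x' : ℂ} {w w' : ℕ → ℂ} {E : ℝ} (hE0 : 0 ≤ E)
    (hA : S2CAdm c σ q x w) (hA' : S2CAdm c σ q x' w') (hE : S2CN q (fun j => w j - w' j) E) :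
    S2CN q (fun j => s2T u q x w j - s2T u q x' w' j) (s2CK C * (q * ‖x - x'‖ + E / q)) := by
  have hQ : (0 : ℝ) < q := by exact_mod_cast H.q_pos
  have hδ := s2C_del_pos H.q_pos
  have hC := H.C_pos
  have hpi := Real.pi_pos
  have hF : ∀ i ∈ Finset.Ico 1 q, ‖s2CF u q x w i - s2CF u q x' w' i‖
      ≤ C * (s2del q ^ 3 * (‖x - x'‖ + E / (q : ℝ) ^ 2)
          + s2del q ^ 2 * (E / (q : ℝ) ^ 3 + E / (q : ℝ) ^ 3)) := by
    intro i hi
    obtain ⟨k, rfl, hk⟩ := s2C_Ico_cases hi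
    rw [s2C_F_succ, s2C_F_succ]
    refine (hB.f_lip _ hδ H.hT _ _ _ _ _ _ (hA k hk) (hA' k hk)).trans ?_
    have e1 : s2pt q x w (k + 1) - s2pt q x' w' (k + 1) = (x - x') + (w (k + 1) - w' (k + 1)) := by
      unfold s2pt; ring
    have e2 : (s2pt q x w (k + 1) - s2pt q x w k) - (s2pt q x' w' (k + 1) - s2pt q x' w' k)
        = (w (k + 1) - w' (k + 1)) - (w k - w' k) := by
      unfold s2pt; ring
    have e3 : (s2pt q x w (k + 2) - s2pt q x w (k + 1)) - (s2pt q x' w' (k + 2) - s2pt q x' w' (k + 1))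
        = (w (k + 1 + 1) - w' (k + 1 + 1)) - (w (k + 1) - w' (k + 1)) := by
      unfold s2pt; ring
    have b1 : ‖s2pt q x w (k + 1) - s2pt q x' w' (k + 1)‖ ≤ ‖x - x'‖ + E / (q : ℝ) ^ 2 := by
      rw [e1]
      exact (norm_add_le _ _).trans (by gcongr; exact hE.1 (k + 1) (by omega))
    have b2 : ‖(s2pt q x w (k + 1) - s2pt q x w k) - (s2pt q x' w' (k + 1) - s2pt q x' w' k)‖
        ≤ E / (q : ℝ) ^ 3 := by
      rw [e2]; exact hE.2 k (by omega)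
    have b3 : ‖(s2pt q x w (k + 2) - s2pt q x w (k + 1)) - (s2pt q x' w' (k + 2) - s2pt q x' w' (k + 1))‖
        ≤ E / (q : ℝ) ^ 3 := by
      rw [e3]; exact hE.2 (k + 1) (by omega)
    gcongr
  have e : (fun j => s2T u q x w j - s2T u q x' w' j)
      = s2CGr q (fun i => s2CF u q x w i - s2CF u q x' w' i) := by
    funext j; rw [s2C_T_eq, s2C_T_eq, s2C_Gr_sub]
  rw [e]
  refine (s2C_Gr_N H.q_pos (by positivity) hF).mono ?_
  have key : (q : ℝ) ^ 4 * (C * (s2del q ^ 3 * (‖x - x'‖ + E / (q : ℝ) ^ 2)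
          + s2del q ^ 2 * (E / (q : ℝ) ^ 3 + E / (q : ℝ) ^ 3)))
      = C * (8 * Real.pi ^ 3 * (q * ‖x - x'‖) + (8 * Real.pi ^ 3 + 8 * Real.pi ^ 2) * (E / q)) := by
    unfold s2del; field_simp; ring
  rw [key]
  unfold s2CK
  have : 0 ≤ C * (8 * Real.pi ^ 2) * (q * ‖x - x'‖) := by positivity
  nlinarith

theorem s2C_T_bd {c T0 C σ : ℝ} {u : ℂ → ℂ} {q : ℕ} (H : S2CHyp c T0 C q) (hB : S2TwoPt c T0 C σ u)
    {x : ℂ} {w : ℕ → ℂ} (hA : S2CAdm c σ q x w) (hN : S2CN q w (s2CR0 C)) :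
    S2CN q (s2T u q x w) (s2CR0 C) := by
  have hQ : (0 : ℝ) < q := by exact_mod_cast H.q_pos
  have hδ := s2C_del_pos H.q_pos
  have hC := H.C_pos
  have hpi := Real.pi_pos
  have hR0 := s2C_R0_pos hC
  have hF : ∀ i ∈ Finset.Ico 1 q, ‖s2CF u q x w i‖
      ≤ C * (s2del q ^ 2 * (s2CR0 C / (q : ℝ) ^ 3 + s2CR0 C / (q : ℝ) ^ 3) + s2del q ^ 4) := by
    intro i hi
    obtain ⟨k, rfl, hk⟩ := s2C_Ico_cases hi
    rw [s2C_F_succ]
    refine (hB.f_bd _ hδ H.hT _ _ _ (hA k hk)).trans ?_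
    have e1 : s2pt q x w (k + 2) - 2 * s2pt q x w (k + 1) + s2pt q x w k
        = (w (k + 1 + 1) - w (k + 1)) - (w (k + 1) - w k) := by
      unfold s2pt; push_cast; ring
    have b1 : ‖s2pt q x w (k + 2) - 2 * s2pt q x w (k + 1) + s2pt q x w k‖
        ≤ s2CR0 C / (q : ℝ) ^ 3 + s2CR0 C / (q : ℝ) ^ 3 := by
      rw [e1]
      exact (norm_sub_le _ _).trans (add_le_add (hN.2 (k + 1) (by omega)) (hN.2 k (by omega)))
    gcongr
  rw [s2C_T_eq]
  refine (s2C_Gr_N H.q_pos (by positivity) hF).mono ?_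
  have key : (q : ℝ) ^ 4 * (C * (s2del q ^ 2 * (s2CR0 C / (q : ℝ) ^ 3 + s2CR0 C / (q : ℝ) ^ 3) + s2del q ^ 4))
      = (C * (8 * Real.pi ^ 2)) * s2CR0 C / q + 16 * Real.pi ^ 4 * C := by
    unfold s2del; field_simp; ring
  rw [key]
  have h1 : 2 * (C * (8 * Real.pi ^ 2)) ≤ q := by
    refine le_trans ?_ H.hK
    unfold s2CK
    have : 0 ≤ C * (8 * Real.pi ^ 3) := by positivity
    nlinarith
  have h2 : (C * (8 * Real.pi ^ 2)) * s2CR0 C / q ≤ s2CR0 C / 2 := by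
    rw [div_le_iff₀ hQ]
    nlinarith
  have h3 : 16 * Real.pi ^ 4 * C = s2CR0 C / 2 := by unfold s2CR0; ring
  linarith

theorem s2C_T_conj {c T0 C σ : ℝ} {u : ℂ → ℂ} {q : ℕ} (H : S2CHyp c T0 C q) (hB : S2TwoPt c T0 C σ u)
    {x : ℂ} {w : ℕ → ℂ} (hA : S2CAdm c σ q x w) :
    s2T u q (conj x) (fun j => conj (w j)) = fun j => conj (s2T u q x w j) := by
  have hδ := s2C_del_pos H.q_pos
  funext j
  rw [s2C_T_eq, s2C_T_eq, s2C_Gr_conj]
  refine congrFun (s2C_Gr_congr ?_) j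
  intro i hi
  obtain ⟨k, rfl, hk⟩ := s2C_Ico_cases hi
  rw [s2C_F_succ, s2C_F_succ, s2C_pt_conj, s2C_pt_conj, s2C_pt_conj]
  exact hB.f_conj _ hδ H.hT _ _ _ (hA k hk)

theorem s2C_inv_step {c T0 C σ : ℝ} {u : ℂ → ℂ} {q : ℕ} (H : S2CHyp c T0 C q) (hB : S2TwoPt c T0 C σ u)
    {x : ℂ} {w : ℕ → ℂ} (hx : S2Dom (s2CR c C) σ q x) (hI : S2CInv C q x w) :
    S2CInv C q x (s2T u q x w) := by
  have hQ : (0 : ℝ) < q := by exact_mod_cast H.q_pos
  have hK := s2C_K_pos H.C_pos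
  have hA := s2C_adm H hI hx
  refine ⟨s2C_T_bd H hB hA hI.nb, ?_⟩
  have h1 := s2C_L H hB (E := 4 * s2CK C * q * |x.im|) (by positivity) hA (s2C_adm_conj hA) hI.ib
  rw [s2C_T_conj H hB hA] at h1
  refine h1.mono ?_
  rw [s2C_norm_sub_conj]
  have e : s2CK C * (q * (2 * |x.im|) + 4 * s2CK C * q * |x.im| / q)
      = 2 * s2CK C * q * |x.im| + (2 * s2CK C) * (2 * s2CK C * |x.im|) := by
    field_simp; ring
  rw [e]
  have h2 : (2 * s2CK C) * (2 * s2CK C * |x.im|) ≤ q * (2 * s2CK C * |x.im|) :=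
    mul_le_mul_of_nonneg_right H.hK (by positivity)
  nlinarith

theorem s2C_inv_zero {C : ℝ} (hC : 0 < C) (q : ℕ) (x : ℂ) : S2CInv C q x (fun _ => 0) := by
  have hK := s2C_K_pos hC
  refine ⟨s2C_N_zero (s2C_R0_pos hC).le, ?_⟩
  have e : (fun _ : ℕ => (0 : ℂ) - conj (0 : ℂ)) = fun _ => 0 := by simp
  rw [e]
  exact s2C_N_zero (by positivity)

theorem s2C_inv_it {c T0 C σ : ℝ} {u : ℂ → ℂ} {q : ℕ} (H : S2CHyp c T0 C q) (hB : S2TwoPt c T0 C σ u)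
    {x : ℂ} (hx : S2Dom (s2CR c C) σ q x) (k : ℕ) : S2CInv C q x (s2Cit u q x k) := by
  induction k with
  | zero => exact s2C_inv_zero H.C_pos q x
  | succ k ih => rw [s2C_it_succ]; exact s2C_inv_step H hB hx ih

theorem s2C_adm_it {c T0 C σ : ℝ} {u : ℂ → ℂ} {q : ℕ} (H : S2CHyp c T0 C q) (hB : S2TwoPt c T0 C σ u)
    {x : ℂ} (hx : S2Dom (s2CR c C) σ q x) (k : ℕ) : S2CAdm c σ q x (s2Cit u q x k) :=
  s2C_adm H (s2C_inv_it H hB hx k) hx

theorem s2C_it_geo {c T0 C σ : ℝ} {u : ℂ → ℂ} {q : ℕ} (H : S2CHyp c T0 C q) (hB : S2TwoPt c T0 C σ u)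
    {x : ℂ} (hx : S2Dom (s2CR c C) σ q x) (k : ℕ) :
    S2CN q (fun j => s2Cit u q x (k + 1) j - s2Cit u q x k j) (s2CR0 C * (1 / 2) ^ k) := by
  have hQ : (0 : ℝ) < q := by exact_mod_cast H.q_pos
  have hK := s2C_K_pos H.C_pos
  have hR0 := s2C_R0_pos H.C_pos
  induction k with
  | zero =>
    have e : (fun j => s2Cit u q x (0 + 1) j - s2Cit u q x 0 j) = s2Cit u q x 1 := by
      funext j; simp [s2C_it_zero]
    rw [e, pow_zero, mul_one]
    exact (s2C_inv_it H hB hx 1).nb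
  | succ k ih =>
    have h1 := s2C_L H hB (by positivity) (s2C_adm_it H hB hx (k + 1)) (s2C_adm_it H hB hx k) ih
    rw [← s2C_it_succ, ← s2C_it_succ] at h1
    refine h1.mono ?_
    rw [sub_self, norm_zero, mul_zero, zero_add, pow_succ]
    have h2 : s2CK C * (s2CR0 C * (1 / 2) ^ k / q) = (s2CK C / q) * (s2CR0 C * (1 / 2) ^ k) := by
      field_simp
    have h3 : s2CK C / q ≤ 1 / 2 := by
      rw [div_le_iff₀ hQ]; linarith [H.hK]
    rw [h2]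
    calc s2CK C / q * (s2CR0 C * (1 / 2) ^ k) ≤ 1 / 2 * (s2CR0 C * (1 / 2) ^ k) :=
          mul_le_mul_of_nonneg_right h3 (by positivity)
      _ = s2CR0 C * ((1 / 2) ^ k * (1 / 2)) := by ring

theorem s2C_tendsto {c T0 C σ : ℝ} {u : ℂ → ℂ} {q : ℕ} (H : S2CHyp c T0 C q) (hB : S2TwoPt c T0 C σ u)
    {x : ℂ} (hx : S2Dom (s2CR c C) σ q x) {j : ℕ} (hj : j ≤ q) :
    Tendsto (fun k => s2Cit u q x k j) atTop (𝓝 (s2w u q x j)) := by
  rw [s2C_w_eq]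
  refine (s2P_lim (a := fun k => s2Cit u q x k j) (κ := 1 / 2) (D := s2CR0 C / (q : ℝ) ^ 2)
    (by norm_num) (by norm_num) ?_).1
  intro k
  refine ((s2C_it_geo H hB hx k).1 j hj).trans (le_of_eq ?_)
  ring

theorem s2C_inv_w {c T0 C σ : ℝ} {u : ℂ → ℂ} {q : ℕ} (H : S2CHyp c T0 C q) (hB : S2TwoPt c T0 C σ u)
    {x : ℂ} (hx : S2Dom (s2CR c C) σ q x) : S2CInv C q x (s2w u q x) := by
  refine ⟨s2C_N_lim (fun j hj => s2C_tendsto H hB hx hj) (fun k => (s2C_inv_it H hB hx k).nb), ?_⟩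
  refine s2C_N_lim (a := fun k j => s2Cit u q x k j - conj (s2Cit u q x k j)) (fun j hj => ?_)
    (fun k => (s2C_inv_it H hB hx k).ib)
  have h := s2C_tendsto H hB hx hj
  exact h.sub ((Complex.continuous_conj.tendsto _).comp h)

theorem s2C_adm_w {c T0 C σ : ℝ} {u : ℂ → ℂ} {q : ℕ} (H : S2CHyp c T0 C q) (hB : S2TwoPt c T0 C σ u)
    {x : ℂ} (hx : S2Dom (s2CR c C) σ q x) : S2CAdm c σ q x (s2w u q x) :=
  s2C_adm H (s2C_inv_w H hB hx) hx

theorem s2C_F_tendsto {c T0 C σ : ℝ} {u : ℂ → ℂ} {q : ℕ} (H : S2CHyp c T0 C q) (hB : S2TwoPt c T0 C σ u)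
    {x : ℂ} {a : ℕ → ℕ → ℂ} {b : ℕ → ℂ}
    (hl : ∀ j ≤ q, Tendsto (fun k => a k j) atTop (𝓝 (b j)))
    (hA : ∀ k, S2CAdm c σ q x (a k)) (hAb : S2CAdm c σ q x b) {i : ℕ} (hi : i ∈ Finset.Ico 1 q) :
    Tendsto (fun k => s2CF u q x (a k) i) atTop (𝓝 (s2CF u q x b i)) := by
  have hδ := s2C_del_pos H.q_pos
  obtain ⟨m, rfl, hm⟩ := s2C_Ico_cases hi
  have hp : ∀ j ≤ q, Tendsto (fun k => s2pt q x (a k) j) atTop (𝓝 (s2pt q x b j)) := by
    intro j hj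
    unfold s2pt
    exact (hl j hj).const_add _
  rw [tendsto_iff_norm_sub_tendsto_zero]
  have hbound : ∀ k, ‖s2CF u q x (a k) (m + 1) - s2CF u q x b (m + 1)‖
      ≤ C * (s2del q ^ 3 * ‖s2pt q x (a k) (m + 1) - s2pt q x b (m + 1)‖
        + s2del q ^ 2 * (‖(s2pt q x (a k) (m + 1) - s2pt q x (a k) m) - (s2pt q x b (m + 1) - s2pt q x b m)‖
          + ‖(s2pt q x (a k) (m + 2) - s2pt q x (a k) (m + 1))
              - (s2pt q x b (m + 2) - s2pt q x b (m + 1))‖)) :=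
    fun k => hB.f_lip _ hδ H.hT _ _ _ _ _ _ (hA k m hm) (hAb m hm)
  have h0 := hp m (by omega)
  have h1 := hp (m + 1) (by omega)
  have h2 := hp (m + 2) (by omega)
  have hlim := ((((h1.sub_const (s2pt q x b (m + 1))).norm.const_mul (s2del q ^ 3)).add
    (((((h1.sub h0).sub_const (s2pt q x b (m + 1) - s2pt q x b m)).norm).add
      (((h2.sub h1).sub_const (s2pt q x b (m + 2) - s2pt q x b (m + 1))).norm)).const_mul
        (s2del q ^ 2))).const_mul C)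
  simp only [sub_self, norm_zero, mul_zero, add_zero] at hlim
  exact squeeze_zero (fun _ => norm_nonneg _) hbound hlim

theorem s2C_fix {c T0 C σ : ℝ} {u : ℂ → ℂ} {q : ℕ} (H : S2CHyp c T0 C q) (hB : S2TwoPt c T0 C σ u)
    {x : ℂ} (hx : S2Dom (s2CR c C) σ q x) {j : ℕ} (hj : j ≤ q) :
    s2T u q x (s2w u q x) j = s2w u q x j := by
  have h1 : Tendsto (fun k => s2T u q x (s2Cit u q x k) j) atTop (𝓝 (s2T u q x (s2w u q x) j)) := by
    simp only [s2C_T_eq]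
    unfold s2CGr
    refine Tendsto.neg (tendsto_finsetSum _ (fun i hi => Tendsto.const_mul _ ?_))
    exact s2C_F_tendsto H hB (fun j hj => s2C_tendsto H hB hx hj) (s2C_adm_it H hB hx)
      (s2C_adm_w H hB hx) hi
  have h2 : Tendsto (fun k => s2Cit u q x (k + 1) j) atTop (𝓝 (s2w u q x j)) :=
    (tendsto_add_atTop_iff_nat 1).mpr (s2C_tendsto H hB hx hj)
  simp only [s2C_it_succ] at h2
  exact tendsto_nhds_unique h1 h2

/-- Lipschitz dependence on the base point. -/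
theorem s2C_lip_it {c T0 C σ : ℝ} {u : ℂ → ℂ} {q : ℕ} (H : S2CHyp c T0 C q) (hB : S2TwoPt c T0 C σ u)
    {x x' : ℂ} (hx : S2Dom (s2CR c C) σ q x) (hx' : S2Dom (s2CR c C) σ q x') (k : ℕ) :
    S2CN q (fun j => s2Cit u q x k j - s2Cit u q x' k j) (2 * s2CK C * q * ‖x - x'‖) := by
  have hQ : (0 : ℝ) < q := by exact_mod_cast H.q_pos
  have hK := s2C_K_pos H.C_pos
  induction k with
  | zero =>
    have e : (fun j => s2Cit u q x 0 j - s2Cit u q x' 0 j) = fun _ => 0 := by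
      funext j; simp [s2C_it_zero]
    rw [e]
    exact s2C_N_zero (by positivity)
  | succ k ih =>
    have h1 := s2C_L H hB (by positivity) (s2C_adm_it H hB hx k) (s2C_adm_it H hB hx' k) ih
    rw [← s2C_it_succ, ← s2C_it_succ] at h1
    refine h1.mono ?_
    have e : s2CK C * (q * ‖x - x'‖ + 2 * s2CK C * q * ‖x - x'‖ / q)
        = s2CK C * q * ‖x - x'‖ + (2 * s2CK C) * (s2CK C * ‖x - x'‖) := by
      field_simp
    rw [e]
    have h2 : (2 * s2CK C) * (s2CK C * ‖x - x'‖) ≤ q * (s2CK C * ‖x - x'‖) :=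
      mul_le_mul_of_nonneg_right H.hK (by positivity)
    nlinarith

theorem s2C_lip_w {c T0 C σ : ℝ} {u : ℂ → ℂ} {q : ℕ} (H : S2CHyp c T0 C q) (hB : S2TwoPt c T0 C σ u)
    {x x' : ℂ} (hx : S2Dom (s2CR c C) σ q x) (hx' : S2Dom (s2CR c C) σ q x') :
    S2CN q (fun j => s2w u q x j - s2w u q x' j) (2 * s2CK C * q * ‖x - x'‖) :=
  s2C_N_lim (a := fun k j => s2Cit u q x k j - s2Cit u q x' k j)
    (fun _ hj => (s2C_tendsto H hB hx hj).sub (s2C_tendsto H hB hx' hj)) (s2C_lip_it H hB hx hx')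

/-! ### symmetries -/

theorem s2C_dom_conj {R σ : ℝ} {q : ℕ} {x : ℂ} (h : S2Dom R σ q x) : S2Dom R σ q (conj x) := by
  unfold S2Dom at *
  rwa [Complex.conj_im, abs_neg]

theorem s2C_dom_per {R σ : ℝ} {q : ℕ} {x : ℂ} (h : S2Dom R σ q x) : S2Dom R σ q (x + 2 * Real.pi) := by
  unfold S2Dom at *
  have e : (x + 2 * (Real.pi : ℂ)).im = x.im := by simp
  rwa [e]

theorem s2C_it_conj {c T0 C σ : ℝ} {u : ℂ → ℂ} {q : ℕ} (H : S2CHyp c T0 C q) (hB : S2TwoPt c T0 C σ u)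
    {x : ℂ} (hx : S2Dom (s2CR c C) σ q x) (k : ℕ) :
    s2Cit u q (conj x) k = fun j => conj (s2Cit u q x k j) := by
  induction k with
  | zero => funext j; simp [s2C_it_zero]
  | succ k ih => rw [s2C_it_succ, ih, s2C_T_conj H hB (s2C_adm_it H hB hx k), s2C_it_succ]

theorem s2C_w_conj {c T0 C σ : ℝ} {u : ℂ → ℂ} {q : ℕ} (H : S2CHyp c T0 C q) (hB : S2TwoPt c T0 C σ u)
    {x : ℂ} (hx : S2Dom (s2CR c C) σ q x) {j : ℕ} (hj : j ≤ q) :
    s2w u q (conj x) j = conj (s2w u q x j) := by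
  have h1 := s2C_tendsto H hB (s2C_dom_conj hx) hj
  simp only [s2C_it_conj H hB hx] at h1
  exact tendsto_nhds_unique h1 ((Complex.continuous_conj.tendsto _).comp (s2C_tendsto H hB hx hj))

theorem s2C_T_per {c T0 C σ : ℝ} {u : ℂ → ℂ} {q : ℕ} (H : S2CHyp c T0 C q) (hB : S2TwoPt c T0 C σ u)
    {x : ℂ} {w : ℕ → ℂ} (hA : S2CAdm c σ q x w) :
    s2T u q (x + 2 * Real.pi) w = s2T u q x w := by
  have hδ := s2C_del_pos H.q_pos
  rw [s2C_T_eq, s2C_T_eq]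
  refine s2C_Gr_congr ?_
  intro i hi
  obtain ⟨k, rfl, hk⟩ := s2C_Ico_cases hi
  rw [s2C_F_succ, s2C_F_succ, s2C_pt_per, s2C_pt_per, s2C_pt_per]
  exact hB.f_per _ hδ H.hT _ _ _ (hA k hk)

theorem s2C_it_per {c T0 C σ : ℝ} {u : ℂ → ℂ} {q : ℕ} (H : S2CHyp c T0 C q) (hB : S2TwoPt c T0 C σ u)
    {x : ℂ} (hx : S2Dom (s2CR c C) σ q x) (k : ℕ) :
    s2Cit u q (x + 2 * Real.pi) k = s2Cit u q x k := by
  induction k with
  | zero => rw [s2C_it_zero, s2C_it_zero]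
  | succ k ih => rw [s2C_it_succ, ih, s2C_T_per H hB (s2C_adm_it H hB hx k), s2C_it_succ]

theorem s2C_w_per {c T0 C σ : ℝ} {u : ℂ → ℂ} {q : ℕ} (H : S2CHyp c T0 C q) (hB : S2TwoPt c T0 C σ u)
    {x : ℂ} (hx : S2Dom (s2CR c C) σ q x) (j : ℕ) :
    s2w u q (x + 2 * Real.pi) j = s2w u q x j := by
  rw [s2C_w_eq, s2C_w_eq]
  simp only [s2C_it_per H hB hx]

end Claimed.Agent.R269
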