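/-
Row 269, Section 2, UNIT C (export): the stationary mesh (P1 Lemma 2.3), order-zero version.
Statement + route by helper159.

Let `c, T0, C` be the constants of `s2B_main M`, `δ = 2π/q`.  For `w : ℕ → ℂ` put
   `‖w‖_* = q² max_{j ≤ q} |w_j| + q³ max_{j < q} |w_{j+1}-w_j|`.
GREEN FUNCTION: `∑_{i} G(j,i) ≤ q²/8`, `∑_i |G(j+1,i)-G(j,i)| ≤ q`, `G(0,i) = G(q,i) = 0`,
   `G(j+1,i)-2G(j,i)+G(j-1,i) = -[i=j]`  for `1 ≤ i,j ≤ q-1`.
INVARIANT SET `S_x` (for `x` with `(1+R/q)|Im x| ≤ σ`):  `w_0 = w_q = 0`, `|w_j| ≤ R₀/q²`, `|w_{j+1}-w_j| ≤ R₀/q³`,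
   `|Im w_j| ≤ (R₀/q)|Im x|`, `|Im(w_{j+1}-w_j)| ≤ (R₀/q²)|Im x|`.      For `w ∈ S_x` all triples are `S2Tri c σ δ`.
 * f_bd: `|f_i| ≤ C(δ²·2R₀/q³ + δ⁴)`, so `|T(w)_j| ≤ (q²/8) max|f|`, `|T(w)_{j+1}-T(w)_j| ≤ q max|f|`: choose `R₀ ≈ 32π⁴C`, then `N`.
 * Im-bounds: `Im f = (f(X₋,X,X₊) - f(X̄₋,X̄,X̄₊))/2i` (f_conj) and f_lip:
      `|Im f_i| ≤ C(δ³(1+R₀/q) + 2δ²R₀/q²)|Im x| = O(q^{-3})|Im x|`.
 * contraction: f_lip gives `|Δf_i| ≤ C(δ³q^{-2} + 2δ²q^{-3})‖Δw‖_*`, hence `‖ΔT‖_* ≤ (C'/q)‖Δw‖_*`.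
 * the same computation with two base points: `‖w(x)-w(x')‖_* ≤ C'' q |x-x'|`, i.e. `|w_j(x)-w_j(x')| ≤ (C''/q)|x-x'|`.
 * convergence of the iterates from `0` (`s2P_lim`), fixed point equation by continuity (f_lip), Euler equation
   (`X₊ ≠ X₋`, `exp ≠ 0`, `s2B_mu_symm`); holo by `s2P_lim_holo` + f_holo on `{(1+R/q)|Im x| < σ₁}`, `σ₁ < σ`;
   per / sym: the iterates have the symmetry (f_per, f_conj), pass to the limit.
 * midpoints `Y_{2j+1} = μ(X_j,X_{j+1})`: mu_near, mu_lip, mu_im, mu_holo, mu_per, mu_conj.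
 * two inputs (real axis, constant `L` may depend on `q`): `‖w-w'‖_* ≤ κ‖w-w'‖_* + ‖(T-T')w'‖_*`, f_inp, mu_inp, mu_lip.
-/
import Claimed.Agent.R269.S2.CGreen

set_option autoImplicit false

namespace Claimed.Agent.R269

open Complex ComplexConjugate Filter Topology

/-! ### holomorphy of the displacement -/

theorem s2C_isOpen_dom (R σ : ℝ) (q : ℕ) : IsOpen {x : ℂ | (1 + R / q) * |x.im| < σ} :=
  isOpen_lt (by fun_prop) continuous_const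

theorem s2C_it_holo {c T0 C σ : ℝ} {u : ℂ → ℂ} {q : ℕ} (H : S2CHyp c T0 C q) (hB : S2TwoPt c T0 C σ u)
    {σ₁ : ℝ} (hσ₁ : σ₁ < σ) (k j : ℕ) :
    DifferentiableOn ℂ (fun x => s2Cit u q x k j) {x : ℂ | (1 + s2CR c C / q) * |x.im| < σ₁} := by
  have hδ := s2C_del_pos H.q_pos
  induction k generalizing j with
  | zero => simp only [s2C_it_zero]; exact differentiableOn_const _
  | succ k ih =>
    simp only [s2C_it_succ, s2C_T_eq]
    unfold s2CGr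
    refine DifferentiableOn.neg (DifferentiableOn.fun_sum (fun i hi => DifferentiableOn.const_mul ?_ _))
    obtain ⟨m, rfl, hm⟩ := s2C_Ico_cases hi
    simp only [s2C_F_succ]
    have hp : ∀ l, DifferentiableOn ℂ (fun x => s2pt q x (s2Cit u q x k) l)
        {x : ℂ | (1 + s2CR c C / q) * |x.im| < σ₁} := by
      intro l
      unfold s2pt
      exact (differentiableOn_id.add_const _).add (ih l)
    refine hB.f_holo _ hδ H.hT σ₁ hσ₁ _ (s2C_isOpen_dom _ _ _) _ _ _ (hp m) (hp (m + 1)) (hp (m + 2)) ?_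
    intro x hx
    have hx1 : S2Dom (s2CR c C) σ₁ q x := le_of_lt hx
    have hx2 : S2Dom (s2CR c C) σ q x := (le_of_lt hx).trans hσ₁.le
    exact s2C_adm H (s2C_inv_it H hB hx2 k) hx1 m hm

theorem s2C_w_holo {c T0 C σ : ℝ} {u : ℂ → ℂ} {q : ℕ} (H : S2CHyp c T0 C q) (hB : S2TwoPt c T0 C σ u)
    {σ₁ : ℝ} (hσ₁ : σ₁ < σ) {j : ℕ} (hj : j ≤ q) :
    DifferentiableOn ℂ (fun x => s2w u q x j) {x : ℂ | (1 + s2CR c C / q) * |x.im| < σ₁} := by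
  refine s2P_lim_holo (s2C_isOpen_dom _ _ _) (a := fun k x => s2Cit u q x k j) (κ := 1 / 2)
    (D := s2CR0 C / (q : ℝ) ^ 2) (by norm_num) (by norm_num) (fun k => s2C_it_holo H hB hσ₁ k j) ?_
  intro k x hx
  have hx2 : S2Dom (s2CR c C) σ q x := (le_of_lt hx).trans hσ₁.le
  refine ((s2C_it_geo H hB hx2 k).1 j hj).trans (le_of_eq ?_)
  ring

/-! ### cells -/

theorem s2C_cell_norm {c T0 C : ℝ} {q : ℕ} {x : ℂ} {w : ℕ → ℂ} (H : S2CHyp c T0 C q)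
    (hI : S2CInv C q x w) {j : ℕ} (hj : j < q) :
    ‖s2pt q x w (j + 1) - s2pt q x w j‖ ≤ 3 / 2 * s2del q := by
  have hδ := s2C_del_pos H.q_pos
  have e : s2pt q x w (j + 1) - s2pt q x w j = (s2del q : ℂ) + (w (j + 1) - w j) := by
    rw [← s2C_pt_step q x w j]; ring
  rw [e]
  refine (norm_add_le _ _).trans ?_
  have h1 : ‖(s2del q : ℂ)‖ = s2del q := by rw [Complex.norm_real, Real.norm_eq_abs, abs_of_pos hδ]
  have h2 := (hI.nb.2 j hj).trans (s2C_small_step H)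
  linarith

theorem s2C_cell_im {c T0 C : ℝ} {q : ℕ} {x : ℂ} {w : ℕ → ℂ} (H : S2CHyp c T0 C q)
    (hI : S2CInv C q x w) {j : ℕ} (hj : j < q) :
    (1 + c * ‖s2pt q x w (j + 1) - s2pt q x w j‖) * max |(s2pt q x w j).im| |(s2pt q x w (j + 1)).im|
      ≤ (1 + s2CR c C / q) * |x.im| := by
  have hδ := s2C_del_pos H.q_pos
  have hc := H.c_pos
  have hK := s2C_K_pos H.C_pos
  have hQ : (0 : ℝ) < q := by exact_mod_cast H.q_pos
  have h1 := s2C_inv_pt_im H.q_pos hI hj.le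
  have h2 := s2C_inv_pt_im H.q_pos hI (show j + 1 ≤ q from hj)
  have h3 := s2C_cell_norm H hI hj
  have h4 : 1 + c * ‖s2pt q x w (j + 1) - s2pt q x w j‖ ≤ 1 + 2 * c * s2del q := by nlinarith
  calc (1 + c * ‖s2pt q x w (j + 1) - s2pt q x w j‖) * max |(s2pt q x w j).im| |(s2pt q x w (j + 1)).im|
      ≤ (1 + 2 * c * s2del q) * ((1 + 2 * s2CK C / q) * |x.im|) :=
        mul_le_mul h4 (max_le h1 h2) (le_max_of_le_left (abs_nonneg _)) (by positivity)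
    _ = ((1 + 2 * c * s2del q) * (1 + 2 * s2CK C / q)) * |x.im| := by ring
    _ ≤ (1 + s2CR c C / q) * |x.im| := mul_le_mul_of_nonneg_right (s2C_R_prod H) (abs_nonneg _)

theorem s2C_cell {c T0 C σ : ℝ} {q : ℕ} {x : ℂ} {w : ℕ → ℂ} (H : S2CHyp c T0 C q)
    (hI : S2CInv C q x w) (hx : S2Dom (s2CR c C) σ q x) {j : ℕ} (hj : j < q) :
    S2Adm c T0 σ (s2pt q x w j) (s2pt q x w (j + 1)) := by
  have hδ := s2C_del_pos H.q_pos
  exact ⟨(s2C_cell_norm H hI hj).trans (by linarith [H.hT]), (s2C_cell_im H hI hj).trans hx⟩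

theorem s2C_Y_even (u : ℂ → ℂ) (q : ℕ) (x : ℂ) (j : ℕ) : s2Y u q x (2 * j) = s2X u q x j := by
  unfold s2Y
  rw [if_pos (by omega), show 2 * j / 2 = j by omega]

theorem s2C_Y_odd (u : ℂ → ℂ) (q : ℕ) (x : ℂ) (j : ℕ) : s2Y u q x (2 * j + 1) = s2M u q x j := by
  unfold s2Y
  rw [if_neg (by omega), show (2 * j + 1) / 2 = j by omega]

theorem s2C_X_eq (u : ℂ → ℂ) (q : ℕ) (x : ℂ) (j : ℕ) : s2X u q x j = s2pt q x (s2w u q x) j := rfl

theorem s2C_M_eq (u : ℂ → ℂ) (q : ℕ) (x : ℂ) (j : ℕ) :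
    s2M u q x j = s2mu u (s2pt q x (s2w u q x) j) (s2pt q x (s2w u q x) (j + 1)) := rfl

theorem s2C_K_le_R {c C : ℝ} (hc : 0 < c) (hC : 0 < C) : 2 * s2CK C ≤ s2CR c C := by
  have hK := s2C_K_pos hC
  have hR0 := s2C_R0_pos hC
  have hpi := Real.pi_pos
  unfold s2CR
  have : 0 ≤ 4 * Real.pi * c + 4 * Real.pi * c * (2 * s2CK C)
    + (9 * Real.pi ^ 2 * C + s2CR0 C) + (6 * Real.pi * C * (1 + 2 * s2CK C) + 2 * s2CK C) := by positivity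
  linarith

theorem s2C_R_pos {c C : ℝ} (hc : 0 < c) (hC : 0 < C) : 0 < s2CR c C :=
  lt_of_lt_of_le (by have := s2C_K_pos hC; positivity) (s2C_K_le_R hc hC)

/-- `μ_j - (X_j+X_{j+1})/2`, the midpoint defect. -/
theorem s2C_mid_split (q : ℕ) (x : ℂ) (w : ℕ → ℂ) (j : ℕ) (μ : ℂ) :
    μ - x - ((2 * j + 1 : ℕ) : ℂ) * ((Real.pi / q : ℝ) : ℂ)
      = (μ - (s2pt q x w j + s2pt q x w (j + 1)) / 2) + (w j + w (j + 1)) / 2 := by
  unfold s2pt s2del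
  push_cast
  ring

theorem s2C_w_zero {c T0 C σ : ℝ} {u : ℂ → ℂ} {q : ℕ} (H : S2CHyp c T0 C q) (hB : S2TwoPt c T0 C σ u)
    {x : ℂ} (hx : S2Dom (s2CR c C) σ q x) : s2w u q x 0 = 0 := by
  rw [← s2C_fix H hB hx (Nat.zero_le q), s2C_T_eq, s2C_Gr_zero]

theorem s2C_w_last {c T0 C σ : ℝ} {u : ℂ → ℂ} {q : ℕ} (H : S2CHyp c T0 C q) (hB : S2TwoPt c T0 C σ u)
    {x : ℂ} (hx : S2Dom (s2CR c C) σ q x) : s2w u q x q = 0 := by
  rw [← s2C_fix H hB hx le_rfl, s2C_T_eq, s2C_Gr_last]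

theorem s2C_bd_even {c T0 C σ : ℝ} {u : ℂ → ℂ} {q : ℕ} (H : S2CHyp c T0 C q) (hB : S2TwoPt c T0 C σ u)
    {x : ℂ} (hx : S2Dom (s2CR c C) σ q x) {j : ℕ} (hj : j ≤ q) :
    ‖s2X u q x j - x - ((2 * j : ℕ) : ℂ) * ((Real.pi / q : ℝ) : ℂ)‖ ≤ s2CR0 C / (q : ℝ) ^ 2 := by
  have e : s2X u q x j - x - ((2 * j : ℕ) : ℂ) * ((Real.pi / q : ℝ) : ℂ) = s2w u q x j := by
    rw [s2C_X_eq]; unfold s2pt s2del; push_cast; ring
  rw [e]
  exact (s2C_inv_w H hB hx).nb.1 j hj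

theorem s2C_bd_odd {c T0 C σ : ℝ} {u : ℂ → ℂ} {q : ℕ} (H : S2CHyp c T0 C q) (hB : S2TwoPt c T0 C σ u)
    {x : ℂ} (hx : S2Dom (s2CR c C) σ q x) {j : ℕ} (hj : j < q) :
    ‖s2M u q x j - x - ((2 * j + 1 : ℕ) : ℂ) * ((Real.pi / q : ℝ) : ℂ)‖
      ≤ (9 * Real.pi ^ 2 * C + s2CR0 C) / (q : ℝ) ^ 2 := by
  have hQ : (0 : ℝ) < q := by exact_mod_cast H.q_pos
  have hC := H.C_pos
  have hI := s2C_inv_w H hB hx
  rw [s2C_mid_split q x (s2w u q x) j, s2C_M_eq]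
  refine (norm_add_le _ _).trans ?_
  have h1 := hB.mu_near _ _ (s2C_cell H hI hx hj)
  have h2 := s2C_cell_norm H hI hj
  have h3 : C * ‖s2pt q x (s2w u q x) (j + 1) - s2pt q x (s2w u q x) j‖ ^ 2
      ≤ C * (3 / 2 * s2del q) ^ 2 := by gcongr
  have h4 : C * (3 / 2 * s2del q) ^ 2 = 9 * Real.pi ^ 2 * C / (q : ℝ) ^ 2 := by
    unfold s2del; field_simp; ring
  have h5 : ‖(s2w u q x j + s2w u q x (j + 1)) / 2‖ ≤ s2CR0 C / (q : ℝ) ^ 2 := by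
    rw [norm_div]
    have h6 := norm_add_le (s2w u q x j) (s2w u q x (j + 1))
    have h7 := hI.nb.1 j hj.le
    have h8 := hI.nb.1 (j + 1) hj
    have h9 : ‖(2 : ℂ)‖ = 2 := by simp
    rw [h9, div_le_iff₀ (by norm_num)]
    linarith
  have h10 : (9 * Real.pi ^ 2 * C + s2CR0 C) / (q : ℝ) ^ 2
      = 9 * Real.pi ^ 2 * C / (q : ℝ) ^ 2 + s2CR0 C / (q : ℝ) ^ 2 := add_div _ _ _
  linarith

theorem s2C_pt_lip {c T0 C σ : ℝ} {u : ℂ → ℂ} {q : ℕ} (H : S2CHyp c T0 C q) (hB : S2TwoPt c T0 C σ u)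
    {x x' : ℂ} (hx : S2Dom (s2CR c C) σ q x) (hx' : S2Dom (s2CR c C) σ q x') {j : ℕ} (hj : j ≤ q) :
    ‖s2w u q x j - s2w u q x' j‖ ≤ 2 * s2CK C / q * ‖x - x'‖ ∧
    ‖s2pt q x (s2w u q x) j - s2pt q x' (s2w u q x') j‖ ≤ (1 + 2 * s2CK C) * ‖x - x'‖ := by
  have hQ : (0 : ℝ) < q := by exact_mod_cast H.q_pos
  have hQ1 : (1 : ℝ) ≤ q := by exact_mod_cast H.q_pos
  have hK := s2C_K_pos H.C_pos
  have h1 := (s2C_lip_w H hB hx hx').1 j hj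
  have e : 2 * s2CK C * q * ‖x - x'‖ / (q : ℝ) ^ 2 = 2 * s2CK C / q * ‖x - x'‖ := by field_simp
  rw [e] at h1
  refine ⟨h1, ?_⟩
  have e2 : s2pt q x (s2w u q x) j - s2pt q x' (s2w u q x') j
      = (x - x') + (s2w u q x j - s2w u q x' j) := by unfold s2pt; ring
  rw [e2]
  refine (norm_add_le _ _).trans ?_
  have h2 : 2 * s2CK C / q ≤ 2 * s2CK C := div_le_self (by positivity) hQ1
  have h3 : 2 * s2CK C / q * ‖x - x'‖ ≤ 2 * s2CK C * ‖x - x'‖ :=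
    mul_le_mul_of_nonneg_right h2 (norm_nonneg _)
  linarith

theorem s2C_lip_odd {c T0 C σ : ℝ} {u : ℂ → ℂ} {q : ℕ} (H : S2CHyp c T0 C q) (hB : S2TwoPt c T0 C σ u)
    {x x' : ℂ} (hx : S2Dom (s2CR c C) σ q x) (hx' : S2Dom (s2CR c C) σ q x') {j : ℕ} (hj : j < q) :
    ‖(s2M u q x j - x) - (s2M u q x' j - x')‖
      ≤ (6 * Real.pi * C * (1 + 2 * s2CK C) + 2 * s2CK C) / q * ‖x - x'‖ := by
  have hQ : (0 : ℝ) < q := by exact_mod_cast H.q_pos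
  have hC := H.C_pos
  have hK := s2C_K_pos H.C_pos
  have hδ := s2C_del_pos H.q_pos
  have hI := s2C_inv_w H hB hx
  have hI' := s2C_inv_w H hB hx'
  have e : (s2M u q x j - x) - (s2M u q x' j - x')
      = ((s2M u q x j - (s2pt q x (s2w u q x) j + s2pt q x (s2w u q x) (j + 1)) / 2)
          - (s2M u q x' j - (s2pt q x' (s2w u q x') j + s2pt q x' (s2w u q x') (j + 1)) / 2))
        + ((s2w u q x j - s2w u q x' j) + (s2w u q x (j + 1) - s2w u q x' (j + 1))) / 2 := by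
    unfold s2pt; ring
  rw [e]
  refine (norm_add_le _ _).trans ?_
  have h1 := hB.mu_lip _ _ _ _ (s2C_cell H hI hx hj) (s2C_cell H hI' hx' hj)
  have h2 : max ‖s2pt q x (s2w u q x) (j + 1) - s2pt q x (s2w u q x) j‖
      ‖s2pt q x' (s2w u q x') (j + 1) - s2pt q x' (s2w u q x') j‖ ≤ 3 / 2 * s2del q :=
    max_le (s2C_cell_norm H hI hj) (s2C_cell_norm H hI' hj)
  have h3 := (s2C_pt_lip H hB hx hx' hj.le).2
  have h4 := (s2C_pt_lip H hB hx hx' (show j + 1 ≤ q from hj)).2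
  have h5 := (s2C_pt_lip H hB hx hx' hj.le).1
  have h6 := (s2C_pt_lip H hB hx hx' (show j + 1 ≤ q from hj)).1
  have h7 : C * max ‖s2pt q x (s2w u q x) (j + 1) - s2pt q x (s2w u q x) j‖
        ‖s2pt q x' (s2w u q x') (j + 1) - s2pt q x' (s2w u q x') j‖
      * (‖s2pt q x (s2w u q x) j - s2pt q x' (s2w u q x') j‖
        + ‖s2pt q x (s2w u q x) (j + 1) - s2pt q x' (s2w u q x') (j + 1)‖)
      ≤ C * (3 / 2 * s2del q) * ((1 + 2 * s2CK C) * ‖x - x'‖ + (1 + 2 * s2CK C) * ‖x - x'‖) := by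
    gcongr
  have h8 : C * (3 / 2 * s2del q) * ((1 + 2 * s2CK C) * ‖x - x'‖ + (1 + 2 * s2CK C) * ‖x - x'‖)
      = 6 * Real.pi * C * (1 + 2 * s2CK C) / q * ‖x - x'‖ := by
    unfold s2del; field_simp; ring
  have h9 : ‖((s2w u q x j - s2w u q x' j) + (s2w u q x (j + 1) - s2w u q x' (j + 1))) / 2‖
      ≤ 2 * s2CK C / q * ‖x - x'‖ := by
    rw [norm_div]
    have h10 := norm_add_le (s2w u q x j - s2w u q x' j) (s2w u q x (j + 1) - s2w u q x' (j + 1))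
    have h11 : ‖(2 : ℂ)‖ = 2 := by simp
    rw [h11, div_le_iff₀ (by norm_num)]
    linarith
  have h12 : (6 * Real.pi * C * (1 + 2 * s2CK C) + 2 * s2CK C) / q * ‖x - x'‖
      = 6 * Real.pi * C * (1 + 2 * s2CK C) / q * ‖x - x'‖ + 2 * s2CK C / q * ‖x - x'‖ := by
    rw [add_div, add_mul]
  rw [s2C_M_eq, s2C_M_eq]
  linarith

theorem s2C_euler {c T0 C σ : ℝ} {u : ℂ → ℂ} {q : ℕ} (H : S2CHyp c T0 C q) (hB : S2TwoPt c T0 C σ u)
    {x : ℂ} (hx : S2Dom (s2CR c C) σ q x) {m : ℕ} (hm : m + 2 ≤ q) :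
    s2J u (s2X u q x (m + 1)) (s2M u q x (m + 1)) = s2J u (s2X u q x (m + 1)) (s2M u q x m) := by
  have hδ := s2C_del_pos H.q_pos
  have h0 := s2C_fix H hB hx (show m ≤ q by omega)
  have h1 := s2C_fix H hB hx (show m + 1 ≤ q by omega)
  have h2 := s2C_fix H hB hx (show m + 2 ≤ q by omega)
  have hl := s2C_Gr_lap hm (s2CF u q x (s2w u q x))
  rw [← s2C_T_eq, h0, h1, h2, s2C_F_succ] at hl
  have hT := s2C_adm_w H hB hx m hm
  have hgap := s2B_tri_gap hT hδ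
  have hne : s2pt q x (s2w u q x) (m + 2) - s2pt q x (s2w u q x) m ≠ 0 := by
    intro h; rw [h, norm_zero] at hgap; linarith
  have e : s2pt q x (s2w u q x) (m + 2) - 2 * s2pt q x (s2w u q x) (m + 1) + s2pt q x (s2w u q x) m
      = s2w u q x (m + 2) - 2 * s2w u q x (m + 1) + s2w u q x m := by
    unfold s2pt; push_cast; ring
  unfold s2f at hl
  rw [e] at hl
  have h3 : 8 * (s2D1 u (s2pt q x (s2w u q x) (m + 1)) (s2pt q x (s2w u q x) (m + 2))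
      - s2D1 u (s2pt q x (s2w u q x) (m + 1)) (s2pt q x (s2w u q x) m))
      / (s2pt q x (s2w u q x) (m + 2) - s2pt q x (s2w u q x) m) = 0 := by
    linear_combination hl
  rw [div_eq_zero_iff] at h3
  rcases h3 with h3 | h3
  swap
  · exact absurd h3 hne
  have h4 : s2D1 u (s2pt q x (s2w u q x) (m + 1)) (s2pt q x (s2w u q x) (m + 2))
      = s2D1 u (s2pt q x (s2w u q x) (m + 1)) (s2pt q x (s2w u q x) m) := by
    have : (8 : ℂ) ≠ 0 := by norm_num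
    exact sub_eq_zero.mp ((mul_eq_zero.mp h3).resolve_left this)
  unfold s2D1 at h4
  have h5 := mul_left_cancel₀ (Complex.exp_ne_zero _) h4
  rw [s2C_X_eq, s2C_M_eq, s2C_M_eq,
    s2B_mu_symm u (s2pt q x (s2w u q x) (m + 1)) (s2pt q x (s2w u q x) m)]
  exact h5

theorem s2C_R_parts {c C : ℝ} (hc : 0 < c) (hC : 0 < C) :
    s2CR0 C ≤ s2CR c C ∧ 9 * Real.pi ^ 2 * C + s2CR0 C ≤ s2CR c C ∧
      6 * Real.pi * C * (1 + 2 * s2CK C) + 2 * s2CK C ≤ s2CR c C := by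
  have hK := s2C_K_pos hC
  have hR0 := s2C_R0_pos hC
  have hpi := Real.pi_pos
  have h1 : 0 ≤ 4 * Real.pi * c + 2 * s2CK C + 4 * Real.pi * c * (2 * s2CK C) := by positivity
  have h2 : 0 ≤ 9 * Real.pi ^ 2 * C := by positivity
  have h3 : 0 ≤ 6 * Real.pi * C * (1 + 2 * s2CK C) + 2 * s2CK C := by positivity
  unfold s2CR
  refine ⟨by linarith, by linarith, by linarith⟩

theorem s2C_Y_holo {c T0 C σ : ℝ} {u : ℂ → ℂ} {q : ℕ} (H : S2CHyp c T0 C q) (hB : S2TwoPt c T0 C σ u)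
    {σ₁ : ℝ} (hσ₁ : σ₁ < σ) {i : ℕ} (hi : i ≤ 2 * q) :
    DifferentiableOn ℂ (fun x => s2Y u q x i) {x : ℂ | (1 + s2CR c C / q) * |x.im| < σ₁} := by
  have hp : ∀ l ≤ q, DifferentiableOn ℂ (fun x => s2pt q x (s2w u q x) l)
      {x : ℂ | (1 + s2CR c C / q) * |x.im| < σ₁} := by
    intro l hl
    unfold s2pt
    exact (differentiableOn_id.add_const _).add (s2C_w_holo H hB hσ₁ hl)
  obtain ⟨j, rfl | rfl⟩ := Nat.even_or_odd' i
  · simp only [s2C_Y_even, s2C_X_eq]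
    exact hp j (by omega)
  · simp only [s2C_Y_odd, s2C_M_eq]
    refine hB.mu_holo σ₁ hσ₁ _ (s2C_isOpen_dom _ _ _) _ _ (hp j (by omega)) (hp (j + 1) (by omega)) ?_
    intro x hx
    have hx1 : S2Dom (s2CR c C) σ₁ q x := le_of_lt hx
    have hx2 : S2Dom (s2CR c C) σ q x := (le_of_lt hx).trans hσ₁.le
    exact s2C_cell H (s2C_inv_w H hB hx2) hx1 (by omega)

/-- the mesh for one input and one `q`. -/
theorem s2C_mesh_one {c T0 C σ : ℝ} {u : ℂ → ℂ} {q : ℕ} (H : S2CHyp c T0 C q)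
    (hB : S2TwoPt c T0 C σ u) : S2Mesh (s2CR c C) σ u q := by
  have hQ : (0 : ℝ) < q := by exact_mod_cast H.q_pos
  have hQc : (q : ℂ) ≠ 0 := by exact_mod_cast H.q_pos.ne'
  have hK := s2C_K_pos H.C_pos
  obtain ⟨hR1, hR2, hR3⟩ := s2C_R_parts H.c_pos H.C_pos
  have hR4 := s2C_K_le_R H.c_pos H.C_pos
  refine
    { first := ?_, last := ?_, bd := ?_, lip := ?_, im := ?_, euler := ?_, mid := ?_, d1p := ?_,
      d1m := ?_, holo := ?_, per := ?_, sym := ?_ }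
  · intro x hx
    rw [s2C_X_eq]; unfold s2pt
    rw [s2C_w_zero H hB hx]; simp
  · intro x hx
    rw [s2C_X_eq]; unfold s2pt s2del
    rw [s2C_w_last H hB hx]; push_cast; field_simp; ring
  · intro x hx i hi
    obtain ⟨j, rfl | rfl⟩ := Nat.even_or_odd' i
    · rw [s2C_Y_even]
      exact (s2C_bd_even H hB hx (by omega)).trans (by gcongr)
    · rw [s2C_Y_odd]
      exact (s2C_bd_odd H hB hx (by omega)).trans (by gcongr)
  · intro x x' hx hx' i hi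
    obtain ⟨j, rfl | rfl⟩ := Nat.even_or_odd' i
    · rw [s2C_Y_even, s2C_Y_even]
      have e : (s2X u q x j - x) - (s2X u q x' j - x') = s2w u q x j - s2w u q x' j := by
        rw [s2C_X_eq, s2C_X_eq]; unfold s2pt; ring
      rw [e]
      exact ((s2C_pt_lip H hB hx hx' (show j ≤ q by omega)).1).trans (by gcongr)
    · rw [s2C_Y_odd, s2C_Y_odd]
      exact (s2C_lip_odd H hB hx hx' (by omega)).trans (by gcongr)
  · intro x hx i hi
    have hI := s2C_inv_w H hB hx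
    obtain ⟨j, rfl | rfl⟩ := Nat.even_or_odd' i
    · rw [s2C_Y_even, s2C_X_eq]
      exact (s2C_inv_pt_im H.q_pos hI (by omega)).trans (by gcongr)
    · rw [s2C_Y_odd, s2C_M_eq]
      exact (hB.mu_im _ _ (s2C_cell H hI hx (by omega))).trans (s2C_cell_im H hI (by omega))
  · intro x hx j hj0 hj
    obtain ⟨m, rfl⟩ : ∃ m, j = m + 1 := ⟨j - 1, by omega⟩
    exact s2C_euler H hB hx (by omega)
  · intro x hx j hj
    exact hB.mu_eq _ _ (s2C_cell H (s2C_inv_w H hB hx) hx hj)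
  · intro x _ j _
    rfl
  · intro x _ j _
    unfold s2D1 s2M
    rw [s2B_mu_symm]
  · intro i hi x hx
    obtain ⟨σ₁, h1, h2⟩ := exists_between (show (1 + s2CR c C / q) * |x.im| < σ from hx)
    exact ((s2C_Y_holo H hB h2 hi x h1).differentiableAt
      ((s2C_isOpen_dom _ _ _).mem_nhds h1)).differentiableWithinAt
  · intro x hx i hi
    have hp : ∀ l, s2pt q (x + 2 * Real.pi) (s2w u q (x + 2 * Real.pi)) l
        = s2pt q x (s2w u q x) l + 2 * Real.pi := by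
      intro l
      unfold s2pt
      rw [s2C_w_per H hB hx]; ring
    obtain ⟨j, rfl | rfl⟩ := Nat.even_or_odd' i
    · rw [s2C_Y_even, s2C_Y_even, s2C_X_eq, s2C_X_eq, hp]
    · rw [s2C_Y_odd, s2C_Y_odd, s2C_M_eq, s2C_M_eq, hp, hp]
      exact hB.mu_per _ _ (s2C_cell H (s2C_inv_w H hB hx) hx (by omega))
  · intro x hx i hi
    have hp : ∀ l ≤ q, s2pt q (conj x) (s2w u q (conj x)) l = conj (s2pt q x (s2w u q x) l) := by
      intro l hl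
      rw [← s2C_pt_conj]
      unfold s2pt
      rw [s2C_w_conj H hB hx hl]
    obtain ⟨j, rfl | rfl⟩ := Nat.even_or_odd' i
    · rw [s2C_Y_even, s2C_Y_even, s2C_X_eq, s2C_X_eq, hp j (by omega)]
    · rw [s2C_Y_odd, s2C_Y_odd, s2C_M_eq, s2C_M_eq, hp j (by omega), hp (j + 1) (by omega)]
      exact hB.mu_conj _ _ (s2C_cell H (s2C_inv_w H hB hx) hx (by omega))

/-! ### two inputs on the real axis -/

theorem s2C_dom_real (R : ℝ) (q : ℕ) (x : ℝ) : S2Dom R 0 q (x : ℂ) := by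
  unfold S2Dom; simp

theorem s2C_tri_real {c δ : ℝ} {Xm X Xp : ℂ} (hc : 0 < c) (hδ : 0 < δ) (h : S2Tri c 0 δ Xm X Xp) :
    Xm = (Xm.re : ℂ) ∧ X = (X.re : ℂ) ∧ Xp = (Xp.re : ℂ) := by
  have h1 : 0 < 1 + 2 * c * δ := by positivity
  have h2 : max |Xm.im| (max |X.im| |Xp.im|) ≤ 0 := by
    by_contra hcon
    push Not at hcon
    have := mul_pos h1 hcon
    linarith [h.im]
  have h3 : |Xm.im| ≤ 0 := (le_max_left _ _).trans h2
  have h4 : |X.im| ≤ 0 := ((le_max_left _ _).trans (le_max_right _ _)).trans h2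
  have h5 : |Xp.im| ≤ 0 := ((le_max_right _ _).trans (le_max_right _ _)).trans h2
  have g : ∀ z : ℂ, |z.im| ≤ 0 → z = (z.re : ℂ) := by
    intro z hz
    have : z.im = 0 := abs_eq_zero.mp (le_antisymm hz (abs_nonneg _))
    apply Complex.ext <;> simp [this]
  exact ⟨g _ h3, g _ h4, g _ h5⟩

theorem s2C_inp_T {c T0 C : ℝ} {u u' : ℂ → ℂ} {q : ℕ} (H : S2CHyp c T0 C q)
    (hI : S2TwoIn c T0 C u u') {ε : ℝ} (hε : ∀ x : ℝ, ‖u x - u' x‖ ≤ ε) {x : ℂ} {w : ℕ → ℂ}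
    (hA : S2CAdm c 0 q x w) :
    S2CN q (fun j => s2T u q x w j - s2T u' q x w j) ((q : ℝ) ^ 4 * (C / s2del q * ε)) := by
  have hδ := s2C_del_pos H.q_pos
  have hC := H.C_pos
  have hε0 : 0 ≤ ε := (norm_nonneg _).trans (hε 0)
  have e : (fun j => s2T u q x w j - s2T u' q x w j)
      = s2CGr q (fun i => s2CF u q x w i - s2CF u' q x w i) := by
    funext j; rw [s2C_T_eq, s2C_T_eq, s2C_Gr_sub]
  rw [e]
  refine s2C_Gr_N H.q_pos (by positivity) ?_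
  intro i hi
  obtain ⟨k, rfl, hk⟩ := s2C_Ico_cases hi
  rw [s2C_F_succ, s2C_F_succ]
  have hT := hA k hk
  obtain ⟨r1, r2, r3⟩ := s2C_tri_real H.c_pos hδ hT
  rw [r1, r2, r3] at hT ⊢
  exact hI.f_inp ε hε _ hδ H.hT _ _ _ hT

theorem s2C_inp_it {c T0 C : ℝ} {u u' : ℂ → ℂ} {q : ℕ} (H : S2CHyp c T0 C q)
    (hB : S2TwoPt c T0 C 0 u) (hB' : S2TwoPt c T0 C 0 u')
    (hI : S2TwoIn c T0 C u u') {ε : ℝ} (hε : ∀ x : ℝ, ‖u x - u' x‖ ≤ ε) (x : ℝ) (k : ℕ) :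
    S2CN q (fun j => s2Cit u q x k j - s2Cit u' q x k j) (2 * ((q : ℝ) ^ 4 * (C / s2del q * ε))) := by
  have hQ : (0 : ℝ) < q := by exact_mod_cast H.q_pos
  have hδ := s2C_del_pos H.q_pos
  have hC := H.C_pos
  have hK := s2C_K_pos H.C_pos
  have hε0 : 0 ≤ ε := (norm_nonneg _).trans (hε 0)
  have hx := s2C_dom_real (s2CR c C) q x
  induction k with
  | zero =>
    have e : (fun j => s2Cit u q x 0 j - s2Cit u' q x 0 j) = fun _ => 0 := by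
      funext j; simp [s2C_it_zero]
    rw [e]
    exact s2C_N_zero (by positivity)
  | succ k ih =>
    have h1 := s2C_L H hB (by positivity) (s2C_adm_it H hB hx k) (s2C_adm_it H hB' hx k) ih
    have h2 := s2C_inp_T H hI hε (s2C_adm_it H hB' hx k)
    have h3 := h1.add h2
    have e : (fun j => s2T u q x (s2Cit u q x k) j - s2T u q x (s2Cit u' q x k) j
        + (s2T u q x (s2Cit u' q x k) j - s2T u' q x (s2Cit u' q x k) j))
        = fun j => s2Cit u q x (k + 1) j - s2Cit u' q x (k + 1) j := by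
      funext j; rw [s2C_it_succ, s2C_it_succ]; ring
    rw [e] at h3
    refine h3.mono ?_
    rw [sub_self, norm_zero, mul_zero, zero_add]
    have h4 : s2CK C / q ≤ 1 / 2 := by
      rw [div_le_iff₀ hQ]; linarith [H.hK]
    have h5 : s2CK C * (2 * ((q : ℝ) ^ 4 * (C / s2del q * ε)) / q)
        = (s2CK C / q) * (2 * ((q : ℝ) ^ 4 * (C / s2del q * ε))) := by ring
    have h6 : (s2CK C / q) * (2 * ((q : ℝ) ^ 4 * (C / s2del q * ε)))
        ≤ 1 / 2 * (2 * ((q : ℝ) ^ 4 * (C / s2del q * ε))) :=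
      mul_le_mul_of_nonneg_right h4 (by positivity)
    rw [h5]
    linarith

theorem s2C_inp_w {c T0 C : ℝ} {u u' : ℂ → ℂ} {q : ℕ} (H : S2CHyp c T0 C q)
    (hB : S2TwoPt c T0 C 0 u) (hB' : S2TwoPt c T0 C 0 u')
    (hI : S2TwoIn c T0 C u u') {ε : ℝ} (hε : ∀ x : ℝ, ‖u x - u' x‖ ≤ ε) (x : ℝ) {j : ℕ} (hj : j ≤ q) :
    ‖s2pt q x (s2w u q x) j - s2pt q x (s2w u' q x) j‖ ≤ 2 * (q : ℝ) ^ 2 * (C / s2del q) * ε := by
  have hQ : (0 : ℝ) < q := by exact_mod_cast H.q_pos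
  have hx := s2C_dom_real (s2CR c C) q x
  have h1 : S2CN q (fun j => s2w u q x j - s2w u' q x j) (2 * ((q : ℝ) ^ 4 * (C / s2del q * ε))) :=
    s2C_N_lim (a := fun k j => s2Cit u q x k j - s2Cit u' q x k j)
      (fun _ hj => (s2C_tendsto H hB hx hj).sub (s2C_tendsto H hB' hx hj)) (s2C_inp_it H hB hB' hI hε x)
  have e : s2pt q x (s2w u q x) j - s2pt q x (s2w u' q x) j = s2w u q x j - s2w u' q x j := by
    unfold s2pt; ring
  rw [e]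
  refine (h1.1 j hj).trans (le_of_eq ?_)
  field_simp

theorem s2C_inp_Y {c T0 C : ℝ} {u u' : ℂ → ℂ} {q : ℕ} (H : S2CHyp c T0 C q)
    (hB : S2TwoPt c T0 C 0 u) (hB' : S2TwoPt c T0 C 0 u')
    (hI : S2TwoIn c T0 C u u') {ε : ℝ} (hε : ∀ x : ℝ, ‖u x - u' x‖ ≤ ε) (x : ℝ) {i : ℕ}
    (hi : i ≤ 2 * q) :
    ‖s2Y u q x i - s2Y u' q x i‖
      ≤ (C * (3 / 2 * s2del q) * (2 * (2 * (q : ℝ) ^ 2 * (C / s2del q)))
          + 2 * (q : ℝ) ^ 2 * (C / s2del q) + C) * ε := by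
  have hQ : (0 : ℝ) < q := by exact_mod_cast H.q_pos
  have hδ := s2C_del_pos H.q_pos
  have hC := H.C_pos
  have hε0 : 0 ≤ ε := (norm_nonneg _).trans (hε 0)
  have hx := s2C_dom_real (s2CR c C) q x
  have hIw := s2C_inv_w H hB hx
  have hIw' := s2C_inv_w H hB' hx
  set A : ℝ := 2 * (q : ℝ) ^ 2 * (C / s2del q) with hA
  have hA0 : 0 ≤ A := by positivity
  obtain ⟨j, rfl | rfl⟩ := Nat.even_or_odd' i
  · rw [s2C_Y_even, s2C_Y_even, s2C_X_eq, s2C_X_eq]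
    refine (s2C_inp_w H hB hB' hI hε x (show j ≤ q by omega)).trans ?_
    have : 0 ≤ (C * (3 / 2 * s2del q) * (2 * A) + C) * ε := by positivity
    nlinarith
  · have hj : j < q := by omega
    rw [s2C_Y_odd, s2C_Y_odd, s2C_M_eq, s2C_M_eq]
    set X := s2pt q x (s2w u q x) j with hX
    set Y := s2pt q x (s2w u q x) (j + 1) with hY
    set X' := s2pt q x (s2w u' q x) j with hX'
    set Y' := s2pt q x (s2w u' q x) (j + 1) with hY'
    have b1 : ‖X - X'‖ ≤ A * ε := s2C_inp_w H hB hB' hI hε x hj.le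
    have b2 : ‖Y - Y'‖ ≤ A * ε := s2C_inp_w H hB hB' hI hε x (show j + 1 ≤ q from hj)
    have c1 : S2Adm c T0 0 X Y := s2C_cell H hIw hx hj
    have c2 : S2Adm c T0 0 X' Y' := s2C_cell H hIw' hx hj
    have h1 := hB.mu_lip X Y X' Y' c1 c2
    have h2 : max ‖Y - X‖ ‖Y' - X'‖ ≤ 3 / 2 * s2del q :=
      max_le (s2C_cell_norm H hIw hj) (s2C_cell_norm H hIw' hj)
    have h3 : C * max ‖Y - X‖ ‖Y' - X'‖ * (‖X - X'‖ + ‖Y - Y'‖)
        ≤ C * (3 / 2 * s2del q) * (A * ε + A * ε) := by gcongr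
    -- the second mesh is real
    have r : ∀ l ≤ q, s2pt q x (s2w u' q x) l = (((s2pt q x (s2w u' q x) l).re : ℝ) : ℂ) := by
      intro l hl
      have h := s2C_inv_pt_im H.q_pos hIw' hl
      have h0 : ((x : ℂ)).im = 0 := Complex.ofReal_im x
      rw [h0, abs_zero, mul_zero] at h
      have : (s2pt q x (s2w u' q x) l).im = 0 := abs_eq_zero.mp (le_antisymm h (abs_nonneg _))
      apply Complex.ext <;> simp [this]
    have rX : X' = ((X'.re : ℝ) : ℂ) := r j hj.le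
    have rY : Y' = ((Y'.re : ℝ) : ℂ) := r (j + 1) hj
    have h4 : |Y'.re - X'.re| ≤ T0 := by
      have h := c2.1
      rw [rX, rY, ← Complex.ofReal_sub, Complex.norm_real, Real.norm_eq_abs] at h
      simpa using h
    have h5 := hI.mu_inp ε hε X'.re Y'.re h4
    rw [← rX, ← rY] at h5
    have e : s2mu u X Y - s2mu u' X' Y'
        = ((s2mu u X Y - (X + Y) / 2) - (s2mu u X' Y' - (X' + Y') / 2))
          + ((X - X') + (Y - Y')) / 2 + (s2mu u X' Y' - s2mu u' X' Y') := by ring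
    have h6 : ‖((X - X') + (Y - Y')) / 2‖ ≤ A * ε := by
      rw [norm_div]
      have h7 := norm_add_le (X - X') (Y - Y')
      have h8 : ‖(2 : ℂ)‖ = 2 := by simp
      rw [h8, div_le_iff₀ (by norm_num)]
      linarith
    rw [e]
    refine (norm_add_le _ _).trans ?_
    have h9 := norm_add_le ((s2mu u X Y - (X + Y) / 2) - (s2mu u X' Y' - (X' + Y') / 2))
      (((X - X') + (Y - Y')) / 2)
    have h10 : (C * (3 / 2 * s2del q) * (2 * A) + A + C) * ε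
        = C * (3 / 2 * s2del q) * (A * ε + A * ε) + A * ε + C * ε := by ring
    rw [h10]
    linarith

theorem s2C_hyp {c T0 C : ℝ} (hc : 0 < c) (hT0 : 0 < T0) (hC : 0 < C) {q : ℕ}
    (hq : ⌈2 * s2CK C⌉₊ + ⌈s2CR0 C⌉₊ + ⌈4 * Real.pi / T0⌉₊ + 1 ≤ q) : S2CHyp c T0 C q := by
  have hq' : ((⌈2 * s2CK C⌉₊ : ℝ) + (⌈s2CR0 C⌉₊ : ℝ) + (⌈4 * Real.pi / T0⌉₊ : ℝ) + 1 ≤ q) := by
    exact_mod_cast hq
  have h1 := Nat.le_ceil (2 * s2CK C)
  have h2 := Nat.le_ceil (s2CR0 C)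
  have h3 := Nat.le_ceil (4 * Real.pi / T0)
  have n1 : (0 : ℝ) ≤ (⌈2 * s2CK C⌉₊ : ℝ) := Nat.cast_nonneg _
  have n2 : (0 : ℝ) ≤ (⌈s2CR0 C⌉₊ : ℝ) := Nat.cast_nonneg _
  have n3 : (0 : ℝ) ≤ (⌈4 * Real.pi / T0⌉₊ : ℝ) := Nat.cast_nonneg _
  have hQ : (0 : ℝ) < q := by linarith
  refine ⟨hc, hC, by omega, by linarith, by linarith, ?_⟩
  have h4 : 4 * Real.pi / T0 ≤ q := by linarith
  rw [div_le_iff₀ hT0] at h4
  unfold s2del
  have e : 2 * (2 * Real.pi / q) = 4 * Real.pi / q := by ring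
  rw [e, div_le_iff₀ hQ]
  linarith

theorem s2C_mesh (M : ℝ) : ∃ (R : ℝ) (N : ℕ), 0 < R ∧ 0 < N ∧
    (∀ (σ : ℝ) (U : ℕ → ℂ → ℂ), 0 ≤ σ → σ ≤ 1 → S2Fun σ M U → ∀ q : ℕ, N ≤ q → S2Mesh R σ (U 0) q) ∧
    (∀ q : ℕ, N ≤ q → ∃ L : ℝ, ∀ U U' : ℕ → ℂ → ℂ, S2Fun 0 M U → S2Fun 0 M U' →
      ∀ ε : ℝ, (∀ x : ℝ, ‖U 0 x - U' 0 x‖ ≤ ε) → ∀ x : ℝ, ∀ i ≤ 2 * q,
        ‖s2Y (U 0) q x i - s2Y (U' 0) q x i‖ ≤ L * ε) := by
  obtain ⟨c, T0, C, hc, hT0, _, hC, h1, h2⟩ := s2B_main M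
  refine ⟨s2CR c C, ⌈2 * s2CK C⌉₊ + ⌈s2CR0 C⌉₊ + ⌈4 * Real.pi / T0⌉₊ + 1, s2C_R_pos hc hC,
    Nat.succ_pos _, ?_, ?_⟩
  · intro σ U hσ0 hσ1 hU q hq
    exact s2C_mesh_one (s2C_hyp hc hT0 hC hq) (h1 σ U hσ0 hσ1 hU)
  · intro q hq
    refine ⟨C * (3 / 2 * s2del q) * (2 * (2 * (q : ℝ) ^ 2 * (C / s2del q)))
          + 2 * (q : ℝ) ^ 2 * (C / s2del q) + C, fun U U' hU hU' ε hε x i hi => ?_⟩
    exact s2C_inp_Y (s2C_hyp hc hT0 hC hq) (h1 0 U le_rfl zero_le_one hU)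
      (h1 0 U' le_rfl zero_le_one hU') (h2 U U' hU hU') hε x hi

end Claimed.Agent.R269
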