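/-
Row 269, Section 2, UNIT D, file 1/3 (MATHLIB ONLY, no paper): abstract real analysis for the envelope argument.
Blueprint: helper236.      Leaves: LF-S2-D1 (section 1), LF-S2-D5 (sections 2, 3).

SECTION 1 (`S2DPar`).  `S2DPar p p'`: `p : ℝ → ℝ → ℂ`, `(l, ζ) ↦ p l ζ`, is jointly continuous, differentiable in the parameter
`l` with jointly continuous derivative `p'`.  The class is closed under the algebraic operations, `exp, sin, cos`, and under
PRIMITIVES in `ζ`.  Recipes: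
 * `expC/sinC/cosC`: `(Complex.hasDerivAt_exp _).comp_hasDerivAt`-style chain rule with a REAL parameter: use
   `HasDerivAt.scomp` (gives `p' • exp ..`, then `smul_eq_mul`, `mul_comm`) or `HasDerivAt.cexp` (generic field).
 * `prim.c0/c1`: `intervalIntegral.continuous_parametric_intervalIntegral_of_continuous` (with `s := Prod.snd`, parameter space `ℝ × ℝ`,
    integrand `fun (x : ℝ × ℝ) ζ => p x.1 ζ`).
 * `prim.d`: `intervalIntegral.hasDerivAt_integral_of_dominated_loc_of_deriv_le` with `s = Metric.ball l 1`; the bound is the maximum of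
    `‖p'‖` on the compact set `closedBall l 1 ×ˢ uIcc c z` (`IsCompact.exists_bound_of_continuousOn`).
 * `prim_right`: `intervalIntegral.integral_hasDerivAt_right` (continuous integrand).
 * `prim_differentiable`: `hasStrictFDerivAt_uncurry_coprod` (Mathlib.Analysis.Calculus.FDeriv.Partial) with
    `f₁ l z = ContinuousLinearMap.toSpanSingleton ℝ (∫ ζ in c..z, p' l ζ)`, `f₂ l z = toSpanSingleton ℝ (p l z)`
    (`HasDerivAt.hasFDerivAt`; continuity of `toSpanSingleton ∘ g` from continuity of `g`).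

SECTION 2 (partials).  If `G : ℝ × ℝ × ℝ → ℂ` is differentiable at a point, `fderiv` on the basis vectors is the derivative along the axes
(`HasFDerivAt.comp_hasDerivAt` with the affine curve + `HasDerivAt.unique`).

SECTION 3 (envelope).  `𝒜(s) = ∑_{j<q} (G(s, X_{j+1}(s), μ_j(s)) - G(s, X_j(s), μ_j(s)))`.  The `X_j, μ_j` are only `O(s - s₀)`‑Lipschitz at `s₀`.
For each term, `G(c(s)) - G(c(s₀)) - G'(c(s) - c(s₀)) = o(c(s) - c(s₀)) = o(s - s₀)` (`HasFDerivAt.isLittleO`, `comp_tendsto`, `trans_isBigO`),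
`G'(ds, dX, dZ) = ds • G'(1,0,0) + dX • G'(0,1,0) + dZ • G'(0,0,1)`.   The `dZ` terms cancel by `hZ`.  The `dX` terms telescope: put
`t_j = ΔX_j • G'_{(X_j, μ_{j-1})}(0,1,0)` for `j > 0`, `t_0 = ΔX_0 • G'_{(X_0, μ_0)}(0,1,0)`; by `hE` the `j`‑th summand is `t_{j+1} - t_j`
(`Finset.sum_range_sub`).   Finally `ΔX_0 = e₀ (s - s₀) + o`, `ΔX_q = e₁ (s - s₀) + o`.   Conclude with `hasDerivAt_iff_isLittleO`.
-/
import Mathlib

set_option autoImplicit false

namespace Claimed.Agent.R269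

open Complex Filter Topology MeasureTheory Asymptotics

/-! ### 1. functions of `(l, ζ)` that are `C¹` in the parameter -/

/-- `p` is jointly continuous and differentiable in the parameter `l`, with jointly continuous derivative `p'`. -/
structure S2DPar (p p' : ℝ → ℝ → ℂ) : Prop where
  c0 : Continuous fun x : ℝ × ℝ => p x.1 x.2
  c1 : Continuous fun x : ℝ × ℝ => p' x.1 x.2
  d : ∀ l ζ : ℝ, HasDerivAt (fun l' : ℝ => p l' ζ) (p' l ζ) l

namespace S2DPar

variable {p p' r r' : ℝ → ℝ → ℂ}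

theorem affine {a w : ℝ → ℂ} (ha : Continuous a) (hw : Continuous w) :
    S2DPar (fun l ζ => a ζ + (l : ℂ) * w ζ) (fun _ ζ => w ζ) where
  c0 := (ha.comp continuous_snd).add
    ((Complex.continuous_ofReal.comp continuous_fst).mul (hw.comp continuous_snd))
  c1 := hw.comp continuous_snd
  d l ζ := by
    have h1 : HasDerivAt (fun l' : ℝ => (l' : ℂ)) 1 l := Complex.ofRealCLM.hasDerivAt
    have h2 := (h1.mul_const (w ζ)).const_add (a ζ)
    rwa [one_mul] at h2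

theorem const {a : ℝ → ℂ} (ha : Continuous a) : S2DPar (fun _ ζ => a ζ) (fun _ _ => 0) where
  c0 := ha.comp continuous_snd
  c1 := continuous_const
  d _ _ := hasDerivAt_const _ _

theorem add (h : S2DPar p p') (k : S2DPar r r') :
    S2DPar (fun l ζ => p l ζ + r l ζ) (fun l ζ => p' l ζ + r' l ζ) where
  c0 := h.c0.add k.c0
  c1 := h.c1.add k.c1
  d l ζ := (h.d l ζ).add (k.d l ζ)

theorem sub (h : S2DPar p p') (k : S2DPar r r') :
    S2DPar (fun l ζ => p l ζ - r l ζ) (fun l ζ => p' l ζ - r' l ζ) where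
  c0 := h.c0.sub k.c0
  c1 := h.c1.sub k.c1
  d l ζ := (h.d l ζ).sub (k.d l ζ)

theorem mul (h : S2DPar p p') (k : S2DPar r r') :
    S2DPar (fun l ζ => p l ζ * r l ζ) (fun l ζ => p' l ζ * r l ζ + p l ζ * r' l ζ) where
  c0 := h.c0.mul k.c0
  c1 := (h.c1.mul k.c0).add (h.c0.mul k.c1)
  d l ζ := (h.d l ζ).mul (k.d l ζ)

theorem const_mul (c : ℂ) (h : S2DPar p p') :
    S2DPar (fun l ζ => c * p l ζ) (fun l ζ => c * p' l ζ) where
  c0 := continuous_const.mul h.c0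
  c1 := continuous_const.mul h.c1
  d l ζ := (h.d l ζ).const_mul c

theorem expC (h : S2DPar p p') :
    S2DPar (fun l ζ => exp (p l ζ)) (fun l ζ => exp (p l ζ) * p' l ζ) where
  c0 := Complex.continuous_exp.comp h.c0
  c1 := (Complex.continuous_exp.comp h.c0).mul h.c1
  d l ζ := by
    have h1 := HasDerivAt.scomp l (Complex.hasDerivAt_exp (p l ζ)) (h.d l ζ)
    rw [smul_eq_mul, mul_comm] at h1
    exact h1

theorem sinC (h : S2DPar p p') :
    S2DPar (fun l ζ => sin (p l ζ)) (fun l ζ => cos (p l ζ) * p' l ζ) where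
  c0 := Complex.continuous_sin.comp h.c0
  c1 := (Complex.continuous_cos.comp h.c0).mul h.c1
  d l ζ := by
    have h1 := HasDerivAt.scomp l (Complex.hasDerivAt_sin (p l ζ)) (h.d l ζ)
    rw [smul_eq_mul, mul_comm] at h1
    exact h1

theorem cosC (h : S2DPar p p') :
    S2DPar (fun l ζ => cos (p l ζ)) (fun l ζ => -sin (p l ζ) * p' l ζ) where
  c0 := Complex.continuous_cos.comp h.c0
  c1 := (Complex.continuous_sin.comp h.c0).neg.mul h.c1
  d l ζ := by
    have h1 := HasDerivAt.scomp l (Complex.hasDerivAt_cos (p l ζ)) (h.d l ζ)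
    rw [smul_eq_mul, mul_comm] at h1
    exact h1

/-- sections are continuous. -/
theorem cont_right (h : S2DPar p p') (l : ℝ) : Continuous fun ζ => p l ζ :=
  h.c0.comp (Continuous.prodMk_right l)

theorem cont_right' (h : S2DPar p p') (l : ℝ) : Continuous fun ζ => p' l ζ :=
  h.c1.comp (Continuous.prodMk_right l)

/-- joint continuity of a parametric primitive. -/
theorem s2D_prim_cont {g : ℝ → ℝ → ℂ} (hg : Continuous fun x : ℝ × ℝ => g x.1 x.2) (c : ℝ) :
    Continuous fun x : ℝ × ℝ => ∫ ζ in c..x.2, g x.1 ζ := by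
  have h1 : Continuous (Function.uncurry fun (x : ℝ × ℝ) (ζ : ℝ) => g x.1 ζ) :=
    hg.comp ((continuous_fst.comp continuous_fst).prodMk continuous_snd)
  exact intervalIntegral.continuous_parametric_intervalIntegral_of_continuous h1 continuous_snd

/-- primitives in `ζ`. -/
theorem prim (h : S2DPar p p') (c : ℝ) :
    S2DPar (fun l z => ∫ ζ in c..z, p l ζ) (fun l z => ∫ ζ in c..z, p' l ζ) where
  c0 := s2D_prim_cont h.c0 c
  c1 := s2D_prim_cont h.c1 c
  d l z := by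
    have hK : IsCompact (Metric.closedBall l 1 ×ˢ Set.uIcc c z) :=
      (isCompact_closedBall l 1).prod isCompact_uIcc
    obtain ⟨C, hC⟩ := hK.exists_bound_of_continuousOn h.c1.continuousOn
    have key := intervalIntegral.hasDerivAt_integral_of_dominated_loc_of_deriv_le
      (μ := MeasureTheory.volume) (a := c) (b := z) (F := p) (F' := p') (x₀ := l)
      (s := Metric.ball l 1) (bound := fun _ => C) (Metric.ball_mem_nhds _ one_pos)
      (Filter.Eventually.of_forall fun l' => (h.cont_right l').aestronglyMeasurable)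
      ((h.cont_right l).intervalIntegrable _ _) (h.cont_right' l).aestronglyMeasurable
      (Filter.Eventually.of_forall fun ζ hζ l' hl' =>
        hC (l', ζ) ⟨Metric.ball_subset_closedBall hl', Set.uIoc_subset_uIcc hζ⟩)
      intervalIntegrable_const
      (Filter.Eventually.of_forall fun ζ _ l' _ => h.d l' ζ)
    exact key.2

theorem prim_right (h : S2DPar p p') (c l z : ℝ) :
    HasDerivAt (fun z' : ℝ => ∫ ζ in c..z', p l ζ) (p l z) z :=
  intervalIntegral.integral_hasDerivAt_right ((h.cont_right l).intervalIntegrable _ _)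
    (h.cont_right l).aestronglyMeasurable.stronglyMeasurableAtFilter (h.cont_right l).continuousAt

/-- a parametric primitive is (Fréchet) differentiable in both variables jointly. -/
theorem prim_differentiable (h : S2DPar p p') (c : ℝ) :
    Differentiable ℝ fun x : ℝ × ℝ => ∫ ζ in c..x.2, p x.1 ζ := by
  intro x
  have hts : Continuous fun y : ℂ => ContinuousLinearMap.toSpanSingleton ℝ y :=
    (ContinuousLinearMap.toSpanSingletonLIE ℝ ℂ).continuous
  have key := hasStrictFDerivAt_uncurry_coprod (𝕜 := ℝ) (u := x)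
    (f := fun l z => ∫ ζ in c..z, p l ζ)
    (f₁ := fun l z => ContinuousLinearMap.toSpanSingleton ℝ (∫ ζ in c..z, p' l ζ))
    (f₂ := fun l z => ContinuousLinearMap.toSpanSingleton ℝ (p l z))
    (Filter.Eventually.of_forall fun v => ((h.prim c).d v.1 v.2).hasFDerivAt)
    (Filter.Eventually.of_forall fun v => (h.prim_right c v.1 v.2).hasFDerivAt)
    (hts.comp (h.prim c).c1).continuousAt (hts.comp h.c0).continuousAt
  exact key.hasFDerivAt.differentiableAt

end S2DPar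

/-! ### 2. partial derivatives of a differentiable function of three real variables -/

section partials

variable {G : ℝ × ℝ × ℝ → ℂ} {s X Z : ℝ} {d : ℂ}

theorem s2D_fderiv_s (hG : DifferentiableAt ℝ G (s, X, Z))
    (h : HasDerivAt (fun s' : ℝ => G (s', X, Z)) d s) : fderiv ℝ G (s, X, Z) (1, 0, 0) = d := by
  have hc : HasDerivAt (fun s' : ℝ => ((s', X, Z) : ℝ × ℝ × ℝ)) (1, 0, 0) s :=
    (hasDerivAt_id s).prodMk ((hasDerivAt_const s X).prodMk (hasDerivAt_const s Z))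
  exact (hG.hasFDerivAt.comp_hasDerivAt s hc).unique h

theorem s2D_fderiv_X (hG : DifferentiableAt ℝ G (s, X, Z))
    (h : HasDerivAt (fun X' : ℝ => G (s, X', Z)) d X) : fderiv ℝ G (s, X, Z) (0, 1, 0) = d := by
  have hc : HasDerivAt (fun X' : ℝ => ((s, X', Z) : ℝ × ℝ × ℝ)) (0, 1, 0) X :=
    (hasDerivAt_const X s).prodMk ((hasDerivAt_id X).prodMk (hasDerivAt_const X Z))
  exact (hG.hasFDerivAt.comp_hasDerivAt X hc).unique h

theorem s2D_fderiv_Z (hG : DifferentiableAt ℝ G (s, X, Z))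
    (h : HasDerivAt (fun Z' : ℝ => G (s, X, Z')) d Z) : fderiv ℝ G (s, X, Z) (0, 0, 1) = d := by
  have hc : HasDerivAt (fun Z' : ℝ => ((s, X, Z') : ℝ × ℝ × ℝ)) (0, 0, 1) Z :=
    (hasDerivAt_const Z s).prodMk ((hasDerivAt_const Z X).prodMk (hasDerivAt_id Z))
  exact (hG.hasFDerivAt.comp_hasDerivAt Z hc).unique h

end partials

/-! ### 3. the envelope lemma -/

/-- first order expansion of `G` along a curve which is only `O(s - s₀)`-Lipschitz at `s₀`. -/
theorem s2D_expand {G : ℝ × ℝ × ℝ → ℂ} {x m : ℝ → ℝ} {s₀ : ℝ}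
    (hG : DifferentiableAt ℝ G (s₀, x s₀, m s₀))
    (hx : (fun s => x s - x s₀) =O[𝓝 s₀] fun s => s - s₀)
    (hm : (fun s => m s - m s₀) =O[𝓝 s₀] fun s => s - s₀) :
    (fun s => G (s, x s, m s) - G (s₀, x s₀, m s₀)
      - (((s - s₀ : ℝ) : ℂ) * fderiv ℝ G (s₀, x s₀, m s₀) (1, 0, 0)
        + ((x s - x s₀ : ℝ) : ℂ) * fderiv ℝ G (s₀, x s₀, m s₀) (0, 1, 0)
        + ((m s - m s₀ : ℝ) : ℂ) * fderiv ℝ G (s₀, x s₀, m s₀) (0, 0, 1)))
      =o[𝓝 s₀] fun s => s - s₀ := by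
  have h0 : Tendsto (fun s : ℝ => s - s₀) (𝓝 s₀) (𝓝 0) := by
    have : Tendsto (fun s : ℝ => s - s₀) (𝓝 s₀) (𝓝 (s₀ - s₀)) := (continuous_id.sub continuous_const).tendsto s₀
    rwa [sub_self] at this
  have hxt : Tendsto x (𝓝 s₀) (𝓝 (x s₀)) := by
    have h1 := (hx.trans_tendsto h0).add_const (x s₀)
    simpa using h1
  have hmt : Tendsto m (𝓝 s₀) (𝓝 (m s₀)) := by
    have h1 := (hm.trans_tendsto h0).add_const (m s₀)
    simpa using h1
  have hc : Tendsto (fun s => ((s, x s, m s) : ℝ × ℝ × ℝ)) (𝓝 s₀) (𝓝 (s₀, x s₀, m s₀)) :=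
    tendsto_id.prodMk_nhds (hxt.prodMk_nhds hmt)
  have h1 := (hG.hasFDerivAt.isLittleO).comp_tendsto hc
  have h2 : (fun s => ((s, x s, m s) : ℝ × ℝ × ℝ) - (s₀, x s₀, m s₀)) =O[𝓝 s₀] fun s => s - s₀ :=
    (isBigO_refl _ _).prod_left (hx.prod_left hm)
  have h3 := h1.trans_isBigO h2
  refine h3.congr_left fun s => ?_
  have h4 : ((s, x s, m s) : ℝ × ℝ × ℝ) - (s₀, x s₀, m s₀)
      = (s - s₀) • ((1, 0, 0) : ℝ × ℝ × ℝ) + (x s - x s₀) • ((0, 1, 0) : ℝ × ℝ × ℝ)
        + (m s - m s₀) • ((0, 0, 1) : ℝ × ℝ × ℝ) := by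
    simp
  simp only [Function.comp_apply]
  rw [h4, map_add, map_add, map_smul, map_smul, map_smul, Complex.real_smul, Complex.real_smul,
    Complex.real_smul]

/-- **Envelope lemma.**  The configuration `(X_j(s), μ_j(s))` is only Lipschitz at `s₀`, and critical at `s₀` in all interior variables. -/
theorem s2D_env {G : ℝ × ℝ × ℝ → ℂ} {q : ℕ} (hq : 0 < q) {Xs Ms : ℕ → ℝ → ℝ} {s₀ e₀ e₁ : ℝ}
    (hG₁ : ∀ j < q, DifferentiableAt ℝ G (s₀, Xs j s₀, Ms j s₀))
    (hG₂ : ∀ j < q, DifferentiableAt ℝ G (s₀, Xs (j + 1) s₀, Ms j s₀))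
    (hX : ∀ j ≤ q, (fun s => Xs j s - Xs j s₀) =O[𝓝 s₀] fun s => s - s₀)
    (hM : ∀ j < q, (fun s => Ms j s - Ms j s₀) =O[𝓝 s₀] fun s => s - s₀)
    (hZ : ∀ j < q, fderiv ℝ G (s₀, Xs (j + 1) s₀, Ms j s₀) (0, 0, 1)
      = fderiv ℝ G (s₀, Xs j s₀, Ms j s₀) (0, 0, 1))
    (hE : ∀ j, 0 < j → j < q → fderiv ℝ G (s₀, Xs j s₀, Ms (j - 1) s₀) (0, 1, 0)
      = fderiv ℝ G (s₀, Xs j s₀, Ms j s₀) (0, 1, 0))
    (h0 : HasDerivAt (Xs 0) e₀ s₀) (h1 : HasDerivAt (Xs q) e₁ s₀) :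
    HasDerivAt (fun s => ∑ j ∈ Finset.range q, (G (s, Xs (j + 1) s, Ms j s) - G (s, Xs j s, Ms j s)))
      (∑ j ∈ Finset.range q, (fderiv ℝ G (s₀, Xs (j + 1) s₀, Ms j s₀) (1, 0, 0)
          - fderiv ℝ G (s₀, Xs j s₀, Ms j s₀) (1, 0, 0))
        + (e₁ : ℂ) * fderiv ℝ G (s₀, Xs q s₀, Ms (q - 1) s₀) (0, 1, 0)
        - (e₀ : ℂ) * fderiv ℝ G (s₀, Xs 0 s₀, Ms 0 s₀) (0, 1, 0)) s₀ := by
  rw [hasDerivAt_iff_isLittleO]
  -- coefficients of the increments of the vertices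
  set T : ℕ → ℂ := fun j => if j = 0 then fderiv ℝ G (s₀, Xs 0 s₀, Ms 0 s₀) (0, 1, 0)
    else fderiv ℝ G (s₀, Xs j s₀, Ms (j - 1) s₀) (0, 1, 0) with hT
  have hT0 : T 0 = fderiv ℝ G (s₀, Xs 0 s₀, Ms 0 s₀) (0, 1, 0) := by simp [hT]
  have hTs : ∀ j, T (j + 1) = fderiv ℝ G (s₀, Xs (j + 1) s₀, Ms j s₀) (0, 1, 0) := by
    intro j
    simp [hT]
  have hTq : T q = fderiv ℝ G (s₀, Xs q s₀, Ms (q - 1) s₀) (0, 1, 0) := by
    simp [hT, hq.ne']
  have hTj : ∀ j < q, T j = fderiv ℝ G (s₀, Xs j s₀, Ms j s₀) (0, 1, 0) := by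
    intro j hj
    rcases Nat.eq_zero_or_pos j with rfl | hj0
    · exact hT0
    · simp only [hT, hj0.ne', if_false]
      exact hE j hj0 hj
  -- remainders
  have hr2 : ∀ j ∈ Finset.range q, _ =o[𝓝 s₀] fun s => s - s₀ := fun j hj =>
    s2D_expand (x := Xs (j + 1)) (m := Ms j) (hG₂ j (Finset.mem_range.1 hj))
      (hX (j + 1) (Finset.mem_range.1 hj)) (hM j (Finset.mem_range.1 hj))
  have hr1 : ∀ j ∈ Finset.range q, _ =o[𝓝 s₀] fun s => s - s₀ := fun j hj =>
    s2D_expand (x := Xs j) (m := Ms j) (hG₁ j (Finset.mem_range.1 hj))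
      (hX j (Finset.mem_range.1 hj).le) (hM j (Finset.mem_range.1 hj))
  have hsum := IsLittleO.sum fun j hj => (hr2 j hj).sub (hr1 j hj)
  have hq' : (fun s => ((Xs q s - Xs q s₀ - (s - s₀) • e₁ : ℝ) : ℂ) * T q) =o[𝓝 s₀] fun s => s - s₀ := by
    have h2 := (hasDerivAt_iff_isLittleO.1 h1)
    have h3 : (fun s => ((Xs q s - Xs q s₀ - (s - s₀) • e₁ : ℝ) : ℂ)) =o[𝓝 s₀] fun s => s - s₀ := by
      refine IsLittleO.of_norm_left ?_
      simpa only [Complex.norm_real] using h2.norm_left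
    simpa only [mul_comm] using h3.const_mul_left (T q)
  have h0' : (fun s => ((Xs 0 s - Xs 0 s₀ - (s - s₀) • e₀ : ℝ) : ℂ) * T 0) =o[𝓝 s₀] fun s => s - s₀ := by
    have h2 := (hasDerivAt_iff_isLittleO.1 h0)
    have h3 : (fun s => ((Xs 0 s - Xs 0 s₀ - (s - s₀) • e₀ : ℝ) : ℂ)) =o[𝓝 s₀] fun s => s - s₀ := by
      refine IsLittleO.of_norm_left ?_
      simpa only [Complex.norm_real] using h2.norm_left
    simpa only [mul_comm] using h3.const_mul_left (T 0)
  refine ((hsum.add hq').sub h0').congr_left fun s => ?_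
  -- the algebraic identity
  have hterm : ∀ j ∈ Finset.range q,
      (G (s, Xs (j + 1) s, Ms j s) - G (s₀, Xs (j + 1) s₀, Ms j s₀)
        - (((s - s₀ : ℝ) : ℂ) * fderiv ℝ G (s₀, Xs (j + 1) s₀, Ms j s₀) (1, 0, 0)
          + ((Xs (j + 1) s - Xs (j + 1) s₀ : ℝ) : ℂ) * fderiv ℝ G (s₀, Xs (j + 1) s₀, Ms j s₀) (0, 1, 0)
          + ((Ms j s - Ms j s₀ : ℝ) : ℂ) * fderiv ℝ G (s₀, Xs (j + 1) s₀, Ms j s₀) (0, 0, 1)))
      - (G (s, Xs j s, Ms j s) - G (s₀, Xs j s₀, Ms j s₀)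
        - (((s - s₀ : ℝ) : ℂ) * fderiv ℝ G (s₀, Xs j s₀, Ms j s₀) (1, 0, 0)
          + ((Xs j s - Xs j s₀ : ℝ) : ℂ) * fderiv ℝ G (s₀, Xs j s₀, Ms j s₀) (0, 1, 0)
          + ((Ms j s - Ms j s₀ : ℝ) : ℂ) * fderiv ℝ G (s₀, Xs j s₀, Ms j s₀) (0, 0, 1)))
      = ((G (s, Xs (j + 1) s, Ms j s) - G (s, Xs j s, Ms j s))
          - (G (s₀, Xs (j + 1) s₀, Ms j s₀) - G (s₀, Xs j s₀, Ms j s₀)))
        - ((s - s₀ : ℝ) : ℂ) * (fderiv ℝ G (s₀, Xs (j + 1) s₀, Ms j s₀) (1, 0, 0)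
          - fderiv ℝ G (s₀, Xs j s₀, Ms j s₀) (1, 0, 0))
        - (((Xs (j + 1) s - Xs (j + 1) s₀ : ℝ) : ℂ) * T (j + 1) - ((Xs j s - Xs j s₀ : ℝ) : ℂ) * T j) := by
    intro j hj
    have hj' := Finset.mem_range.1 hj
    rw [hZ j hj', hTs j, hTj j hj']
    ring
  rw [Finset.sum_apply, Finset.sum_congr rfl hterm, Finset.sum_sub_distrib, Finset.sum_sub_distrib,
    Finset.sum_sub_distrib, ← Finset.mul_sum,
    Finset.sum_range_sub (fun j => ((Xs j s - Xs j s₀ : ℝ) : ℂ) * T j), ← hTq, ← hT0,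
    Complex.real_smul]
  simp only [smul_eq_mul]
  push_cast
  ring

end Claimed.Agent.R269
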