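/-
Row 269, Section 2, UNIT D, file 2/3 (no paper): the half-cell action on the REAL axis as a function of three real variables
`(l, X, Z) ↦ Λ_{a + l w}(X, Z)`; joint differentiability and the three partial derivatives.
Blueprint: helper236.      Leaves: LF-S2-D2 (section 1), LF-S2-D3 (section 2), LF-S2-D4 (section 3).  `D1.lean` may be used sorried.

Notation: `a, w : ℝ → ℂ` continuous, `e l ζ = a ζ + l w ζ`,
  `φ l z = ∫_0^z exp (e l)`, `E l z = ∫_0^z exp (-2 e l)`, `A l z = ∫_0^z sin (φ l ζ) exp (-2 e l ζ) dζ`, `B l z = ∫_0^z cos (φ l ζ) exp (-2 e l ζ) dζ`.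

SECTION 1.  * `s2D_dphi_eq, s2D_J_eq, s2D_Lam_eq, s2D_inner_eq`: `s2P_real` (S2/P.lean) + `intervalIntegral.integral_congr`.
 * `s2D_G_rep`:  `∫_X^z exp (e l) = φ l z - φ l X` (`intervalIntegral.integral_interval_sub_left`, continuity ⇒ integrability),
   `cos (x - y) = cos x cos y + sin x sin y`, linearity, `∫_X^Z f = ∫_0^Z f - ∫_0^X f`.   All integrands are continuous in `ζ`: they are sections
   `ζ ↦ p l ζ` of `S2DPar` functions (`h.c0.comp (Continuous.prodMk_right l)`‑style).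
 * `s2D_G_diff`: rewrite `s2DG a w` by `funext` + `s2D_G_rep`; `φ, E, A, B` are jointly differentiable by `S2DPar.prim_differentiable`
   (`S2DPar.affine`, `.const_mul`, `.expC`, `.prim`, `.sinC`, `.cosC`, `.mul`); compose with the linear maps `(l,X,Z) ↦ (l,Z)`, `(l,X,Z) ↦ (l,X)`;
   `Differentiable.ccos/csin` need a complex variable: use `Complex.differentiable_cos.restrictScalars ℝ |>.comp`‑style or `DifferentiableAt.comp`.
SECTION 2.  Fix `l`.  `φ l, E l, A l, B l` have derivatives `exp (e l z)`, … (`S2DPar.prim_right`).  Differentiate the formula of `s2D_G_rep`: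
   `∂_Z = exp(-2e Z)(1 - cos φX cos φZ - sin φX sin φZ) = (1 - cos (φ Z - φ X)) exp (-2 e Z)`,
   `∂_X = - exp(-2eX) + (cos² + sin²)(φX) exp(-2eX) + exp(e X) [sin φX (BZ - BX) - cos φX (AZ - AX)] = - exp (e X) J(X,Z)`,
   `J(X,Z) = ∫_X^Z sin (φ z - φ X) exp (-2 e z) dz = cos φX (AZ - AX) - sin φX (BZ - BX)`.
SECTION 3.  `g l z = (1 - cos (ψ l z)) exp (-2 e l z)`, `ψ l z = ∫_X^z exp (e l)` is `S2DPar` with
   `g' l z = sin (ψ l z) ψ' l z exp (-2 e l z) - 2 w z (1 - cos (ψ l z)) exp (-2 e l z)`, `ψ' l z = ∫_X^z w exp (e l)`;  `(S2DPar.prim _ X).d l Z` gives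
   `∂_l G = ∫_X^Z g' l z dz`.   Integration by parts (`intervalIntegral.integral_mul_deriv_eq_deriv_mul`) with `S z = ∫_z^Z sin ψ exp(-2e)`
   (`S' = - sin ψ exp(-2e)`, `S Z = 0`, `ψ' X = 0`):   `∫_X^Z sin ψ exp(-2e) ψ' = ∫_X^Z S w exp (e)`.   Hence `∂_l G = - ∫_X^Z ker(z; X, Z) w z dz`.
-/
import Claimed.Agent.R269.S2.D1
import Claimed.Agent.R269.S2.P

set_option autoImplicit false

namespace Claimed.Agent.R269

open Complex ComplexConjugate Filter Topology

/-- real-variable model of the half-cell action `Λ_{a + l w}(X, Z)`, as a function of `(l, X, Z)`. -/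
noncomputable def s2DG (a w : ℝ → ℂ) (p : ℝ × ℝ × ℝ) : ℂ :=
  ∫ z in p.2.1..p.2.2, (1 - cos (∫ ζ in p.2.1..z, exp (a ζ + (p.1 : ℂ) * w ζ)))
    * exp (-2 * (a z + (p.1 : ℂ) * w z))

/-- forces the equation lemmas to be generated in this file. -/
theorem s2DG_eqns_cited : True := by
  have := @s2DG.eq_1; have := @s2DG.eq_def; have := @s2DG.congr_simp
  trivial

/-! ### 1. link with the definitions of Section 2, representation, joint differentiability -/

section link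

variable {u : ℂ → ℂ} {a w : ℝ → ℂ} {l : ℝ}

theorem s2D_dphi_eq (h : ∀ x : ℝ, u x = a x + (l : ℂ) * w x) (X Z : ℝ) :
    s2dphi u X Z = ∫ ζ in X..Z, exp (a ζ + (l : ℂ) * w ζ) := by
  rw [s2dphi, s2P_real]
  exact intervalIntegral.integral_congr fun ζ _ => by simp only [h ζ]

theorem s2D_inner_eq (h : ∀ x : ℝ, u x = a x + (l : ℂ) * w x) (V z μ : ℝ) :
    s2seg (fun ζ => sin (s2dphi u V ζ) * exp (-2 * u ζ)) z μ
      = ∫ y in z..μ, sin (∫ ζ in V..y, exp (a ζ + (l : ℂ) * w ζ)) * exp (-2 * (a y + (l : ℂ) * w y)) := by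
  rw [s2P_real]
  exact intervalIntegral.integral_congr fun y _ => by simp only [s2D_dphi_eq h V y, h y]

theorem s2D_J_eq (h : ∀ x : ℝ, u x = a x + (l : ℂ) * w x) (X Z : ℝ) :
    s2J u X Z
      = ∫ y in X..Z, sin (∫ ζ in X..y, exp (a ζ + (l : ℂ) * w ζ)) * exp (-2 * (a y + (l : ℂ) * w y)) := by
  rw [s2J]
  exact s2D_inner_eq h X X Z

theorem s2D_Lam_eq (h : ∀ x : ℝ, u x = a x + (l : ℂ) * w x) (X Z : ℝ) :
    s2Lam u X Z = s2DG a w (l, X, Z) := by
  rw [s2Lam, s2P_real, s2DG]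
  exact intervalIntegral.integral_congr fun y _ => by simp only [s2D_dphi_eq h X y, h y]

end link

/-- the four primitives. -/
noncomputable def s2Dphi (a w : ℝ → ℂ) (l z : ℝ) : ℂ := ∫ ζ in (0 : ℝ)..z, exp (a ζ + (l : ℂ) * w ζ)

noncomputable def s2DE (a w : ℝ → ℂ) (l z : ℝ) : ℂ :=
  ∫ ζ in (0 : ℝ)..z, exp (-2 * (a ζ + (l : ℂ) * w ζ))

noncomputable def s2DA (a w : ℝ → ℂ) (l z : ℝ) : ℂ :=
  ∫ ζ in (0 : ℝ)..z, sin (s2Dphi a w l ζ) * exp (-2 * (a ζ + (l : ℂ) * w ζ))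

noncomputable def s2DB (a w : ℝ → ℂ) (l z : ℝ) : ℂ :=
  ∫ ζ in (0 : ℝ)..z, cos (s2Dphi a w l ζ) * exp (-2 * (a ζ + (l : ℂ) * w ζ))

theorem s2Dprim_eqns_cited : True := by
  have := @s2Dphi.eq_1; have := @s2Dphi.eq_def; have := @s2Dphi.congr_simp
  have := @s2DE.eq_1; have := @s2DE.eq_def; have := @s2DE.congr_simp
  have := @s2DA.eq_1; have := @s2DA.eq_def; have := @s2DA.congr_simp
  have := @s2DB.eq_1; have := @s2DB.eq_def; have := @s2DB.congr_simp
  trivial

theorem s2D2_compZ {F : ℝ → ℝ → ℂ} (h : Differentiable ℝ fun x : ℝ × ℝ => F x.1 x.2) :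
    Differentiable ℝ fun p : ℝ × ℝ × ℝ => F p.1 p.2.2 :=
  Differentiable.comp (g := fun x : ℝ × ℝ => F x.1 x.2) (f := fun p : ℝ × ℝ × ℝ => (p.1, p.2.2)) h
    (differentiable_fst.prodMk (differentiable_snd.comp differentiable_snd))

theorem s2D2_compX {F : ℝ → ℝ → ℂ} (h : Differentiable ℝ fun x : ℝ × ℝ => F x.1 x.2) :
    Differentiable ℝ fun p : ℝ × ℝ × ℝ => F p.1 p.2.1 :=
  Differentiable.comp (g := fun x : ℝ × ℝ => F x.1 x.2) (f := fun p : ℝ × ℝ × ℝ => (p.1, p.2.1)) h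
    (differentiable_fst.prodMk (differentiable_fst.comp differentiable_snd))

section rep

variable {a w : ℝ → ℂ} (ha : Continuous a) (hw : Continuous w)

include ha hw

theorem s2D2_par_exp : S2DPar (fun l ζ => exp (a ζ + (l : ℂ) * w ζ))
    (fun l ζ => exp (a ζ + (l : ℂ) * w ζ) * w ζ) := (S2DPar.affine ha hw).expC

theorem s2D2_par_phi : S2DPar (s2Dphi a w)
    (fun l z => ∫ ζ in (0 : ℝ)..z, exp (a ζ + (l : ℂ) * w ζ) * w ζ) := (s2D2_par_exp ha hw).prim 0

theorem s2D2_par_e2 : S2DPar (fun l ζ => exp (-2 * (a ζ + (l : ℂ) * w ζ)))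
    (fun l ζ => exp (-2 * (a ζ + (l : ℂ) * w ζ)) * (-2 * w ζ)) :=
  ((S2DPar.affine ha hw).const_mul (-2)).expC

theorem s2D2_par_sin : ∃ r', S2DPar
    (fun l ζ => sin (s2Dphi a w l ζ) * exp (-2 * (a ζ + (l : ℂ) * w ζ))) r' :=
  ⟨_, (s2D2_par_phi ha hw).sinC.mul (s2D2_par_e2 ha hw)⟩

theorem s2D2_par_cos : ∃ r', S2DPar
    (fun l ζ => cos (s2Dphi a w l ζ) * exp (-2 * (a ζ + (l : ℂ) * w ζ))) r' :=
  ⟨_, (s2D2_par_phi ha hw).cosC.mul (s2D2_par_e2 ha hw)⟩

theorem s2D_phi_sub (l X z : ℝ) :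
    ∫ ζ in X..z, exp (a ζ + (l : ℂ) * w ζ) = s2Dphi a w l z - s2Dphi a w l X := by
  have hc := (s2D2_par_exp ha hw).cont_right l
  rw [s2Dphi, s2Dphi, intervalIntegral.integral_interval_sub_left (hc.intervalIntegrable _ _)
    (hc.intervalIntegrable _ _)]

theorem s2D_G_rep (l X Z : ℝ) :
    s2DG a w (l, X, Z) = (s2DE a w l Z - s2DE a w l X)
      - cos (s2Dphi a w l X) * (s2DB a w l Z - s2DB a w l X)
      - sin (s2Dphi a w l X) * (s2DA a w l Z - s2DA a w l X) := by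
  obtain ⟨_, hS⟩ := s2D2_par_sin ha hw
  obtain ⟨_, hC⟩ := s2D2_par_cos ha hw
  have hcE := (s2D2_par_e2 ha hw).cont_right l
  have hcS := hS.cont_right l
  have hcC := hC.cont_right l
  rw [s2DE, s2DE, s2DA, s2DA, s2DB, s2DB,
    intervalIntegral.integral_interval_sub_left (hcE.intervalIntegrable _ _) (hcE.intervalIntegrable _ _),
    intervalIntegral.integral_interval_sub_left (hcS.intervalIntegrable _ _) (hcS.intervalIntegrable _ _),
    intervalIntegral.integral_interval_sub_left (hcC.intervalIntegrable _ _) (hcC.intervalIntegrable _ _),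
    ← intervalIntegral.integral_const_mul, ← intervalIntegral.integral_const_mul,
    ← intervalIntegral.integral_sub (hcE.intervalIntegrable _ _)
      ((hcC.const_mul _).intervalIntegrable _ _)]
  have hc1 : Continuous fun x : ℝ => exp (-2 * (a x + (l : ℂ) * w x))
      - cos (s2Dphi a w l X) * (cos (s2Dphi a w l x) * exp (-2 * (a x + (l : ℂ) * w x))) :=
    hcE.sub (hcC.const_mul _)
  rw [← intervalIntegral.integral_sub (hc1.intervalIntegrable _ _)
    ((hcS.const_mul _).intervalIntegrable _ _), s2DG]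
  refine intervalIntegral.integral_congr fun z _ => ?_
  simp only [s2D_phi_sub ha hw l X z, Complex.cos_sub]
  ring

theorem s2D_Jint_rep (l X z Z : ℝ) :
    ∫ y in z..Z, sin (∫ ζ in X..y, exp (a ζ + (l : ℂ) * w ζ)) * exp (-2 * (a y + (l : ℂ) * w y))
      = cos (s2Dphi a w l X) * (s2DA a w l Z - s2DA a w l z)
        - sin (s2Dphi a w l X) * (s2DB a w l Z - s2DB a w l z) := by
  obtain ⟨_, hS⟩ := s2D2_par_sin ha hw
  obtain ⟨_, hC⟩ := s2D2_par_cos ha hw
  have hcS := hS.cont_right l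
  have hcC := hC.cont_right l
  rw [s2DA, s2DA, s2DB, s2DB,
    intervalIntegral.integral_interval_sub_left (hcS.intervalIntegrable _ _) (hcS.intervalIntegrable _ _),
    intervalIntegral.integral_interval_sub_left (hcC.intervalIntegrable _ _) (hcC.intervalIntegrable _ _),
    ← intervalIntegral.integral_const_mul, ← intervalIntegral.integral_const_mul,
    ← intervalIntegral.integral_sub ((hcS.const_mul _).intervalIntegrable _ _)
      ((hcC.const_mul _).intervalIntegrable _ _)]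
  refine intervalIntegral.integral_congr fun y _ => ?_
  simp only [s2D_phi_sub ha hw l X y, Complex.sin_sub]
  ring

/-- joint differentiability. -/
theorem s2D_G_diff (p : ℝ × ℝ × ℝ) : DifferentiableAt ℝ (s2DG a w) p := by
  obtain ⟨_, hS⟩ := s2D2_par_sin ha hw
  obtain ⟨_, hC⟩ := s2D2_par_cos ha hw
  have dφ : Differentiable ℝ fun x : ℝ × ℝ => s2Dphi a w x.1 x.2 :=
    (s2D2_par_exp ha hw).prim_differentiable 0
  have dE : Differentiable ℝ fun x : ℝ × ℝ => s2DE a w x.1 x.2 :=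
    (s2D2_par_e2 ha hw).prim_differentiable 0
  have dA : Differentiable ℝ fun x : ℝ × ℝ => s2DA a w x.1 x.2 := hS.prim_differentiable 0
  have dB : Differentiable ℝ fun x : ℝ × ℝ => s2DB a w x.1 x.2 := hC.prim_differentiable 0
  have hcos : Differentiable ℝ fun z : ℂ => cos z := Complex.differentiable_cos.restrictScalars ℝ
  have hsin : Differentiable ℝ fun z : ℂ => sin z := Complex.differentiable_sin.restrictScalars ℝ
  have e : s2DG a w = fun p : ℝ × ℝ × ℝ => (s2DE a w p.1 p.2.2 - s2DE a w p.1 p.2.1)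
      - cos (s2Dphi a w p.1 p.2.1) * (s2DB a w p.1 p.2.2 - s2DB a w p.1 p.2.1)
      - sin (s2Dphi a w p.1 p.2.1) * (s2DA a w p.1 p.2.2 - s2DA a w p.1 p.2.1) := by
    funext ⟨l, X, Z⟩
    exact s2D_G_rep ha hw l X Z
  rw [e]
  have h1 := s2D2_compZ dE
  have h2 := s2D2_compX dE
  have h3 := s2D2_compZ dB
  have h4 := s2D2_compX dB
  have h5 := s2D2_compZ dA
  have h6 := s2D2_compX dA
  have h7 := s2D2_compX dφ
  have h8 : Differentiable ℝ fun p : ℝ × ℝ × ℝ => cos (s2Dphi a w p.1 p.2.1) :=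
    Differentiable.comp (g := fun z : ℂ => cos z) hcos h7
  have h9 : Differentiable ℝ fun p : ℝ × ℝ × ℝ => sin (s2Dphi a w p.1 p.2.1) :=
    Differentiable.comp (g := fun z : ℂ => sin z) hsin h7
  exact (((h1.fun_sub h2).fun_sub (h8.fun_mul (h3.fun_sub h4))).fun_sub (h9.fun_mul (h5.fun_sub h6))) p

end rep

/-! ### 2. the partial derivatives in `X` and `Z` -/

section dprim

variable {a w : ℝ → ℂ} (ha : Continuous a) (hw : Continuous w) (l z : ℝ)

include ha hw

theorem s2D_phi_deriv : HasDerivAt (s2Dphi a w l) (exp (a z + (l : ℂ) * w z)) z :=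
  (S2DPar.affine ha hw).expC.prim_right 0 l z

theorem s2D_E_deriv : HasDerivAt (s2DE a w l) (exp (-2 * (a z + (l : ℂ) * w z))) z :=
  ((S2DPar.affine ha hw).const_mul (-2)).expC.prim_right 0 l z

theorem s2D_A_deriv :
    HasDerivAt (s2DA a w l) (sin (s2Dphi a w l z) * exp (-2 * (a z + (l : ℂ) * w z))) z :=
  ((((S2DPar.affine ha hw).expC.prim 0).sinC).mul
    ((S2DPar.affine ha hw).const_mul (-2)).expC).prim_right 0 l z

theorem s2D_B_deriv :
    HasDerivAt (s2DB a w l) (cos (s2Dphi a w l z) * exp (-2 * (a z + (l : ℂ) * w z))) z :=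
  ((((S2DPar.affine ha hw).expC.prim 0).cosC).mul
    ((S2DPar.affine ha hw).const_mul (-2)).expC).prim_right 0 l z

end dprim

section dXZ

variable {u : ℂ → ℂ} {a w : ℝ → ℂ} {l : ℝ} (ha : Continuous a) (hw : Continuous w)
  (h : ∀ x : ℝ, u x = a x + (l : ℂ) * w x)

include ha hw h

theorem s2D_G_dX (X Z : ℝ) :
    HasDerivAt (fun X' : ℝ => s2DG a w (l, X', Z)) (-(exp (u X) * s2J u X Z)) X := by
  have hfun : (fun X' : ℝ => s2DG a w (l, X', Z)) = fun X' : ℝ =>
      (s2DE a w l Z - s2DE a w l X')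
      - cos (s2Dphi a w l X') * (s2DB a w l Z - s2DB a w l X')
      - sin (s2Dphi a w l X') * (s2DA a w l Z - s2DA a w l X') := by
    funext X'
    exact s2D_G_rep ha hw l X' Z
  rw [hfun]
  have hφ := s2D_phi_deriv ha hw l X
  have hE := s2D_E_deriv ha hw l X
  have hA := s2D_A_deriv ha hw l X
  have hB := s2D_B_deriv ha hw l X
  have hcos : HasDerivAt (fun X' : ℝ => cos (s2Dphi a w l X'))
      (exp (a X + (l : ℂ) * w X) • (-sin (s2Dphi a w l X))) X :=
    HasDerivAt.scomp X (Complex.hasDerivAt_cos _) hφ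
  have hsin : HasDerivAt (fun X' : ℝ => sin (s2Dphi a w l X'))
      (exp (a X + (l : ℂ) * w X) • cos (s2Dphi a w l X)) X :=
    HasDerivAt.scomp X (Complex.hasDerivAt_sin _) hφ
  have key := ((hE.const_sub (s2DE a w l Z)).sub (hcos.mul (hB.const_sub (s2DB a w l Z)))).sub
    (hsin.mul (hA.const_sub (s2DA a w l Z)))
  refine key.congr_deriv ?_
  rw [s2D_J_eq h, s2D_Jint_rep ha hw, h X]
  simp only [smul_eq_mul]
  have hcs := Complex.sin_sq_add_cos_sq (s2Dphi a w l X)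
  linear_combination (exp (-2 * (a X + (l : ℂ) * w X))) * hcs

theorem s2D_G_dZ (X Z : ℝ) :
    HasDerivAt (fun Z' : ℝ => s2DG a w (l, X, Z')) ((1 - cos (s2dphi u X Z)) * exp (-2 * u Z)) Z := by
  have hfun : (fun Z' : ℝ => s2DG a w (l, X, Z')) = fun Z' : ℝ =>
      (s2DE a w l Z' - s2DE a w l X)
      - cos (s2Dphi a w l X) * (s2DB a w l Z' - s2DB a w l X)
      - sin (s2Dphi a w l X) * (s2DA a w l Z' - s2DA a w l X) := by
    funext Z'
    exact s2D_G_rep ha hw l X Z'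
  rw [hfun]
  have hE := s2D_E_deriv ha hw l Z
  have hA := s2D_A_deriv ha hw l Z
  have hB := s2D_B_deriv ha hw l Z
  have key := ((hE.sub_const (s2DE a w l X)).sub
    ((hB.sub_const (s2DB a w l X)).const_mul (cos (s2Dphi a w l X)))).sub
    ((hA.sub_const (s2DA a w l X)).const_mul (sin (s2Dphi a w l X)))
  refine key.congr_deriv ?_
  rw [s2D_dphi_eq h, s2D_phi_sub ha hw, h Z, Complex.cos_sub]
  ring

end dXZ

/-! ### 3. the partial derivative in `l`: the variation kernel -/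

theorem s2D_G_dl {u v : ℂ → ℂ} {a w : ℝ → ℂ} {l : ℝ} (ha : Continuous a) (hw : Continuous w)
    (h : ∀ x : ℝ, u x = a x + (l : ℂ) * w x) (hv : ∀ x : ℝ, v x = w x) (X Z : ℝ) :
    HasDerivAt (fun l' : ℝ => s2DG a w (l', X, Z)) (-s2seg (fun z => s2ker u z X Z * v z) X Z) l := by
  have he := S2DPar.affine ha hw
  have hexp := he.expC
  have hψ := hexp.prim X
  have hE2 := (he.const_mul (-2)).expC
  have h1c := (S2DPar.const (a := fun _ => (1 : ℂ)) continuous_const).sub hψ.cosC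
  have hg := h1c.mul hE2
  have hG := (hg.prim X).d l Z
  have hσ := (hψ.sinC.mul hE2).cont_right l
  have hr := hexp.cont_right' l
  have hΨc := hψ.cont_right' l
  have hcc := (hg.cont_right l).mul hw
  -- integration by parts
  have hΨ : ∀ x : ℝ, HasDerivAt (fun z : ℝ => ∫ ζ in X..z, exp (a ζ + (l : ℂ) * w ζ) * w ζ)
      (exp (a x + (l : ℂ) * w x) * w x) x := fun x => (hr.integral_hasStrictDerivAt X x).hasDerivAt
  have hV : ∀ x : ℝ, HasDerivAt (fun z : ℝ => ∫ y in Z..z,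
        sin (∫ ζ in X..y, exp (a ζ + (l : ℂ) * w ζ)) * exp (-2 * (a y + (l : ℂ) * w y)))
      (sin (∫ ζ in X..x, exp (a ζ + (l : ℂ) * w ζ)) * exp (-2 * (a x + (l : ℂ) * w x))) x :=
    fun x => (hσ.integral_hasStrictDerivAt Z x).hasDerivAt
  have hVc : Continuous fun z : ℝ => ∫ y in Z..z,
      sin (∫ ζ in X..y, exp (a ζ + (l : ℂ) * w ζ)) * exp (-2 * (a y + (l : ℂ) * w y)) :=
    continuous_iff_continuousAt.2 fun x => (hV x).continuousAt
  have ibp := intervalIntegral.integral_mul_deriv_eq_deriv_mul (a := X) (b := Z)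
    (fun x _ => hΨ x) (fun x _ => hV x) (hr.intervalIntegrable _ _) (hσ.intervalIntegrable _ _)
  simp only [intervalIntegral.integral_same, mul_zero, zero_mul, sub_zero, zero_sub] at ibp
  refine hG.congr_deriv ?_
  rw [s2P_real]
  have hR : ∀ z : ℝ, s2ker u z X Z * v z
      = (1 - cos (∫ ζ in X..z, exp (a ζ + (l : ℂ) * w ζ))) * exp (-2 * (a z + (l : ℂ) * w z)) * w z * 2
        + exp (a z + (l : ℂ) * w z) * w z * ∫ y in Z..z,
          sin (∫ ζ in X..y, exp (a ζ + (l : ℂ) * w ζ)) * exp (-2 * (a y + (l : ℂ) * w y)) := by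
    intro z
    unfold s2ker
    rw [s2D_dphi_eq h, s2D_inner_eq h, h z, hv z, intervalIntegral.integral_symm Z z]
    ring
  have hL : ∀ z : ℝ, (0 - -sin (∫ ζ in X..z, exp (a ζ + (l : ℂ) * w ζ))
          * ∫ ζ in X..z, exp (a ζ + (l : ℂ) * w ζ) * w ζ) * exp (-2 * (a z + (l : ℂ) * w z))
        + (1 - cos (∫ ζ in X..z, exp (a ζ + (l : ℂ) * w ζ)))
          * (exp (-2 * (a z + (l : ℂ) * w z)) * (-2 * w z))
      = (∫ ζ in X..z, exp (a ζ + (l : ℂ) * w ζ) * w ζ)
          * (sin (∫ ζ in X..z, exp (a ζ + (l : ℂ) * w ζ)) * exp (-2 * (a z + (l : ℂ) * w z)))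
        - (1 - cos (∫ ζ in X..z, exp (a ζ + (l : ℂ) * w ζ))) * exp (-2 * (a z + (l : ℂ) * w z)) * w z * 2 := by
    intro z
    ring
  simp only [hR, hL]
  have i1 : IntervalIntegrable (fun z : ℝ => (∫ ζ in X..z, exp (a ζ + (l : ℂ) * w ζ) * w ζ)
      * (sin (∫ ζ in X..z, exp (a ζ + (l : ℂ) * w ζ)) * exp (-2 * (a z + (l : ℂ) * w z))))
      MeasureTheory.volume X Z := (hΨc.mul hσ).intervalIntegrable _ _
  have i2 : IntervalIntegrable (fun z : ℝ => (1 - cos (∫ ζ in X..z, exp (a ζ + (l : ℂ) * w ζ)))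
      * exp (-2 * (a z + (l : ℂ) * w z)) * w z * 2) MeasureTheory.volume X Z :=
    (hcc.mul continuous_const).intervalIntegrable _ _
  have i3 : IntervalIntegrable (fun z : ℝ => exp (a z + (l : ℂ) * w z) * w z * ∫ y in Z..z,
      sin (∫ ζ in X..y, exp (a ζ + (l : ℂ) * w ζ)) * exp (-2 * (a y + (l : ℂ) * w y)))
      MeasureTheory.volume X Z := (hr.mul hVc).intervalIntegrable _ _
  rw [intervalIntegral.integral_sub i1 i2, intervalIntegral.integral_add i2 i3, ibp]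
  ring

/-! ### 4. summary in terms of `fderiv` (PROVED) -/

section summary

variable {u v : ℂ → ℂ} {a w : ℝ → ℂ} {l : ℝ} (ha : Continuous a) (hw : Continuous w)
  (h : ∀ x : ℝ, u x = a x + (l : ℂ) * w x)

include ha hw h

theorem s2D_G_fderiv_l (hv : ∀ x : ℝ, v x = w x) (X Z : ℝ) :
    fderiv ℝ (s2DG a w) (l, X, Z) (1, 0, 0) = -s2seg (fun z => s2ker u z X Z * v z) X Z :=
  s2D_fderiv_s (s2D_G_diff ha hw _) (s2D_G_dl ha hw h hv X Z)

theorem s2D_G_fderiv_X (X Z : ℝ) :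
    fderiv ℝ (s2DG a w) (l, X, Z) (0, 1, 0) = -(exp (u X) * s2J u X Z) :=
  s2D_fderiv_X (s2D_G_diff ha hw _) (s2D_G_dX ha hw h X Z)

theorem s2D_G_fderiv_Z (X Z : ℝ) :
    fderiv ℝ (s2DG a w) (l, X, Z) (0, 0, 1) = (1 - cos (s2dphi u X Z)) * exp (-2 * u Z) :=
  s2D_fderiv_Z (s2D_G_diff ha hw _) (s2D_G_dZ ha hw h X Z)

end summary

end Claimed.Agent.R269
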