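/-
Row 269, Section 2, UNIT D, file 3/3: the mesh on the real axis, the pointwise derivative of the critical action (`s2D_core`), and
a uniform bound for the first variation `s2dW`.
Blueprint: helper236.      Leaf: LF-S2-D8 (section 4, `s2D_dW_bound`).   Sections 1-3 are glue (helper236).

SECTION 4 (recipe).  `(R, N)` from `s2C_mesh M`, `q ≥ N`, `h : S2Mesh R 0 (U 0) q`, `x` real, `D₀ = π + 2R`.
 * all `Y_i = s2Y (U 0) q x i`, `i ≤ 2q`, are real (`s2D_Y_real`) and `‖Y_{i+1} - Y_i‖ ≤ π/q + 2R/q² ≤ D₀` (`S2Mesh.bd`, `q ≥ 1`);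
 * on real points `‖U 0‖, ‖V 0‖ ≤ M` (`S2Fun.bd`), so `‖exp (± k u)‖ ≤ exp (k M)` (`Complex.norm_exp_le_exp_norm`);
 * points of a segment between real points are real, and at distance `≤` the length from both ends;
 * `‖s2dphi u V z‖ ≤ exp M * D₀` (`s2P_norm_le`);   `‖cos ξ‖, ‖sin ξ‖ ≤ exp ‖ξ‖` (from `cos ξ = (exp (ξ I) + exp (-ξ I)) / 2`);  `c₁ = exp (exp M * D₀)`;
 * `‖s2ker u z V μ‖ ≤ 2 (1 + c₁) exp (2M) + exp M * (c₁ exp (2M) D₀) =: c₂` for `z ∈ [Y_i, Y_{i+1}]`, `V, μ ∈ {Y_i, Y_{i+1}}`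
   (`i = 2j`: `V = Y_i`, `μ = Y_{i+1}`;  `i = 2j+1`: `V = Y_{i+1}`, `μ = Y_i`; `s2D_Y_even`, `s2D_Y_odd`);
 * `‖s2dW‖ ≤ 2q · c₂ M D₀` (`norm_sum_le`, `s2P_norm_le`).
-/
import Claimed.Agent.R269.S2.D2
import Claimed.Agent.R269.S2.A
import Claimed.Agent.R269.S2.C

set_option autoImplicit false

namespace Claimed.Agent.R269

open Complex ComplexConjugate Filter Topology Asymptotics

/-! ### 1. the mesh on the real axis -/

theorem s2D_dom (R : ℝ) (q : ℕ) (x : ℝ) : S2Dom R 0 q (x : ℂ) := by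
  simp [S2Dom]

theorem s2D_Y_even (u : ℂ → ℂ) (q : ℕ) (x : ℂ) (j : ℕ) : s2Y u q x (2 * j) = s2X u q x j := by
  simp [s2Y]

theorem s2D_Y_odd (u : ℂ → ℂ) (q : ℕ) (x : ℂ) (j : ℕ) : s2Y u q x (2 * j + 1) = s2M u q x j := by
  have h1 : (2 * j + 1) % 2 = 1 := by omega
  have h2 : (2 * j + 1) / 2 = j := by omega
  simp [s2Y, h1, h2]

theorem s2D_Y_real {R : ℝ} {u : ℂ → ℂ} {q : ℕ} (h : S2Mesh R 0 u q) (x : ℝ) {i : ℕ} (hi : i ≤ 2 * q) :
    s2Y u q x i = ((s2Y u q x i).re : ℂ) := by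
  have h1 := h.im x (s2D_dom R q x) i hi
  simp only [ofReal_im, abs_zero, mul_zero] at h1
  have h2 : (s2Y u q x i).im = 0 := abs_eq_zero.1 (le_antisymm h1 (abs_nonneg _))
  apply Complex.ext
  · simp
  · simp [h2]

theorem s2D_X_real {R : ℝ} {u : ℂ → ℂ} {q : ℕ} (h : S2Mesh R 0 u q) (x : ℝ) {j : ℕ} (hj : j ≤ q) :
    s2X u q x j = ((s2X u q x j).re : ℂ) := by
  have := s2D_Y_real h x (i := 2 * j) (by omega)
  rwa [s2D_Y_even] at this

theorem s2D_M_real {R : ℝ} {u : ℂ → ℂ} {q : ℕ} (h : S2Mesh R 0 u q) (x : ℝ) {j : ℕ} (hj : j < q) :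
    s2M u q x j = ((s2M u q x j).re : ℂ) := by
  have := s2D_Y_real h x (i := 2 * j + 1) (by omega)
  rwa [s2D_Y_odd] at this

theorem s2D_mem_cs (x : ℝ) : (x : ℂ) ∈ s2cs 0 := by
  simp [s2cs]

theorem s2D_cont_real {M : ℝ} {U : ℕ → ℂ → ℂ} (h : S2Fun 0 M U) : Continuous fun x : ℝ => U 0 (x : ℂ) := by
  rw [continuous_iff_continuousAt]
  intro x
  have h1 : ContinuousWithinAt (U 0) (s2cs 0) (x : ℂ) :=
    (h.der 0 (by norm_num) x (s2D_mem_cs x)).continuousWithinAt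
  have h2 : Tendsto (fun y : ℝ => (y : ℂ)) (𝓝 x) (𝓝[s2cs 0] (x : ℂ)) :=
    tendsto_nhdsWithin_iff.2 ⟨Complex.continuous_ofReal.continuousAt,
      Filter.Eventually.of_forall fun y => s2D_mem_cs y⟩
  exact Tendsto.comp h1 h2

theorem s2D_sum_two (f : ℕ → ℂ) (q : ℕ) :
    ∑ i ∈ Finset.range (2 * q), f i = ∑ j ∈ Finset.range q, (f (2 * j) + f (2 * j + 1)) := by
  induction q with
  | zero => simp
  | succ q ih =>
    rw [show 2 * (q + 1) = 2 * q + 1 + 1 by ring, Finset.sum_range_succ, Finset.sum_range_succ, ih,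
      Finset.sum_range_succ]
    ring

/-! ### 2. the pointwise derivative of the critical action (glue) -/

/-- **pointwise derivative**: a family of inputs `us s = a + s w` (on the real axis) and of base points `xs s`. -/
theorem s2D_core {a w : ℝ → ℂ} (ha : Continuous a) (hw : Continuous w) {v : ℂ → ℂ}
    (hv : ∀ x : ℝ, v x = w x) {R : ℝ} {q : ℕ} (hq : 0 < q) {us : ℝ → ℂ → ℂ} {xs : ℝ → ℝ} {s₀ e : ℝ}
    (hu : ∀ᶠ s in 𝓝 s₀, ∀ x : ℝ, us s x = a x + (s : ℂ) * w x)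
    (hm : ∀ᶠ s in 𝓝 s₀, S2Mesh R 0 (us s) q)
    (hY : ∀ i ≤ 2 * q, (fun s => s2Y (us s) q (xs s) i - s2Y (us s₀) q (xs s₀) i)
      =O[𝓝 s₀] fun s => s - s₀)
    (hx : HasDerivAt xs e s₀) :
    HasDerivAt (fun s => s2W (us s) q (xs s))
      (s2dW (us s₀) v q (xs s₀)
        + (e : ℂ) * (s2D1 (us s₀) (s2X (us s₀) q (xs s₀) 0) (s2X (us s₀) q (xs s₀) 1)
          - s2D1 (us s₀) (s2X (us s₀) q (xs s₀) q) (s2X (us s₀) q (xs s₀) (q - 1)))) s₀ := by
  have hu0 := hu.self_of_nhds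
  have hm0 := hm.self_of_nhds
  have hd0 := s2D_dom R q (xs s₀)
  -- real coordinates of the mesh
  set Xs : ℕ → ℝ → ℝ := fun j s => (s2X (us s) q (xs s) j).re with hXs
  set Ms : ℕ → ℝ → ℝ := fun j s => (s2M (us s) q (xs s) j).re with hMs
  have hXr : ∀ j ≤ q, ((Xs j s₀ : ℝ) : ℂ) = s2X (us s₀) q (xs s₀) j := fun j hj =>
    (s2D_X_real hm0 (xs s₀) hj).symm
  have hMr : ∀ j < q, ((Ms j s₀ : ℝ) : ℂ) = s2M (us s₀) q (xs s₀) j := fun j hj =>
    (s2D_M_real hm0 (xs s₀) hj).symm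
  have hre : ∀ f : ℝ → ℂ, (fun s => (f s).re) =O[𝓝 s₀] f := fun f =>
    IsBigO.of_bound 1 (Filter.Eventually.of_forall fun s => by
      rw [one_mul, Real.norm_eq_abs]
      exact Complex.abs_re_le_norm _)
  have hX : ∀ j ≤ q, (fun s => Xs j s - Xs j s₀) =O[𝓝 s₀] fun s => s - s₀ := by
    intro j hj
    have h1 := hY (2 * j) (by omega)
    simp only [s2D_Y_even] at h1
    have h2 := (hre _).trans h1
    simpa only [sub_re] using h2
  have hM : ∀ j < q, (fun s => Ms j s - Ms j s₀) =O[𝓝 s₀] fun s => s - s₀ := by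
    intro j hj
    have h1 := hY (2 * j + 1) (by omega)
    simp only [s2D_Y_odd] at h1
    have h2 := (hre _).trans h1
    simpa only [sub_re] using h2
  have hZ : ∀ j < q, fderiv ℝ (s2DG a w) (s₀, Xs (j + 1) s₀, Ms j s₀) (0, 0, 1)
      = fderiv ℝ (s2DG a w) (s₀, Xs j s₀, Ms j s₀) (0, 0, 1) := by
    intro j hj
    rw [s2D_G_fderiv_Z ha hw hu0, s2D_G_fderiv_Z ha hw hu0, hXr (j + 1) hj, hXr j hj.le, hMr j hj]
    have h1 := hm0.mid _ hd0 j hj
    have h2 : s2dphi (us s₀) (s2X (us s₀) q (xs s₀) (j + 1)) (s2M (us s₀) q (xs s₀) j)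
        = - s2dphi (us s₀) (s2X (us s₀) q (xs s₀) j) (s2M (us s₀) q (xs s₀) j) := by
      rw [h1]
      exact s2P_symm _ _ _
    rw [h2, Complex.cos_neg]
  have hE : ∀ j, 0 < j → j < q → fderiv ℝ (s2DG a w) (s₀, Xs j s₀, Ms (j - 1) s₀) (0, 1, 0)
      = fderiv ℝ (s2DG a w) (s₀, Xs j s₀, Ms j s₀) (0, 1, 0) := by
    intro j hj0 hj
    rw [s2D_G_fderiv_X ha hw hu0, s2D_G_fderiv_X ha hw hu0, hXr j hj.le, hMr j hj,
      hMr (j - 1) (by omega), hm0.euler _ hd0 j hj0 hj]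
  have h0 : HasDerivAt (Xs 0) e s₀ := by
    refine hx.congr_of_eventuallyEq ?_
    filter_upwards [hm] with s hs
    simp only [hXs]
    rw [hs.first _ (s2D_dom R q (xs s)), ofReal_re]
  have h1 : HasDerivAt (Xs q) e s₀ := by
    refine (hx.add_const (2 * Real.pi)).congr_of_eventuallyEq ?_
    filter_upwards [hm] with s hs
    simp only [hXs]
    rw [hs.last _ (s2D_dom R q (xs s))]
    simp
  have key := s2D_env hq (G := s2DG a w) (Xs := Xs) (Ms := Ms)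
    (fun j _ => s2D_G_diff ha hw _) (fun j _ => s2D_G_diff ha hw _) hX hM hZ hE h0 h1
  -- the function
  have hfun : (fun s => s2W (us s) q (xs s)) =ᶠ[𝓝 s₀] fun s => ∑ j ∈ Finset.range q,
      (s2DG a w (s, Xs (j + 1) s, Ms j s) - s2DG a w (s, Xs j s, Ms j s)) := by
    filter_upwards [hu, hm] with s hus hms
    unfold s2W
    refine Finset.sum_congr rfl fun j hj => ?_
    have hj' : j < q := Finset.mem_range.1 hj
    rw [← s2D_Lam_eq hus, ← s2D_Lam_eq hus]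
    simp only [hXs, hMs]
    rw [← s2D_X_real hms (xs s) (j := j + 1) hj', ← s2D_X_real hms (xs s) hj'.le,
      ← s2D_M_real hms (xs s) hj']
  refine (key.congr_of_eventuallyEq hfun).congr_deriv ?_
  -- the value of the derivative
  have hq1 : q - 1 + 1 = q := by omega
  have e1 : fderiv ℝ (s2DG a w) (s₀, Xs q s₀, Ms (q - 1) s₀) (0, 1, 0)
      = - s2D1 (us s₀) (s2X (us s₀) q (xs s₀) q) (s2X (us s₀) q (xs s₀) (q - 1)) := by
    rw [s2D_G_fderiv_X ha hw hu0, hXr q le_rfl, hMr (q - 1) (by omega)]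
    have := hm0.d1m _ hd0 (q - 1) (by omega)
    rw [hq1] at this
    rw [this]
  have e2 : fderiv ℝ (s2DG a w) (s₀, Xs 0 s₀, Ms 0 s₀) (0, 1, 0)
      = - s2D1 (us s₀) (s2X (us s₀) q (xs s₀) 0) (s2X (us s₀) q (xs s₀) 1) := by
    rw [s2D_G_fderiv_X ha hw hu0, hXr 0 (Nat.zero_le _), hMr 0 hq]
    have := hm0.d1p _ hd0 0 hq
    rw [zero_add] at this
    rw [this]
  have e3 : ∑ j ∈ Finset.range q, (fderiv ℝ (s2DG a w) (s₀, Xs (j + 1) s₀, Ms j s₀) (1, 0, 0)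
      - fderiv ℝ (s2DG a w) (s₀, Xs j s₀, Ms j s₀) (1, 0, 0)) = s2dW (us s₀) v q (xs s₀) := by
    unfold s2dW
    rw [s2D_sum_two]
    refine Finset.sum_congr rfl fun j hj => ?_
    have hj' : j < q := Finset.mem_range.1 hj
    rw [s2D_G_fderiv_l ha hw hu0 hv, s2D_G_fderiv_l ha hw hu0 hv, hXr (j + 1) hj', hXr j hj'.le,
      hMr j hj']
    have i1 : (2 * j + 1) / 2 = j := by omega
    have i2 : 2 * j / 2 = j := by omega
    have i3 : (2 * j + 1 + 1) / 2 = j + 1 := by omega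
    have i4 : 2 * j + 1 + 1 = 2 * (j + 1) := by ring
    rw [i1, i2, i3, s2D_Y_even, s2D_Y_odd, i4, s2D_Y_even,
      s2P_symm _ (s2X (us s₀) q (xs s₀) (j + 1)) (s2M (us s₀) q (xs s₀) j)]
    ring
  rw [e1, e2, e3]
  ring

/-! ### 3. the two special cases -/

/-- derivative with respect to the base point. -/
theorem s2D_point_x {M R : ℝ} {U : ℕ → ℂ → ℂ} (hU : S2Fun 0 M U) {q : ℕ} (hq : 0 < q)
    (hm : S2Mesh R 0 (U 0) q) (x : ℝ) :
    HasDerivAt (fun y : ℝ => s2W (U 0) q (y : ℂ))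
      (s2D1 (U 0) (s2X (U 0) q x 0) (s2X (U 0) q x 1)
        - s2D1 (U 0) (s2X (U 0) q x q) (s2X (U 0) q x (q - 1))) x := by
  have hY : ∀ i ≤ 2 * q, (fun s : ℝ => s2Y (U 0) q (s : ℂ) i - s2Y (U 0) q (x : ℂ) i)
      =O[𝓝 x] fun s => s - x := by
    intro i hi
    refine IsBigO.of_bound (1 + |R / q|) (Filter.Eventually.of_forall fun s => ?_)
    have h1 := hm.lip s x (s2D_dom R q s) (s2D_dom R q x) i hi
    have h2 : ‖((s : ℂ) - (x : ℂ))‖ = ‖s - x‖ := by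
      rw [← ofReal_sub, Complex.norm_real]
    have h3 : s2Y (U 0) q (s : ℂ) i - s2Y (U 0) q (x : ℂ) i
        = ((s2Y (U 0) q (s : ℂ) i - s) - (s2Y (U 0) q (x : ℂ) i - x)) + ((s : ℂ) - (x : ℂ)) := by ring
    rw [h3]
    refine (norm_add_le _ _).trans ?_
    rw [h2] at h1 ⊢
    have h4 : R / q * ‖s - x‖ ≤ |R / q| * ‖s - x‖ :=
      mul_le_mul_of_nonneg_right (le_abs_self _) (norm_nonneg _)
    linarith
  have key := s2D_core (a := fun y : ℝ => U 0 (y : ℂ)) (w := fun _ => 0) (s2D_cont_real hU)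
    continuous_const (v := fun _ => 0) (fun _ => rfl) hq (us := fun _ => U 0) (xs := fun s => s)
    (s₀ := x) (e := 1) (R := R) (Filter.Eventually.of_forall fun s y => by simp)
    (Filter.Eventually.of_forall fun _ => hm) hY (hasDerivAt_id x)
  refine key.congr_deriv ?_
  have h0 : s2dW (U 0) (fun _ => 0) q (x : ℂ) = 0 := by
    simp [s2dW, s2seg]
  rw [h0]
  simp

/-- derivative along a segment of inputs. -/
theorem s2D_point_lam (M : ℝ) : ∃ N : ℕ, ∀ b v : ℤ → ℂ, S2In 0 M b → S2In 0 M v → ∀ q : ℕ, N ≤ q →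
    ∀ x : ℝ, HasDerivAt (fun l : ℝ => s2W (s2u (b + (l : ℂ) • v) 0) q (x : ℂ))
      (s2dW (s2u b 0) (s2u v 0) q x) 0 := by
  obtain ⟨R, N, hR, hN, hmesh, hlip⟩ := s2C_mesh (2 * M)
  refine ⟨N, fun b v hb hv q hq x => ?_⟩
  have hq0 : 0 < q := lt_of_lt_of_le hN hq
  have hM : 0 ≤ M := s2A_in_nonneg hb
  obtain ⟨L, hL⟩ := hlip q hq
  have hin : ∀ l : ℝ, |l| ≤ 1 → S2In 0 (2 * M) (b + (l : ℂ) • v) := by
    intro l hl
    have h1 := s2A_in_comb (1 : ℝ) l hb hv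
    have e1 : (((1 : ℝ) : ℂ) • b + (l : ℂ) • v) = b + (l : ℂ) • v := by simp
    rw [e1] at h1
    refine s2A_in_mono le_rfl ?_ h1
    rw [abs_one]
    nlinarith
  have hfun : ∀ l : ℝ, |l| ≤ 1 → S2Fun 0 (2 * M) (s2u (b + (l : ℂ) • v)) := fun l hl =>
    s2A_fun le_rfl (hin l hl)
  have hcomb : ∀ (l : ℝ) (y : ℝ), s2u (b + (l : ℂ) • v) 0 y = s2u b 0 y + (l : ℂ) * s2u v 0 y := by
    intro l y
    have h1 := s2A_u_comb (1 : ℂ) (l : ℂ) hb hv 0 (by norm_num) y (s2D_mem_cs y)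
    simpa using h1
  have hnear : ∀ᶠ l : ℝ in 𝓝 0, |l| ≤ 1 := by
    have : Set.Icc (-1 : ℝ) 1 ∈ 𝓝 (0 : ℝ) := Icc_mem_nhds (by norm_num) (by norm_num)
    filter_upwards [this] with l hl
    exact abs_le.2 hl
  have hb0 : b + ((0 : ℝ) : ℂ) • v = b := by simp
  have hY : ∀ i ≤ 2 * q, (fun l : ℝ => s2Y (s2u (b + (l : ℂ) • v) 0) q (x : ℂ) i
      - s2Y (s2u (b + ((0 : ℝ) : ℂ) • v) 0) q (x : ℂ) i) =O[𝓝 0] fun l => l - 0 := by
    intro i hi
    refine IsBigO.of_bound (|L| * M) ?_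
    filter_upwards [hnear] with l hl
    have h1 := hL _ _ (hfun l hl) (hfun 0 (by simp)) (|l| * M) (fun y => by
      rw [hcomb l y, hcomb 0 y]
      have h2 : ‖s2u v 0 (y : ℂ)‖ ≤ M := (s2A_fun le_rfl hv).bd 0 (by norm_num) y (s2D_mem_cs y)
      have h3 : s2u b 0 (y : ℂ) + (l : ℂ) * s2u v 0 y - (s2u b 0 y + ((0 : ℝ) : ℂ) * s2u v 0 y)
          = (l : ℂ) * s2u v 0 y := by simp
      rw [h3, norm_mul, Complex.norm_real, Real.norm_eq_abs]
      exact mul_le_mul_of_nonneg_left h2 (abs_nonneg _)) x i hi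
    refine h1.trans ?_
    rw [sub_zero, Real.norm_eq_abs]
    have h4 : L * (|l| * M) ≤ |L| * (|l| * M) :=
      mul_le_mul_of_nonneg_right (le_abs_self _) (mul_nonneg (abs_nonneg _) hM)
    linarith
  have key := s2D_core (a := fun y : ℝ => s2u b 0 (y : ℂ)) (w := fun y : ℝ => s2u v 0 (y : ℂ))
    (s2D_cont_real (s2A_fun le_rfl hb)) (s2D_cont_real (s2A_fun le_rfl hv)) (v := s2u v 0)
    (fun _ => rfl) hq0 (us := fun l : ℝ => s2u (b + (l : ℂ) • v) 0) (xs := fun _ => x)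
    (s₀ := 0) (e := 0) (R := R) (Filter.Eventually.of_forall fun l y => hcomb l y)
    (by
      filter_upwards [hnear] with l hl
      exact hmesh 0 _ le_rfl zero_le_one (hfun l hl) q hq)
    hY (hasDerivAt_const _ _)
  refine key.congr_deriv ?_
  simp only [hb0]
  simp

/-! ### 4. a uniform bound for the first variation -/

theorem s2D_norm_cos_le (ξ : ℂ) : ‖cos ξ‖ ≤ Real.exp ‖ξ‖ := by
  have h1 : ‖exp (ξ * I)‖ ≤ Real.exp ‖ξ‖ := by
    have := Complex.norm_exp_le_exp_norm (ξ * I)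
    simpa using this
  have h2 : ‖exp (-ξ * I)‖ ≤ Real.exp ‖ξ‖ := by
    have := Complex.norm_exp_le_exp_norm (-ξ * I)
    simpa using this
  have h3 : ‖exp (ξ * I) + exp (-ξ * I)‖ ≤ 2 * Real.exp ‖ξ‖ :=
    (norm_add_le _ _).trans (by linarith)
  rw [Complex.cos, norm_div, Complex.norm_ofNat, div_le_iff₀ (by norm_num)]
  linarith

theorem s2D_norm_sin_le (ξ : ℂ) : ‖sin ξ‖ ≤ Real.exp ‖ξ‖ := by
  have h1 : ‖exp (ξ * I)‖ ≤ Real.exp ‖ξ‖ := by
    have := Complex.norm_exp_le_exp_norm (ξ * I)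
    simpa using this
  have h2 : ‖exp (-ξ * I)‖ ≤ Real.exp ‖ξ‖ := by
    have := Complex.norm_exp_le_exp_norm (-ξ * I)
    simpa using this
  have h3 : ‖exp (-ξ * I) - exp (ξ * I)‖ ≤ 2 * Real.exp ‖ξ‖ :=
    (norm_sub_le _ _).trans (by linarith)
  rw [Complex.sin, norm_div, norm_mul, Complex.norm_I, mul_one, Complex.norm_ofNat,
    div_le_iff₀ (by norm_num)]
  linarith

theorem s2D_seg_real (P Q t : ℝ) :
    (P : ℂ) + (t : ℂ) * ((Q : ℂ) - (P : ℂ)) = ((P + t * (Q - P) : ℝ) : ℂ) := by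
  push_cast
  ring

theorem s2D_exp_bound {u : ℂ → ℂ} {M : ℝ} (hu : ∀ y : ℝ, ‖u y‖ ≤ M) (y : ℝ) :
    ‖exp (u y)‖ ≤ Real.exp M :=
  (Complex.norm_exp_le_exp_norm _).trans (Real.exp_le_exp.2 (hu y))

theorem s2D_exp2_bound {u : ℂ → ℂ} {M : ℝ} (hu : ∀ y : ℝ, ‖u y‖ ≤ M) (y : ℝ) :
    ‖exp (-2 * u y)‖ ≤ Real.exp (2 * M) := by
  refine (Complex.norm_exp_le_exp_norm _).trans (Real.exp_le_exp.2 ?_)
  rw [norm_mul, norm_neg, Complex.norm_ofNat]
  linarith [hu y]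

theorem s2D_dphi_bound {u : ℂ → ℂ} {M : ℝ} (hu : ∀ y : ℝ, ‖u y‖ ≤ M) (V z : ℝ) :
    ‖s2dphi u V z‖ ≤ Real.exp M * |z - V| := by
  have h1 := s2P_norm_le (f := fun z => exp (u z)) (p := V) (q := z) (C := Real.exp M)
    (fun t _ => by
      rw [s2D_seg_real]
      exact s2D_exp_bound hu _)
  rwa [← ofReal_sub, Complex.norm_real, Real.norm_eq_abs] at h1

theorem s2D_ker_bound {u : ℂ → ℂ} {M D : ℝ} (hu : ∀ y : ℝ, ‖u y‖ ≤ M) {V z μ : ℝ}
    (hz : |z - V| ≤ D) (hμ : |μ - V| ≤ D) :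
    ‖s2ker u z V μ‖ ≤ 2 * (1 + Real.exp (Real.exp M * D)) * Real.exp (2 * M)
      + Real.exp M * (Real.exp (Real.exp M * D) * Real.exp (2 * M) * (2 * D)) := by
  have hc : ∀ ζ : ℝ, |ζ - V| ≤ D → Real.exp ‖s2dphi u V ζ‖ ≤ Real.exp (Real.exp M * D) := by
    intro ζ hζ
    refine Real.exp_le_exp.2 ((s2D_dphi_bound hu V ζ).trans ?_)
    exact mul_le_mul_of_nonneg_left hζ (Real.exp_pos _).le
  unfold s2ker
  refine (norm_sub_le _ _).trans (add_le_add ?_ ?_)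
  · rw [norm_mul, norm_mul, Complex.norm_ofNat]
    have h1 : ‖1 - cos (s2dphi u V z)‖ ≤ 1 + Real.exp (Real.exp M * D) := by
      refine (norm_sub_le _ _).trans ?_
      rw [norm_one]
      linarith [(s2D_norm_cos_le (s2dphi u V z)).trans (hc z hz)]
    have h2 := s2D_exp2_bound hu z
    have h3 : (0 : ℝ) ≤ 1 + Real.exp (Real.exp M * D) := by positivity
    exact mul_le_mul (mul_le_mul_of_nonneg_left h1 (by norm_num)) h2 (norm_nonneg _) (by positivity)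
  · rw [norm_mul]
    have h1 := s2P_norm_le (f := fun ζ => sin (s2dphi u V ζ) * exp (-2 * u ζ)) (p := z) (q := μ)
      (C := Real.exp (Real.exp M * D) * Real.exp (2 * M)) (fun t ht => by
        rw [s2D_seg_real, norm_mul]
        have h4 : |z + t * (μ - z) - V| ≤ D := by
          have e : z + t * (μ - z) - V = (1 - t) * (z - V) + t * (μ - V) := by ring
          rw [e]
          refine (abs_add_le _ _).trans ?_
          rw [abs_mul, abs_mul, abs_of_nonneg ht.1, abs_of_nonneg (by linarith [ht.2] : (0 : ℝ) ≤ 1 - t)]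
          have a1 : (1 - t) * |z - V| ≤ (1 - t) * D :=
            mul_le_mul_of_nonneg_left hz (by linarith [ht.2])
          have a2 : t * |μ - V| ≤ t * D := mul_le_mul_of_nonneg_left hμ ht.1
          linarith
        have h5 := (s2D_norm_sin_le (s2dphi u V ((z + t * (μ - z) : ℝ) : ℂ))).trans (hc _ h4)
        have h6 := s2D_exp2_bound hu (z + t * (μ - z))
        gcongr)
    have h2 : ‖(μ : ℂ) - (z : ℂ)‖ ≤ 2 * D := by
      rw [← ofReal_sub, Complex.norm_real, Real.norm_eq_abs]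
      have e : μ - z = (μ - V) - (z - V) := by ring
      rw [e]
      refine (abs_sub _ _).trans ?_
      linarith
    have h3 := s2D_exp_bound hu z
    have h7 : (0 : ℝ) ≤ Real.exp (Real.exp M * D) * Real.exp (2 * M) := by positivity
    calc ‖exp (u z)‖ * ‖s2seg (fun ζ => sin (s2dphi u V ζ) * exp (-2 * u ζ)) z μ‖
        ≤ Real.exp M * (Real.exp (Real.exp M * D) * Real.exp (2 * M) * ‖(μ : ℂ) - (z : ℂ)‖) := by
          gcongr
      _ ≤ Real.exp M * (Real.exp (Real.exp M * D) * Real.exp (2 * M) * (2 * D)) := by gcongr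

/-- one term of `s2dW`. -/
theorem s2D_term_bound {u v : ℂ → ℂ} {M D : ℝ} (hu : ∀ y : ℝ, ‖u y‖ ≤ M) (hv : ∀ y : ℝ, ‖v y‖ ≤ M)
    {P Q V μ : ℝ} (hPQ : |Q - P| ≤ D) (hV : (V = P ∧ μ = Q) ∨ (V = Q ∧ μ = P)) :
    ‖s2seg (fun z => s2ker u z V μ * v z) P Q‖
      ≤ (2 * (1 + Real.exp (Real.exp M * D)) * Real.exp (2 * M)
        + Real.exp M * (Real.exp (Real.exp M * D) * Real.exp (2 * M) * (2 * D))) * M * D := by
  have hM : 0 ≤ M := (norm_nonneg _).trans (hu 0)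
  have hD : 0 ≤ D := (abs_nonneg _).trans hPQ
  have h1 := s2P_norm_le (f := fun z => s2ker u z V μ * v z) (p := P) (q := Q)
    (C := (2 * (1 + Real.exp (Real.exp M * D)) * Real.exp (2 * M)
        + Real.exp M * (Real.exp (Real.exp M * D) * Real.exp (2 * M) * (2 * D))) * M) (fun t ht => by
      rw [s2D_seg_real, norm_mul]
      have a1 : |P + t * (Q - P) - P| ≤ D := by
        have e : P + t * (Q - P) - P = t * (Q - P) := by ring
        rw [e, abs_mul, abs_of_nonneg ht.1]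
        calc t * |Q - P| ≤ 1 * D := mul_le_mul ht.2 hPQ (abs_nonneg _) zero_le_one
          _ = D := one_mul D
      have a2 : |P + t * (Q - P) - Q| ≤ D := by
        have e : P + t * (Q - P) - Q = -((1 - t) * (Q - P)) := by ring
        rw [e, abs_neg, abs_mul, abs_of_nonneg (by linarith [ht.2] : (0 : ℝ) ≤ 1 - t)]
        calc (1 - t) * |Q - P| ≤ 1 * D :=
              mul_le_mul (by linarith [ht.1]) hPQ (abs_nonneg _) zero_le_one
          _ = D := one_mul D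
      have hk : ‖s2ker u ((P + t * (Q - P) : ℝ) : ℂ) V μ‖
          ≤ 2 * (1 + Real.exp (Real.exp M * D)) * Real.exp (2 * M)
            + Real.exp M * (Real.exp (Real.exp M * D) * Real.exp (2 * M) * (2 * D)) := by
        rcases hV with ⟨rfl, rfl⟩ | ⟨rfl, rfl⟩
        · exact s2D_ker_bound hu a1 hPQ
        · exact s2D_ker_bound hu a2 (by rwa [abs_sub_comm])
      exact mul_le_mul hk (hv _) (norm_nonneg _) (by positivity))
  refine h1.trans ?_
  rw [← ofReal_sub, Complex.norm_real, Real.norm_eq_abs]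
  exact mul_le_mul_of_nonneg_left hPQ (by positivity)

theorem s2D_dW_bound (M : ℝ) : ∃ N : ℕ, ∀ q : ℕ, N ≤ q → ∃ K : ℝ, ∀ U V : ℕ → ℂ → ℂ,
    S2Fun 0 M U → S2Fun 0 M V → ∀ x : ℝ, ‖s2dW (U 0) (V 0) q (x : ℂ)‖ ≤ K := by
  obtain ⟨R, N, hR, hN, hmesh, -⟩ := s2C_mesh M
  refine ⟨N, fun q hq => ?_⟩
  have hq0 : 0 < q := lt_of_lt_of_le hN hq
  have hq1 : (1 : ℝ) ≤ q := by exact_mod_cast hq0
  refine ⟨(2 * q : ℕ) • ((2 * (1 + Real.exp (Real.exp M * (Real.pi + 2 * R))) * Real.exp (2 * M)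
        + Real.exp M * (Real.exp (Real.exp M * (Real.pi + 2 * R)) * Real.exp (2 * M)
          * (2 * (Real.pi + 2 * R)))) * M * (Real.pi + 2 * R)), fun U V hU hV x => ?_⟩
  have hm := hmesh 0 U le_rfl zero_le_one hU q hq
  have hu : ∀ y : ℝ, ‖U 0 y‖ ≤ M := fun y => hU.bd 0 (by norm_num) y (s2D_mem_cs y)
  have hv : ∀ y : ℝ, ‖V 0 y‖ ≤ M := fun y => hV.bd 0 (by norm_num) y (s2D_mem_cs y)
  unfold s2dW
  refine (norm_sum_le _ _).trans ?_
  have hcard : (2 * q : ℕ) • ((2 * (1 + Real.exp (Real.exp M * (Real.pi + 2 * R))) * Real.exp (2 * M)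
        + Real.exp M * (Real.exp (Real.exp M * (Real.pi + 2 * R)) * Real.exp (2 * M)
          * (2 * (Real.pi + 2 * R)))) * M * (Real.pi + 2 * R))
      = ∑ _i ∈ Finset.range (2 * q), ((2 * (1 + Real.exp (Real.exp M * (Real.pi + 2 * R))) * Real.exp (2 * M)
        + Real.exp M * (Real.exp (Real.exp M * (Real.pi + 2 * R)) * Real.exp (2 * M)
          * (2 * (Real.pi + 2 * R)))) * M * (Real.pi + 2 * R)) := by
    rw [Finset.sum_const, Finset.card_range]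
  rw [hcard]
  refine Finset.sum_le_sum fun i hi => ?_
  have hi' : i < 2 * q := Finset.mem_range.1 hi
  have hP := s2D_Y_real hm x (i := i) hi'.le
  have hQ := s2D_Y_real hm x (i := i + 1) hi'
  -- distance of consecutive points
  have hPQ : |(s2Y (U 0) q x (i + 1)).re - (s2Y (U 0) q x i).re| ≤ Real.pi + 2 * R := by
    have b1 := hm.bd x (s2D_dom R q x) i hi'.le
    have b2 := hm.bd x (s2D_dom R q x) (i + 1) hi'
    have hRq : R / (q : ℝ) ^ 2 ≤ R := by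
      apply div_le_self hR.le
      nlinarith
    have hpq : Real.pi / q ≤ Real.pi := div_le_self Real.pi_pos.le hq1
    have e : s2Y (U 0) q x (i + 1) - s2Y (U 0) q x i
        = (s2Y (U 0) q x (i + 1) - x - ((i + 1 : ℕ) : ℂ) * ((Real.pi / q : ℝ) : ℂ))
          - (s2Y (U 0) q x i - x - (i : ℂ) * ((Real.pi / q : ℝ) : ℂ)) + ((Real.pi / q : ℝ) : ℂ) := by
      push_cast
      ring
    have h1 : ‖s2Y (U 0) q x (i + 1) - s2Y (U 0) q x i‖ ≤ Real.pi + 2 * R := by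
      rw [e]
      refine (norm_add_le _ _).trans ?_
      have h2 := norm_sub_le (s2Y (U 0) q x (i + 1) - x - ((i + 1 : ℕ) : ℂ) * ((Real.pi / q : ℝ) : ℂ))
        (s2Y (U 0) q x i - x - (i : ℂ) * ((Real.pi / q : ℝ) : ℂ))
      have h3 : ‖((Real.pi / q : ℝ) : ℂ)‖ = Real.pi / q := by
        rw [Complex.norm_real, Real.norm_eq_abs, abs_of_nonneg (by positivity)]
      rw [h3]
      linarith
    rw [← sub_re]
    exact (Complex.abs_re_le_norm _).trans h1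
  -- vertex and midpoint
  have hVM : ((s2X (U 0) q x ((i + 1) / 2)) = s2Y (U 0) q x i ∧ s2M (U 0) q x (i / 2) = s2Y (U 0) q x (i + 1))
      ∨ ((s2X (U 0) q x ((i + 1) / 2)) = s2Y (U 0) q x (i + 1) ∧ s2M (U 0) q x (i / 2) = s2Y (U 0) q x i) := by
    obtain ⟨j, rfl | rfl⟩ := Nat.even_or_odd' i
    · left
      have i1 : (2 * j + 1) / 2 = j := by omega
      have i2 : 2 * j / 2 = j := by omega
      rw [i1, i2, s2D_Y_even, s2D_Y_odd]
      exact ⟨rfl, rfl⟩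
    · right
      have i1 : (2 * j + 1 + 1) / 2 = j + 1 := by omega
      have i2 : (2 * j + 1) / 2 = j := by omega
      have i3 : 2 * j + 1 + 1 = 2 * (j + 1) := by ring
      rw [i1, i2, i3, s2D_Y_even, s2D_Y_odd]
      exact ⟨rfl, rfl⟩
  rcases hVM with ⟨h1, h2⟩ | ⟨h1, h2⟩
  · rw [h1, h2, hP, hQ]
    exact s2D_term_bound hu hv hPQ (Or.inl ⟨rfl, rfl⟩)
  · rw [h1, h2, hP, hQ]
    exact s2D_term_bound hu hv hPQ (Or.inr ⟨rfl, rfl⟩)

end Claimed.Agent.R269
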