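/-
Row 269, Section 2, UNIT D (exports): variational structure of the critical action on the REAL axis.
Statements + route by helper159.     Everything here is at width `σ = 0`; inputs: `s2C_mesh`, `s2Q_rep`, unit A.

The action of a configuration `y = (X_0,μ_0,X_1,…,μ_{q-1},X_q)` is `𝒜_u(y) = ∑_{j<q} (Λ(X_{j+1},μ_j) - Λ(X_j,μ_j))`; the MIDPOINTS
ARE FREE VARIABLES TOO.  By `s2Q_rep` (real axis):   `∂_X Λ(X,Z) = -e^{u(X)} J(X,Z)`,  `∂_Z Λ(X,Z) = (1-cos dφ(X,Z)) e^{-2u(Z)}`.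
The double mesh is critical:  in `μ_j` because `dφ(X_j,μ_j) = dφ(μ_j,X_{j+1}) = -dφ(X_{j+1},μ_j)` (`S2Mesh.mid`, cos even),
in `X_j` (`0<j<q`) because `J(X_j,μ_j) = J(X_j,μ_{j-1})` (`S2Mesh.euler`).

D1 (Taylor) `∀ M ∃ C`: for real `X,Z,X',Z'` with `|Z-X|,|X'-X|,|Z'-Z| ≤ 1`:
     `‖Λ(X',Z') - Λ(X,Z) - ∂_XΛ(X,Z)(X'-X) - ∂_ZΛ(X,Z)(Z'-Z)‖ ≤ C(|X'-X|²+|Z'-Z|²)`
     (derivative of `s ↦ Λ(X+s(X'-X), Z+s(Z'-Z))` from the representation; it is Lipschitz in `s`).
D2 (kernel) for real `X,Z`, and a family with `u_l(x) = u(x) + l v(x)` on the real axis (`u,v` continuous there):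
     `HasDerivAt (fun l => s2Lam u_l X Z) (- s2seg (fun z => s2ker u z X Z * v z) X Z) 0`.
     (differentiate under the integral twice: `d/dl dφ_l(X,z) = ∫_X^z e^u v`; then integrate by parts:
      `∫_X^Z s(z) P(z) dz = ∫_X^Z p(ζ) (∫_ζ^Z s) dζ` for `P(z) = ∫_X^z p`.)
D3 (envelope, abstract)  `A : ℝ → E → ℂ`, `y : ℝ → E`:  if `‖y l - y l₀‖ ≤ L|l-l₀|`, `‖A l (y l₀) - A l (y l)‖ ≤ C‖y l₀ - y l‖²` for `l` near `l₀`
     and `HasDerivAt (fun l => A l (y l₀)) d l₀`, then `HasDerivAt (fun l => A l (y l)) d l₀`.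
D4 (second order at a critical configuration) from D1 + criticality + summation by parts:
     `‖𝒜_u(y') - 𝒜_u(y)‖ ≤ C ∑ |y'_i - y_i|²` if `y` is the double mesh of `u` and `y'` has the same end points.
D5 pointwise:  `l ↦ W(u_l,q,x)` has derivative `s2dW u v q x` at `0` (D2, D3, D4; Lipschitz in `l` by the last clause of `s2C_mesh`,
     `ε = |l| sup|v|`);     `x ↦ W(u,q,x)`: apply D3 with `A x y` = action of `y` with end points replaced by `x, x+2π`
     (Lipschitz in `x` by `S2Mesh.lip`); the derivative in the end points is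
     `-∂_XΛ(X_0,μ_0) + ∂_XΛ(X_q,μ_{q-1}) = D₁(X_0,X_1) - D₁(X_q,X_{q-1})`  (`S2Mesh.d1p`, `d1m`).
D6 differentiate `∫_0^{2π} e^{-inx} W(u_l,q,x) dx` under the integral (`hasDerivAt_integral_of_dominated_loc_of_deriv_le`):
     D5 at every base point `b + l v`, `|l| < 1` (inputs in `S2In 0 (2M)`), uniform bound of `s2dW`, continuity in `x`.

IMPLEMENTATION (helper236): D1, D3, D4 are replaced by a softer argument: `(l,X,Z) ↦ Λ_{u+lv}(X,Z)` is jointly Fréchet differentiable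
(`S2/D2.lean`, `s2D_G_diff`), the mesh is Lipschitz in the parameter, so the abstract envelope lemma `s2D_env` (`S2/D1.lean`) applies; no
second order Taylor bound is needed.  `S2/D3.lean`: `s2D_core` (both pointwise derivatives), `s2D_dW_bound`.  This file: D6 (PROVED).
-/
import Claimed.Agent.R269.S2.D3

set_option autoImplicit false

namespace Claimed.Agent.R269

open Complex ComplexConjugate Filter Topology

/-- (D-λ) derivative of the constraint along a segment of inputs (P1 (2.18), first half of Prop 2.4). -/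
theorem s2D_lam (M : ℝ) : ∃ N : ℕ, ∀ b v : ℤ → ℂ, S2In 0 M b → S2In 0 M v →
    ∀ n : ℤ, N ≤ n.natAbs →
      HasDerivAt (fun l : ℝ => s2C (s2u (b + (l : ℂ) • v) 0) n) (s2dC (s2u b 0) (s2u v 0) n) 0 := by
  obtain ⟨N1, hP⟩ := s2D_point_lam (2 * M)
  obtain ⟨R, N2, hR, hN2, hmesh, -⟩ := s2C_mesh (2 * M)
  obtain ⟨N3, hB⟩ := s2D_dW_bound (2 * M)
  refine ⟨max N1 (max N2 N3), fun b v hb hv n hn => ?_⟩
  set q : ℕ := n.natAbs with hqdef
  have hq1 : N1 ≤ q := le_trans (le_max_left _ _) hn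
  have hq2 : N2 ≤ q := le_trans (le_trans (le_max_left _ _) (le_max_right _ _)) hn
  have hq3 : N3 ≤ q := le_trans (le_trans (le_max_right _ _) (le_max_right _ _)) hn
  have hq0 : 0 < q := lt_of_lt_of_le hN2 hq2
  have hM : 0 ≤ M := s2A_in_nonneg hb
  obtain ⟨K, hK⟩ := hB q hq3
  have hv2 : S2In 0 (2 * M) v := s2A_in_mono le_rfl (by linarith) hv
  have hin : ∀ l : ℝ, |l| ≤ 1 → S2In 0 (2 * M) (b + (l : ℂ) • v) := by
    intro l hl
    have h1 := s2A_in_comb (1 : ℝ) l hb hv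
    have e1 : (((1 : ℝ) : ℂ) • b + (l : ℂ) • v) = b + (l : ℂ) • v := by simp
    rw [e1] at h1
    refine s2A_in_mono le_rfl ?_ h1
    rw [abs_one]
    nlinarith
  have hfun : ∀ l : ℝ, |l| ≤ 1 → S2Fun 0 (2 * M) (s2u (b + (l : ℂ) • v)) := fun l hl =>
    s2A_fun le_rfl (hin l hl)
  have hball : ∀ l ∈ Metric.ball (0 : ℝ) 1, |l| ≤ 1 := fun l hl => by
    rw [Metric.mem_ball, dist_zero_right, Real.norm_eq_abs] at hl
    exact hl.le
  -- the integrands
  set F : ℝ → ℝ → ℂ := fun l x => exp (-I * (n : ℂ) * (x : ℂ)) * s2W (s2u (b + (l : ℂ) • v) 0) q (x : ℂ)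
    with hF
  set F' : ℝ → ℝ → ℂ := fun l x =>
    exp (-I * (n : ℂ) * (x : ℂ)) * s2dW (s2u (b + (l : ℂ) • v) 0) (s2u v 0) q (x : ℂ) with hF'
  have hEc : Continuous fun x : ℝ => exp (-I * (n : ℂ) * (x : ℂ)) :=
    Complex.continuous_exp.comp (continuous_const.mul Complex.continuous_ofReal)
  have hFc : ∀ l : ℝ, |l| ≤ 1 → Continuous (F l) := by
    intro l hl
    refine hEc.mul ?_
    rw [continuous_iff_continuousAt]
    intro x
    exact (s2D_point_x (hfun l hl) hq0 (hmesh 0 _ le_rfl zero_le_one (hfun l hl) q hq2) x).continuousAt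
  have hdiff : ∀ x : ℝ, ∀ l ∈ Metric.ball (0 : ℝ) 1, HasDerivAt (fun l' => F l' x) (F' l x) l := by
    intro x l hl
    have h0 := hP _ _ (hin l (hball l hl)) hv2 q hq1 x
    have h0' : HasDerivAt (fun t : ℝ => s2W (s2u (b + (l : ℂ) • v + (t : ℂ) • v) 0) q (x : ℂ))
        (s2dW (s2u (b + (l : ℂ) • v) 0) (s2u v 0) q x) (l - l) := by
      rw [sub_self]
      exact h0
    have h1 := HasDerivAt.comp_sub_const l l h0'
    have e2 : (fun t : ℝ => s2W (s2u (b + (l : ℂ) • v + ((t - l : ℝ) : ℂ) • v) 0) q (x : ℂ))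
        = fun t : ℝ => s2W (s2u (b + (t : ℂ) • v) 0) q (x : ℂ) := by
      funext t
      congr 2
      funext k
      simp
      ring
    rw [e2] at h1
    exact h1.const_mul _
  have hnorm : ∀ x : ℝ, ‖exp (-I * (n : ℂ) * (x : ℂ))‖ = 1 := by
    intro x
    have : -I * (n : ℂ) * (x : ℂ) = ((-(n : ℝ) * x : ℝ) : ℂ) * I := by
      push_cast
      ring
    rw [this, Complex.norm_exp_ofReal_mul_I]
  have hbound : ∀ x : ℝ, ∀ l ∈ Metric.ball (0 : ℝ) 1, ‖F' l x‖ ≤ K := by
    intro x l hl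
    simp only [hF', norm_mul, hnorm, one_mul]
    exact hK _ _ (hfun l (hball l hl)) (s2A_fun le_rfl hv2) x
  -- measurability of the derivative: limit of difference quotients
  have hF'meas : MeasureTheory.AEStronglyMeasurable (F' 0)
      (MeasureTheory.volume.restrict (Set.uIoc 0 (2 * Real.pi))) := by
    have hl : ∀ k : ℕ, |(1 : ℝ) / ((k : ℝ) + 2)| ≤ 1 := by
      intro k
      rw [abs_of_nonneg (by positivity), div_le_one (by positivity)]
      have : (0 : ℝ) ≤ k := Nat.cast_nonneg k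
      linarith
    have hseq : Tendsto (fun k : ℕ => (1 : ℝ) / ((k : ℝ) + 2)) atTop (𝓝[≠] 0) := by
      refine tendsto_nhdsWithin_iff.2 ⟨?_, Filter.Eventually.of_forall fun k => ?_⟩
      · have h1 : Tendsto (fun k : ℕ => (k : ℝ) + 2) atTop atTop :=
          tendsto_atTop_add_const_right _ _ tendsto_natCast_atTop_atTop
        exact h1.const_div_atTop 1
      · have : (0 : ℝ) < 1 / ((k : ℝ) + 2) := by positivity
        exact this.ne'
    refine aestronglyMeasurable_of_tendsto_ae (u := atTop)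
      (f := fun (k : ℕ) (x : ℝ) => slope (fun l' => F l' x) 0 ((1 : ℝ) / ((k : ℝ) + 2))) ?_ ?_
    · intro k
      have hc : Continuous fun x : ℝ => slope (fun l' => F l' x) 0 ((1 : ℝ) / ((k : ℝ) + 2)) := by
        simp only [slope_def_module]
        exact ((hFc _ (hl k)).sub (hFc 0 (by simp))).const_smul _
      exact hc.aestronglyMeasurable
    · refine Filter.Eventually.of_forall fun x => ?_
      have h1 := (hasDerivAt_iff_tendsto_slope.1 (hdiff x 0 (Metric.mem_ball_self one_pos)))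
      exact h1.comp hseq
  have key := intervalIntegral.hasDerivAt_integral_of_dominated_loc_of_deriv_le
    (μ := MeasureTheory.volume) (a := 0) (b := 2 * Real.pi) (F := F) (F' := F') (x₀ := (0 : ℝ))
    (s := Metric.ball (0 : ℝ) 1) (bound := fun _ => K) (Metric.ball_mem_nhds _ one_pos)
    (by
      filter_upwards [Metric.ball_mem_nhds (0 : ℝ) one_pos] with l hl
      exact (hFc l (hball l hl)).aestronglyMeasurable)
    ((hFc 0 (by simp)).intervalIntegrable _ _) hF'meas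
    (Filter.Eventually.of_forall fun x _ l hl => hbound x l hl)
    intervalIntegrable_const
    (Filter.Eventually.of_forall fun x _ l hl => hdiff x l hl)
  have h2 := (key.2.const_mul (1 / (2 * (Real.pi : ℂ)))).const_mul (-((q : ℂ) ^ 2 / (6 * Real.pi)))
  have hb0 : b + ((0 : ℝ) : ℂ) • v = b := by simp
  simp only [hF, hF', hb0] at h2
  exact h2

/-- (D-x) derivative of the critical action with respect to the base point. -/
theorem s2D_x (M : ℝ) : ∃ N : ℕ, ∀ U : ℕ → ℂ → ℂ, S2Fun 0 M U → ∀ q : ℕ, N ≤ q → ∀ x : ℝ,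
    HasDerivAt (fun y : ℝ => s2W (U 0) q (y : ℂ))
      (s2D1 (U 0) (s2X (U 0) q x 0) (s2X (U 0) q x 1)
        - s2D1 (U 0) (s2X (U 0) q x q) (s2X (U 0) q x (q - 1))) x := by
  obtain ⟨R, N, hR, hN, hmesh, -⟩ := s2C_mesh M
  exact ⟨N, fun U hU q hq x =>
    s2D_point_x hU (lt_of_lt_of_le hN hq) (hmesh 0 U le_rfl zero_le_one hU q hq) x⟩

end Claimed.Agent.R269
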