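/-
Row 269, Section 2, UNIT E: definitions and small proved facts shared by the leaves `LF-S2-E*`.
Architect: helper57 (route E1-E7 of helper159, header of `S2/E.lean`).

Notation for the whole unit:  `q = n.natAbs`, `κ = R/q`, `h = π/q` (half step), `δ = 2h`,
  `Y_i x = s2Y u q x i`  (`Y_{2j} = X_j`, `Y_{2j+1} = μ_j`),   `ζ_i = s2zeta u q i = s2inv Y_i`,
  vertex of the half cell `i`:  `s2X u q x ((i+1)/2) = Y_{2((i+1)/2)} x`,  midpoint:  `s2M u q x (i/2) = Y_{2(i/2)+1} x`.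
-/
import Claimed.Agent.R269.S2.Iface

set_option autoImplicit false

namespace Claimed.Agent.R269

open Complex ComplexConjugate Filter Topology

/-- near-identity maps `Y x = x + a + e(x)` on the domain `(1+κ)|Im x| ≤ σ`:
`|e| ≤ ρ`, `e` is `κ`-Lipschitz, holomorphic inside, commutes with `+2π` and with conjugation. -/
structure S2Near (κ a ρ σ : ℝ) (Y : ℂ → ℂ) : Prop where
  bd : ∀ x : ℂ, (1 + κ) * |x.im| ≤ σ → ‖Y x - x - (a : ℂ)‖ ≤ ρ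
  lip : ∀ x x' : ℂ, (1 + κ) * |x.im| ≤ σ → (1 + κ) * |x'.im| ≤ σ →
    ‖(Y x - x) - (Y x' - x')‖ ≤ κ * ‖x - x'‖
  holo : DifferentiableOn ℂ Y {x : ℂ | (1 + κ) * |x.im| < σ}
  per : ∀ x : ℂ, (1 + κ) * |x.im| ≤ σ → Y (x + 2 * Real.pi) = Y x + 2 * Real.pi
  sym : ∀ x : ℂ, (1 + κ) * |x.im| ≤ σ → Y (conj x) = conj (Y x)

/-- the canonical inverse of a near-identity map (limit of Picard iterates). -/
noncomputable def s2inv (Y : ℂ → ℂ) (z : ℂ) : ℂ :=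
  limUnder atTop (fun k : ℕ => (fun ζ : ℂ => ζ + (z - Y ζ))^[k] z)

/-- properties of the inverse on the smaller domain `(1+4κ)|Im z| ≤ σ`. -/
structure S2Inv (κ a ρ σ : ℝ) (Y ζ : ℂ → ℂ) : Prop where
  im : ∀ z : ℂ, (1 + 4 * κ) * |z.im| ≤ σ → |(ζ z - z).im| ≤ 2 * κ * |z.im|
  right : ∀ z : ℂ, (1 + 4 * κ) * |z.im| ≤ σ → Y (ζ z) = z
  near : ∀ z : ℂ, (1 + 4 * κ) * |z.im| ≤ σ → ‖ζ z - (z - (a : ℂ))‖ ≤ ρ
  lip : ∀ z z' : ℂ, (1 + 4 * κ) * |z.im| ≤ σ → (1 + 4 * κ) * |z'.im| ≤ σ →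
    ‖(ζ z - z) - (ζ z' - z')‖ ≤ 2 * κ * ‖z - z'‖
  holo : DifferentiableOn ℂ ζ {z : ℂ | (1 + 4 * κ) * |z.im| < σ}
  per : ∀ z : ℂ, (1 + 4 * κ) * |z.im| ≤ σ → ζ (z + 2 * Real.pi) = ζ z + 2 * Real.pi
  sym : ∀ z : ℂ, (1 + 4 * κ) * |z.im| ≤ σ → ζ (conj z) = conj (ζ z)
  left : ∀ x : ℂ, (1 + κ) * |x.im| ≤ σ → (1 + 4 * κ) * |(Y x).im| ≤ σ → ζ (Y x) = x

theorem s2E_zeta_eq (u : ℂ → ℂ) (q i : ℕ) : s2zeta u q i = s2inv (fun x => s2Y u q x i) := rfl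

theorem s2E_Y_even (u : ℂ → ℂ) (q : ℕ) (x : ℂ) (j : ℕ) : s2Y u q x (2 * j) = s2X u q x j := by
  unfold s2Y
  rw [if_pos (by omega)]
  congr 1
  omega

theorem s2E_Y_odd (u : ℂ → ℂ) (q : ℕ) (x : ℂ) (j : ℕ) : s2Y u q x (2 * j + 1) = s2M u q x j := by
  unfold s2Y
  rw [if_neg (by omega)]
  congr 1
  omega

/-- the maps of the double mesh are near-identity maps. -/
theorem s2E_near_of_mesh {R σ : ℝ} {u : ℂ → ℂ} {q : ℕ} (h : S2Mesh R σ u q) {i : ℕ}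
    (hi : i ≤ 2 * q) :
    S2Near (R / q) ((i : ℝ) * (Real.pi / q)) (R / (q : ℝ) ^ 2) σ (fun x => s2Y u q x i) where
  bd x hx := by
    have := h.bd x hx i hi
    push_cast
    push_cast at this
    exact this
  lip x x' hx hx' := h.lip x x' hx hx' i hi
  holo := h.holo i hi
  per x hx := h.per x hx i hi
  sym x hx := h.sym x hx i hi

/-- forces the equation lemmas of the definitions above to be generated in this file. -/
theorem s2EDefs_eqns_cited : True := by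
  have := @s2inv.eq_1; have := @s2inv.eq_def; have := @s2inv.congr_simp
  trivial

end Claimed.Agent.R269
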