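/-
Row 269, Section 2, UNIT E, leaf LF-S2-E1: the inverse of a near-identity map (E1 of the route in `S2/E.lean`).
Architect: helper57.  Proved by helper202 (sorry-free).  LEAF FILE: the claimer owns this file, keeps names + statements, replaces every `sorry`
(helper lemmas with prefix `s2E1_` welcome).  Only Mathlib + `S2/PH.lean` (`s2P_lim`, `s2P_lim_holo`).  No paper.

SETTING.  `Y x = x + a + e(x)` on `Dom = {(1+κ)|Im x| ≤ σ}`, `a` REAL, `|e| ≤ ρ`, `e` is `κ`-Lipschitz, `0 ≤ κ ≤ 1/4`,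
`Y (conj x) = conj (Y x)`.   `ζ z = s2inv Y z = lim ζ_k`, `ζ_0 = z`, `ζ_{k+1} = ζ_k + (z - Y ζ_k) = z - a - e(ζ_k)`.
(0) `|Im e(x)| ≤ κ |Im x|` on `Dom`:  `conj x ∈ Dom`, `e(conj x) = conj (e x)` (`sym`, `a` real), so
    `2 |Im e(x)| = ‖e x - e (conj x)‖ ≤ κ ‖x - conj x‖ = 2 κ |Im x|`.
(1) fix `z` with `(1+4κ)|Im z| ≤ σ`.  Induction: `|Im ζ_k| ≤ (1+2κ)|Im z|`  [`|Im ζ_{k+1}| ≤ |Im z| + κ(1+2κ)|Im z|`, `κ(1+2κ) ≤ 2κ`],
    hence `ζ_k ∈ Dom` because `(1+κ)(1+2κ) ≤ 1+4κ`.   (strict version: `(1+4κ)|Im z| < σ ⟹ (1+κ)|Im ζ_k| < σ`.)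
(2) `‖ζ_{k+2} - ζ_{k+1}‖ = ‖e ζ_{k+1} - e ζ_k‖ ≤ κ ‖ζ_{k+1} - ζ_k‖`, `‖ζ_1 - ζ_0‖ = ‖z - Y z‖ ≤ |a| + ρ`:   `s2P_lim` with `D = |a| + ρ`.
(3) the limit lies in `Dom` (closed condition), `Y` is continuous on `Dom` (Lipschitz), so `ζ = z - a - e(ζ)`, i.e. `Y ζ = z` (`right`), `near`;
    `im`: `|Im(ζ - z)| = |Im e(ζ)| ≤ κ |Im ζ| ≤ κ (1+2κ)|Im z| ≤ 2κ|Im z|`.
(4) `lip`: `Δ(ζ - id) = -(e(ζ z) - e(ζ z'))`, `‖Δζ‖ ≤ ‖Δz‖ + κ‖Δζ‖`, so `‖Δζ‖ ≤ (4/3)‖Δz‖` and `‖Δ(ζ - id)‖ ≤ (4/3)κ‖Δz‖`.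
(5) `left`: if `Y x = z` then `x - ζ z = -(e x - e (ζ z))`, `‖x - ζ z‖ ≤ κ ‖x - ζ z‖`, so `x = ζ z`.
(6) `holo`: `s2P_lim_holo` on `Ω = {(1+4κ)|Im z| < σ}` (open); the iterates are holomorphic by induction (`h.holo`, strict version of (1)).
    NOTE `D = |a| + ρ` is uniform in `z`.
(7) `per`, `sym`: either by induction on the iterates, or from `left`:  `Y (ζ z + 2π) = z + 2π` and `ζ z + 2π ∈ Dom`, so
    `ζ (z + 2π) = ζ (Y (ζ z + 2π)) = ζ z + 2π`; same for `conj`.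
REAL AXIS (`s2E_real`): real points are in both domains as soon as `0 ≤ σ`.  `Y x` is real by `sym`.  For real `x < x'`:
    `Y x' - Y x ≥ (1-κ)(x'-x) > 0`.  `Y x < z = Y (ζ z) ⟺ x < ζ z` by strict monotonicity.  Continuity: Lipschitz.
-/
import Claimed.Agent.R269.S2.EDefs
import Claimed.Agent.R269.S2.PH

set_option autoImplicit false

namespace Claimed.Agent.R269

open Complex ComplexConjugate Filter Topology

theorem s2E1_norm_sub_conj (w : ℂ) : ‖w - conj w‖ = 2 * |w.im| := by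
  rw [Complex.sub_conj, norm_mul, Complex.norm_I, mul_one, Complex.norm_real, Real.norm_eq_abs,
    abs_mul]
  norm_num

/-- (0) -/
theorem s2E1_im {κ a ρ σ : ℝ} {Y : ℂ → ℂ} (h : S2Near κ a ρ σ Y) {x : ℂ}
    (hx : (1 + κ) * |x.im| ≤ σ) : |(Y x - x).im| ≤ κ * |x.im| := by
  have hx' : (1 + κ) * |(conj x).im| ≤ σ := by rw [Complex.conj_im, abs_neg]; exact hx
  have h1 := h.lip x (conj x) hx hx'
  rw [h.sym x hx, s2E1_norm_sub_conj] at h1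
  have e : Y x - x - (conj (Y x) - conj x) = (Y x - x) - conj (Y x - x) := by
    rw [map_sub]
  rw [e, s2E1_norm_sub_conj] at h1
  linarith

theorem s2E1_dom {κ σ : ℝ} (hκ0 : 0 ≤ κ) (hκ : κ ≤ 1 / 4) {z w : ℂ}
    (hw : |w.im| ≤ (1 + 2 * κ) * |z.im|) :
    ((1 + 4 * κ) * |z.im| ≤ σ → (1 + κ) * |w.im| ≤ σ) ∧
      ((1 + 4 * κ) * |z.im| < σ → (1 + κ) * |w.im| < σ) := by
  have h0 : 0 ≤ |z.im| := abs_nonneg _
  have h1 : (1 + κ) * |w.im| ≤ (1 + 4 * κ) * |z.im| := by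
    calc (1 + κ) * |w.im| ≤ (1 + κ) * ((1 + 2 * κ) * |z.im|) := by gcongr
      _ = ((1 + κ) * (1 + 2 * κ)) * |z.im| := by ring
      _ ≤ (1 + 4 * κ) * |z.im| := by
          gcongr
          nlinarith
  exact ⟨fun h => h1.trans h, fun h => lt_of_le_of_lt h1 h⟩

theorem s2E1_self_dom {κ : ℝ} (hκ0 : 0 ≤ κ) (z : ℂ) : |z.im| ≤ (1 + 2 * κ) * |z.im| := by
  nlinarith [abs_nonneg z.im]

theorem s2E1_aux {κ t : ℝ} (hκ0 : 0 ≤ κ) (hκ : κ ≤ 1 / 4) (ht : 0 ≤ t) :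
    κ * ((1 + 2 * κ) * t) ≤ 2 * κ * t := by
  have h1 : κ * (1 + 2 * κ) ≤ 2 * κ := by nlinarith
  have h2 := mul_le_mul_of_nonneg_right h1 ht
  linarith

/-- (1) -/
theorem s2E1_it_im {κ a ρ σ : ℝ} {Y : ℂ → ℂ} (hκ0 : 0 ≤ κ) (hκ : κ ≤ 1 / 4)
    (h : S2Near κ a ρ σ Y) {z : ℂ} (hz : (1 + 4 * κ) * |z.im| ≤ σ) (k : ℕ) :
    |((fun ζ : ℂ => ζ + (z - Y ζ))^[k] z).im| ≤ (1 + 2 * κ) * |z.im| := by
  induction k with
  | zero => exact s2E1_self_dom hκ0 z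
  | succ k ih =>
    rw [Function.iterate_succ_apply']
    set ζ := (fun ζ : ℂ => ζ + (z - Y ζ))^[k] z with hζ
    have hd := (s2E1_dom hκ0 hκ ih).1 hz
    have h1 := s2E1_im h hd
    have e : (ζ + (z - Y ζ)).im = z.im - (Y ζ - ζ).im := by
      simp only [Complex.add_im, Complex.sub_im]; ring
    show |(ζ + (z - Y ζ)).im| ≤ _
    rw [e]
    have h2 : |z.im - (Y ζ - ζ).im| ≤ |z.im| + |(Y ζ - ζ).im| := abs_sub _ _
    have h0 : 0 ≤ |z.im| := abs_nonneg _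
    have h3 : κ * |ζ.im| ≤ κ * ((1 + 2 * κ) * |z.im|) := by gcongr
    have h4 := s2E1_aux hκ0 hκ h0
    linarith

/-- (2) -/
theorem s2E1_it_geo {κ a ρ σ : ℝ} {Y : ℂ → ℂ} (hκ0 : 0 ≤ κ) (hκ : κ ≤ 1 / 4)
    (h : S2Near κ a ρ σ Y) {z : ℂ} (hz : (1 + 4 * κ) * |z.im| ≤ σ) (k : ℕ) :
    ‖(fun ζ : ℂ => ζ + (z - Y ζ))^[k + 1] z - (fun ζ : ℂ => ζ + (z - Y ζ))^[k] z‖
      ≤ (|a| + ρ) * κ ^ k := by
  induction k with
  | zero =>
    have hd := (s2E1_dom hκ0 hκ (s2E1_self_dom hκ0 z)).1 hz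
    have h1 := h.bd z hd
    simp only [zero_add, Function.iterate_one, Function.iterate_zero, id_eq, pow_zero, mul_one]
    have e : z + (z - Y z) - z = -((Y z - z - (a : ℂ)) + (a : ℂ)) := by ring
    rw [e, norm_neg]
    refine (norm_add_le _ _).trans ?_
    rw [Complex.norm_real, Real.norm_eq_abs]
    linarith
  | succ k ih =>
    rw [Function.iterate_succ_apply' _ (k + 1)]
    have hd1 := (s2E1_dom hκ0 hκ (s2E1_it_im hκ0 hκ h hz (k + 1))).1 hz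
    have hd0 := (s2E1_dom hκ0 hκ (s2E1_it_im hκ0 hκ h hz k)).1 hz
    have h1 := h.lip _ _ hd1 hd0
    set ζ1 := (fun ζ : ℂ => ζ + (z - Y ζ))^[k + 1] z with hζ1
    set ζ0 := (fun ζ : ℂ => ζ + (z - Y ζ))^[k] z with hζ0
    have e1 : ζ1 = ζ0 + (z - Y ζ0) := by
      rw [hζ1, Function.iterate_succ_apply']
    have e : ζ1 + (z - Y ζ1) - ζ1 = -((Y ζ1 - ζ1) - (Y ζ0 - ζ0)) := by
      nth_rewrite 5 [e1]
      ring
    show ‖ζ1 + (z - Y ζ1) - ζ1‖ ≤ _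
    rw [e, norm_neg]
    refine h1.trans ?_
    calc κ * ‖ζ1 - ζ0‖ ≤ κ * ((|a| + ρ) * κ ^ k) := by gcongr
      _ = (|a| + ρ) * κ ^ (k + 1) := by ring

theorem s2E1_Y_lip {κ a ρ σ : ℝ} {Y : ℂ → ℂ} (h : S2Near κ a ρ σ Y) {x x' : ℂ}
    (hx : (1 + κ) * |x.im| ≤ σ) (hx' : (1 + κ) * |x'.im| ≤ σ) :
    ‖Y x - Y x'‖ ≤ (1 + κ) * ‖x - x'‖ := by
  have h1 := h.lip x x' hx hx'
  have e : Y x - Y x' = ((Y x - x) - (Y x' - x')) + (x - x') := by ring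
  rw [e]
  refine (norm_add_le _ _).trans ?_
  linarith

/-- (3) the limit. -/
theorem s2E1_lim {κ a ρ σ : ℝ} {Y : ℂ → ℂ} (hκ0 : 0 ≤ κ) (hκ : κ ≤ 1 / 4)
    (h : S2Near κ a ρ σ Y) {z : ℂ} (hz : (1 + 4 * κ) * |z.im| ≤ σ) :
    |(s2inv Y z).im| ≤ (1 + 2 * κ) * |z.im| ∧ Y (s2inv Y z) = z := by
  have hlim := (s2P_lim (a := fun k => (fun ζ : ℂ => ζ + (z - Y ζ))^[k] z) hκ0
    (by linarith : κ < 1) (s2E1_it_geo hκ0 hκ h hz)).1
  change Tendsto _ atTop (𝓝 (s2inv Y z)) at hlim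
  set ζ := s2inv Y z with hζ
  have him : |ζ.im| ≤ (1 + 2 * κ) * |z.im| := by
    have h1 : Tendsto (fun k => |((fun ζ : ℂ => ζ + (z - Y ζ))^[k] z).im|) atTop (𝓝 |ζ.im|) :=
      ((Complex.continuous_im.tendsto _).comp hlim).abs
    exact le_of_tendsto' h1 (s2E1_it_im hκ0 hκ h hz)
  refine ⟨him, ?_⟩
  have hd := (s2E1_dom hκ0 hκ him).1 hz
  have hY : Tendsto (fun k => Y ((fun ζ : ℂ => ζ + (z - Y ζ))^[k] z)) atTop (𝓝 (Y ζ)) := by
    rw [tendsto_iff_norm_sub_tendsto_zero]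
    have h1 : Tendsto (fun k => (1 + κ) * ‖(fun ζ : ℂ => ζ + (z - Y ζ))^[k] z - ζ‖) atTop
        (𝓝 ((1 + κ) * 0)) := (tendsto_iff_norm_sub_tendsto_zero.1 hlim).const_mul _
    rw [mul_zero] at h1
    refine squeeze_zero (fun _ => norm_nonneg _) (fun k => ?_) h1
    exact s2E1_Y_lip h ((s2E1_dom hκ0 hκ (s2E1_it_im hκ0 hκ h hz k)).1 hz) hd
  have h2 : Tendsto (fun k => (fun ζ : ℂ => ζ + (z - Y ζ))^[k + 1] z) atTop (𝓝 ζ) :=
    hlim.comp (tendsto_add_atTop_nat 1)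
  have h3 : Tendsto (fun k => (fun ζ : ℂ => ζ + (z - Y ζ))^[k + 1] z) atTop
      (𝓝 (ζ + (z - Y ζ))) := by
    have := hlim.add (hY.const_sub z)
    refine this.congr (fun k => ?_)
    rw [Function.iterate_succ_apply']
  have h4 := tendsto_nhds_unique h2 h3
  linear_combination h4

/-- (5) uniqueness. -/
theorem s2E1_inj {κ a ρ σ : ℝ} {Y : ℂ → ℂ} (hκ : κ ≤ 1 / 4)
    (h : S2Near κ a ρ σ Y) {x x' : ℂ} (hx : (1 + κ) * |x.im| ≤ σ) (hx' : (1 + κ) * |x'.im| ≤ σ)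
    (he : Y x = Y x') : x = x' := by
  have h1 := h.lip x x' hx hx'
  have e : Y x - x - (Y x' - x') = -(x - x') := by rw [he]; ring
  rw [e, norm_neg] at h1
  have h2 : ‖x - x'‖ ≤ 0 := by nlinarith [norm_nonneg (x - x')]
  exact sub_eq_zero.1 (norm_le_zero_iff.1 h2)

theorem s2E1_left {κ a ρ σ : ℝ} {Y : ℂ → ℂ} (hκ0 : 0 ≤ κ) (hκ : κ ≤ 1 / 4)
    (h : S2Near κ a ρ σ Y) {x : ℂ} (hx : (1 + κ) * |x.im| ≤ σ)
    (hz : (1 + 4 * κ) * |(Y x).im| ≤ σ) : s2inv Y (Y x) = x := by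
  obtain ⟨h1, h2⟩ := s2E1_lim hκ0 hκ h hz
  exact s2E1_inj hκ h ((s2E1_dom hκ0 hκ h1).1 hz) hx h2

theorem s2E1_isOpen (c σ : ℝ) : IsOpen {z : ℂ | c * |z.im| < σ} :=
  isOpen_lt (continuous_const.mul Complex.continuous_im.abs) continuous_const

/-- (6) the iterates are holomorphic. -/
theorem s2E1_it_holo {κ a ρ σ : ℝ} {Y : ℂ → ℂ} (hκ0 : 0 ≤ κ) (hκ : κ ≤ 1 / 4)
    (h : S2Near κ a ρ σ Y) (k : ℕ) :
    DifferentiableOn ℂ (fun z => (fun ζ : ℂ => ζ + (z - Y ζ))^[k] z)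
      {z : ℂ | (1 + 4 * κ) * |z.im| < σ} := by
  induction k with
  | zero => exact differentiableOn_id
  | succ k ih =>
    have h1 : DifferentiableOn ℂ (fun z => Y ((fun ζ : ℂ => ζ + (z - Y ζ))^[k] z))
        {z : ℂ | (1 + 4 * κ) * |z.im| < σ} := by
      refine h.holo.comp ih ?_
      intro z hz
      exact (s2E1_dom hκ0 hκ (s2E1_it_im hκ0 hκ h (le_of_lt hz) k)).2 hz
    have h2 := ih.add (differentiableOn_id.sub h1)
    refine h2.congr (fun z _ => ?_)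
    rw [Function.iterate_succ_apply']
    rfl

/-- E1: the canonical inverse. -/
theorem s2E_inv {κ a ρ σ : ℝ} {Y : ℂ → ℂ} (hκ0 : 0 ≤ κ) (hκ : κ ≤ 1 / 4) (h : S2Near κ a ρ σ Y) :
    S2Inv κ a ρ σ Y (s2inv Y) where
  im z hz := by
    obtain ⟨h1, h2⟩ := s2E1_lim hκ0 hκ h hz
    have h3 := s2E1_im h ((s2E1_dom hκ0 hκ h1).1 hz)
    rw [h2] at h3
    have e : (s2inv Y z - z).im = -(z - s2inv Y z).im := by simp
    rw [e, abs_neg]
    have h0 : 0 ≤ |z.im| := abs_nonneg _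
    have h4 : κ * |(s2inv Y z).im| ≤ κ * ((1 + 2 * κ) * |z.im|) := by gcongr
    have h5 := s2E1_aux hκ0 hκ h0
    linarith
  right z hz := (s2E1_lim hκ0 hκ h hz).2
  near z hz := by
    obtain ⟨h1, h2⟩ := s2E1_lim hκ0 hκ h hz
    have h3 := h.bd _ ((s2E1_dom hκ0 hκ h1).1 hz)
    rw [h2] at h3
    have e : s2inv Y z - (z - (a : ℂ)) = -(z - s2inv Y z - (a : ℂ)) := by ring
    rw [e, norm_neg]
    exact h3
  lip z z' hz hz' := by
    obtain ⟨h1, h2⟩ := s2E1_lim hκ0 hκ h hz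
    obtain ⟨h1', h2'⟩ := s2E1_lim hκ0 hκ h hz'
    have h3 := h.lip _ _ ((s2E1_dom hκ0 hκ h1).1 hz) ((s2E1_dom hκ0 hκ h1').1 hz')
    rw [h2, h2'] at h3
    set ζ := s2inv Y z
    set ζ' := s2inv Y z'
    have e : (ζ - z) - (ζ' - z') = -((z - ζ) - (z' - ζ')) := by ring
    rw [e, norm_neg]
    have h4 : ‖ζ - ζ'‖ ≤ ‖z - z'‖ + ‖(z - ζ) - (z' - ζ')‖ := by
      have e2 : ζ - ζ' = (z - z') - ((z - ζ) - (z' - ζ')) := by ring
      rw [e2]; exact norm_sub_le _ _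
    have h5 : ‖ζ - ζ'‖ ≤ 2 * ‖z - z'‖ := by nlinarith [norm_nonneg (ζ - ζ'), norm_nonneg (z - z')]
    calc ‖(z - ζ) - (z' - ζ')‖ ≤ κ * ‖ζ - ζ'‖ := h3
      _ ≤ κ * (2 * ‖z - z'‖) := by gcongr
      _ = 2 * κ * ‖z - z'‖ := by ring
  holo := by
    have := s2P_lim_holo (s2E1_isOpen (1 + 4 * κ) σ) hκ0 (by linarith : κ < 1)
      (a := fun k z => (fun ζ : ℂ => ζ + (z - Y ζ))^[k] z) (D := |a| + ρ)
      (s2E1_it_holo hκ0 hκ h) (fun k z hz => s2E1_it_geo hκ0 hκ h (le_of_lt hz) k)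
    exact this
  per z hz := by
    obtain ⟨h1, h2⟩ := s2E1_lim hκ0 hκ h hz
    have hd := (s2E1_dom hκ0 hκ h1).1 hz
    have h3 := h.per _ hd
    rw [h2] at h3
    have him : ∀ w : ℂ, (w + 2 * Real.pi).im = w.im := by intro w; simp
    have h4 := s2E1_left hκ0 hκ h (x := s2inv Y z + 2 * Real.pi) (by rw [him]; exact hd)
      (by rw [h3, him]; exact hz)
    rw [h3] at h4
    exact h4
  sym z hz := by
    obtain ⟨h1, h2⟩ := s2E1_lim hκ0 hκ h hz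
    have hd := (s2E1_dom hκ0 hκ h1).1 hz
    have h3 := h.sym _ hd
    rw [h2] at h3
    have h4 := s2E1_left hκ0 hκ h (x := conj (s2inv Y z))
      (by rw [Complex.conj_im, abs_neg]; exact hd)
      (by rw [h3, Complex.conj_im, abs_neg]; exact hz)
    rw [h3] at h4
    exact h4
  left x hx hz := s2E1_left hκ0 hκ h hx hz

/-- points of a segment between two points `p, p'` with `|Im (p - z)|, |Im (p' - z)| ≤ 2κ|Im z|`. -/
theorem s2E_seg_dom {κ σ : ℝ} (hκ0 : 0 ≤ κ) (hκ : κ ≤ 1 / 4) {z p p' : ℂ}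
    (hp : |(p - z).im| ≤ 2 * κ * |z.im|) (hp' : |(p' - z).im| ≤ 2 * κ * |z.im|) {t : ℝ}
    (ht : t ∈ Set.Icc (0 : ℝ) 1) :
    |(p + (t : ℂ) * (p' - p) - z).im| ≤ 2 * κ * |z.im| ∧
      ((1 + 4 * κ) * |z.im| ≤ σ → (1 + κ) * |(p + (t : ℂ) * (p' - p)).im| ≤ σ) ∧
      ((1 + 4 * κ) * |z.im| < σ → (1 + κ) * |(p + (t : ℂ) * (p' - p)).im| < σ) := by
  have e : (p + (t : ℂ) * (p' - p) - z).im = (1 - t) * (p - z).im + t * (p' - z).im := by
    simp only [Complex.add_im, Complex.sub_im, Complex.mul_im, Complex.ofReal_re, Complex.ofReal_im,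
      zero_mul, add_zero]
    ring
  have h1 : |(p + (t : ℂ) * (p' - p) - z).im| ≤ 2 * κ * |z.im| := by
    rw [e]
    refine (abs_add_le _ _).trans ?_
    rw [abs_mul, abs_mul, abs_of_nonneg ht.1, abs_of_nonneg (by linarith [ht.2] : (0 : ℝ) ≤ 1 - t)]
    have a1 : (1 - t) * |(p - z).im| ≤ (1 - t) * (2 * κ * |z.im|) :=
      mul_le_mul_of_nonneg_left hp (by linarith [ht.2])
    have a2 : t * |(p' - z).im| ≤ t * (2 * κ * |z.im|) := mul_le_mul_of_nonneg_left hp' ht.1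
    linarith
  have h2 : |(p + (t : ℂ) * (p' - p)).im| ≤ (1 + 2 * κ) * |z.im| := by
    have e2 : (p + (t : ℂ) * (p' - p)).im = z.im + (p + (t : ℂ) * (p' - p) - z).im := by
      simp only [Complex.sub_im]; ring
    rw [e2]
    refine (abs_add_le _ _).trans ?_
    linarith
  exact ⟨h1, s2E1_dom hκ0 hκ h2⟩

/-- the real axis. -/
theorem s2E_real {κ a ρ σ : ℝ} {Y : ℂ → ℂ} (hκ0 : 0 ≤ κ) (hκ : κ ≤ 1 / 4) (hσ : 0 ≤ σ)
    (h : S2Near κ a ρ σ Y) :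
    (∀ x : ℝ, (Y x).im = 0) ∧ (∀ z : ℝ, (s2inv Y z).im = 0) ∧
      (∀ x z : ℝ, (Y x).re < z ↔ x < (s2inv Y z).re) ∧
      Continuous (fun x : ℝ => (Y x).re) ∧ Continuous (fun z : ℝ => (s2inv Y z).re) := by
  have hI := s2E_inv hκ0 hκ h
  have hd : ∀ (c : ℝ) (x : ℝ), c * |(x : ℂ).im| ≤ σ := by
    intro c x; simpa using hσ
  have hYim : ∀ x : ℝ, (Y x).im = 0 := by
    intro x
    have h1 := h.sym x (hd _ x)
    rw [Complex.conj_ofReal] at h1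
    exact Complex.conj_eq_iff_im.1 h1.symm
  have hZim : ∀ z : ℝ, (s2inv Y z).im = 0 := by
    intro z
    have h1 := hI.im z (hd _ z)
    simp only [Complex.ofReal_im, abs_zero, mul_zero, Complex.sub_im, sub_zero] at h1
    exact abs_nonpos_iff.1 h1
  have hmono : StrictMono (fun x : ℝ => (Y x).re) := by
    intro x x' hxx
    have h1 := h.lip x' x (hd _ x') (hd _ x)
    have h2 := (Complex.abs_re_le_norm _).trans h1
    rw [← Complex.ofReal_sub, Complex.norm_real, Real.norm_eq_abs,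
      abs_of_pos (show (0 : ℝ) < x' - x by linarith)] at h2
    simp only [Complex.sub_re, Complex.ofReal_re] at h2
    have h3 := (abs_le.1 h2).1
    show (Y x).re < (Y x').re
    nlinarith
  have hZeq : ∀ z : ℝ, s2inv Y z = (((s2inv Y z).re : ℝ) : ℂ) := by
    intro z
    apply Complex.ext <;> simp [hZim z]
  refine ⟨hYim, hZim, ?_, ?_, ?_⟩
  · intro x z
    have h1 := hI.right z (hd _ z)
    rw [hZeq z] at h1
    have h2 : (Y (((s2inv Y z).re : ℝ) : ℂ)).re = z := by rw [h1]; simp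
    rw [← hmono.lt_iff_lt (a := x)]
    simp only [h2]
  · have : LipschitzWith (Real.toNNReal (1 + κ)) (fun x : ℝ => (Y x).re) := by
      refine LipschitzWith.of_dist_le_mul ?_
      intro x x'
      rw [Real.dist_eq, Real.dist_eq, Real.coe_toNNReal _ (by linarith)]
      have h1 := s2E1_Y_lip h (hd _ x) (hd _ x')
      rw [← Complex.ofReal_sub, Complex.norm_real, Real.norm_eq_abs] at h1
      refine le_trans ?_ h1
      rw [← Complex.sub_re]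
      exact Complex.abs_re_le_norm _
    exact this.continuous
  · have : LipschitzWith (Real.toNNReal (1 + 2 * κ)) (fun z : ℝ => (s2inv Y z).re) := by
      refine LipschitzWith.of_dist_le_mul ?_
      intro z z'
      rw [Real.dist_eq, Real.dist_eq, Real.coe_toNNReal _ (by linarith)]
      have h1 := hI.lip z z' (hd _ z) (hd _ z')
      have h2 : ‖s2inv Y z - s2inv Y z'‖ ≤ (1 + 2 * κ) * ‖(z : ℂ) - z'‖ := by
        have e : s2inv Y z - s2inv Y z'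
            = ((s2inv Y z - z) - (s2inv Y z' - z')) + ((z : ℂ) - z') := by ring
        rw [e]
        refine (norm_add_le _ _).trans ?_
        linarith
      rw [← Complex.ofReal_sub, Complex.norm_real, Real.norm_eq_abs] at h2
      refine le_trans ?_ h2
      rw [← Complex.sub_re]
      exact Complex.abs_re_le_norm _
    exact this.continuous

end Claimed.Agent.R269
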