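/-
Row 269, Section 2, UNIT E, leaves LF-S2-EK (regularity of the variation kernel) and LF-S2-E2 (kernel estimate).
Architect: helper57.  LEAF FILE with TWO leaves (sections `EK`, `E2`): edit ONLY your section, keep names + statements,
replace every `sorry` (helper lemmas with prefix `s2EK_` resp. `s2E2_`).  Only Mathlib + `S2/P.lean`, `S2/Q.lean`.  No paper.

  `s2ker u z V μ = 2 (1 - cos dφ(V,z)) e^{-2u(z)} - e^{u(z)} ∫_z^μ sin dφ(V,ζ) e^{-2u(ζ)} dζ`,   `dφ(V,z) = s2dphi u V z = ∫_V^z e^u`.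

LEAF EK.  `s2E_ker_rep` is `unfold s2ker` + clauses 5 and 6 of `s2Q_rep`.  `s2E_ker_cont`: `φ, A, B, U 0` are `ContinuousOn (s2cs σ)`
  (`HasDerivWithinAt.continuousWithinAt`); rewrite with `ContinuousOn.congr` and compose with the projections.
  `s2E_ker_holo`: on the OPEN strip `s2os σ ⊆ s2cs σ` the four functions are `DifferentiableOn ℂ _ (s2os σ)` (`HasDerivWithinAt.mono`);
  compose (`DifferentiableOn.comp`), `DifferentiableOn.congr`.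
  `s2E_ker_per`: `s2P_translate` (three times: `s2dphi`, inner `s2dphi`, the `s2seg`); no strip is needed since `u` is periodic everywhere.

LEAF E2 (`s2E_ker_est`).  All points below lie in `s2cs σ ∩ closedBall V ρ` (convex).  `E := e^M`.
  (a) `‖u ζ - u V‖ ≤ M ‖ζ - V‖`  (`Convex.norm_image_sub_le_of_norm_hasDerivWithin_le` on `s2cs σ`, `S2Fun.der 0`, `S2Fun.bd 1`);
      `‖e^{w} - e^{w'}‖ ≤ e^{max} ‖w - w'‖`: e.g. `Complex.norm_exp_sub_one_le`-type bounds or the mean value inequality for `exp`;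
      so `‖e^{c u ζ} - e^{c u V}‖ ≤ C₁ ρ` for `c ∈ {1,-2}`, and `‖e^{c u ζ}‖ ≤ e^{2M}`.
  (b) `dφ(V,ζ) = (ζ - V) ∫_0^1 e^{u(V + t(ζ-V))} dt`:  `‖dφ(V,ζ) - e^{u V}(ζ - V)‖ ≤ C₁ ρ²`, `‖dφ(V,ζ)‖ ≤ E ρ`  (`s2P_norm_le`).
  (c) for `‖w‖ ≤ E`:  `‖2(1 - cos w) - w²‖ ≤ C₂ ‖w‖⁴`, `‖sin w - w‖ ≤ C₂ ‖w‖³`  (power series / `Complex.cos_bound`-type lemmas are only for
      `‖w‖ ≤ 1`; a robust way: Taylor with integral remainder or `2(1-cos w) = 4 sin²(w/2)`; or write `cos w = (e^{iw}+e^{-iw})/2` and use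
      `Complex.exp_bound`/`Complex.norm_exp_sub_sum_le_norm_mul_exp : ‖exp x - ∑_{m<n} x^m/m!‖ ≤ ‖x‖^n * exp ‖x‖`).
  (d) first term: `2(1-cos dφ(V,z)) e^{-2u z} = (z-V)² + O(ρ³)`;
  (e) second: integrand `sin dφ(V,ζ) e^{-2uζ} = e^{-uV}(ζ - V) + O(ρ²)`, `s2seg (fun ζ => ζ - V) z μ = ((μ-V)² - (z-V)²)/2` (`s2P_ftc` or direct),
      length `‖μ - z‖ ≤ 2ρ`; times `e^{u z} = e^{u V} + O(ρ)`.     Total: `3/2 (z-V)² - 1/2 (μ-V)² + O(ρ³)`, using `ρ ≤ 1` to absorb higher powers.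
  NOTE `0 ≤ ρ` follows from `‖z - V‖ ≤ ρ`.
-/
import Claimed.Agent.R269.S2.EDefs
import Claimed.Agent.R269.S2.Q

set_option autoImplicit false

namespace Claimed.Agent.R269

open Complex ComplexConjugate Filter Topology

section EK

theorem s2E_ker_rep {σ M : ℝ} {U : ℕ → ℂ → ℂ} (hσ : 0 ≤ σ) (h : S2Fun σ M U) :
    ∃ φ A B : ℂ → ℂ,
      (∀ z ∈ s2cs σ, HasDerivWithinAt φ (exp (U 0 z)) (s2cs σ) z) ∧
      (∀ z ∈ s2cs σ, HasDerivWithinAt A (sin (φ z) * exp (-2 * U 0 z)) (s2cs σ) z) ∧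
      (∀ z ∈ s2cs σ, HasDerivWithinAt B (cos (φ z) * exp (-2 * U 0 z)) (s2cs σ) z) ∧
      (∀ z ∈ s2cs σ, ∀ V ∈ s2cs σ, ∀ μ ∈ s2cs σ,
        s2ker (U 0) z V μ = 2 * (1 - cos (φ z - φ V)) * exp (-2 * U 0 z)
          - exp (U 0 z) * (cos (φ V) * (A μ - A z) - sin (φ V) * (B μ - B z))) := by
  obtain ⟨φ, A, B, E, hφ, hA, hB, -, hd, hs, -⟩ := s2Q_rep hσ h
  refine ⟨φ, A, B, hφ, hA, hB, fun z hz V hV μ hμ => ?_⟩
  unfold s2ker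
  rw [hd V hV z hz, hs V hV z hz μ hμ]

theorem s2E_ker_cont {σ M : ℝ} {U : ℕ → ℂ → ℂ} (hσ : 0 ≤ σ) (h : S2Fun σ M U) :
    ContinuousOn (fun p : ℂ × ℂ × ℂ => s2ker (U 0) p.1 p.2.1 p.2.2)
      (s2cs σ ×ˢ s2cs σ ×ˢ s2cs σ) := by
  obtain ⟨φ, A, B, hφ, hA, hB, hrep⟩ := s2E_ker_rep hσ h
  have cφ : ContinuousOn φ (s2cs σ) := fun z hz => (hφ z hz).continuousWithinAt
  have cA : ContinuousOn A (s2cs σ) := fun z hz => (hA z hz).continuousWithinAt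
  have cB : ContinuousOn B (s2cs σ) := fun z hz => (hB z hz).continuousWithinAt
  have cU : ContinuousOn (U 0) (s2cs σ) :=
    fun z hz => (h.der 0 (by norm_num) z hz).continuousWithinAt
  have k1 : ∀ f : ℂ → ℂ, ContinuousOn f (s2cs σ) →
      ContinuousOn (fun p : ℂ × ℂ × ℂ => f p.1) (s2cs σ ×ˢ s2cs σ ×ˢ s2cs σ) := fun f hf =>
    hf.comp continuous_fst.continuousOn fun p hp => hp.1
  have k2 : ∀ f : ℂ → ℂ, ContinuousOn f (s2cs σ) →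
      ContinuousOn (fun p : ℂ × ℂ × ℂ => f p.2.1) (s2cs σ ×ˢ s2cs σ ×ˢ s2cs σ) := fun f hf =>
    hf.comp (continuous_fst.comp continuous_snd).continuousOn fun p hp => hp.2.1
  have k3 : ∀ f : ℂ → ℂ, ContinuousOn f (s2cs σ) →
      ContinuousOn (fun p : ℂ × ℂ × ℂ => f p.2.2) (s2cs σ ×ˢ s2cs σ ×ˢ s2cs σ) := fun f hf =>
    hf.comp (continuous_snd.comp continuous_snd).continuousOn fun p hp => hp.2.2
  refine ContinuousOn.congr ?_ (fun p hp => hrep p.1 hp.1 p.2.1 hp.2.1 p.2.2 hp.2.2)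
  exact ((continuousOn_const.mul (continuousOn_const.sub
      (Complex.continuous_cos.comp_continuousOn ((k1 φ cφ).sub (k2 φ cφ))))).mul
      (continuousOn_const.mul (k1 _ cU)).cexp).sub
    ((k1 _ cU).cexp.mul
      (((Complex.continuous_cos.comp_continuousOn (k2 φ cφ)).mul ((k3 A cA).sub (k1 A cA))).sub
        ((Complex.continuous_sin.comp_continuousOn (k2 φ cφ)).mul ((k3 B cB).sub (k1 B cB)))))

theorem s2E_ker_holo {σ M : ℝ} {U : ℕ → ℂ → ℂ} (hσ : 0 ≤ σ) (h : S2Fun σ M U) {Ω : Set ℂ}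
    {z V μ : ℂ → ℂ} (hz : DifferentiableOn ℂ z Ω) (hV : DifferentiableOn ℂ V Ω)
    (hμ : DifferentiableOn ℂ μ Ω) (hzm : ∀ w ∈ Ω, z w ∈ s2os σ) (hVm : ∀ w ∈ Ω, V w ∈ s2os σ)
    (hμm : ∀ w ∈ Ω, μ w ∈ s2os σ) :
    DifferentiableOn ℂ (fun w => s2ker (U 0) (z w) (V w) (μ w)) Ω := by
  obtain ⟨φ, A, B, hφ, hA, hB, hrep⟩ := s2E_ker_rep hσ h
  have hsub : s2os σ ⊆ s2cs σ := fun w hw => by
    have h1 : |w.im| < σ := hw
    exact (le_of_lt h1 : |w.im| ≤ σ)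
  have dφ : DifferentiableOn ℂ φ (s2os σ) :=
    fun w hw => ((hφ w (hsub hw)).differentiableWithinAt).mono hsub
  have dA : DifferentiableOn ℂ A (s2os σ) :=
    fun w hw => ((hA w (hsub hw)).differentiableWithinAt).mono hsub
  have dB : DifferentiableOn ℂ B (s2os σ) :=
    fun w hw => ((hB w (hsub hw)).differentiableWithinAt).mono hsub
  have dU : DifferentiableOn ℂ (U 0) (s2os σ) :=
    fun w hw => ((h.der 0 (by norm_num) w (hsub hw)).differentiableWithinAt).mono hsub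
  have k : ∀ f : ℂ → ℂ, DifferentiableOn ℂ f (s2os σ) → ∀ g : ℂ → ℂ, DifferentiableOn ℂ g Ω →
      (∀ w ∈ Ω, g w ∈ s2os σ) → DifferentiableOn ℂ (fun w => f (g w)) Ω :=
    fun f hf g hg hm => hf.comp hg hm
  refine DifferentiableOn.congr ?_
    (fun w hw => hrep (z w) (hsub (hzm w hw)) (V w) (hsub (hVm w hw)) (μ w) (hsub (hμm w hw)))
  exact (((differentiableOn_const _).mul ((differentiableOn_const _).sub
      ((k φ dφ z hz hzm).sub (k φ dφ V hV hVm)).ccos)).mul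
      ((differentiableOn_const _).mul (k _ dU z hz hzm)).cexp).sub
    ((k _ dU z hz hzm).cexp.mul
      (((k φ dφ V hV hVm).ccos.mul ((k A dA μ hμ hμm).sub (k A dA z hz hzm))).sub
        ((k φ dφ V hV hVm).csin.mul ((k B dB μ hμ hμm).sub (k B dB z hz hzm)))))

theorem s2E_ker_per {u : ℂ → ℂ} (hper : ∀ z, u (z + 2 * Real.pi) = u z) (z V μ : ℂ) :
    s2ker u (z + 2 * Real.pi) (V + 2 * Real.pi) (μ + 2 * Real.pi) = s2ker u z V μ := by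
  have hd : ∀ X Y : ℂ, s2dphi u (X + 2 * Real.pi) (Y + 2 * Real.pi) = s2dphi u X Y := by
    intro X Y
    unfold s2dphi
    exact s2P_translate fun t _ => by rw [hper]
  unfold s2ker
  rw [hd, hper]
  congr 2
  exact s2P_translate fun t _ => by rw [hd, hper]

end EK

section E2

theorem s2E2_exp_sub (w w' : ℂ) :
    ‖exp w - exp w'‖ ≤ Real.exp ‖w'‖ * (‖w - w'‖ * Real.exp ‖w - w'‖) := by
  have h1 : exp w - exp w' = exp w' * (exp (w - w') - 1) := by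
    rw [mul_sub, ← Complex.exp_add, mul_one]
    congr 2
    ring
  have h2 := Complex.norm_exp_sub_sum_le_norm_mul_exp (w - w') 1
  simp only [Finset.sum_range_one, pow_zero, Nat.factorial_zero, Nat.cast_one, div_one,
    pow_one] at h2
  rw [h1, norm_mul]
  exact mul_le_mul (Complex.norm_exp_le_exp_norm _) h2 (norm_nonneg _) (Real.exp_pos _).le

theorem s2E2_sin (w : ℂ) : ‖sin w - w‖ ≤ ‖w‖ ^ 3 * Real.exp ‖w‖ := by
  have h1 := Complex.norm_exp_sub_sum_le_norm_mul_exp (-w * I) 3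
  have h2 := Complex.norm_exp_sub_sum_le_norm_mul_exp (w * I) 3
  have n1 : ‖-w * I‖ = ‖w‖ := by simp
  have n2 : ‖w * I‖ = ‖w‖ := by simp
  rw [n1] at h1
  rw [n2] at h2
  have e : sin w - w = ((exp (-w * I) - ∑ m ∈ Finset.range 3, (-w * I) ^ m / (m.factorial : ℂ))
      - (exp (w * I) - ∑ m ∈ Finset.range 3, (w * I) ^ m / (m.factorial : ℂ))) * (I / 2) := by
    simp only [Finset.sum_range_succ, Finset.sum_range_zero, Complex.sin]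
    simp only [Nat.factorial]
    push_cast
    linear_combination (-w) * Complex.I_sq
  rw [e, norm_mul]
  have n3 : ‖(I / 2 : ℂ)‖ = 1 / 2 := by simp
  rw [n3]
  have h3 := norm_sub_le (exp (-w * I) - ∑ m ∈ Finset.range 3, (-w * I) ^ m / (m.factorial : ℂ))
    (exp (w * I) - ∑ m ∈ Finset.range 3, (w * I) ^ m / (m.factorial : ℂ))
  linarith

theorem s2E2_cos (w : ℂ) : ‖2 * (1 - cos w) - w ^ 2‖ ≤ 2 * (‖w‖ ^ 4 * Real.exp ‖w‖) := by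
  have h1 := Complex.norm_exp_sub_sum_le_norm_mul_exp (-w * I) 4
  have h2 := Complex.norm_exp_sub_sum_le_norm_mul_exp (w * I) 4
  have n1 : ‖-w * I‖ = ‖w‖ := by simp
  have n2 : ‖w * I‖ = ‖w‖ := by simp
  rw [n1] at h1
  rw [n2] at h2
  have e : 2 * (1 - cos w) - w ^ 2
      = -((exp (w * I) - ∑ m ∈ Finset.range 4, (w * I) ^ m / (m.factorial : ℂ))
      + (exp (-w * I) - ∑ m ∈ Finset.range 4, (-w * I) ^ m / (m.factorial : ℂ))) := by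
    simp only [Finset.sum_range_succ, Finset.sum_range_zero, Complex.cos]
    simp only [Nat.factorial]
    push_cast
    linear_combination (-(w ^ 2)) * Complex.I_sq
  rw [e, norm_neg]
  have h3 := norm_add_le (exp (w * I) - ∑ m ∈ Finset.range 4, (w * I) ^ m / (m.factorial : ℂ))
    (exp (-w * I) - ∑ m ∈ Finset.range 4, (-w * I) ^ m / (m.factorial : ℂ))
  linarith

theorem s2E2_seg_sub {σ : ℝ} {f f₀ g₀ : ℂ → ℂ} (hf : DifferentiableOn ℂ f (s2cs σ))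
    (hg₀ : ∀ ζ ∈ s2cs σ, HasDerivWithinAt g₀ (f₀ ζ) (s2cs σ) ζ) (hf₀ : ContinuousOn f₀ (s2cs σ))
    {p q : ℂ} (hp : p ∈ s2cs σ) (hq : q ∈ s2cs σ) :
    s2seg f p q - (g₀ q - g₀ p) = s2seg (fun ζ => f ζ - f₀ ζ) p q := by
  have hg : ∀ ζ ∈ s2cs σ, HasDerivWithinAt (fun w => s2seg f p w - g₀ w) (f ζ - f₀ ζ) (s2cs σ) ζ :=
    fun ζ hζ => (s2P_deriv hf hp hζ).sub (hg₀ ζ hζ)
  rw [s2P_ftc hg (hf.continuousOn.sub hf₀) hp hq, s2P_self]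
  ring

theorem s2E2_alg1 {p pi2 y d c2 e2 : ℂ} {E A X ρ : ℝ} (hE : 1 ≤ E) (hA : 0 ≤ A) (hX : 0 ≤ X)
    (hρ0 : 0 ≤ ρ) (hρ1 : ρ ≤ 1) (hpp : p ^ 2 * pi2 = 1) (hp : ‖p‖ ≤ E) (hy : ‖y‖ ≤ ρ)
    (hd1 : ‖d - p * y‖ ≤ A * ρ ^ 2) (hd : ‖d‖ ≤ E * ρ) (hc : ‖c2 - d ^ 2‖ ≤ 2 * (‖d‖ ^ 4 * X))
    (he1 : ‖e2 - pi2‖ ≤ A * ρ) (he : ‖e2‖ ≤ E ^ 2) :
    ‖c2 * e2 - y ^ 2‖ ≤ (2 * E ^ 6 * X + 2 * E ^ 3 * A + E ^ 2 * A) * ρ ^ 3 := by
  have e : c2 * e2 - y ^ 2 = (c2 - d ^ 2) * e2 + (d - p * y) * (d + p * y) * e2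
      + p ^ 2 * y ^ 2 * (e2 - pi2) := by
    linear_combination (y ^ 2) * hpp
  have hE0 : 0 ≤ E := by linarith
  have h1 : ‖(c2 - d ^ 2) * e2‖ ≤ 2 * E ^ 6 * X * ρ ^ 3 := by
    rw [norm_mul]
    have hd4 : ‖d‖ ^ 4 ≤ (E * ρ) ^ 4 := pow_le_pow_left₀ (norm_nonneg _) hd 4
    have hρ4 : ρ ^ 4 ≤ ρ ^ 3 := pow_le_pow_of_le_one hρ0 hρ1 (by norm_num)
    have hc' : ‖c2 - d ^ 2‖ ≤ 2 * ((E * ρ) ^ 4 * X) := hc.trans (by gcongr)
    calc ‖c2 - d ^ 2‖ * ‖e2‖ ≤ (2 * ((E * ρ) ^ 4 * X)) * E ^ 2 := by gcongr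
      _ = 2 * E ^ 6 * X * ρ ^ 4 := by ring
      _ ≤ 2 * E ^ 6 * X * ρ ^ 3 := by gcongr
  have h2 : ‖(d - p * y) * (d + p * y) * e2‖ ≤ 2 * E ^ 3 * A * ρ ^ 3 := by
    rw [norm_mul, norm_mul]
    have h4 : ‖d + p * y‖ ≤ E * ρ + E * ρ :=
      (norm_add_le _ _).trans (add_le_add hd (by rw [norm_mul]; gcongr))
    calc ‖d - p * y‖ * ‖d + p * y‖ * ‖e2‖ ≤ (A * ρ ^ 2) * (E * ρ + E * ρ) * E ^ 2 := by gcongr
      _ = 2 * E ^ 3 * A * ρ ^ 3 := by ring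
  have h3 : ‖p ^ 2 * y ^ 2 * (e2 - pi2)‖ ≤ E ^ 2 * A * ρ ^ 3 := by
    rw [norm_mul, norm_mul, norm_pow, norm_pow]
    calc ‖p‖ ^ 2 * ‖y‖ ^ 2 * ‖e2 - pi2‖ ≤ E ^ 2 * ρ ^ 2 * (A * ρ) := by gcongr
      _ = E ^ 2 * A * ρ ^ 3 := by ring
  rw [e]
  have h5 := norm_add₃_le (a := (c2 - d ^ 2) * e2) (b := (d - p * y) * (d + p * y) * e2)
    (c := p ^ 2 * y ^ 2 * (e2 - pi2))
  linarith

theorem s2E2_alg2 {p pi1 pi2 y d s e2 : ℂ} {E A X ρ : ℝ} (hE : 1 ≤ E) (hA : 0 ≤ A) (hX : 0 ≤ X)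
    (hρ0 : 0 ≤ ρ) (hρ1 : ρ ≤ 1) (hpp : p * pi2 = pi1) (hp : ‖p‖ ≤ E) (hy : ‖y‖ ≤ ρ)
    (hd1 : ‖d - p * y‖ ≤ A * ρ ^ 2) (hd : ‖d‖ ≤ E * ρ) (hs : ‖s - d‖ ≤ ‖d‖ ^ 3 * X)
    (he1 : ‖e2 - pi2‖ ≤ A * ρ) (he : ‖e2‖ ≤ E ^ 2) :
    ‖s * e2 - pi1 * y‖ ≤ (E ^ 5 * X + E ^ 2 * A + E * A) * ρ ^ 2 := by
  have e : s * e2 - pi1 * y = (s - d) * e2 + (d - p * y) * e2 + p * y * (e2 - pi2) := by
    linear_combination y * hpp
  have hE0 : 0 ≤ E := by linarith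
  have h1 : ‖(s - d) * e2‖ ≤ E ^ 5 * X * ρ ^ 2 := by
    rw [norm_mul]
    have hd3 : ‖d‖ ^ 3 ≤ (E * ρ) ^ 3 := pow_le_pow_left₀ (norm_nonneg _) hd 3
    have hρ3 : ρ ^ 3 ≤ ρ ^ 2 := pow_le_pow_of_le_one hρ0 hρ1 (by norm_num)
    have hs' : ‖s - d‖ ≤ (E * ρ) ^ 3 * X := hs.trans (by gcongr)
    calc ‖s - d‖ * ‖e2‖ ≤ ((E * ρ) ^ 3 * X) * E ^ 2 := by gcongr
      _ = E ^ 5 * X * ρ ^ 3 := by ring
      _ ≤ E ^ 5 * X * ρ ^ 2 := by gcongr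
  have h2 : ‖(d - p * y) * e2‖ ≤ E ^ 2 * A * ρ ^ 2 := by
    rw [norm_mul]
    calc ‖d - p * y‖ * ‖e2‖ ≤ (A * ρ ^ 2) * E ^ 2 := by gcongr
      _ = E ^ 2 * A * ρ ^ 2 := by ring
  have h3 : ‖p * y * (e2 - pi2)‖ ≤ E * A * ρ ^ 2 := by
    rw [norm_mul, norm_mul]
    calc ‖p‖ * ‖y‖ * ‖e2 - pi2‖ ≤ E * ρ * (A * ρ) := by gcongr
      _ = E * A * ρ ^ 2 := by ring
  rw [e]
  have h5 := norm_add₃_le (a := (s - d) * e2) (b := (d - p * y) * e2) (c := p * y * (e2 - pi2))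
  linarith

theorem s2E2_alg3 {p pi1 e1 J Q : ℂ} {E A A2 ρ : ℝ} (hE : 1 ≤ E) (hA : 0 ≤ A) (hρ0 : 0 ≤ ρ)
    (hpp : p * pi1 = 1) (hpi : ‖pi1‖ ≤ E) (he1 : ‖e1 - p‖ ≤ A * ρ) (he : ‖e1‖ ≤ E)
    (hQ : ‖Q‖ ≤ ρ ^ 2) (hJ : ‖J - pi1 * Q‖ ≤ 2 * A2 * ρ ^ 3) :
    ‖e1 * J - Q‖ ≤ (A * E + 2 * E * A2) * ρ ^ 3 := by
  have e : e1 * J - Q = (e1 - p) * (pi1 * Q) + e1 * (J - pi1 * Q) := by
    linear_combination Q * hpp
  have hE0 : 0 ≤ E := by linarith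
  have h1 : ‖(e1 - p) * (pi1 * Q)‖ ≤ A * E * ρ ^ 3 := by
    rw [norm_mul, norm_mul]
    calc ‖e1 - p‖ * (‖pi1‖ * ‖Q‖) ≤ (A * ρ) * (E * ρ ^ 2) := by gcongr
      _ = A * E * ρ ^ 3 := by ring
  have h2 : ‖e1 * (J - pi1 * Q)‖ ≤ 2 * E * A2 * ρ ^ 3 := by
    rw [norm_mul]
    calc ‖e1‖ * ‖J - pi1 * Q‖ ≤ E * (2 * A2 * ρ ^ 3) :=
          mul_le_mul he hJ (norm_nonneg _) hE0
      _ = 2 * E * A2 * ρ ^ 3 := by ring
  rw [e]
  have h5 := norm_add_le ((e1 - p) * (pi1 * Q)) (e1 * (J - pi1 * Q))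
  linarith

/-- the constant of `s2E_ker_est`. -/
noncomputable def s2E2C (E X A : ℝ) : ℝ :=
  (2 * E ^ 6 * X + 2 * E ^ 3 * A + E ^ 2 * A) + (A * E + 2 * E * (E ^ 5 * X + E ^ 2 * A + E * A))

theorem s2E2_core {M : ℝ} (hM : 0 ≤ M) {σ : ℝ} {U : ℕ → ℂ → ℂ} (h : S2Fun σ M U)
    {z V μ : ℂ} (hz : z ∈ s2cs σ) (hV : V ∈ s2cs σ) (hμ : μ ∈ s2cs σ) {ρ : ℝ} (hρ1 : ρ ≤ 1)
    (hzV : ‖z - V‖ ≤ ρ) (hμV : ‖μ - V‖ ≤ ρ) :
    ‖s2ker (U 0) z V μ - (3 / 2 * (z - V) ^ 2 - 1 / 2 * (μ - V) ^ 2)‖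
      ≤ s2E2C (Real.exp M) (Real.exp (Real.exp M)) (2 * M * Real.exp M ^ 4) * ρ ^ 3 := by
  have hρ0 : 0 ≤ ρ := (norm_nonneg _).trans hzV
  obtain ⟨u, hu⟩ : ∃ u : ℂ → ℂ, u = U 0 := ⟨_, rfl⟩
  rw [← hu]
  obtain ⟨E, hEdef⟩ : ∃ E : ℝ, E = Real.exp M := ⟨_, rfl⟩
  rw [← hEdef]
  obtain ⟨X, hXdef⟩ : ∃ X : ℝ, X = Real.exp E := ⟨_, rfl⟩
  rw [← hXdef]
  obtain ⟨A, hAdef⟩ : ∃ A : ℝ, A = 2 * M * E ^ 4 := ⟨_, rfl⟩
  rw [← hAdef]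
  have hE1 : 1 ≤ E := by
    rw [hEdef]
    exact Real.one_le_exp hM
  have hE0 : 0 ≤ E := by linarith
  have hA0 : 0 ≤ A := by
    rw [hAdef]
    positivity
  have hX0 : 0 ≤ X := by
    rw [hXdef]
    positivity
  have hE2 : Real.exp (2 * M) = E ^ 2 := by
    rw [hEdef, ← Real.exp_nat_mul]
    norm_num
  -- bounds of `u`
  have hub : ∀ ζ ∈ s2cs σ, ‖u ζ‖ ≤ M := fun ζ hζ => by
    rw [hu]
    exact h.bd 0 (by norm_num) ζ hζ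
  have hud : ∀ ζ ∈ s2cs σ, HasDerivWithinAt u (U 1 ζ) (s2cs σ) ζ := fun ζ hζ => by
    rw [hu]
    exact h.der 0 (by norm_num) ζ hζ
  have hulip : ∀ ζ ∈ s2cs σ, ‖u ζ - u V‖ ≤ M * ‖ζ - V‖ := fun ζ hζ =>
    Convex.norm_image_sub_le_of_norm_hasDerivWithin_le hud
      (fun x hx => h.bd 1 (by norm_num) x hx) (s2P_convex σ) hV hζ
  have hudiff : DifferentiableOn ℂ u (s2cs σ) := fun ζ hζ => (hud ζ hζ).differentiableWithinAt
  have P1 : ∀ ζ ∈ s2cs σ, ‖exp (u ζ)‖ ≤ E := fun ζ hζ =>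
    (Complex.norm_exp_le_exp_norm _).trans (by
      rw [hEdef]
      exact Real.exp_le_exp.2 (hub ζ hζ))
  have P1' : ‖exp (-u V)‖ ≤ E :=
    (Complex.norm_exp_le_exp_norm _).trans (by
      rw [norm_neg, hEdef]
      exact Real.exp_le_exp.2 (hub V hV))
  have hn2 : ∀ w : ℂ, ‖-2 * w‖ = 2 * ‖w‖ := fun w => by
    rw [norm_mul, norm_neg]
    simp
  have P2 : ∀ ζ ∈ s2cs σ, ‖exp (-2 * u ζ)‖ ≤ E ^ 2 := fun ζ hζ => by
    refine (Complex.norm_exp_le_exp_norm _).trans ?_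
    rw [hn2, ← hE2]
    exact Real.exp_le_exp.2 (by linarith [hub ζ hζ])
  have hMρ : M * ρ ≤ M := by nlinarith
  have P3 : ∀ ζ ∈ s2cs σ, ‖ζ - V‖ ≤ ρ → ‖exp (u ζ) - exp (u V)‖ ≤ A * ρ := by
    intro ζ hζ hζV
    have h1 := s2E2_exp_sub (u ζ) (u V)
    have h2 : ‖u ζ - u V‖ ≤ M * ρ := (hulip ζ hζ).trans (by gcongr)
    have h3 : Real.exp ‖u ζ - u V‖ ≤ E := by
      rw [hEdef]
      exact Real.exp_le_exp.2 (h2.trans hMρ)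
    have h4 : Real.exp ‖u V‖ ≤ E := by
      rw [hEdef]
      exact Real.exp_le_exp.2 (hub V hV)
    have h5 : E ^ 2 ≤ E ^ 4 := pow_le_pow_right₀ hE1 (by norm_num)
    calc ‖exp (u ζ) - exp (u V)‖
        ≤ Real.exp ‖u V‖ * (‖u ζ - u V‖ * Real.exp ‖u ζ - u V‖) := h1
      _ ≤ E * ((M * ρ) * E) := by gcongr
      _ = (M * E ^ 2) * ρ := by ring
      _ ≤ A * ρ := by
        rw [hAdef]
        have h6 : M * E ^ 2 ≤ M * E ^ 4 := mul_le_mul_of_nonneg_left h5 hM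
        have h7 : 0 ≤ M * E ^ 4 := by positivity
        exact mul_le_mul_of_nonneg_right (by linarith) hρ0
  have P4 : ∀ ζ ∈ s2cs σ, ‖ζ - V‖ ≤ ρ → ‖exp (-2 * u ζ) - exp (-2 * u V)‖ ≤ A * ρ := by
    intro ζ hζ hζV
    have h1 := s2E2_exp_sub (-2 * u ζ) (-2 * u V)
    have h2 : ‖u ζ - u V‖ ≤ M * ρ := (hulip ζ hζ).trans (by gcongr)
    have e1 : -2 * u ζ - -2 * u V = -2 * (u ζ - u V) := by ring
    rw [e1, hn2, hn2] at h1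
    have h3 : Real.exp (2 * ‖u ζ - u V‖) ≤ E ^ 2 := by
      rw [← hE2]
      exact Real.exp_le_exp.2 (by linarith)
    have h4 : Real.exp (2 * ‖u V‖) ≤ E ^ 2 := by
      rw [← hE2]
      exact Real.exp_le_exp.2 (by linarith [hub V hV])
    calc ‖exp (-2 * u ζ) - exp (-2 * u V)‖
        ≤ Real.exp (2 * ‖u V‖) * (2 * ‖u ζ - u V‖ * Real.exp (2 * ‖u ζ - u V‖)) := h1
      _ ≤ E ^ 2 * (2 * (M * ρ) * E ^ 2) := by gcongr
      _ = A * ρ := by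
        rw [hAdef]
        ring
  -- the increment of `φ`
  have hfexp : DifferentiableOn ℂ (fun w => exp (u w)) (s2cs σ) := hudiff.cexp
  have hseg : ∀ ζ ∈ s2cs σ, ‖ζ - V‖ ≤ ρ → ∀ t ∈ Set.Icc (0 : ℝ) 1,
      V + (t : ℂ) * (ζ - V) ∈ s2cs σ ∧ ‖V + (t : ℂ) * (ζ - V) - V‖ ≤ ρ := by
    intro ζ hζ hζV t ht
    refine ⟨s2P_seg_mem hV hζ ht, ?_⟩
    rw [add_sub_cancel_left, norm_mul, Complex.norm_real, Real.norm_of_nonneg ht.1]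
    calc t * ‖ζ - V‖ ≤ 1 * ρ := by
          have := ht.2
          gcongr
      _ = ρ := one_mul _
  have P5 : ∀ ζ ∈ s2cs σ, ‖ζ - V‖ ≤ ρ →
      ‖s2dphi u V ζ - exp (u V) * (ζ - V)‖ ≤ A * ρ ^ 2 ∧ ‖s2dphi u V ζ‖ ≤ E * ρ := by
    intro ζ hζ hζV
    constructor
    · have h1 := s2E2_seg_sub hfexp (f₀ := fun _ => exp (u V)) (g₀ := fun w => exp (u V) * (w - V))
        (fun w _ => by
          have h2 := (((hasDerivAt_id w).sub_const V).const_mul (exp (u V))).hasDerivWithinAt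
            (s := s2cs σ)
          rw [mul_one] at h2
          exact h2) continuousOn_const hV hζ
      simp only [sub_self, mul_zero, sub_zero] at h1
      unfold s2dphi
      rw [h1]
      have h3 := s2P_norm_le (f := fun w => exp (u w) - exp (u V)) (p := V) (q := ζ) (C := A * ρ)
        (fun t ht => P3 _ (hseg ζ hζ hζV t ht).1 (hseg ζ hζ hζV t ht).2)
      calc _ ≤ A * ρ * ‖ζ - V‖ := h3
        _ ≤ A * ρ * ρ := by gcongr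
        _ = A * ρ ^ 2 := by ring
    · unfold s2dphi
      have h3 := s2P_norm_le (f := fun w => exp (u w)) (p := V) (q := ζ) (C := E)
        (fun t ht => P1 _ (hseg ζ hζ hζV t ht).1)
      exact h3.trans (by gcongr)
  have hexpd : ∀ ζ ∈ s2cs σ, ‖ζ - V‖ ≤ ρ → Real.exp ‖s2dphi u V ζ‖ ≤ X := by
    intro ζ hζ hζV
    rw [hXdef]
    refine Real.exp_le_exp.2 ((P5 ζ hζ hζV).2.trans ?_)
    nlinarith
  -- algebraic relations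
  have hpp2 : exp (u V) ^ 2 * exp (-2 * u V) = 1 := by
    rw [← Complex.exp_nat_mul, ← Complex.exp_add]
    have e : ((2 : ℕ) : ℂ) * u V + -2 * u V = 0 := by
      push_cast
      ring
    rw [e, Complex.exp_zero]
  have hpp1 : exp (u V) * exp (-2 * u V) = exp (-u V) := by
    rw [← Complex.exp_add]
    congr 1
    ring
  have hpp0 : exp (u V) * exp (-u V) = 1 := by
    rw [← Complex.exp_add, add_neg_cancel, Complex.exp_zero]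
  -- first term
  have T1 := s2E2_alg1 hE1 hA0 hX0 hρ0 hρ1 hpp2 (P1 V hV) hzV (P5 z hz hzV).1 (P5 z hz hzV).2
    (c2 := 2 * (1 - cos (s2dphi u V z)))
    ((s2E2_cos _).trans (by
      have := hexpd z hz hzV
      gcongr)) (P4 z hz hzV) (P2 z hz)
  -- the integrand of the second term
  have hFd : DifferentiableOn ℂ (fun ζ => sin (s2dphi u V ζ) * exp (-2 * u ζ)) (s2cs σ) := by
    have h1 : DifferentiableOn ℂ (fun ζ => s2dphi u V ζ) (s2cs σ) := fun ζ hζ =>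
      (s2P_deriv hfexp hV hζ).differentiableWithinAt
    exact h1.csin.mul (hudiff.const_mul (-2)).cexp
  have hseg2 : ∀ t ∈ Set.Icc (0 : ℝ) 1,
      z + (t : ℂ) * (μ - z) ∈ s2cs σ ∧ ‖z + (t : ℂ) * (μ - z) - V‖ ≤ ρ := by
    intro t ht
    refine ⟨s2P_seg_mem hz hμ ht, ?_⟩
    have e : z + (t : ℂ) * (μ - z) - V = ((1 - t : ℝ) : ℂ) * (z - V) + (t : ℂ) * (μ - V) := by
      push_cast
      ring
    rw [e]
    refine (norm_add_le _ _).trans ?_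
    rw [norm_mul, norm_mul, Complex.norm_real, Complex.norm_real, Real.norm_of_nonneg ht.1,
      Real.norm_of_nonneg (by linarith [ht.2])]
    have h1 : (1 - t) * ‖z - V‖ ≤ (1 - t) * ρ := mul_le_mul_of_nonneg_left hzV (by linarith [ht.2])
    have h2 : t * ‖μ - V‖ ≤ t * ρ := mul_le_mul_of_nonneg_left hμV ht.1
    linarith
  have hJ : ‖s2seg (fun ζ => sin (s2dphi u V ζ) * exp (-2 * u ζ)) z μ
      - exp (-u V) * (((μ - V) ^ 2 - (z - V) ^ 2) / 2)‖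
      ≤ 2 * (E ^ 5 * X + E ^ 2 * A + E * A) * ρ ^ 3 := by
    have h1 := s2E2_seg_sub hFd (f₀ := fun w => exp (-u V) * (w - V))
      (g₀ := fun w => exp (-u V) * ((w - V) ^ 2 / 2))
      (fun w _ => by
        have h2 := (((((hasDerivAt_id w).sub_const V).pow 2).div_const 2).const_mul
          (exp (-u V))).hasDerivWithinAt (s := s2cs σ)
        refine h2.congr_deriv ?_
        simp only [id]
        push_cast
        ring)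
      (continuousOn_const.mul (continuousOn_id.sub continuousOn_const)) hz hμ
    have e : exp (-u V) * (((μ - V) ^ 2 - (z - V) ^ 2) / 2)
        = exp (-u V) * ((μ - V) ^ 2 / 2) - exp (-u V) * ((z - V) ^ 2 / 2) := by ring
    rw [e, h1]
    have h3 := s2P_norm_le
      (f := fun ζ => sin (s2dphi u V ζ) * exp (-2 * u ζ) - exp (-u V) * (ζ - V)) (p := z) (q := μ)
      (C := (E ^ 5 * X + E ^ 2 * A + E * A) * ρ ^ 2)
      (fun t ht => by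
        obtain ⟨m1, m2⟩ := hseg2 t ht
        exact s2E2_alg2 hE1 hA0 hX0 hρ0 hρ1 hpp1 (P1 V hV) m2 (P5 _ m1 m2).1 (P5 _ m1 m2).2
          ((s2E2_sin _).trans (by
            have := hexpd _ m1 m2
            gcongr)) (P4 _ m1 m2) (P2 _ m1))
    have h4 : ‖μ - z‖ ≤ 2 * ρ := by
      have e2 : μ - z = (μ - V) - (z - V) := by ring
      rw [e2]
      exact (norm_sub_le _ _).trans (by linarith)
    have h5 : 0 ≤ (E ^ 5 * X + E ^ 2 * A + E * A) * ρ ^ 2 := by positivity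
    calc _ ≤ (E ^ 5 * X + E ^ 2 * A + E * A) * ρ ^ 2 * ‖μ - z‖ := h3
      _ ≤ (E ^ 5 * X + E ^ 2 * A + E * A) * ρ ^ 2 * (2 * ρ) := mul_le_mul_of_nonneg_left h4 h5
      _ = 2 * (E ^ 5 * X + E ^ 2 * A + E * A) * ρ ^ 3 := by ring
  have hQ : ‖((μ - V) ^ 2 - (z - V) ^ 2) / 2‖ ≤ ρ ^ 2 := by
    rw [norm_div]
    have h1 : ‖(μ - V) ^ 2 - (z - V) ^ 2‖ ≤ ρ ^ 2 + ρ ^ 2 := by
      refine (norm_sub_le _ _).trans ?_
      rw [norm_pow, norm_pow]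
      gcongr
    have h2 : ‖(2 : ℂ)‖ = 2 := by simp
    rw [h2, div_le_iff₀ (by norm_num)]
    linarith
  have T2 := s2E2_alg3 hE1 hA0 hρ0 hpp0 P1' (P3 z hz hzV) (P1 z hz) hQ hJ
  have e : s2ker u z V μ - (3 / 2 * (z - V) ^ 2 - 1 / 2 * (μ - V) ^ 2)
      = (2 * (1 - cos (s2dphi u V z)) * exp (-2 * u z) - (z - V) ^ 2)
        - (exp (u z) * s2seg (fun ζ => sin (s2dphi u V ζ) * exp (-2 * u ζ)) z μ
          - ((μ - V) ^ 2 - (z - V) ^ 2) / 2) := by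
    unfold s2ker
    ring
  rw [e]
  refine (norm_sub_le _ _).trans ?_
  unfold s2E2C
  linarith

/-- E2: the kernel is `3/2 (z-V)² - 1/2 (μ-V)²` up to third order. -/
theorem s2E_ker_est (M : ℝ) : ∃ C : ℝ, 0 ≤ C ∧ ∀ (σ : ℝ) (U : ℕ → ℂ → ℂ), 0 ≤ σ → S2Fun σ M U →
    ∀ z ∈ s2cs σ, ∀ V ∈ s2cs σ, ∀ μ ∈ s2cs σ, ∀ ρ : ℝ, ρ ≤ 1 → ‖z - V‖ ≤ ρ → ‖μ - V‖ ≤ ρ →
      ‖s2ker (U 0) z V μ - (3 / 2 * (z - V) ^ 2 - 1 / 2 * (μ - V) ^ 2)‖ ≤ C * ρ ^ 3 := by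
  by_cases hM : 0 ≤ M
  · refine ⟨s2E2C (Real.exp M) (Real.exp (Real.exp M)) (2 * M * Real.exp M ^ 4), ?_, ?_⟩
    · unfold s2E2C
      positivity
    · intro σ U _ h z hz V hV μ hμ ρ hρ1 hzV hμV
      exact s2E2_core hM h hz hV hμ hρ1 hzV hμV
  · refine ⟨0, le_rfl, ?_⟩
    intro σ U _ h z hz
    exact absurd ((norm_nonneg _).trans (h.bd 0 (by norm_num) z hz)) hM

end E2

end Claimed.Agent.R269
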