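/-
Row 269, Section 2, UNIT E, leaves LF-S2-E3 (model integral), LF-S2-E4a (kernel versus model), LF-S2-E4b (sup bound of `b_n - 1`).
Architect: helper57.  LEAF FILE with THREE leaves (sections `E3`, `E4a`, `E4b`): edit ONLY your section, keep names + statements,
replace every `sorry` (helper lemmas with prefix `s2E3_`, `s2E4a_`, `s2E4b_`).  No paper.
Notation: `q = n.natAbs ≥ 1`, `h = π/q`, `κ = R/q`, `j_i = (i+1)/2` (ℕ division), model integrand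
     `m_i(x) = (3/2 (z - x - 2 j_i h)² - h²/2) e^{-in(x-z)}`   (entire in `x`).

LEAF E3 (`s2E_model`, Mathlib + `s2P_ftc` only).   `P(ξ) = e^{inξ} ((3/2 ξ² - h²/2)/(in) + 3ξ/n² + 3i/n³)` satisfies `P' = e^{inξ}(3/2 ξ² - h²/2)`.
  Since `e^{in·2jh} = e^{2πi j n/q} = 1` (`n = ± q`), `F_i(x) = -P(z - x - 2 j_i h)` is a primitive of `m_i` on all of `ℂ`; by `s2P_ftc` (any strip
  containing the two end points, e.g. `σ = |Im z|`)  `s2seg m_i (z-(i+1)h) (z-ih) = P((i+1)h - 2 j_i h) - P(ih - 2 j_i h)`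
  `= P(h) - P(0)` for `i` even, `= P(0) - P(-h)` for `i` odd.  Sum over `i < 2q` (`Finset.sum_range` in pairs, induction on `q`-many pairs or
  `Finset.sum_range_succ` twice): `q (P(h) - P(-h))`.  `e^{± inh} = e^{± iπ n/q} = -1`, `3/2 h² - h²/2 = h²`, so `P(h) - P(-h) = -6h/n²`, and
  `q · 6h/n² = 6π/q²`.

LEAF E4a (`s2E_ker_model`; uses `s2E_ker_est`, `S2Mesh.bd`, `S2Mesh.im`, `s2E_Y_even`, `s2E_Y_odd`).   `V = s2X .. x j_i = Y_{2 j_i} x`, `μ = s2M .. x (i/2) = Y_{2(i/2)+1} x`,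
  both indices `≤ 2q`;  `V, μ ∈ s2cs σ` by `S2Mesh.im` + `S2Dom`.   `‖V - x - 2 j_i h‖ ≤ R/q²`, `‖μ - x - (2(i/2)+1)h‖ ≤ R/q²`, `(2(i/2)+1) - 2 j_i = ± 1`
  (`+1` for `i` even, `-1` for `i` odd).  With `w = z - x - 2 j_i h` (`‖w‖ ≤ 2h`):  `‖(z-V) - w‖ ≤ R/q²`, `‖(μ-V) ∓ h‖ ≤ 2R/q²`.
  `ρ := 2h + 2R/q² ≤ (2π+2R)/q ≤ 1` for `q ≥ N`.  `s2E_ker_est`: error `C ρ³ ≤ C (2π+2R)³/q³`.
  `‖(z-V)² - w²‖ ≤ (R/q²)(4h + R/q²)`, `‖(μ-V)² - h²‖ ≤ (2R/q²)(2h + 2R/q²)`: both `≤ const/q³`.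

LEAF E4b (`s2E_sup`; uses `s2E_inv`, `s2E_near_of_mesh`, `s2E_seg_dom`, `s2E_ker_model`, `s2E_model`, `s2E_ker_cont`, `s2P_*`).
  Fix `z`, `(1+4κ)|Im z| ≤ σ ≤ 1`, `κ ≤ 1/4`, `R/q² ≤ h`.   For `i ≤ 2q`: `S2Inv κ (ih) (R/q²) σ Y_i ζ_i`.   For `i < 2q`: `p = ζ_{i+1} z`, `p' = ζ_i z`,
  `p₀ = z-(i+1)h`, `p₀' = z-ih`, `f_i(x) = ker(z; X_{j_i} x, M_{i/2} x) e^{-in(x-z)}`.
  (i) on `x = p + t(p'-p)`: `x ∈ S2Dom` and `|Im(x-z)| ≤ 2κ|Im z|` (`s2E_seg_dom`), so `‖e^{-in(x-z)}‖ = e^{n Im(x-z)} ≤ e^{2R}`;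
      `‖x - (z-(i+1-t)h)‖ ≤ R/q²`, `|i+1-t-2j_i| ≤ 1`, so `‖z-x-2j_i h‖ ≤ 2h`;  `‖f_i x - m_i x‖ ≤ C e^{2R}/q³`;  `‖p'-p‖ ≤ 3h`;
      `s2seg f_i p p' - s2seg m_i p p' = (p'-p) ∫_0^1 (f_i - m_i)(x_t) dt` (both integrands continuous in `t`: `s2E_ker_cont`, `S2Mesh.lip`).
  (ii) `s2seg m_i p p' = s2seg m_i p p₀ + s2seg m_i p₀ p₀' + s2seg m_i p₀' p'` (`s2P_add` on a strip containing the four points; `m_i` entire);
      on the two short segments `‖m_i‖ ≤ 7h² e^{2R}`, length `≤ R/q²`.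
  (iii) sum of `2q` terms: `‖∑ s2seg f_i p p' - (-6π/q²)‖ ≤ 2q (3π C e^{2R} + 14 π² R e^{2R})/q⁴`;  multiply by `q²/6π`.
-/
import Claimed.Agent.R269.S2.E1
import Claimed.Agent.R269.S2.EK

set_option autoImplicit false

namespace Claimed.Agent.R269

open Complex ComplexConjugate Filter Topology

section E3

/-- the primitive of the model integrand (`m = 1/n`). -/
theorem s2E3_P_deriv (n m : ℂ) (hnm : n * m = 1) (h ξ : ℂ) :
    HasDerivAt (fun ξ : ℂ => exp (I * n * ξ) *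
        (-I * (3 / 2 * ξ ^ 2 - 1 / 2 * h ^ 2) * m + 3 * ξ * m ^ 2 + 3 * I * m ^ 3))
      (exp (I * n * ξ) * (3 / 2 * ξ ^ 2 - 1 / 2 * h ^ 2)) ξ := by
  have h1 : HasDerivAt (fun ξ : ℂ => exp (I * n * ξ)) (exp (I * n * ξ) * (I * n)) ξ := by
    have := ((hasDerivAt_id ξ).const_mul (I * n)).cexp
    simpa using this
  have h2 : HasDerivAt
      (fun ξ : ℂ => -I * (3 / 2 * ξ ^ 2 - 1 / 2 * h ^ 2) * m + 3 * ξ * m ^ 2 + 3 * I * m ^ 3)
      (-I * (3 / 2 * (2 * ξ)) * m + 3 * m ^ 2) ξ := by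
    have a1 : HasDerivAt (fun ξ : ℂ => ξ ^ 2) (2 * ξ) ξ := by
      simpa using hasDerivAt_pow 2 ξ
    have a2 := ((((a1.const_mul (3 / 2 : ℂ)).sub_const (1 / 2 * h ^ 2)).const_mul (-I)).mul_const m)
    have a3 := ((hasDerivAt_id ξ).const_mul (3 : ℂ)).mul_const (m ^ 2)
    have a4 := (a2.add a3).add_const (3 * I * m ^ 3)
    simpa using a4
  have h3 := h1.fun_mul h2
  have hI : I * I = -1 := Complex.I_mul_I
  have key : exp (I * n * ξ) * (3 / 2 * ξ ^ 2 - 1 / 2 * h ^ 2)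
      = exp (I * n * ξ) * (I * n) *
          (-I * (3 / 2 * ξ ^ 2 - 1 / 2 * h ^ 2) * m + 3 * ξ * m ^ 2 + 3 * I * m ^ 3)
        + exp (I * n * ξ) * (-I * (3 / 2 * (2 * ξ)) * m + 3 * m ^ 2) := by
    linear_combination (-exp (I * n * ξ) * (-I * I * (3 / 2 * ξ ^ 2 - 1 / 2 * h ^ 2) + 3 * I * ξ * m
      + 3 * I * I * m ^ 2)) * hnm + (-exp (I * n * ξ) * (3 * m ^ 2 - (3 / 2 * ξ ^ 2 - 1 / 2 * h ^ 2))) * hI
  rw [key]
  exact h3

theorem s2E3_seg (n m : ℂ) (hnm : n * m = 1) (h z c p p' : ℂ) (hc : exp (I * n * c) = 1)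
    (hp : p.im = z.im) (hp' : p'.im = z.im) :
    s2seg (fun x => (3 / 2 * (z - x - c) ^ 2 - 1 / 2 * h ^ 2) * exp (-I * n * (x - z))) p p'
      = exp (I * n * (z - p - c)) *
          (-I * (3 / 2 * (z - p - c) ^ 2 - 1 / 2 * h ^ 2) * m + 3 * (z - p - c) * m ^ 2 + 3 * I * m ^ 3)
        - exp (I * n * (z - p' - c)) *
          (-I * (3 / 2 * (z - p' - c) ^ 2 - 1 / 2 * h ^ 2) * m + 3 * (z - p' - c) * m ^ 2
            + 3 * I * m ^ 3) := by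
  set P : ℂ → ℂ := fun ξ : ℂ => exp (I * n * ξ) *
        (-I * (3 / 2 * ξ ^ 2 - 1 / 2 * h ^ 2) * m + 3 * ξ * m ^ 2 + 3 * I * m ^ 3) with hP
  have hd : ∀ x : ℂ, HasDerivAt (fun x => -P (z - x - c))
      ((3 / 2 * (z - x - c) ^ 2 - 1 / 2 * h ^ 2) * exp (-I * n * (x - z))) x := by
    intro x
    have h1 : HasDerivAt (fun x : ℂ => z - x - c) (-1) x := by
      simpa using ((hasDerivAt_id x).const_sub z).sub_const c
    have hcomp : HasDerivAt (fun x => P (z - x - c))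
        (exp (I * n * (z - x - c)) * (3 / 2 * (z - x - c) ^ 2 - 1 / 2 * h ^ 2) * -1) x :=
      HasDerivAt.comp (h₂ := P) (h := fun x : ℂ => z - x - c) x (s2E3_P_deriv n m hnm h (z - x - c)) h1
    have h2 := hcomp.fun_neg
    have h3 : exp (I * n * (z - x - c)) = exp (-I * n * (x - z)) := by
      have : I * n * (z - x - c) + I * n * c = -I * n * (x - z) := by ring
      rw [← this, Complex.exp_add, hc, mul_one]
    have h4 : (3 / 2 * (z - x - c) ^ 2 - 1 / 2 * h ^ 2) * exp (-I * n * (x - z))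
        = -(exp (I * n * (z - x - c)) * (3 / 2 * (z - x - c) ^ 2 - 1 / 2 * h ^ 2) * -1) := by
      rw [h3]
      ring
    rw [h4]
    exact h2
  have hmem : ∀ w : ℂ, w.im = z.im → w ∈ s2cs |z.im| := by
    intro w hw
    change |w.im| ≤ |z.im|
    rw [hw]
  rw [s2P_ftc (σ := |z.im|) (g := fun x => -P (z - x - c)) (fun x _ => (hd x).hasDerivWithinAt)
    (Continuous.continuousOn (by fun_prop)) (hmem p hp) (hmem p' hp')]
  simp only [hP]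
  ring

theorem s2E3_sum_pairs (f : ℕ → ℂ) (q : ℕ) :
    ∑ i ∈ Finset.range (2 * q), f i = ∑ l ∈ Finset.range q, (f (2 * l) + f (2 * l + 1)) := by
  induction q with
  | zero => simp
  | succ q ih =>
    rw [show 2 * (q + 1) = 2 * q + 1 + 1 by ring, Finset.sum_range_succ, Finset.sum_range_succ, ih,
      Finset.sum_range_succ]
    ring

/-- E3: the exact model integral. -/
theorem s2E_model (n : ℤ) (hn : n ≠ 0) (z : ℂ) :
    ∑ i ∈ Finset.range (2 * n.natAbs),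
      s2seg (fun x => (3 / 2 * (z - x - ((2 * ((i + 1) / 2) : ℕ) : ℂ)
              * ((Real.pi / n.natAbs : ℝ) : ℂ)) ^ 2
            - 1 / 2 * ((Real.pi / n.natAbs : ℝ) : ℂ) ^ 2) * exp (-I * (n : ℂ) * (x - z)))
        (z - ((i + 1 : ℕ) : ℂ) * ((Real.pi / n.natAbs : ℝ) : ℂ))
        (z - (i : ℂ) * ((Real.pi / n.natAbs : ℝ) : ℂ))
      = -(6 * Real.pi / (n.natAbs : ℂ) ^ 2) := by
  set q : ℕ := n.natAbs with hq
  have hq0 : q ≠ 0 := Int.natAbs_ne_zero.2 hn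
  have hqC : (q : ℂ) ≠ 0 := by exact_mod_cast hq0
  have hnC : (n : ℂ) ≠ 0 := by exact_mod_cast hn
  have hnm : (n : ℂ) * (n : ℂ)⁻¹ = 1 := mul_inv_cancel₀ hnC
  set h : ℂ := ((Real.pi / q : ℝ) : ℂ) with hh
  have hhq : h * q = Real.pi := by
    rw [hh]; push_cast; field_simp
  have hn2 : (n : ℂ) ^ 2 = (q : ℂ) ^ 2 := by
    have : (n : ℤ) ^ 2 = ((q : ℕ) : ℤ) ^ 2 := by rw [hq, Int.natAbs_sq]
    exact_mod_cast this
  -- `e^{inh} = -1`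
  have hexp : exp (I * (n : ℂ) * h) = -1 := by
    rcases Int.natAbs_eq n with h1 | h1
    · have : I * (n : ℂ) * h = Real.pi * I := by
        rw [h1, ← hq, ← hhq]; push_cast; ring
      rw [this, Complex.exp_pi_mul_I]
    · have : I * (n : ℂ) * h = -(Real.pi * I) := by
        rw [h1, ← hq, ← hhq]; push_cast; ring
      rw [this, Complex.exp_neg, Complex.exp_pi_mul_I]
      norm_num
  have hexp' : exp (I * (n : ℂ) * (-h)) = -1 := by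
    have : I * (n : ℂ) * (-h) = -(I * (n : ℂ) * h) := by ring
    rw [this, Complex.exp_neg, hexp]
    norm_num
  have hc : ∀ j : ℕ, exp (I * (n : ℂ) * (((2 * j : ℕ) : ℂ) * h)) = 1 := by
    intro j
    have : I * (n : ℂ) * (((2 * j : ℕ) : ℂ) * h) = ((2 * j : ℕ) : ℂ) * (I * (n : ℂ) * h) := by ring
    rw [this, Complex.exp_nat_mul, hexp, pow_mul]
    norm_num
  have him : ∀ m : ℕ, (z - (m : ℂ) * h).im = z.im := by
    intro m
    rw [hh]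
    simp [Complex.sub_im, Complex.mul_im]
  rw [s2E3_sum_pairs]
  have hpair : ∀ l ∈ Finset.range q,
      (s2seg (fun x => (3 / 2 * (z - x - ((2 * ((2 * l + 1) / 2) : ℕ) : ℂ) * h) ^ 2
            - 1 / 2 * h ^ 2) * exp (-I * (n : ℂ) * (x - z)))
        (z - ((2 * l + 1 : ℕ) : ℂ) * h) (z - ((2 * l : ℕ) : ℂ) * h)
      + s2seg (fun x => (3 / 2 * (z - x - ((2 * ((2 * l + 1 + 1) / 2) : ℕ) : ℂ) * h) ^ 2
            - 1 / 2 * h ^ 2) * exp (-I * (n : ℂ) * (x - z)))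
        (z - ((2 * l + 1 + 1 : ℕ) : ℂ) * h) (z - ((2 * l + 1 : ℕ) : ℂ) * h))
      = -(6 * h * ((n : ℂ)⁻¹) ^ 2) := by
    intro l _
    have d1 : (2 * l + 1) / 2 = l := by omega
    have d2 : (2 * l + 1 + 1) / 2 = l + 1 := by omega
    rw [d1, d2, s2E3_seg (n : ℂ) _ hnm h z _ _ _ (hc l) (him _) (him _),
      s2E3_seg (n : ℂ) _ hnm h z _ _ _ (hc (l + 1)) (him _) (him _)]
    have e1 : z - (z - ((2 * l + 1 : ℕ) : ℂ) * h) - ((2 * l : ℕ) : ℂ) * h = h := by push_cast; ring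
    have e2 : z - (z - ((2 * l : ℕ) : ℂ) * h) - ((2 * l : ℕ) : ℂ) * h = 0 := by ring
    have e3 : z - (z - ((2 * l + 1 + 1 : ℕ) : ℂ) * h) - ((2 * (l + 1) : ℕ) : ℂ) * h = 0 := by
      push_cast; ring
    have e4 : z - (z - ((2 * l + 1 : ℕ) : ℂ) * h) - ((2 * (l + 1) : ℕ) : ℂ) * h = -h := by
      push_cast; ring
    rw [e1, e2, e3, e4, hexp, hexp']
    ring
  rw [Finset.sum_congr rfl hpair, Finset.sum_const, Finset.card_range, nsmul_eq_mul, inv_pow, hn2,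
    ← hhq]
  field_simp

end E3

section E4a

theorem s2E4a_sq {a b : ℂ} {r B : ℝ} (h1 : ‖a - b‖ ≤ r) (h2 : ‖b‖ ≤ B) :
    ‖a ^ 2 - b ^ 2‖ ≤ r * (2 * B + r) := by
  have hr : 0 ≤ r := (norm_nonneg _).trans h1
  have e : a ^ 2 - b ^ 2 = (a - b) * ((a - b) + 2 * b) := by ring
  rw [e, norm_mul]
  have h3 : ‖(a - b) + 2 * b‖ ≤ r + 2 * B := by
    refine (norm_add_le _ _).trans ?_
    rw [norm_mul]
    have : ‖(2 : ℂ)‖ = 2 := by simp
    rw [this]; linarith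
  calc ‖a - b‖ * ‖(a - b) + 2 * b‖ ≤ r * (r + 2 * B) := by gcongr
    _ = r * (2 * B + r) := by ring

theorem s2E4a_parity (i : ℕ) :
    ((2 * (i / 2) + 1 : ℕ) : ℂ) - ((2 * ((i + 1) / 2) : ℕ) : ℂ) = 1 ∨
      ((2 * (i / 2) + 1 : ℕ) : ℂ) - ((2 * ((i + 1) / 2) : ℕ) : ℂ) = -1 := by
  obtain ⟨l, hl | hl⟩ := Nat.even_or_odd' i
  · left
    have d1 : i / 2 = l := by omega
    have d2 : (i + 1) / 2 = l := by omega
    rw [d1, d2]; push_cast; ring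
  · right
    have d1 : i / 2 = l := by omega
    have d2 : (i + 1) / 2 = l + 1 := by omega
    rw [d1, d2]; push_cast; ring

/-- E4a: the kernel along the mesh versus the model. -/
theorem s2E_ker_model (M R : ℝ) (hR : 0 < R) : ∃ (C : ℝ) (N : ℕ), 0 ≤ C ∧ 0 < N ∧
    ∀ (σ : ℝ) (U : ℕ → ℂ → ℂ), 0 ≤ σ → σ ≤ 1 → S2Fun σ M U →
    ∀ q : ℕ, N ≤ q → S2Mesh R σ (U 0) q → ∀ i < 2 * q, ∀ x z : ℂ, S2Dom R σ q x → z ∈ s2cs σ →
      ‖z - x - ((2 * ((i + 1) / 2) : ℕ) : ℂ) * ((Real.pi / q : ℝ) : ℂ)‖ ≤ 2 * (Real.pi / q) →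
      ‖s2ker (U 0) z (s2X (U 0) q x ((i + 1) / 2)) (s2M (U 0) q x (i / 2))
        - (3 / 2 * (z - x - ((2 * ((i + 1) / 2) : ℕ) : ℂ) * ((Real.pi / q : ℝ) : ℂ)) ^ 2
            - 1 / 2 * ((Real.pi / q : ℝ) : ℂ) ^ 2)‖ ≤ C / (q : ℝ) ^ 3 := by
  obtain ⟨C0, hC0, hest⟩ := s2E_ker_est M
  have hpi := Real.pi_pos
  refine ⟨C0 * (2 * Real.pi + 2 * R) ^ 3 + 3 / 2 * (R * (4 * Real.pi + R))
    + 1 / 2 * (2 * R * (2 * Real.pi + 2 * R)), max 1 ⌈2 * Real.pi + 2 * R⌉₊, by positivity,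
    lt_of_lt_of_le one_pos (le_max_left _ _), ?_⟩
  intro σ U hσ0 hσ1 hU q hq hm i hi x z hx hz hw
  have hq1 : 1 ≤ q := (le_max_left _ _).trans hq
  have hq1' : (1 : ℝ) ≤ q := by exact_mod_cast hq1
  have hq0 : (0 : ℝ) < q := by linarith
  have hqN : 2 * Real.pi + 2 * R ≤ q :=
    (Nat.le_ceil _).trans (by exact_mod_cast (le_max_right _ _).trans hq)
  have hk1 : 2 * ((i + 1) / 2) ≤ 2 * q := by omega
  have hk2 : 2 * (i / 2) + 1 ≤ 2 * q := by omega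
  set h : ℝ := Real.pi / q with hh
  set r : ℝ := R / (q : ℝ) ^ 2 with hr
  have hh0 : 0 < h := by positivity
  have hr0 : 0 < r := by positivity
  have hrq : r ≤ R / q := by
    rw [hr, sq, ← div_div]
    exact div_le_self (by positivity) hq1'
  set V := s2X (U 0) q x ((i + 1) / 2) with hV
  set μ := s2M (U 0) q x (i / 2) with hμ
  have bV := hm.bd x hx _ hk1
  have bμ := hm.bd x hx _ hk2
  have iV := (hm.im x hx _ hk1).trans hx
  have iμ := (hm.im x hx _ hk2).trans hx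
  rw [s2E_Y_even] at bV iV
  rw [s2E_Y_odd] at bμ iμ
  set w : ℂ := z - x - ((2 * ((i + 1) / 2) : ℕ) : ℂ) * (h : ℂ) with hwdef
  set s : ℂ := ((2 * (i / 2) + 1 : ℕ) : ℂ) - ((2 * ((i + 1) / 2) : ℕ) : ℂ) with hs
  have hs2 : s ^ 2 = 1 := by
    rcases s2E4a_parity i with h1 | h1 <;> rw [hs, h1] <;> norm_num
  have hsn : ‖s‖ = 1 := by
    rcases s2E4a_parity i with h1 | h1 <;> rw [hs, h1] <;> simp
  have hhn : ‖(h : ℂ)‖ = h := by rw [Complex.norm_real, Real.norm_eq_abs, abs_of_pos hh0]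
  have hshn : ‖s * (h : ℂ)‖ = h := by rw [norm_mul, hsn, one_mul, hhn]
  have d1 : ‖(z - V) - w‖ ≤ r := by
    have e : (z - V) - w = -(V - x - ((2 * ((i + 1) / 2) : ℕ) : ℂ) * (h : ℂ)) := by
      rw [hwdef]; ring
    rw [e, norm_neg]; exact bV
  have d2 : ‖(μ - V) - s * (h : ℂ)‖ ≤ 2 * r := by
    have e : (μ - V) - s * (h : ℂ) = (μ - x - ((2 * (i / 2) + 1 : ℕ) : ℂ) * (h : ℂ))
        - (V - x - ((2 * ((i + 1) / 2) : ℕ) : ℂ) * (h : ℂ)) := by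
      rw [hs]; ring
    rw [e]
    refine (norm_sub_le _ _).trans ?_
    linarith
  have n1 : ‖z - V‖ ≤ 2 * h + 2 * r := by
    have e : z - V = ((z - V) - w) + w := by ring
    rw [e]
    refine (norm_add_le _ _).trans ?_
    linarith
  have n2 : ‖μ - V‖ ≤ 2 * h + 2 * r := by
    have e : μ - V = ((μ - V) - s * (h : ℂ)) + s * (h : ℂ) := by ring
    rw [e]
    refine (norm_add_le _ _).trans ?_
    rw [hshn]
    linarith
  have hρq : 2 * h + 2 * r ≤ (2 * Real.pi + 2 * R) / q := by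
    have : (2 * Real.pi + 2 * R) / q = 2 * h + 2 * (R / q) := by rw [hh]; ring
    rw [this]; linarith
  have hρ1 : 2 * h + 2 * r ≤ 1 := hρq.trans (by rw [div_le_one hq0]; exact hqN)
  have k1 := hest σ U hσ0 hU z hz V iV μ iμ (2 * h + 2 * r) hρ1 n1 n2
  have k2 := s2E4a_sq d1 hw
  have k3 := s2E4a_sq d2 hshn.le
  have hsh2 : (s * (h : ℂ)) ^ 2 = (h : ℂ) ^ 2 := by rw [mul_pow, hs2, one_mul]
  rw [hsh2] at k3
  -- bounds in terms of `1/q³`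
  have q3 : (0 : ℝ) < (q : ℝ) ^ 3 := by positivity
  have b1 : C0 * (2 * h + 2 * r) ^ 3 ≤ C0 * (2 * Real.pi + 2 * R) ^ 3 / (q : ℝ) ^ 3 := by
    rw [mul_div_assoc, ← div_pow]
    gcongr
  have b2 : r * (2 * (2 * h) + r) ≤ R * (4 * Real.pi + R) / (q : ℝ) ^ 3 := by
    have e : R * (4 * Real.pi + R) / (q : ℝ) ^ 3 = r * (2 * (2 * h) + R / q) := by
      rw [hr, hh]; field_simp; ring
    rw [e]
    gcongr
  have b3 : 2 * r * (2 * h + 2 * r) ≤ 2 * R * (2 * Real.pi + 2 * R) / (q : ℝ) ^ 3 := by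
    have e : 2 * R * (2 * Real.pi + 2 * R) / (q : ℝ) ^ 3 = 2 * r * (2 * h + 2 * (R / q)) := by
      rw [hr, hh]; field_simp
    rw [e]
    gcongr
  have e : s2ker (U 0) z V μ - (3 / 2 * w ^ 2 - 1 / 2 * (h : ℂ) ^ 2)
      = (s2ker (U 0) z V μ - (3 / 2 * (z - V) ^ 2 - 1 / 2 * (μ - V) ^ 2))
        + (3 / 2 * ((z - V) ^ 2 - w ^ 2) - 1 / 2 * ((μ - V) ^ 2 - (h : ℂ) ^ 2)) := by ring
  rw [e]
  refine (norm_add_le _ _).trans ?_
  have k4 : ‖3 / 2 * ((z - V) ^ 2 - w ^ 2) - 1 / 2 * ((μ - V) ^ 2 - (h : ℂ) ^ 2)‖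
      ≤ 3 / 2 * (r * (2 * (2 * h) + r)) + 1 / 2 * (2 * r * (2 * h + 2 * r)) := by
    refine (norm_sub_le _ _).trans ?_
    rw [norm_mul, norm_mul]
    have a1 : ‖(3 / 2 : ℂ)‖ = 3 / 2 := by norm_num
    have a2 : ‖(1 / 2 : ℂ)‖ = 1 / 2 := by norm_num
    rw [a1, a2]
    gcongr
  rw [add_div, add_div, mul_div_assoc (3 / 2 : ℝ), mul_div_assoc (1 / 2 : ℝ)]
  linarith

end E4a

section E4b

theorem s2E4b_exp_le {n : ℤ} {q : ℕ} (hq : (q : ℝ) = |(n : ℝ)|) (hqpos : 0 < (q : ℝ)) {R : ℝ}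
    (hR : 0 ≤ R) {x z : ℂ} (hx : |(x - z).im| ≤ 2 * (R / q) * |z.im|) (hz : |z.im| ≤ 1) :
    ‖exp (-I * (n : ℂ) * (x - z))‖ ≤ Real.exp (2 * R) := by
  rw [Complex.norm_exp]
  apply Real.exp_le_exp.2
  have e : (-I * (n : ℂ) * (x - z)).re = n * (x - z).im := by
    simp
  rw [e]
  calc (n : ℝ) * (x - z).im ≤ |(n : ℝ)| * |(x - z).im| := by
        rw [← abs_mul]; exact le_abs_self _
    _ ≤ q * (2 * (R / q) * |z.im|) := by
        rw [← hq]; exact mul_le_mul_of_nonneg_left hx hqpos.le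
    _ = 2 * R * |z.im| := by field_simp
    _ ≤ 2 * R * 1 := mul_le_mul_of_nonneg_left hz (by positivity)
    _ = 2 * R := mul_one _

theorem s2E4b_model_le {w hc : ℂ} {h : ℝ} (hh : ‖hc‖ = h) (hw : ‖w‖ ≤ 2 * h) :
    ‖3 / 2 * w ^ 2 - 1 / 2 * hc ^ 2‖ ≤ 7 * h ^ 2 := by
  have h0 : 0 ≤ h := hh ▸ norm_nonneg _
  have h1 : ‖3 / 2 * w ^ 2‖ ≤ 3 / 2 * (2 * h) ^ 2 := by
    rw [norm_mul, norm_pow]
    have : ‖(3 / 2 : ℂ)‖ = 3 / 2 := by
      rw [show (3 / 2 : ℂ) = ((3 / 2 : ℝ) : ℂ) by push_cast; ring, Complex.norm_real]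
      norm_num
    rw [this]
    have := pow_le_pow_left₀ (norm_nonneg w) hw 2
    linarith
  have h2 : ‖1 / 2 * hc ^ 2‖ = 1 / 2 * h ^ 2 := by
    rw [norm_mul, norm_pow, hh]
    have : ‖(1 / 2 : ℂ)‖ = 1 / 2 := by
      rw [show (1 / 2 : ℂ) = ((1 / 2 : ℝ) : ℂ) by push_cast; ring, Complex.norm_real]
      norm_num
    rw [this]
  calc _ ≤ ‖3 / 2 * w ^ 2‖ + ‖1 / 2 * hc ^ 2‖ := norm_sub_le _ _
    _ ≤ 3 / 2 * (2 * h) ^ 2 + 1 / 2 * h ^ 2 := by rw [h2]; linarith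
    _ ≤ 7 * h ^ 2 := by nlinarith [sq_nonneg h]

theorem s2E4b_w_le {w hc e : ℂ} {θ h r : ℝ} (hh : ‖hc‖ = h) (hθ : |θ| ≤ 1) (he : ‖e‖ ≤ r)
    (hr : r ≤ h) (hw : w = (θ : ℂ) * hc + e) : ‖w‖ ≤ 2 * h := by
  have h0 : 0 ≤ h := hh ▸ norm_nonneg _
  rw [hw]
  calc ‖(θ : ℂ) * hc + e‖ ≤ ‖(θ : ℂ) * hc‖ + ‖e‖ := norm_add_le _ _
    _ = |θ| * h + ‖e‖ := by rw [norm_mul, Complex.norm_real, Real.norm_eq_abs, hh]
    _ ≤ 1 * h + h := add_le_add (mul_le_mul_of_nonneg_right hθ h0) (he.trans hr)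
    _ = 2 * h := by ring

theorem s2E4b_seg_sub {f g : ℂ → ℂ} {p q : ℂ}
    (hf : ContinuousOn (fun t : ℝ => f (p + (t : ℂ) * (q - p))) (Set.Icc 0 1))
    (hg : ContinuousOn (fun t : ℝ => g (p + (t : ℂ) * (q - p))) (Set.Icc 0 1)) :
    s2seg f p q - s2seg g p q = s2seg (fun x => f x - g x) p q := by
  unfold s2seg
  rw [intervalIntegral.integral_sub (hf.intervalIntegrable_of_Icc zero_le_one)
    (hg.intervalIntegrable_of_Icc zero_le_one)]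
  ring

/-- the mesh maps are continuous on their closed domain. -/
theorem s2E4b_Y_cont {R σ : ℝ} {u : ℂ → ℂ} {q : ℕ} (hκ0 : 0 ≤ R / q) (hm : S2Mesh R σ u q)
    {k : ℕ} (hk : k ≤ 2 * q) :
    ContinuousOn (fun x => s2Y u q x k) {x : ℂ | S2Dom R σ q x} := by
  have h1 : LipschitzOnWith (Real.toNNReal (R / q)) (fun x => s2Y u q x k - x)
      {x : ℂ | S2Dom R σ q x} := by
    refine LipschitzOnWith.of_dist_le_mul fun x hx y hy => ?_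
    rw [dist_eq_norm, dist_eq_norm, Real.coe_toNNReal _ hκ0]
    exact hm.lip x y hx hy k hk
  have h2 := h1.continuousOn.add continuousOn_id
  refine h2.congr fun x _ => ?_
  simp

theorem s2E4b_term {σ M R C : ℝ} {U : ℕ → ℂ → ℂ} {n : ℤ} {q : ℕ} (hqn : (q : ℝ) = |(n : ℝ)|)
    (hσ0 : 0 ≤ σ) (hσ1 : σ ≤ 1) (hU : S2Fun σ M U) (hR : 0 < R) (hqR : 4 * R ≤ q) (hC : 0 ≤ C)
    (hm : S2Mesh R σ (U 0) q)
    (hkm : ∀ i < 2 * q, ∀ x z : ℂ, S2Dom R σ q x → z ∈ s2cs σ →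
      ‖z - x - ((2 * ((i + 1) / 2) : ℕ) : ℂ) * ((Real.pi / q : ℝ) : ℂ)‖ ≤ 2 * (Real.pi / q) →
      ‖s2ker (U 0) z (s2X (U 0) q x ((i + 1) / 2)) (s2M (U 0) q x (i / 2))
        - (3 / 2 * (z - x - ((2 * ((i + 1) / 2) : ℕ) : ℂ) * ((Real.pi / q : ℝ) : ℂ)) ^ 2
            - 1 / 2 * ((Real.pi / q : ℝ) : ℂ) ^ 2)‖ ≤ C / (q : ℝ) ^ 3)
    {i : ℕ} (hi : i < 2 * q) {z : ℂ} (hz : (1 + 4 * (R / q)) * |z.im| ≤ σ) :
    ‖s2seg (fun x => s2ker (U 0) z (s2X (U 0) q x ((i + 1) / 2)) (s2M (U 0) q x (i / 2))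
          * exp (-I * (n : ℂ) * (x - z))) (s2zeta (U 0) q (i + 1) z) (s2zeta (U 0) q i z)
      - s2seg (fun x => (3 / 2 * (z - x - ((2 * ((i + 1) / 2) : ℕ) : ℂ)
              * ((Real.pi / q : ℝ) : ℂ)) ^ 2
            - 1 / 2 * ((Real.pi / q : ℝ) : ℂ) ^ 2) * exp (-I * (n : ℂ) * (x - z)))
        (z - ((i + 1 : ℕ) : ℂ) * ((Real.pi / q : ℝ) : ℂ))
        (z - (i : ℂ) * ((Real.pi / q : ℝ) : ℂ))‖
      ≤ (3 * Real.pi * C + 14 * Real.pi ^ 2 * R) * Real.exp (2 * R) / (q : ℝ) ^ 4 := by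
  have hqpos : 0 < (q : ℝ) := by linarith
  have hκ0 : 0 ≤ R / (q : ℝ) := (div_pos hR hqpos).le
  have hκ : R / (q : ℝ) ≤ 1 / 4 := by
    rw [div_le_iff₀ hqpos]; linarith
  have hpi := Real.pi_pos
  have hpi3 : 3 < Real.pi := Real.pi_gt_three
  obtain ⟨h, hhdef⟩ : ∃ h, h = Real.pi / (q : ℝ) := ⟨_, rfl⟩
  obtain ⟨hc, hcdef⟩ : ∃ hc : ℂ, hc = ((Real.pi / q : ℝ) : ℂ) := ⟨_, rfl⟩
  have hh0 : 0 < h := hhdef ▸ div_pos hpi hqpos
  have hh : ‖hc‖ = h := by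
    rw [hcdef, Complex.norm_real, Real.norm_eq_abs, ← hhdef, abs_of_pos hh0]
  obtain ⟨r, hrdef⟩ : ∃ r, r = R / (q : ℝ) ^ 2 := ⟨_, rfl⟩
  have hr0 : 0 ≤ r := hrdef ▸ (by positivity)
  have hr : r ≤ h := by
    rw [hrdef, hhdef, div_le_div_iff₀ (by positivity) hqpos]
    nlinarith
  obtain ⟨E, hEdef⟩ : ∃ E, E = Real.exp (2 * R) := ⟨_, rfl⟩
  have hE0 : 0 < E := hEdef ▸ Real.exp_pos _
  have hI1 := s2E_inv hκ0 hκ (s2E_near_of_mesh hm (i := i + 1) (by omega))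
  have hI0 := s2E_inv hκ0 hκ (s2E_near_of_mesh hm (i := i) (by omega))
  rw [← s2E_zeta_eq] at hI1 hI0
  have hk1 : 2 * ((i + 1) / 2) ≤ 2 * q := by omega
  have hk2 : 2 * (i / 2) + 1 ≤ 2 * q := by omega
  obtain ⟨p, hpdef⟩ : ∃ p, p = s2zeta (U 0) q (i + 1) z := ⟨_, rfl⟩
  obtain ⟨p', hp'def⟩ : ∃ p', p' = s2zeta (U 0) q i z := ⟨_, rfl⟩
  obtain ⟨j2, hj2def⟩ : ∃ j2 : ℕ, j2 = 2 * ((i + 1) / 2) := ⟨_, rfl⟩
  have hj2 : j2 = i ∨ j2 = i + 1 := by omega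
  have hzim : |z.im| ≤ σ := by
    have : |z.im| ≤ (1 + 4 * (R / q)) * |z.im| := by nlinarith [abs_nonneg z.im]
    exact this.trans hz
  have hz1 : |z.im| ≤ 1 := hzim.trans hσ1
  have hzcs : z ∈ s2cs σ := hzim
  have hpim : |(p - z).im| ≤ 2 * (R / q) * |z.im| := hpdef ▸ hI1.im z hz
  have hp'im : |(p' - z).im| ≤ 2 * (R / q) * |z.im| := hp'def ▸ hI0.im z hz
  have hpn : ‖z - p - ((i : ℂ) + 1) * hc‖ ≤ r := by
    have := hI1.near z hz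
    rw [← hpdef, ← hrdef, ← norm_neg] at this
    refine le_of_eq_of_le ?_ this
    congr 1
    rw [hcdef]
    push_cast
    ring
  have hp'n : ‖z - p' - (i : ℂ) * hc‖ ≤ r := by
    have := hI0.near z hz
    rw [← hp'def, ← hrdef, ← norm_neg] at this
    refine le_of_eq_of_le ?_ this
    congr 1
    rw [hcdef]
    push_cast
    ring
  obtain ⟨p0, hp0def⟩ : ∃ p0, p0 = z - ((i : ℂ) + 1) * hc := ⟨_, rfl⟩
  obtain ⟨p0', hp0'def⟩ : ∃ p0', p0' = z - (i : ℂ) * hc := ⟨_, rfl⟩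
  have hcim : hc.im = 0 := by rw [hcdef]; exact Complex.ofReal_im _
  have hp0im : |(p0 - z).im| ≤ 2 * (R / q) * |z.im| := by
    have : (p0 - z).im = 0 := by
      rw [hp0def]; simp [hcim]
    rw [this, abs_zero]; positivity
  have hp0'im : |(p0' - z).im| ≤ 2 * (R / q) * |z.im| := by
    have : (p0' - z).im = 0 := by
      rw [hp0'def]; simp [hcim]
    rw [this, abs_zero]; positivity
  obtain ⟨K, hKdef⟩ : ∃ K : ℂ → ℂ, K = fun x => s2ker (U 0) z (s2X (U 0) q x ((i + 1) / 2))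
    (s2M (U 0) q x (i / 2)) := ⟨_, rfl⟩
  obtain ⟨Qm, hQdef⟩ : ∃ Qm : ℂ → ℂ, Qm = fun x => 3 / 2 * (z - x - (j2 : ℂ) * hc) ^ 2
    - 1 / 2 * hc ^ 2 := ⟨_, rfl⟩
  obtain ⟨ex, hexdef⟩ : ∃ ex : ℂ → ℂ, ex = fun x => exp (-I * (n : ℂ) * (x - z)) := ⟨_, rfl⟩
  have hexb : ∀ x, |(x - z).im| ≤ 2 * (R / q) * |z.im| → ‖ex x‖ ≤ E := by
    intro x hx
    rw [hexdef, hEdef]
    exact s2E4b_exp_le hqn hqpos hR.le hx hz1
  have hQd : Differentiable ℂ Qm := by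
    rw [hQdef]; fun_prop
  have hexd : Differentiable ℂ ex := by
    rw [hexdef]; fun_prop
  have hmd : Differentiable ℂ (fun x => Qm x * ex x) := hQd.mul hexd
  have hgoal : s2seg (fun x => s2ker (U 0) z (s2X (U 0) q x ((i + 1) / 2)) (s2M (U 0) q x (i / 2))
          * exp (-I * (n : ℂ) * (x - z))) (s2zeta (U 0) q (i + 1) z) (s2zeta (U 0) q i z)
      - s2seg (fun x => (3 / 2 * (z - x - ((2 * ((i + 1) / 2) : ℕ) : ℂ)
              * ((Real.pi / q : ℝ) : ℂ)) ^ 2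
            - 1 / 2 * ((Real.pi / q : ℝ) : ℂ) ^ 2) * exp (-I * (n : ℂ) * (x - z)))
        (z - ((i + 1 : ℕ) : ℂ) * ((Real.pi / q : ℝ) : ℂ))
        (z - (i : ℂ) * ((Real.pi / q : ℝ) : ℂ))
      = s2seg (fun x => K x * ex x) p p' - s2seg (fun x => Qm x * ex x) p0 p0' := by
    rw [hKdef, hQdef, hexdef, hpdef, hp'def, hp0def, hp0'def, hj2def, hcdef]
    push_cast
    rfl
  rw [hgoal]
  -- the four points lie in the strip
  have hcs : ∀ x : ℂ, |(x - z).im| ≤ 2 * (R / q) * |z.im| → x ∈ s2cs σ := by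
    intro x hx
    have h1 : |x.im| ≤ |(x - z).im| + |z.im| := by
      have : x.im = (x - z).im + z.im := by simp
      rw [this]; exact abs_add_le _ _
    have h2 : |x.im| ≤ (1 + 4 * (R / q)) * |z.im| := by nlinarith [abs_nonneg z.im]
    exact h2.trans hz
  have hadd : s2seg (fun x => Qm x * ex x) p p' = s2seg (fun x => Qm x * ex x) p p0
      + s2seg (fun x => Qm x * ex x) p0 p0' + s2seg (fun x => Qm x * ex x) p0' p' := by
    rw [s2P_add hmd.differentiableOn (hcs p hpim) (hcs p0 hp0im) (hcs p0' hp0'im),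
      s2P_add hmd.differentiableOn (hcs p hpim) (hcs p0' hp0'im) (hcs p' hp'im)]
  -- segment `[p, p']`
  have hseg : ∀ t ∈ Set.Icc (0 : ℝ) 1, S2Dom R σ q (p + (t : ℂ) * (p' - p)) ∧
      |(p + (t : ℂ) * (p' - p) - z).im| ≤ 2 * (R / q) * |z.im| ∧
      ‖z - (p + (t : ℂ) * (p' - p)) - (j2 : ℂ) * hc‖ ≤ 2 * h := by
    intro t ht
    have hd := s2E_seg_dom (σ := σ) hκ0 hκ hpim hp'im ht
    refine ⟨hd.2.1 hz, hd.1, ?_⟩
    have he : ‖((1 - t : ℝ) : ℂ) * (z - p - ((i : ℂ) + 1) * hc) + (t : ℂ) * (z - p' - (i : ℂ) * hc)‖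
        ≤ r := by
      calc _ ≤ ‖((1 - t : ℝ) : ℂ) * (z - p - ((i : ℂ) + 1) * hc)‖
            + ‖(t : ℂ) * (z - p' - (i : ℂ) * hc)‖ := norm_add_le _ _
        _ = (1 - t) * ‖z - p - ((i : ℂ) + 1) * hc‖ + t * ‖z - p' - (i : ℂ) * hc‖ := by
            rw [norm_mul, norm_mul, Complex.norm_real, Complex.norm_real, Real.norm_eq_abs,
              Real.norm_eq_abs, abs_of_nonneg ht.1, abs_of_nonneg (by linarith [ht.2])]
        _ ≤ (1 - t) * r + t * r := add_le_add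
            (mul_le_mul_of_nonneg_left hpn (by linarith [ht.2]))
            (mul_le_mul_of_nonneg_left hp'n ht.1)
        _ = r := by ring
    rcases hj2 with hj | hj
    · refine s2E4b_w_le (θ := 1 - t) hh ?_ he hr ?_
      · rw [abs_le]; constructor <;> linarith [ht.1, ht.2]
      · rw [hj]; push_cast; ring
    · refine s2E4b_w_le (θ := -t) hh ?_ he hr ?_
      · rw [abs_le]; constructor <;> linarith [ht.1, ht.2]
      · rw [hj]; push_cast; ring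
  have hγ : Continuous fun t : ℝ => p + (t : ℂ) * (p' - p) := by fun_prop
  have hKc : ContinuousOn (fun t : ℝ => K (p + (t : ℂ) * (p' - p))) (Set.Icc 0 1) := by
    have hY : ∀ k ≤ 2 * q, ContinuousOn (fun t : ℝ => s2Y (U 0) q (p + (t : ℂ) * (p' - p)) k)
        (Set.Icc 0 1) := fun k hk =>
      (s2E4b_Y_cont hκ0 hm hk).comp hγ.continuousOn fun t ht => (hseg t ht).1
    have hmap : Set.MapsTo (fun t : ℝ => ((z,
          s2Y (U 0) q (p + (t : ℂ) * (p' - p)) (2 * ((i + 1) / 2)),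
          s2Y (U 0) q (p + (t : ℂ) * (p' - p)) (2 * (i / 2) + 1)) : ℂ × ℂ × ℂ))
          (Set.Icc (0 : ℝ) 1) (s2cs σ ×ˢ s2cs σ ×ˢ s2cs σ) := by
      intro t ht
      have hd := (hseg t ht).1
      exact ⟨hzcs, (hm.im _ hd _ hk1).trans hd, (hm.im _ hd _ hk2).trans hd⟩
    have hK := ContinuousOn.comp (g := fun w : ℂ × ℂ × ℂ => s2ker (U 0) w.1 w.2.1 w.2.2)
      (s2E_ker_cont hσ0 hU) (continuousOn_const.prodMk ((hY _ hk1).prodMk (hY _ hk2))) hmap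
    refine hK.congr fun t _ => ?_
    rw [hKdef]
    simp only [Function.comp, s2E_Y_even, s2E_Y_odd]
  have hD1 : ‖s2seg (fun x => K x * ex x) p p' - s2seg (fun x => Qm x * ex x) p p'‖
      ≤ C / (q : ℝ) ^ 3 * E * (3 * h) := by
    rw [s2E4b_seg_sub (hKc.mul (hexd.continuous.comp hγ).continuousOn)
      (hmd.continuous.comp hγ).continuousOn]
    have hlen : ‖p' - p‖ ≤ 3 * h := by
      have e : p' - p = (z - p - ((i : ℂ) + 1) * hc) - (z - p' - (i : ℂ) * hc) + hc := by ring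
      rw [e]
      calc _ ≤ ‖(z - p - ((i : ℂ) + 1) * hc) - (z - p' - (i : ℂ) * hc)‖ + ‖hc‖ := norm_add_le _ _
        _ ≤ ‖z - p - ((i : ℂ) + 1) * hc‖ + ‖z - p' - (i : ℂ) * hc‖ + ‖hc‖ :=
            add_le_add (norm_sub_le _ _) le_rfl
        _ ≤ 3 * h := by rw [hh]; linarith
    have hCE : 0 ≤ C / (q : ℝ) ^ 3 * E := by positivity
    refine (s2P_norm_le (C := C / (q : ℝ) ^ 3 * E) fun t ht => ?_).trans
      (mul_le_mul_of_nonneg_left hlen hCE)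
    obtain ⟨hd, him, hw⟩ := hseg t ht
    rw [← sub_mul, norm_mul]
    refine mul_le_mul ?_ (hexb _ him) (norm_nonneg _) (by positivity)
    have := hkm i hi _ z hd hzcs (by rw [← hj2def, ← hcdef, ← hhdef]; exact hw)
    rw [← hj2def, ← hcdef] at this
    rw [hKdef, hQdef]
    exact this
  have hQb : ∀ x, ‖z - x - (j2 : ℂ) * hc‖ ≤ 2 * h → |(x - z).im| ≤ 2 * (R / q) * |z.im| →
      ‖Qm x * ex x‖ ≤ 7 * h ^ 2 * E := by
    intro x hw him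
    rw [norm_mul]
    refine mul_le_mul ?_ (hexb x him) (norm_nonneg _) (by positivity)
    rw [hQdef]
    exact s2E4b_model_le hh hw
  have h7 : 0 ≤ 7 * h ^ 2 * E := by positivity
  have hS1 : ‖s2seg (fun x => Qm x * ex x) p p0‖ ≤ 7 * h ^ 2 * E * r := by
    have hlen : ‖p0 - p‖ ≤ r := by
      have e : p0 - p = z - p - ((i : ℂ) + 1) * hc := by rw [hp0def]; ring
      rw [e]; exact hpn
    refine (s2P_norm_le (C := 7 * h ^ 2 * E) fun t ht => ?_).trans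
      (mul_le_mul_of_nonneg_left hlen h7)
    refine hQb _ ?_ (s2E_seg_dom (σ := σ) hκ0 hκ hpim hp0im ht).1
    have he : ‖((1 - t : ℝ) : ℂ) * (z - p - ((i : ℂ) + 1) * hc)‖ ≤ r := by
      rw [norm_mul, Complex.norm_real, Real.norm_eq_abs, abs_of_nonneg (by linarith [ht.2])]
      calc (1 - t) * ‖z - p - ((i : ℂ) + 1) * hc‖ ≤ 1 * r :=
            mul_le_mul (by linarith [ht.1]) hpn (norm_nonneg _) (by norm_num)
        _ = r := one_mul _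
    rcases hj2 with hj | hj
    · refine s2E4b_w_le (θ := 1) hh (by norm_num) he hr ?_
      rw [hj, hp0def]; push_cast; ring
    · refine s2E4b_w_le (θ := 0) hh (by norm_num) he hr ?_
      rw [hj, hp0def]; push_cast; ring
  have hS2 : ‖s2seg (fun x => Qm x * ex x) p0' p'‖ ≤ 7 * h ^ 2 * E * r := by
    have hlen : ‖p' - p0'‖ ≤ r := by
      have e : p' - p0' = -(z - p' - (i : ℂ) * hc) := by rw [hp0'def]; ring
      rw [e, norm_neg]; exact hp'n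
    refine (s2P_norm_le (C := 7 * h ^ 2 * E) fun t ht => ?_).trans
      (mul_le_mul_of_nonneg_left hlen h7)
    refine hQb _ ?_ (s2E_seg_dom (σ := σ) hκ0 hκ hp0'im hp'im ht).1
    have he : ‖(t : ℂ) * (z - p' - (i : ℂ) * hc)‖ ≤ r := by
      rw [norm_mul, Complex.norm_real, Real.norm_eq_abs, abs_of_nonneg ht.1]
      calc t * ‖z - p' - (i : ℂ) * hc‖ ≤ 1 * r :=
            mul_le_mul ht.2 hp'n (norm_nonneg _) (by norm_num)
        _ = r := one_mul _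
    rcases hj2 with hj | hj
    · refine s2E4b_w_le (θ := 0) hh (by norm_num) he hr ?_
      rw [hj, hp0'def]; push_cast; ring
    · refine s2E4b_w_le (θ := -1) hh (by norm_num) he hr ?_
      rw [hj, hp0'def]; push_cast; ring
  have efin : s2seg (fun x => K x * ex x) p p' - s2seg (fun x => Qm x * ex x) p0 p0'
      = (s2seg (fun x => K x * ex x) p p' - s2seg (fun x => Qm x * ex x) p p')
        + s2seg (fun x => Qm x * ex x) p p0 + s2seg (fun x => Qm x * ex x) p0' p' := by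
    rw [hadd]; ring
  rw [efin]
  calc _ ≤ ‖s2seg (fun x => K x * ex x) p p' - s2seg (fun x => Qm x * ex x) p p'‖
        + ‖s2seg (fun x => Qm x * ex x) p p0‖ + ‖s2seg (fun x => Qm x * ex x) p0' p'‖ :=
        norm_add₃_le
    _ ≤ C / (q : ℝ) ^ 3 * E * (3 * h) + 7 * h ^ 2 * E * r + 7 * h ^ 2 * E * r :=
        add_le_add (add_le_add hD1 hS1) hS2
    _ = (3 * Real.pi * C + 14 * Real.pi ^ 2 * R) * Real.exp (2 * R) / (q : ℝ) ^ 4 := by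
        rw [hhdef, hrdef, hEdef]
        field_simp
        ring

/-- E4: `b_n = 1 + O(1/q)` uniformly on the domain `(1+4R/q)|Im z| ≤ σ`. -/
theorem s2E_sup (M R : ℝ) (hR : 0 < R) : ∃ (K₀ : ℝ) (N : ℕ), 0 ≤ K₀ ∧ 0 < N ∧
    ∀ (σ : ℝ) (U : ℕ → ℂ → ℂ), 0 ≤ σ → σ ≤ 1 → S2Fun σ M U →
    ∀ n : ℤ, N ≤ n.natAbs → S2Mesh R σ (U 0) n.natAbs →
    ∀ z : ℂ, (1 + 4 * (R / n.natAbs)) * |z.im| ≤ σ → ‖s2b (U 0) n z - 1‖ ≤ K₀ / n.natAbs := by
  obtain ⟨C, N1, hC, hN1, hkm⟩ := s2E_ker_model M R hR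
  obtain ⟨N2, hN2⟩ := exists_nat_ge (4 * R)
  have hpi := Real.pi_pos
  refine ⟨(3 * Real.pi * C + 14 * Real.pi ^ 2 * R) * Real.exp (2 * R) / (3 * Real.pi),
    max N1 (N2 + 1), by positivity, lt_max_of_lt_left hN1, ?_⟩
  intro σ U hσ0 hσ1 hU n hn hm z hz
  obtain ⟨q, hqdef⟩ : ∃ q, q = n.natAbs := ⟨_, rfl⟩
  rw [← hqdef] at hn hm hz ⊢
  have hq1 : N1 ≤ q := le_trans (le_max_left _ _) hn
  have hq2 : N2 + 1 ≤ q := le_trans (le_max_right _ _) hn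
  have hqR : 4 * R ≤ q := by
    have : ((N2 + 1 : ℕ) : ℝ) ≤ q := by exact_mod_cast hq2
    push_cast at this
    linarith
  have hqpos : 0 < (q : ℝ) := by linarith
  have hqn : (q : ℝ) = |(n : ℝ)| := by
    rw [hqdef, Nat.cast_natAbs, Int.cast_abs]
  have hn0 : n ≠ 0 := by
    rintro rfl
    simp at hqdef
    rw [hqdef] at hqpos
    simp at hqpos
  obtain ⟨A, hAdef⟩ : ∃ A, A = (3 * Real.pi * C + 14 * Real.pi ^ 2 * R) * Real.exp (2 * R) :=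
    ⟨_, rfl⟩
  have hA0 : 0 ≤ A := hAdef ▸ (by positivity)
  have hterm := fun i (hi : i < 2 * q) =>
    s2E4b_term hqn hσ0 hσ1 hU hR hqR hC hm (hkm σ U hσ0 hσ1 hU q hq1 hm) hi hz
  have hmodel := s2E_model n hn0 z
  rw [← hqdef] at hmodel
  rw [← hAdef] at hterm ⊢
  have hb : s2b (U 0) n z = -((q : ℂ) ^ 2 / (6 * Real.pi)) * ∑ i ∈ Finset.range (2 * q),
      s2seg (fun x => s2ker (U 0) z (s2X (U 0) q x ((i + 1) / 2)) (s2M (U 0) q x (i / 2))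
          * exp (-I * (n : ℂ) * (x - z))) (s2zeta (U 0) q (i + 1) z) (s2zeta (U 0) q i z) := by
    rw [hqdef]; rfl
  obtain ⟨S, hSdef⟩ : ∃ S, S = ∑ i ∈ Finset.range (2 * q),
      s2seg (fun x => s2ker (U 0) z (s2X (U 0) q x ((i + 1) / 2)) (s2M (U 0) q x (i / 2))
          * exp (-I * (n : ℂ) * (x - z))) (s2zeta (U 0) q (i + 1) z) (s2zeta (U 0) q i z) :=
    ⟨_, rfl⟩
  rw [← hSdef] at hb
  have hS : ‖S - -(6 * Real.pi / (q : ℂ) ^ 2)‖ ≤ (2 * q : ℕ) * (A / (q : ℝ) ^ 4) := by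
    rw [hSdef, ← hmodel, ← Finset.sum_sub_distrib]
    refine (norm_sum_le _ _).trans ?_
    have := Finset.sum_le_card_nsmul (Finset.range (2 * q)) _ (A / (q : ℝ) ^ 4)
      fun i hi => hterm i (Finset.mem_range.1 hi)
    rw [Finset.card_range, nsmul_eq_mul] at this
    exact this
  have hqc : (q : ℂ) ≠ 0 := by exact_mod_cast hqpos.ne'
  have hpic : (Real.pi : ℂ) ≠ 0 := by exact_mod_cast hpi.ne'
  have e : s2b (U 0) n z - 1 = -((q : ℂ) ^ 2 / (6 * Real.pi)) * (S - -(6 * Real.pi / (q : ℂ) ^ 2)) := by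
    rw [hb]
    field_simp
    ring
  rw [e, norm_mul, norm_neg]
  have e2 : ‖(q : ℂ) ^ 2 / (6 * Real.pi)‖ = (q : ℝ) ^ 2 / (6 * Real.pi) := by
    have : (q : ℂ) ^ 2 / (6 * Real.pi) = (((q : ℝ) ^ 2 / (6 * Real.pi) : ℝ) : ℂ) := by
      push_cast; ring
    rw [this, Complex.norm_real, Real.norm_eq_abs, abs_of_nonneg (by positivity)]
  rw [e2]
  calc (q : ℝ) ^ 2 / (6 * Real.pi) * ‖S - -(6 * Real.pi / (q : ℂ) ^ 2)‖
      ≤ (q : ℝ) ^ 2 / (6 * Real.pi) * ((2 * q : ℕ) * (A / (q : ℝ) ^ 4)) :=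
        mul_le_mul_of_nonneg_left hS (by positivity)
    _ = A / (3 * Real.pi) / q := by
        push_cast
        field_simp
        ring

end E4b

end Claimed.Agent.R269
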