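/-
Row 269, Section 2, UNIT E, leaf LF-S2-E5: holomorphy and periodicity of the coefficient `b_n = s2b u n`.
Architect + prover: helper57.  PROVED (no own sorry).
Uses: `s2E_inv`, `s2E_near_of_mesh`, `s2E_seg_dom` (E1), `s2E_ker_holo`, `s2E_ker_cont`, `s2E_ker_per` (EK), `s2P_param`, `s2P_translate`, `S2Mesh.*`.

`q = n.natAbs`, `κ = R/q ≤ 1/4` (choose `N ≥ 4R`, `N ≥ 1`), `Ω = {z | (1+4κ)|Im z| < σ}` (open: preimage of an open set under a continuous map).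
  `s2b u n z = -(q²/6π) ∑_{i<2q} s2seg (f_i z) (p_i z) (p_i' z)`, `p_i = ζ_{i+1}`, `p_i' = ζ_i`, `f_i z x = ker(z; X_{(i+1)/2} x, M_{i/2} x) e^{-in(x-z)}`,
  `s2seg (f z) (p z) (p' z) = (p' z - p z) * ∫ t in 0..1, G z t`,  `G z t = f z (x_t z)`, `x_t z = p z + t (p' z - p z)`.
HOLOMORPHY.  `ζ_i` holomorphic on `Ω` (`S2Inv.holo`).  For `t ∈ [0,1]`, `z ∈ Ω`: `(1+κ)|Im x_t z| < σ` (`s2E_seg_dom`, `S2Inv.im`), so `Y_k ∘ x_t` is holomorphic on `Ω`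
  (`S2Mesh.holo`, `DifferentiableOn.comp`; `X_j = Y_{2j}`, `M_j = Y_{2j+1}` by `s2E_Y_even/odd`), with values in `s2os σ` (`S2Mesh.im`: `|Im Y_k x| ≤ (1+κ)|Im x| < σ`);
  `z ∈ s2os σ`.  `s2E_ker_holo` + `exp` gives `DifferentiableOn ℂ (fun z => G z t) Ω`.
  Joint continuity of `(z,t) ↦ G z t` on `Ω ×ˢ Icc 0 1`: `ζ_i` continuous on `Ω`, `Y_k` continuous on the open domain (`DifferentiableOn.continuousOn`), `s2E_ker_cont.comp`.
  Then `s2P_param`, products, finite sum.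
PERIODICITY (closed domain).  `ζ_i (z+2π) = ζ_i z + 2π` (`S2Inv.per`); `s2P_translate` with `w = 2π`: for `x` on the segment (`x ∈ S2Dom` by `s2E_seg_dom`)
  `f_i (z+2π) (x+2π) = ker(z+2π; X x + 2π, M x + 2π) e^{-in(x-z)} = f_i z x`  (`S2Mesh.per`, `s2E_ker_per`, `S2Fun.per`).
-/
import Claimed.Agent.R269.S2.E1
import Claimed.Agent.R269.S2.EK

set_option autoImplicit false

namespace Claimed.Agent.R269

open Complex ComplexConjugate Filter Topology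

/-- the inverse mesh maps. -/
theorem s2E5_inv {R σ : ℝ} {u : ℂ → ℂ} {q : ℕ} (hκ0 : 0 ≤ R / q) (hκ : R / q ≤ 1 / 4)
    (hm : S2Mesh R σ u q) {i : ℕ} (hi : i ≤ 2 * q) :
    S2Inv (R / q) ((i : ℝ) * (Real.pi / q)) (R / (q : ℝ) ^ 2) σ (fun x => s2Y u q x i)
      (s2zeta u q i) :=
  s2E_inv hκ0 hκ (s2E_near_of_mesh hm hi)

theorem s2E5_isOpen (κ σ : ℝ) : IsOpen {z : ℂ | (1 + κ) * |z.im| < σ} :=
  isOpen_lt (continuous_const.mul (continuous_abs.comp Complex.continuous_im)) continuous_const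

/-- values of the mesh maps on the open domain lie in the open strip. -/
theorem s2E5_Y_os {R σ : ℝ} {u : ℂ → ℂ} {q : ℕ} (hm : S2Mesh R σ u q) {k : ℕ} (hk : k ≤ 2 * q)
    {x : ℂ} (hx : (1 + R / q) * |x.im| < σ) : s2Y u q x k ∈ s2os σ :=
  lt_of_le_of_lt (hm.im x (le_of_lt hx) k hk) hx

theorem s2E5_os_cs {σ : ℝ} {z : ℂ} (h : z ∈ s2os σ) : z ∈ s2cs σ := by
  have h' : |z.im| < σ := h
  exact (le_of_lt h' : |z.im| ≤ σ)

theorem s2E5_term_holo {σ M R : ℝ} {U : ℕ → ℂ → ℂ} {q : ℕ} (hσ : 0 ≤ σ) (hU : S2Fun σ M U)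
    (hκ0 : 0 ≤ R / q) (hκ : R / q ≤ 1 / 4) (hm : S2Mesh R σ (U 0) q) (n : ℤ) {i : ℕ}
    (hi : i < 2 * q) :
    DifferentiableOn ℂ (fun z => s2seg (fun x => s2ker (U 0) z (s2X (U 0) q x ((i + 1) / 2))
        (s2M (U 0) q x (i / 2)) * exp (-I * (n : ℂ) * (x - z)))
      (s2zeta (U 0) q (i + 1) z) (s2zeta (U 0) q i z))
      {z : ℂ | (1 + 4 * (R / q)) * |z.im| < σ} := by
  obtain ⟨κ, hκdef⟩ : ∃ κ, κ = R / (q : ℝ) := ⟨_, rfl⟩
  obtain ⟨Ω, hΩdef⟩ : ∃ Ω, Ω = {z : ℂ | (1 + 4 * (R / q)) * |z.im| < σ} := ⟨_, rfl⟩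
  have hΩ : IsOpen Ω := hΩdef ▸ s2E5_isOpen _ _
  have hI1 := s2E5_inv hκ0 hκ hm (i := i + 1) (by omega)
  have hI0 := s2E5_inv hκ0 hκ hm (i := i) (by omega)
  obtain ⟨p, hpdef⟩ : ∃ p, p = s2zeta (U 0) q (i + 1) := ⟨_, rfl⟩
  obtain ⟨p', hp'def⟩ : ∃ p', p' = s2zeta (U 0) q i := ⟨_, rfl⟩
  rw [← hpdef] at hI1
  rw [← hp'def] at hI0
  rw [← hΩdef, ← hpdef, ← hp'def]
  have hp : DifferentiableOn ℂ p Ω := hΩdef ▸ hI1.holo
  have hp' : DifferentiableOn ℂ p' Ω := hΩdef ▸ hI0.holo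
  have hzΩ : ∀ z ∈ Ω, (1 + 4 * (R / q)) * |z.im| < σ := fun z hz => by
    rw [hΩdef] at hz; exact hz
  have hk1 : 2 * ((i + 1) / 2) ≤ 2 * q := by omega
  have hk2 : 2 * (i / 2) + 1 ≤ 2 * q := by omega
  -- the point `x_t z`
  have hxdom : ∀ z ∈ Ω, ∀ t ∈ Set.Icc (0 : ℝ) 1,
      p z + (t : ℂ) * (p' z - p z) ∈ {x : ℂ | (1 + R / q) * |x.im| < σ} := by
    intro z hz t ht
    exact (s2E_seg_dom (σ := σ) hκ0 hκ (hI1.im z (hzΩ z hz).le) (hI0.im z (hzΩ z hz).le) ht).2.2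
      (hzΩ z hz)
  have hzos : ∀ z ∈ Ω, z ∈ s2os σ := by
    intro z hz
    have h1 := hzΩ z hz
    have h2 : |z.im| ≤ (1 + 4 * (R / q)) * |z.im| := by nlinarith [abs_nonneg z.im]
    exact lt_of_le_of_lt h2 h1
  have e : ∀ z, s2seg (fun x => s2ker (U 0) z (s2X (U 0) q x ((i + 1) / 2))
        (s2M (U 0) q x (i / 2)) * exp (-I * (n : ℂ) * (x - z))) (p z) (p' z)
      = (p' z - p z) * ∫ t in (0 : ℝ)..1,
          s2ker (U 0) z (s2Y (U 0) q (p z + (t : ℂ) * (p' z - p z)) (2 * ((i + 1) / 2)))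
            (s2Y (U 0) q (p z + (t : ℂ) * (p' z - p z)) (2 * (i / 2) + 1))
            * exp (-I * (n : ℂ) * (p z + (t : ℂ) * (p' z - p z) - z)) := by
    intro z
    simp only [s2seg, s2E_Y_even, s2E_Y_odd]
  simp only [e]
  refine (hp'.sub hp).mul (s2P_param hΩ ?_ ?_)
  · intro t ht
    have hx : DifferentiableOn ℂ (fun z => p z + (t : ℂ) * (p' z - p z)) Ω :=
      hp.add ((hp'.sub hp).const_mul _)
    have hY : ∀ k ≤ 2 * q, DifferentiableOn ℂ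
        (fun z => s2Y (U 0) q (p z + (t : ℂ) * (p' z - p z)) k) Ω := fun k hk =>
      (hm.holo k hk).comp hx fun z hz => hxdom z hz t ht
    refine DifferentiableOn.mul ?_ ?_
    · exact s2E_ker_holo hσ hU differentiableOn_id (hY _ hk1) (hY _ hk2) hzos
        (fun z hz => s2E5_Y_os hm hk1 (hxdom z hz t ht))
        (fun z hz => s2E5_Y_os hm hk2 (hxdom z hz t ht))
    · exact ((hx.sub differentiableOn_id).const_mul _).cexp
  · have hpc : ContinuousOn (fun w : ℂ × ℝ => p w.1) (Ω ×ˢ Set.Icc (0 : ℝ) 1) :=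
      hp.continuousOn.comp continuousOn_fst fun w hw => hw.1
    have hpc' : ContinuousOn (fun w : ℂ × ℝ => p' w.1) (Ω ×ˢ Set.Icc (0 : ℝ) 1) :=
      hp'.continuousOn.comp continuousOn_fst fun w hw => hw.1
    have htc : ContinuousOn (fun w : ℂ × ℝ => (w.2 : ℂ)) (Ω ×ˢ Set.Icc (0 : ℝ) 1) :=
      (Complex.continuous_ofReal.comp continuous_snd).continuousOn
    have hx : ContinuousOn (fun w : ℂ × ℝ => p w.1 + (w.2 : ℂ) * (p' w.1 - p w.1))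
        (Ω ×ˢ Set.Icc (0 : ℝ) 1) := hpc.add (htc.mul (hpc'.sub hpc))
    have hY : ∀ k ≤ 2 * q, ContinuousOn
        (fun w : ℂ × ℝ => s2Y (U 0) q (p w.1 + (w.2 : ℂ) * (p' w.1 - p w.1)) k)
        (Ω ×ˢ Set.Icc (0 : ℝ) 1) := fun k hk =>
      (hm.holo k hk).continuousOn.comp hx fun w hw => hxdom w.1 hw.1 w.2 hw.2
    refine ContinuousOn.mul ?_ ?_
    · have hmap : Set.MapsTo (fun w : ℂ × ℝ => ((w.1,
          s2Y (U 0) q (p w.1 + (w.2 : ℂ) * (p' w.1 - p w.1)) (2 * ((i + 1) / 2)),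
          s2Y (U 0) q (p w.1 + (w.2 : ℂ) * (p' w.1 - p w.1)) (2 * (i / 2) + 1)) : ℂ × ℂ × ℂ))
          (Ω ×ˢ Set.Icc (0 : ℝ) 1) (s2cs σ ×ˢ s2cs σ ×ˢ s2cs σ) := by
        intro w hw
        exact ⟨s2E5_os_cs (hzos w.1 hw.1), s2E5_os_cs (s2E5_Y_os hm hk1 (hxdom w.1 hw.1 w.2 hw.2)),
          s2E5_os_cs (s2E5_Y_os hm hk2 (hxdom w.1 hw.1 w.2 hw.2))⟩
      have hK := ContinuousOn.comp (g := fun p : ℂ × ℂ × ℂ => s2ker (U 0) p.1 p.2.1 p.2.2)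
        (s2E_ker_cont hσ hU) (continuousOn_fst.prodMk ((hY _ hk1).prodMk (hY _ hk2))) hmap
      exact hK
    · exact ((hx.sub continuousOn_fst).const_mul _).cexp

theorem s2E5_term_per {σ M R : ℝ} {U : ℕ → ℂ → ℂ} {q : ℕ} (hU : S2Fun σ M U)
    (hκ0 : 0 ≤ R / q) (hκ : R / q ≤ 1 / 4) (hm : S2Mesh R σ (U 0) q) (n : ℤ) {i : ℕ}
    (hi : i < 2 * q) {z : ℂ} (hz : (1 + 4 * (R / q)) * |z.im| ≤ σ) :
    s2seg (fun x => s2ker (U 0) (z + 2 * Real.pi) (s2X (U 0) q x ((i + 1) / 2))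
        (s2M (U 0) q x (i / 2)) * exp (-I * (n : ℂ) * (x - (z + 2 * Real.pi))))
      (s2zeta (U 0) q (i + 1) (z + 2 * Real.pi)) (s2zeta (U 0) q i (z + 2 * Real.pi))
    = s2seg (fun x => s2ker (U 0) z (s2X (U 0) q x ((i + 1) / 2))
        (s2M (U 0) q x (i / 2)) * exp (-I * (n : ℂ) * (x - z)))
      (s2zeta (U 0) q (i + 1) z) (s2zeta (U 0) q i z) := by
  have hI1 := s2E5_inv hκ0 hκ hm (i := i + 1) (by omega)
  have hI0 := s2E5_inv hκ0 hκ hm (i := i) (by omega)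
  have hk1 : 2 * ((i + 1) / 2) ≤ 2 * q := by omega
  have hk2 : 2 * (i / 2) + 1 ≤ 2 * q := by omega
  rw [hI1.per z hz, hI0.per z hz]
  refine s2P_translate fun t ht => ?_
  have hx := (s2E_seg_dom (σ := σ) hκ0 hκ (hI1.im z hz) (hI0.im z hz) ht).2.1 hz
  have e1 := hm.per _ hx _ hk1
  have e2 := hm.per _ hx _ hk2
  rw [s2E_Y_even, s2E_Y_even] at e1
  rw [s2E_Y_odd, s2E_Y_odd] at e2
  rw [e1, e2, s2E_ker_per hU.per]
  congr 2
  ring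

/-- E5: holomorphy and periodicity of `b_n`. -/
theorem s2E_holo (M R : ℝ) (hR : 0 < R) : ∃ N : ℕ, 0 < N ∧
    ∀ (σ : ℝ) (U : ℕ → ℂ → ℂ), 0 ≤ σ → σ ≤ 1 → S2Fun σ M U →
    ∀ n : ℤ, N ≤ n.natAbs → S2Mesh R σ (U 0) n.natAbs →
      DifferentiableOn ℂ (s2b (U 0) n) {z : ℂ | (1 + 4 * (R / n.natAbs)) * |z.im| < σ} ∧
      ∀ z : ℂ, (1 + 4 * (R / n.natAbs)) * |z.im| ≤ σ →
        s2b (U 0) n (z + 2 * Real.pi) = s2b (U 0) n z := by
  obtain ⟨N, hN⟩ := exists_nat_ge (4 * R)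
  refine ⟨N + 1, Nat.succ_pos _, ?_⟩
  intro σ U hσ0 _ hU n hn hm
  have hq : 4 * R < (n.natAbs : ℝ) := by
    have : ((N + 1 : ℕ) : ℝ) ≤ n.natAbs := by exact_mod_cast hn
    push_cast at this
    linarith
  have hqpos : 0 < (n.natAbs : ℝ) := by linarith
  have hκ0 : 0 ≤ R / (n.natAbs : ℝ) := (div_pos hR hqpos).le
  have hκ : R / (n.natAbs : ℝ) ≤ 1 / 4 := by
    rw [div_le_iff₀ hqpos]
    linarith
  constructor
  · have e : s2b (U 0) n = fun z => -((n.natAbs : ℂ) ^ 2 / (6 * Real.pi))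
        * ∑ i ∈ Finset.range (2 * n.natAbs),
          s2seg (fun x => s2ker (U 0) z (s2X (U 0) n.natAbs x ((i + 1) / 2))
              (s2M (U 0) n.natAbs x (i / 2)) * exp (-I * (n : ℂ) * (x - z)))
            (s2zeta (U 0) n.natAbs (i + 1) z) (s2zeta (U 0) n.natAbs i z) := by
      funext z
      rfl
    rw [e]
    refine DifferentiableOn.const_mul ?_ _
    exact DifferentiableOn.fun_sum fun i hi =>
      s2E5_term_holo hσ0 hU hκ0 hκ hm n (Finset.mem_range.1 hi)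
  · intro z hz
    unfold s2b
    congr 1
    exact Finset.sum_congr rfl fun i hi =>
      s2E5_term_per hU hκ0 hκ hm n (Finset.mem_range.1 hi) hz

end Claimed.Agent.R269
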