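/-
Row 269, Section 2, UNIT E, leaves LF-S2-E6a (exchange of integrals over a periodic curvilinear strip, Mathlib only) and
LF-S2-E6b (application: `s2dC u v n = s2fc (b_n v) n` on the real axis, continuity of `b_n` on the real axis).
Architect: helper57.  LEAF FILE with TWO leaves (sections `E6a`, `E6b`): edit ONLY your section, keep names + statements,
replace every `sorry` (helper lemmas with prefix `s2E6a_`, `s2E6b_`).  No paper.

LEAF E6a (`s2E_swap`).  `S = {(x,z) | a x < z ∧ z ≤ b x}`, `F(x,z) = S.indicator G`; `F(x+2π,z+2π) = F(x,z)`; `F(x,z) = 0` unless `|z-x| ≤ C`.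
  By `haα`, `hbβ`:  `(x,z) ∈ S ⟺ β z ≤ x ∧ x < α z`;  `β z ≤ α z` (otherwise `x = α z` gives `z ≤ a x ≤ b x < z`).
  LHS `= ∫_{x ∈ Ioc 0 2π} ∫_{z ∈ ℝ} F(x,z)` (`intervalIntegral.integral_of_le`, `integral_indicator`),
  `∫_ℝ F(x,z) dz = ∫_ℝ F(x,x+s) ds` (`integral_add_left_eq_self`); `H(x,s) = F(x,x+s)` is `2π`-periodic in `x`, bounded, measurable, zero for `|s| > C`:
  integrable on `Ioc 0 2π × ℝ`; Fubini (`integral_integral_swap`); for fixed `s`: `∫_0^{2π} H(x,s) dx = ∫_0^{2π} H(z-s,s) dz`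
  (`Function.Periodic.intervalIntegral_add_eq` + `intervalIntegral.integral_comp_sub_right`); Fubini back; `∫_ℝ F(z-s,z) ds = ∫_ℝ F(x,z) dx` (`integral_sub_left_eq_self`);
  `∫_ℝ F(x,z) dx = ∫_{Ico (β z) (α z)} G = ∫_{β z}^{α z} G` (`integral_Ico_eq_integral_Ioc`).
  Measurability of `S`: `measurableSet_lt`, `measurableSet_le` with `ha`, `hb`.

LEAF E6b (`s2E_fubini`).   `q = n.natAbs`, `κ = R/q ≤ 1/4`, width `σ = 0`: `S2Dom R 0 q x ⟺ Im x = 0`.   For `i ≤ 2q` put `a_i x = (Y_i x).re`, `α_i z = (ζ_i z).re`;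
  `s2E_real` (with `s2E_near_of_mesh`) gives `Y_i x = a_i x`, `ζ_i z = α_i z` (as complex numbers), `a_i x < z ⟺ x < α_i z`, continuity.
  `a_i x ≤ a_{i+1} x`: `S2Mesh.bd` (`a_{i+1} x - a_i x ≥ π/q - 2R/q² ≥ 0` for `q ≥ N`);  `|a_i x - x| ≤ 2π + R` ; `a_i (x+2π) = a_i x + 2π` (`S2Mesh.per`).
  `G_i(x,z) = e^{-inx} ker(z; X_{(i+1)/2} x, M_{i/2} x) v(z)` is continuous on `ℝ²` (`s2E_ker_cont` at `σ = 0`, continuity of `a_k`) and diagonally periodic
  (`s2E_ker_per`, `S2Mesh.per`, `e^{-2πin} = 1`).      With `s2P_real`: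
    `e^{-inx} s2dW u v q x = ∑_i ∫_{a_i x}^{a_{i+1} x} G_i(x,z) dz`,      `e^{-inz} s2b u n z v(z) = -(q²/6π) ∑_i ∫_{α_{i+1} z}^{α_i z} G_i(x,z) dx`.
  Exchange sum and integral (the inner integrals are continuous functions: `intervalIntegral.continuous_parametric_intervalIntegral_of_continuous`, difference of two
  integrals with a fixed lower end point), apply `s2E_swap` for each `i`.
  Continuity of `x ↦ s2b u n x` on the real axis: same lemma with `G(x,z) = ker(z;…x) e^{-in(x-z)}`.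
-/
import Claimed.Agent.R269.S2.E1
import Claimed.Agent.R269.S2.EK

set_option autoImplicit false

namespace Claimed.Agent.R269

open Complex ComplexConjugate Filter Topology MeasureTheory

section E6a

theorem s2E6a_integrable {S : Set (ℝ × ℝ)} (hS : MeasurableSet S) {C P : ℝ}
    (hSC : ∀ p ∈ S, |p.2| ≤ C) {Ψ : ℝ × ℝ → ℂ} (hΨ : Continuous Ψ) :
    Integrable (S.indicator Ψ) ((volume.restrict (Set.Ioc 0 P)).prod (volume : Measure ℝ)) := by
  have h1 : (volume.restrict (Set.Ioc 0 P)).prod (volume : Measure ℝ)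
      = (volume : Measure (ℝ × ℝ)).restrict (Set.Ioc 0 P ×ˢ Set.univ) := by
    rw [Measure.volume_eq_prod, ← Measure.prod_restrict, Measure.restrict_univ]
  rw [h1]
  have hK : IsCompact (Set.Icc (0 : ℝ) P ×ˢ Set.Icc (-C) C) := isCompact_Icc.prod isCompact_Icc
  have h2 : IntegrableOn Ψ (Set.Icc (0 : ℝ) P ×ˢ Set.Icc (-C) C) volume :=
    hΨ.continuousOn.integrableOn_compact hK
  have h3 : IntegrableOn Ψ (S ∩ (Set.Ioc 0 P ×ˢ Set.univ)) volume := by
    refine h2.mono_set ?_
    rintro p ⟨hp1, hp2⟩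
    exact ⟨Set.Ioc_subset_Icc_self hp2.1, abs_le.1 (hSC p hp1)⟩
  rw [integrable_indicator_iff hS, IntegrableOn, Measure.restrict_restrict hS]
  exact h3

/-- E6a: exchange of the order of integration over a periodic curvilinear strip. -/
theorem s2E_swap {a b α β : ℝ → ℝ} {G : ℝ → ℝ → ℂ} {C : ℝ}
    (ha : Continuous a) (hb : Continuous b) (hab : ∀ x, a x ≤ b x)
    (haα : ∀ x z, a x < z ↔ x < α z) (hbβ : ∀ x z, b x < z ↔ x < β z)
    (hap : ∀ x, a (x + 2 * Real.pi) = a x + 2 * Real.pi)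
    (hbp : ∀ x, b (x + 2 * Real.pi) = b x + 2 * Real.pi)
    (haC : ∀ x, |a x - x| ≤ C) (hbC : ∀ x, |b x - x| ≤ C)
    (hG : Continuous (fun p : ℝ × ℝ => G p.1 p.2))
    (hGp : ∀ x z, G (x + 2 * Real.pi) (z + 2 * Real.pi) = G x z) :
    ∫ x in (0 : ℝ)..(2 * Real.pi), ∫ z in a x..b x, G x z
      = ∫ z in (0 : ℝ)..(2 * Real.pi), ∫ x in β z..α z, G x z := by
  classical
  set P : ℝ := 2 * Real.pi with hP
  have hP0 : 0 < P := by positivity
  set F : ℝ → ℝ → ℂ := fun x z => if a x < z ∧ z ≤ b x then G x z else 0 with hF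
  have hβα : ∀ z, β z ≤ α z := by
    intro z
    by_contra h
    rw [not_le] at h
    have h1 : b (α z) < z := (hbβ _ _).2 h
    have h2 : ¬ a (α z) < z := fun h3 => lt_irrefl _ ((haα _ _).1 h3)
    exact h2 (lt_of_le_of_lt (hab _) h1)
  have s1 : ∀ x, ∫ z in a x..b x, G x z = ∫ z, F x z := by
    intro x
    rw [intervalIntegral.integral_of_le (hab x), ← integral_indicator measurableSet_Ioc]
    congr 1
    funext z
    simp only [Set.indicator, Set.mem_Ioc, hF]
  have s2 : ∀ z, ∫ x in β z..α z, G x z = ∫ x, F x z := by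
    intro z
    rw [intervalIntegral.integral_of_le (hβα z), ← integral_Ico_eq_integral_Ioc,
      ← integral_indicator measurableSet_Ico]
    congr 1
    funext x
    have hiff : (x ∈ Set.Ico (β z) (α z)) ↔ (a x < z ∧ z ≤ b x) := by
      rw [Set.mem_Ico, haα, ← not_lt, ← hbβ, not_lt, and_comm]
    by_cases hx : x ∈ Set.Ico (β z) (α z)
    · rw [Set.indicator_of_mem hx, hF]
      simp only
      rw [if_pos (hiff.1 hx)]
    · rw [Set.indicator_of_notMem hx, hF]
      simp only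
      rw [if_neg (fun h => hx (hiff.2 h))]
  -- integrability
  have I1 : Integrable (Function.uncurry fun x s => F x (x + s))
      ((volume.restrict (Set.Ioc 0 P)).prod (volume : Measure ℝ)) := by
    have hS : MeasurableSet {p : ℝ × ℝ | a p.1 < p.1 + p.2 ∧ p.1 + p.2 ≤ b p.1} := by
      apply MeasurableSet.inter
      · exact measurableSet_lt (ha.measurable.comp measurable_fst)
          (measurable_fst.add measurable_snd)
      · exact measurableSet_le (measurable_fst.add measurable_snd)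
          (hb.measurable.comp measurable_fst)
    have := s2E6a_integrable (P := P) (C := C) hS (Ψ := fun p => G p.1 (p.1 + p.2)) ?_ ?_
    · convert this using 1
      funext p
      simp only [Function.uncurry, Set.indicator, Set.mem_ofPred_eq, hF]
    · rintro p ⟨h1, h2⟩
      have h3 := abs_le.1 (haC p.1)
      have h4 := abs_le.1 (hbC p.1)
      rw [abs_le]; constructor <;> linarith
    · exact hG.comp (continuous_fst.prodMk (continuous_fst.add continuous_snd))
  have I2 : Integrable (Function.uncurry fun z s => F (z - s) z)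
      ((volume.restrict (Set.Ioc 0 P)).prod (volume : Measure ℝ)) := by
    have hS : MeasurableSet {p : ℝ × ℝ | a (p.1 - p.2) < p.1 ∧ p.1 ≤ b (p.1 - p.2)} := by
      apply MeasurableSet.inter
      · exact measurableSet_lt (ha.measurable.comp (measurable_fst.sub measurable_snd))
          measurable_fst
      · exact measurableSet_le measurable_fst
          (hb.measurable.comp (measurable_fst.sub measurable_snd))
    have := s2E6a_integrable (P := P) (C := C) hS (Ψ := fun p => G (p.1 - p.2) p.1) ?_ ?_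
    · convert this using 1
      funext p
      simp only [Function.uncurry, Set.indicator, Set.mem_ofPred_eq, hF]
    · rintro p ⟨h1, h2⟩
      have h3 := abs_le.1 (haC (p.1 - p.2))
      have h4 := abs_le.1 (hbC (p.1 - p.2))
      rw [abs_le]; constructor <;> linarith
    · exact hG.comp ((continuous_fst.sub continuous_snd).prodMk continuous_fst)
  have L1 : ∫ x in (0 : ℝ)..P, ∫ z in a x..b x, G x z
      = ∫ s, ∫ x in Set.Ioc 0 P, F x (x + s) := by
    rw [intervalIntegral.integral_of_le hP0.le]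
    have h1 : ∀ x, ∫ z in a x..b x, G x z = ∫ s, F x (x + s) := fun x => by
      rw [s1 x]; exact (integral_add_left_eq_self (fun z => F x z) x).symm
    simp_rw [h1]
    exact integral_integral_swap I1
  have L2 : ∫ z in (0 : ℝ)..P, ∫ x in β z..α z, G x z
      = ∫ s, ∫ z in Set.Ioc 0 P, F (z - s) z := by
    rw [intervalIntegral.integral_of_le hP0.le]
    have h1 : ∀ z, ∫ x in β z..α z, G x z = ∫ s, F (z - s) z := fun z => by
      rw [s2 z]; exact (integral_sub_left_eq_self (fun x => F x z) volume z).symm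
    simp_rw [h1]
    exact integral_integral_swap I2
  rw [L1, L2]
  congr 1
  funext s
  have hper : Function.Periodic (fun x => F x (x + s)) P := by
    intro x
    simp only [hF]
    have e1 : x + P + s = (x + s) + P := by ring
    rw [e1, hap, hbp, hGp]
    simp only [add_lt_add_iff_right, add_le_add_iff_right]
  rw [← intervalIntegral.integral_of_le hP0.le, ← intervalIntegral.integral_of_le hP0.le]
  have e2 : ∫ z in (0 : ℝ)..P, F (z - s) z = ∫ z in (0 : ℝ)..P, (fun x => F x (x + s)) (z - s) := by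
    congr 1
    funext z
    simp
  rw [e2, intervalIntegral.integral_comp_sub_right (fun x => F x (x + s)) s]
  have e3 := hper.intervalIntegral_add_eq 0 (0 - s)
  rw [zero_add] at e3
  rw [e3]
  congr 1
  ring

end E6a

section E6b

theorem s2E6b_cont_int {G : ℝ → ℝ → ℂ} (hG : Continuous (fun p : ℝ × ℝ => G p.1 p.2))
    {a b : ℝ → ℝ} (ha : Continuous a) (hb : Continuous b) :
    Continuous (fun x => ∫ z in a x..b x, G x z) := by
  have hc : ∀ x, Continuous (fun z => G x z) := fun x =>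
    hG.comp (continuous_const.prodMk continuous_id)
  have h1 : ∀ x, ∫ z in a x..b x, G x z
      = (∫ z in (0 : ℝ)..b x, G x z) - ∫ z in (0 : ℝ)..a x, G x z := by
    intro x
    rw [intervalIntegral.integral_interval_sub_left ((hc x).intervalIntegrable _ _)
      ((hc x).intervalIntegrable _ _)]
  simp_rw [h1]
  exact (intervalIntegral.continuous_parametric_intervalIntegral_of_continuous hG hb).sub
    (intervalIntegral.continuous_parametric_intervalIntegral_of_continuous hG ha)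

/-- facts on the maps of the double mesh on the real axis. -/
theorem s2E6b_facts {R : ℝ} (hR : 0 < R) {u : ℂ → ℂ} {q : ℕ} (hq1 : 1 ≤ q)
    (hq : 4 * R ≤ q) (hm : S2Mesh R 0 u q) {k : ℕ} (hk : k ≤ 2 * q) :
    (∀ x : ℝ, s2Y u q x k = (((s2Y u q x k).re : ℝ) : ℂ)) ∧
    (∀ z : ℝ, s2zeta u q k z = (((s2zeta u q k z).re : ℝ) : ℂ)) ∧
    (∀ x z : ℝ, (s2Y u q x k).re < z ↔ x < (s2zeta u q k z).re) ∧
    Continuous (fun x : ℝ => (s2Y u q x k).re) ∧ Continuous (fun z : ℝ => (s2zeta u q k z).re) ∧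
    (∀ x : ℝ, (s2Y u q ((x + 2 * Real.pi : ℝ) : ℂ) k).re = (s2Y u q x k).re + 2 * Real.pi) ∧
    (∀ x : ℝ, |(s2Y u q x k).re - x - k * (Real.pi / q)| ≤ R / (q : ℝ) ^ 2) := by
  have hq0 : (0 : ℝ) < q := by exact_mod_cast hq1
  have hκ0 : 0 ≤ R / q := by positivity
  have hκ : R / q ≤ 1 / 4 := by rw [div_le_iff₀ hq0]; linarith
  have hnear := s2E_near_of_mesh hm hk
  obtain ⟨h1, h2, h3, h4, h5⟩ := s2E_real hκ0 hκ le_rfl hnear
  change ∀ z : ℝ, (s2zeta u q k z).im = 0 at h2
  have hdom : ∀ x : ℝ, S2Dom R 0 q (x : ℂ) := by intro x; simp [S2Dom]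
  refine ⟨?_, ?_, h3, h4, h5, ?_, ?_⟩
  · intro x
    apply Complex.ext
    · simp
    · simpa using h1 x
  · intro z
    apply Complex.ext
    · simp
    · simpa using h2 z
  · intro x
    have := hm.per x (hdom x) k hk
    push_cast
    rw [this]
    simp
  · intro x
    have := hm.bd x (hdom x) k hk
    refine le_trans ?_ this
    have e : (s2Y u q x k).re - x - k * (Real.pi / q)
        = (s2Y u q x k - x - (k : ℂ) * ((Real.pi / q : ℝ) : ℂ)).re := by
      simp
    rw [e]
    exact Complex.abs_re_le_norm _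

/-- the kernel along the mesh is continuous on the real plane. -/
theorem s2E6b_ker_cont {M R : ℝ} (hR : 0 < R) {U : ℕ → ℂ → ℂ} (hU : S2Fun 0 M U) {q : ℕ}
    (hq1 : 1 ≤ q) (hq : 4 * R ≤ q) (hm : S2Mesh R 0 (U 0) q) {i : ℕ} (hi : i < 2 * q) :
    Continuous (fun p : ℝ × ℝ => s2ker (U 0) (p.2 : ℂ) (s2X (U 0) q (p.1 : ℂ) ((i + 1) / 2))
      (s2M (U 0) q (p.1 : ℂ) (i / 2))) := by
  have hk1 : 2 * ((i + 1) / 2) ≤ 2 * q := by omega
  have hk2 : 2 * (i / 2) + 1 ≤ 2 * q := by omega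
  obtain ⟨a1, -, -, a4, -, -, -⟩ := s2E6b_facts hR hq1 hq hm hk1
  obtain ⟨b1, -, -, b4, -, -, -⟩ := s2E6b_facts hR hq1 hq hm hk2
  have hc := s2E_ker_cont le_rfl hU
  have hreal : ∀ t : ℝ, (t : ℂ) ∈ s2cs 0 := by intro t; simp [s2cs]
  have hmap : Continuous (fun p : ℝ × ℝ => (((p.2 : ℝ) : ℂ),
      (((s2Y (U 0) q (p.1 : ℂ) (2 * ((i + 1) / 2))).re : ℝ) : ℂ),
      (((s2Y (U 0) q (p.1 : ℂ) (2 * (i / 2) + 1)).re : ℝ) : ℂ))) := by
    refine (Complex.continuous_ofReal.comp continuous_snd).prodMk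
      ((Complex.continuous_ofReal.comp (a4.comp continuous_fst)).prodMk
        (Complex.continuous_ofReal.comp (b4.comp continuous_fst)))
  have h2 := hc.comp_continuous hmap (fun p => ⟨hreal _, hreal _, hreal _⟩)
  refine h2.congr (fun p => ?_)
  simp only [Function.comp]
  rw [← a1, ← b1, s2E_Y_even, s2E_Y_odd]

/-- the kernel along the mesh is diagonally periodic. -/
theorem s2E6b_ker_per {M R : ℝ} {U : ℕ → ℂ → ℂ} (hU : S2Fun 0 M U) {q : ℕ}
    (hm : S2Mesh R 0 (U 0) q) {i : ℕ} (hi : i < 2 * q) (x z : ℝ) :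
    s2ker (U 0) ((z + 2 * Real.pi : ℝ) : ℂ) (s2X (U 0) q ((x + 2 * Real.pi : ℝ) : ℂ) ((i + 1) / 2))
      (s2M (U 0) q ((x + 2 * Real.pi : ℝ) : ℂ) (i / 2))
    = s2ker (U 0) (z : ℂ) (s2X (U 0) q (x : ℂ) ((i + 1) / 2)) (s2M (U 0) q (x : ℂ) (i / 2)) := by
  have hk1 : 2 * ((i + 1) / 2) ≤ 2 * q := by omega
  have hk2 : 2 * (i / 2) + 1 ≤ 2 * q := by omega
  have hdom : S2Dom R 0 q (x : ℂ) := by simp [S2Dom]
  have p1 := hm.per x hdom _ hk1
  have p2 := hm.per x hdom _ hk2
  rw [s2E_Y_even, s2E_Y_even] at p1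
  rw [s2E_Y_odd, s2E_Y_odd] at p2
  push_cast
  rw [p1, p2]
  exact s2E_ker_per hU.per _ _ _

theorem s2E6b_exp_per (n : ℤ) (x : ℝ) :
    exp (-I * (n : ℂ) * ((x + 2 * Real.pi : ℝ) : ℂ)) = exp (-I * (n : ℂ) * (x : ℂ)) := by
  have e : -I * (n : ℂ) * ((x + 2 * Real.pi : ℝ) : ℂ)
      = -I * (n : ℂ) * (x : ℂ) + ((-n : ℤ) : ℂ) * (2 * Real.pi * I) := by
    push_cast; ring
  rw [e, Complex.exp_add, Complex.exp_int_mul_two_pi_mul_I, mul_one]

/-- the core of E6b, for arbitrary `q` and `n`. -/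
theorem s2E6b_main {M R : ℝ} (hR : 0 < R) {U : ℕ → ℂ → ℂ} (hU : S2Fun 0 M U) {q : ℕ}
    (hq1 : 1 ≤ q) (hq : 4 * R ≤ q) (hm : S2Mesh R 0 (U 0) q) (n : ℤ) :
    Continuous (fun z : ℝ => ∑ i ∈ Finset.range (2 * q),
      s2seg (fun x => s2ker (U 0) z (s2X (U 0) q x ((i + 1) / 2)) (s2M (U 0) q x (i / 2))
          * exp (-I * (n : ℂ) * (x - z)))
        (s2zeta (U 0) q (i + 1) z) (s2zeta (U 0) q i z)) ∧
    ∀ v : ℂ → ℂ, Continuous (fun x : ℝ => v (x : ℂ)) →
      (∀ x : ℝ, v ((x : ℂ) + 2 * Real.pi) = v x) →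
      ∫ x in (0 : ℝ)..(2 * Real.pi), exp (-I * (n : ℂ) * (x : ℂ)) * s2dW (U 0) v q (x : ℂ)
        = ∫ z in (0 : ℝ)..(2 * Real.pi), exp (-I * (n : ℂ) * (z : ℂ)) *
          ((∑ i ∈ Finset.range (2 * q),
            s2seg (fun x => s2ker (U 0) z (s2X (U 0) q x ((i + 1) / 2)) (s2M (U 0) q x (i / 2))
                * exp (-I * (n : ℂ) * (x - z)))
              (s2zeta (U 0) q (i + 1) z) (s2zeta (U 0) q i z)) * v z) := by
  have hq0 : (0 : ℝ) < q := by exact_mod_cast hq1
  have F := fun (k : ℕ) (hk : k ≤ 2 * q) => s2E6b_facts hR hq1 hq hm hk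
  have hKc := fun (i : ℕ) (hi : i < 2 * q) => s2E6b_ker_cont hR hU hq1 hq hm hi
  -- each term of `s2b` as an interval integral
  have hterm : ∀ i < 2 * q, ∀ z : ℝ,
      s2seg (fun x => s2ker (U 0) z (s2X (U 0) q x ((i + 1) / 2)) (s2M (U 0) q x (i / 2))
          * exp (-I * (n : ℂ) * (x - z))) (s2zeta (U 0) q (i + 1) z) (s2zeta (U 0) q i z)
      = ∫ x in (s2zeta (U 0) q (i + 1) z).re..(s2zeta (U 0) q i z).re,
          s2ker (U 0) z (s2X (U 0) q (x : ℂ) ((i + 1) / 2)) (s2M (U 0) q (x : ℂ) (i / 2))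
            * exp (-I * (n : ℂ) * ((x : ℂ) - z)) := by
    intro i hi z
    rw [(F (i + 1) (by omega)).2.1 z, (F i (by omega)).2.1 z, s2P_real]
    simp only [Complex.ofReal_re]
  constructor
  · refine continuous_finsetSum _ (fun i hi => ?_)
    have hi' : i < 2 * q := Finset.mem_range.1 hi
    simp_rw [hterm i hi']
    refine s2E6b_cont_int (G := fun z x =>
      s2ker (U 0) z (s2X (U 0) q (x : ℂ) ((i + 1) / 2)) (s2M (U 0) q (x : ℂ) (i / 2))
            * exp (-I * (n : ℂ) * ((x : ℂ) - z))) ?_ (F (i + 1) (by omega)).2.2.2.2.1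
      (F i (by omega)).2.2.2.2.1
    refine ((hKc i hi').comp continuous_swap).mul ?_
    refine Complex.continuous_exp.comp (continuous_const.mul ?_)
    exact (Complex.continuous_ofReal.comp continuous_snd).sub
      (Complex.continuous_ofReal.comp continuous_fst)
  · intro v hv hvp
    -- the functions `G_i`
    have hGc : ∀ i < 2 * q, Continuous (fun p : ℝ × ℝ => exp (-I * (n : ℂ) * (p.1 : ℂ)) *
        (s2ker (U 0) (p.2 : ℂ) (s2X (U 0) q (p.1 : ℂ) ((i + 1) / 2)) (s2M (U 0) q (p.1 : ℂ) (i / 2))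
          * v (p.2 : ℂ))) := by
      intro i hi
      refine Continuous.mul ?_ ((hKc i hi).mul (hv.comp continuous_snd))
      exact Complex.continuous_exp.comp
        (continuous_const.mul (Complex.continuous_ofReal.comp continuous_fst))
    have hL : ∀ x : ℝ, exp (-I * (n : ℂ) * (x : ℂ)) * s2dW (U 0) v q (x : ℂ)
        = ∑ i ∈ Finset.range (2 * q), ∫ z in (s2Y (U 0) q x i).re..(s2Y (U 0) q x (i + 1)).re,
          exp (-I * (n : ℂ) * (x : ℂ)) *
            (s2ker (U 0) (z : ℂ) (s2X (U 0) q (x : ℂ) ((i + 1) / 2)) (s2M (U 0) q (x : ℂ) (i / 2))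
              * v (z : ℂ)) := by
      intro x
      unfold s2dW
      rw [Finset.mul_sum]
      refine Finset.sum_congr rfl (fun i hi => ?_)
      have hi' : i < 2 * q := Finset.mem_range.1 hi
      rw [(F (i + 1) (by omega)).1 x, (F i (by omega)).1 x, s2P_real,
        intervalIntegral.integral_const_mul]
      simp only [Complex.ofReal_re]
    have hRr : ∀ z : ℝ, exp (-I * (n : ℂ) * (z : ℂ)) *
          ((∑ i ∈ Finset.range (2 * q),
            s2seg (fun x => s2ker (U 0) z (s2X (U 0) q x ((i + 1) / 2)) (s2M (U 0) q x (i / 2))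
                * exp (-I * (n : ℂ) * (x - z)))
              (s2zeta (U 0) q (i + 1) z) (s2zeta (U 0) q i z)) * v z)
        = ∑ i ∈ Finset.range (2 * q),
          ∫ x in (s2zeta (U 0) q (i + 1) z).re..(s2zeta (U 0) q i z).re,
          exp (-I * (n : ℂ) * (x : ℂ)) *
            (s2ker (U 0) (z : ℂ) (s2X (U 0) q (x : ℂ) ((i + 1) / 2)) (s2M (U 0) q (x : ℂ) (i / 2))
              * v (z : ℂ)) := by
      intro z
      rw [Finset.sum_mul, Finset.mul_sum]
      refine Finset.sum_congr rfl (fun i hi => ?_)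
      have hi' : i < 2 * q := Finset.mem_range.1 hi
      rw [hterm i hi' z, ← intervalIntegral.integral_mul_const,
        ← intervalIntegral.integral_const_mul]
      refine intervalIntegral.integral_congr (fun x _ => ?_)
      have e : exp (-I * (n : ℂ) * (x : ℂ))
          = exp (-I * (n : ℂ) * (z : ℂ)) * exp (-I * (n : ℂ) * ((x : ℂ) - z)) := by
        rw [← Complex.exp_add]; congr 1; ring
      rw [e]; ring
    simp_rw [hL, hRr]
    rw [intervalIntegral.integral_finsetSum, intervalIntegral.integral_finsetSum]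
    · refine Finset.sum_congr rfl (fun i hi => ?_)
      have hi' : i < 2 * q := Finset.mem_range.1 hi
      obtain ⟨-, -, a3, a4, -, a6, a7⟩ := F i (by omega)
      obtain ⟨-, -, b3, b4, -, b6, b7⟩ := F (i + 1) (by omega)
      have hbound : ∀ k ≤ 2 * q, ∀ x : ℝ,
          |(s2Y (U 0) q x k).re - x - k * (Real.pi / q)| ≤ R / (q : ℝ) ^ 2 →
          |(s2Y (U 0) q x k).re - x| ≤ 2 * Real.pi + R := by
        intro k hk x h
        have h1 : (k : ℝ) * (Real.pi / q) ≤ 2 * Real.pi := by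
          have : (k : ℝ) ≤ 2 * q := by exact_mod_cast hk
          rw [mul_div_assoc', div_le_iff₀ hq0]
          nlinarith [Real.pi_pos]
        have h2 : 0 ≤ (k : ℝ) * (Real.pi / q) := by positivity
        have h3 : R / (q : ℝ) ^ 2 ≤ R := by
          apply div_le_self hR.le
          have : (1 : ℝ) ≤ q := by exact_mod_cast hq1
          nlinarith
        rw [abs_le] at h ⊢
        constructor <;> linarith [h.1, h.2]
      refine s2E_swap (C := 2 * Real.pi + R)
        (G := fun x z => exp (-I * (n : ℂ) * (x : ℂ)) *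
            (s2ker (U 0) (z : ℂ) (s2X (U 0) q (x : ℂ) ((i + 1) / 2)) (s2M (U 0) q (x : ℂ) (i / 2))
              * v (z : ℂ))) a4 b4 ?_ a3 b3 a6 b6
        (fun x => hbound i (by omega) x (a7 x)) (fun x => hbound (i + 1) (by omega) x (b7 x))
        (hGc i hi') ?_
      · intro x
        have h1 := abs_le.1 (a7 x)
        have h2 := abs_le.1 (b7 x)
        have h3 : 2 * (R / (q : ℝ) ^ 2) ≤ Real.pi / q := by
          rw [sq, ← div_div, mul_div_assoc', div_le_div_iff_of_pos_right hq0, mul_div_assoc',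
            div_le_iff₀ hq0]
          nlinarith [Real.pi_gt_three]
        push_cast at h2
        have e : ((i : ℝ) + 1) * (Real.pi / q) = i * (Real.pi / q) + Real.pi / q := by ring
        rw [e] at h2
        linarith [h1.2, h2.1]
      · intro x z
        rw [s2E6b_exp_per, s2E6b_ker_per hU hm hi']
        congr 2
        push_cast
        exact hvp z
    · intro i hi
      have hi' : i < 2 * q := Finset.mem_range.1 hi
      refine Continuous.intervalIntegrable ?_ _ _
      exact s2E6b_cont_int (G := fun z x => exp (-I * (n : ℂ) * (x : ℂ)) *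
            (s2ker (U 0) (z : ℂ) (s2X (U 0) q (x : ℂ) ((i + 1) / 2)) (s2M (U 0) q (x : ℂ) (i / 2))
              * v (z : ℂ))) ((hGc i hi').comp continuous_swap) (F (i + 1) (by omega)).2.2.2.2.1
        (F i (by omega)).2.2.2.2.1
    · intro i hi
      have hi' : i < 2 * q := Finset.mem_range.1 hi
      refine Continuous.intervalIntegrable ?_ _ _
      exact s2E6b_cont_int (G := fun x z => exp (-I * (n : ℂ) * (x : ℂ)) *
            (s2ker (U 0) (z : ℂ) (s2X (U 0) q (x : ℂ) ((i + 1) / 2)) (s2M (U 0) q (x : ℂ) (i / 2))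
              * v (z : ℂ))) (hGc i hi') (F i (by omega)).2.2.2.1 (F (i + 1) (by omega)).2.2.2.1

/-- E6: Fubini on the real axis. -/
theorem s2E_fubini (M R : ℝ) (hR : 0 < R) : ∃ N : ℕ, 0 < N ∧
    ∀ U : ℕ → ℂ → ℂ, S2Fun 0 M U → ∀ n : ℤ, N ≤ n.natAbs → S2Mesh R 0 (U 0) n.natAbs →
      Continuous (fun x : ℝ => s2b (U 0) n (x : ℂ)) ∧
      ∀ v : ℂ → ℂ, Continuous (fun x : ℝ => v (x : ℂ)) →
        (∀ x : ℝ, v ((x : ℂ) + 2 * Real.pi) = v x) →
        s2dC (U 0) v n = s2fc (fun z => s2b (U 0) n z * v z) n := by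
  refine ⟨max 1 ⌈4 * R⌉₊, lt_of_lt_of_le one_pos (le_max_left _ _), ?_⟩
  intro U hU n hn hm
  have hq1 : 1 ≤ n.natAbs := (le_max_left _ _).trans hn
  have hq : 4 * R ≤ (n.natAbs : ℝ) :=
    (Nat.le_ceil _).trans (by exact_mod_cast (le_max_right _ _).trans hn)
  obtain ⟨h1, h2⟩ := s2E6b_main hR hU hq1 hq hm n
  constructor
  · unfold s2b
    exact continuous_const.mul h1
  · intro v hv hvp
    have h3 := h2 v hv hvp
    unfold s2dC s2fc s2b
    rw [h3]
    have e : ∀ z : ℝ, exp (-I * (n : ℂ) * (z : ℂ)) *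
        (-((n.natAbs : ℂ) ^ 2 / (6 * Real.pi)) * (∑ i ∈ Finset.range (2 * n.natAbs),
            s2seg (fun x => s2ker (U 0) z (s2X (U 0) n.natAbs x ((i + 1) / 2))
              (s2M (U 0) n.natAbs x (i / 2)) * exp (-I * (n : ℂ) * (x - z)))
              (s2zeta (U 0) n.natAbs (i + 1) z) (s2zeta (U 0) n.natAbs i z)) * v z)
        = -((n.natAbs : ℂ) ^ 2 / (6 * Real.pi)) * (exp (-I * (n : ℂ) * (z : ℂ)) *
          ((∑ i ∈ Finset.range (2 * n.natAbs),
            s2seg (fun x => s2ker (U 0) z (s2X (U 0) n.natAbs x ((i + 1) / 2))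
              (s2M (U 0) n.natAbs x (i / 2)) * exp (-I * (n : ℂ) * (x - z)))
              (s2zeta (U 0) n.natAbs (i + 1) z) (s2zeta (U 0) n.natAbs i z)) * v z)) := by
      intro z; ring
    simp_rw [e]
    rw [intervalIntegral.integral_const_mul]
    ring

end E6b

end Claimed.Agent.R269
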