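/-
Row 269, Section 2, UNIT E (export): the derivative of the constraint is the identity up to `K/|n|`
in the weighted `ℓ²` norm, uniformly in the width `σ ∈ [0,1]`  (replaces P1 Prop 2.4 + Lemma 2.7).
Statement + route by helper159.        Inputs: `s2C_mesh`, `s2Q_rep`, units A, P.
CUT by helper57: E1 = `S2/E1.lean`, kernel regularity + E2 = `S2/EK.lean`, E3 + E4 = `S2/E4.lean`, E5 = `S2/E5.lean`, E6 = `S2/E6.lean`;
THIS FILE = E7: `s2E_main` is PROVED below from `s2C_mesh`, `s2E_sup`, `s2E_holo`, `s2E_fubini`, unit A and `s2P_contour`.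

`q = |n|`, `R, N` from `s2C_mesh M`, `κ = R/q ≤ 1/4`, `Y_i(x) = x + iπ/q + e_i(x)`, `|e_i| ≤ R/q²`, `e_i` `κ`-Lipschitz, real on reals.
E1 (inverse maps) for `(1+4R/q)|Im z| ≤ σ`: the iterates defining `ζ_i(z) = s2zeta u q i z` stay in `{(1+R/q)|Im ζ| ≤ σ}`
     (`|Im e_i(ζ)| ≤ κ|Im ζ|`), converge geometrically;  `Y_i(ζ_i z) = z`, `|ζ_i z - (z - iπ/q)| ≤ R/q²`, `|Im(ζ_i z - z)| ≤ 2κ|Im z|`,
     `ζ_i` is `2`-Lipschitz, holomorphic on `{(1+4R/q)|Im z| < σ}` (`s2P_lim_holo`), `ζ_i(z+2π) = ζ_i z + 2π`, real on reals;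
     on the real axis `Y_i` is a strictly increasing bijection with inverse `ζ_i`, and `ζ_{i+1} z < ζ_i z`; `ζ_0 z = z`, `ζ_{2q} z = z - 2π`.
E2 (kernel) `∀ M ∃ C`: for `z,V,μ ∈ s2cs σ`, `|z-V|,|μ-V| ≤ ρ ≤ 1`:  `‖s2ker u z V μ - (3/2 (z-V)² - 1/2 (μ-V)²)‖ ≤ C ρ³`.
E3 (model) `∑_{i<2q} ∫_{iπ/q}^{(i+1)π/q} (3/2 (s - ⌈i/2⌉δ)² - δ²/8) e^{ins} ds = -6π/q²`   (`⌈i/2⌉ = (i+1)/2`, `e^{inδ} = 1`,
     `∫_0^π ξ² cos ξ dξ = -2π`).
E4 (sup bound) `‖s2b u n z - 1‖ ≤ K₀/q` for `(1+4R/q)|Im z| ≤ σ`:  compare each `∫_{ζ_{i+1}}^{ζ_i} ker·e^{-in(x-z)} dx` with the model integral over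
     `[z-(i+1)π/q, z-iπ/q]`: kernel error `O(q^{-3})` on a path of length `O(1/q)`; end point errors `O(q^{-2})·O(q^{-2})` (the model
     integrand is entire: additivity of `s2seg`); `|e^{-in(x-z)}| ≤ e^{q·2κ|Im z|} ≤ e^{2R}`; `2q` terms, prefactor `q²/6π`.
E5 (holomorphy) `s2b u n` is holomorphic on `{(1+4R/q)|Im z| < σ}` and `2π`-periodic:  `s2P_param`; for fixed `t` the integrand
     `z ↦ ker(z; V_i(x_t z), μ_i(x_t z)) e^{…}`, `x_t z = ζ_{i+1} z + t(ζ_i z - ζ_{i+1} z)`, is a composition of `u, φ, A, B` (`s2Q_rep`), `Y_i`, `ζ_i`.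
E6 (Fubini, real axis, no Jacobians) for `v` continuous and `2π`-periodic on `ℝ`:  `s2dC u v n = s2fc (fun z => s2b u n z * v z) n`.
     General lemma: `a ≤ b : ℝ → ℝ` continuous increasing bijections commuting with `+2π`, inverses `α, β`; `G` continuous,
     `G(x+2π,z+2π) = G(x,z)`:   `∫_0^{2π} ∫_{a x}^{b x} G(x,z) dz dx = ∫_0^{2π} ∫_{β z}^{α z} G(x,z) dx dz`
     (substitute `z = x+s`, swap, shift `x` by periodicity, swap back).
E7 (conclusion)  `s2dC u v n - v_n = s2fc ((b_n - 1) v) n` (`s2A_fc`).  Shift the contour to `Im z = τ = -sgn(n) σ(1-5R/q)` (`s2P_contour`;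
     nothing to do if `σ = 0`):  `|…| ≤ (K₀/q) e^{-|n||τ|} (1/2π)∫|v(s+iτ)| ds ≤ (K₀/q) e^{-|n||τ|} s2hn σ v`  (Cauchy-Schwarz, `s2A_parseval`),
     and `e^{σ|n|} e^{-|n||τ|} = e^{5Rσ} ≤ e^{5R}`.
-/
import Claimed.Agent.R269.S2.A
import Claimed.Agent.R269.S2.C
import Claimed.Agent.R269.S2.E4
import Claimed.Agent.R269.S2.E5
import Claimed.Agent.R269.S2.E6

set_option autoImplicit false

namespace Claimed.Agent.R269

open Complex ComplexConjugate Filter Topology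

/-- mean `≤` root mean square on `[0,2π]`. -/
theorem s2E7_mean_le {f : ℝ → ℝ} (hf : Continuous f) {B : ℝ} (hB : 0 ≤ B)
    (h : 1 / (2 * Real.pi) * ∫ s in (0 : ℝ)..(2 * Real.pi), f s ^ 2 ≤ B ^ 2) :
    1 / (2 * Real.pi) * ∫ s in (0 : ℝ)..(2 * Real.pi), f s ≤ B := by
  have hpi : 0 < 2 * Real.pi := by positivity
  obtain ⟨m, hm⟩ : ∃ m, m = 1 / (2 * Real.pi) * ∫ s in (0 : ℝ)..(2 * Real.pi), f s := ⟨_, rfl⟩
  have hI : ∫ s in (0 : ℝ)..(2 * Real.pi), f s = 2 * Real.pi * m := by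
    rw [hm]; field_simp
  have h0 : 0 ≤ ∫ s in (0 : ℝ)..(2 * Real.pi), (f s - m) ^ 2 :=
    intervalIntegral.integral_nonneg hpi.le fun s _ => sq_nonneg _
  have e : ∫ s in (0 : ℝ)..(2 * Real.pi), (f s - m) ^ 2
      = (∫ s in (0 : ℝ)..(2 * Real.pi), f s ^ 2) - 2 * m * (∫ s in (0 : ℝ)..(2 * Real.pi), f s)
        + 2 * Real.pi * m ^ 2 := by
    have e1 : ∀ s, (f s - m) ^ 2 = f s ^ 2 - 2 * m * f s + m ^ 2 := fun s => by ring
    simp_rw [e1]
    rw [intervalIntegral.integral_add, intervalIntegral.integral_sub,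
      intervalIntegral.integral_const_mul, intervalIntegral.integral_const]
    · simp
    · exact (hf.pow 2).intervalIntegrable _ _
    · exact (hf.const_mul _).intervalIntegrable _ _
    · exact ((hf.pow 2).sub (hf.const_mul _)).intervalIntegrable _ _
    · exact continuous_const.intervalIntegrable _ _
  rw [e, hI] at h0
  rw [← hm]
  have h1 : m ^ 2 ≤ B ^ 2 := by
    have h2 : 2 * Real.pi * m ^ 2 ≤ ∫ s in (0 : ℝ)..(2 * Real.pi), f s ^ 2 := by nlinarith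
    have h3 : m ^ 2 ≤ 1 / (2 * Real.pi) * ∫ s in (0 : ℝ)..(2 * Real.pi), f s ^ 2 := by
      rw [one_div, le_inv_mul_iff₀ hpi]
      exact h2
    exact h3.trans h
  exact le_of_abs_le (abs_le_of_sq_le_sq h1 hB)

/-- shift of the contour in a Fourier coefficient. -/
theorem s2E7_shift {σ' τ : ℝ} {g : ℂ → ℂ} (n : ℤ) (hg : DifferentiableOn ℂ g (s2os σ'))
    (hper : ∀ z ∈ s2os σ', g (z + 2 * Real.pi) = g z) (hτ : |τ| < σ') :
    s2fc g n = 1 / (2 * Real.pi) * ∫ s in (0 : ℝ)..(2 * Real.pi),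
      exp (-I * (n : ℂ) * ((s : ℂ) + (τ : ℂ) * I)) * g ((s : ℂ) + (τ : ℂ) * I) := by
  unfold s2fc
  congr 1
  have hd : DifferentiableOn ℂ (fun z => exp (-I * (n : ℂ) * z) * g z) (s2os σ') := by
    refine DifferentiableOn.mul ?_ hg
    exact ((differentiable_id.const_mul _).cexp).differentiableOn
  have hp : ∀ z ∈ s2os σ', (fun z => exp (-I * (n : ℂ) * z) * g z) (z + 2 * Real.pi)
      = (fun z => exp (-I * (n : ℂ) * z) * g z) z := by
    intro z hz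
    simp only
    rw [hper z hz]
    congr 1
    have e : -I * (n : ℂ) * (z + 2 * Real.pi) = -I * (n : ℂ) * z + ((-n : ℤ) : ℂ) * (2 * Real.pi * I) := by
      push_cast; ring
    rw [e, Complex.exp_add, Complex.exp_int_mul_two_pi_mul_I, mul_one]
  exact (s2P_contour hd hp hτ).symm

theorem s2E7_norm_exp (n : ℤ) (s τ : ℝ) :
    ‖exp (-I * (n : ℂ) * ((s : ℂ) + (τ : ℂ) * I))‖ = Real.exp (n * τ) := by
  rw [Complex.norm_exp]
  congr 1
  simp

theorem s2E7_line_mem {σ τ : ℝ} (hτ : |τ| ≤ σ) (s : ℝ) : (s : ℂ) + (τ : ℂ) * I ∈ s2cs σ := by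
  simp [s2cs, hτ]

theorem s2E7_fun_cont {σ M : ℝ} {U : ℕ → ℂ → ℂ} (h : S2Fun σ M U) : ContinuousOn (U 0) (s2cs σ) :=
  fun z hz => (h.der 0 (by norm_num) z hz).continuousWithinAt

theorem s2E7_line_cont {σ M τ : ℝ} {U : ℕ → ℂ → ℂ} (h : S2Fun σ M U) (hτ : |τ| ≤ σ) :
    Continuous fun s : ℝ => U 0 ((s : ℂ) + (τ : ℂ) * I) := by
  have h1 : Continuous fun s : ℝ => (s : ℂ) + (τ : ℂ) * I := by fun_prop
  exact (s2E7_fun_cont h).comp_continuous h1 (s2E7_line_mem hτ)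

/-- the estimate on the shifted line. -/
theorem s2E7_bound {σ M τ B : ℝ} {v : ℤ → ℂ} {g : ℂ → ℂ} (n : ℤ) (hσ : 0 ≤ σ) (hv : S2In σ M v)
    (hτ : |τ| ≤ σ) (hB : 0 ≤ B) (hg : ∀ s : ℝ, ‖g ((s : ℂ) + (τ : ℂ) * I)‖ ≤ B) :
    ‖1 / (2 * Real.pi) * ∫ s in (0 : ℝ)..(2 * Real.pi),
        exp (-I * (n : ℂ) * ((s : ℂ) + (τ : ℂ) * I))
          * (g ((s : ℂ) + (τ : ℂ) * I) * s2u v 0 ((s : ℂ) + (τ : ℂ) * I))‖
      ≤ Real.exp (n * τ) * B * s2hn σ v := by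
  have hpi : 0 < 2 * Real.pi := by positivity
  have hV := s2A_fun hσ hv
  have hc : Continuous fun s : ℝ => ‖s2u v 0 ((s : ℂ) + (τ : ℂ) * I)‖ :=
    (s2E7_line_cont hV hτ).norm
  have hh : 0 ≤ s2hn σ v := Real.sqrt_nonneg _
  have hmean := s2E7_mean_le hc hh (s2A_parseval hv hτ)
  have h1 : ‖∫ s in (0 : ℝ)..(2 * Real.pi),
        exp (-I * (n : ℂ) * ((s : ℂ) + (τ : ℂ) * I))
          * (g ((s : ℂ) + (τ : ℂ) * I) * s2u v 0 ((s : ℂ) + (τ : ℂ) * I))‖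
      ≤ ∫ s in (0 : ℝ)..(2 * Real.pi),
          Real.exp (n * τ) * B * ‖s2u v 0 ((s : ℂ) + (τ : ℂ) * I)‖ := by
    refine intervalIntegral.norm_integral_le_of_norm_le hpi.le
      (Filter.Eventually.of_forall fun s _ => ?_) ((hc.const_mul _).intervalIntegrable _ _)
    rw [norm_mul, norm_mul, s2E7_norm_exp, mul_assoc]
    refine mul_le_mul_of_nonneg_left ?_ (Real.exp_pos _).le
    exact mul_le_mul_of_nonneg_right (hg s) (norm_nonneg _)
  rw [intervalIntegral.integral_const_mul] at h1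
  rw [norm_mul]
  have e : ‖(1 / (2 * Real.pi) : ℂ)‖ = 1 / (2 * Real.pi) := by
    have : (1 / (2 * Real.pi) : ℂ) = ((1 / (2 * Real.pi) : ℝ) : ℂ) := by push_cast; ring
    rw [this, Complex.norm_real, Real.norm_eq_abs, abs_of_pos (by positivity)]
  rw [e]
  have hEB : 0 ≤ Real.exp (n * τ) * B := mul_nonneg (Real.exp_pos _).le hB
  calc 1 / (2 * Real.pi) * ‖∫ s in (0 : ℝ)..(2 * Real.pi),
        exp (-I * (n : ℂ) * ((s : ℂ) + (τ : ℂ) * I))
          * (g ((s : ℂ) + (τ : ℂ) * I) * s2u v 0 ((s : ℂ) + (τ : ℂ) * I))‖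
      ≤ 1 / (2 * Real.pi) * (Real.exp (n * τ) * B
          * ∫ s in (0 : ℝ)..(2 * Real.pi), ‖s2u v 0 ((s : ℂ) + (τ : ℂ) * I)‖) :=
        mul_le_mul_of_nonneg_left h1 (by positivity)
    _ = Real.exp (n * τ) * B * (1 / (2 * Real.pi)
          * ∫ s in (0 : ℝ)..(2 * Real.pi), ‖s2u v 0 ((s : ℂ) + (τ : ℂ) * I)‖) := by ring
    _ ≤ Real.exp (n * τ) * B * s2hn σ v := mul_le_mul_of_nonneg_left hmean hEB

theorem s2E7_real_cont {σ M : ℝ} {U : ℕ → ℂ → ℂ} (hσ : 0 ≤ σ) (h : S2Fun σ M U) :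
    Continuous fun s : ℝ => U 0 (s : ℂ) :=
  (s2E7_fun_cont h).comp_continuous Complex.continuous_ofReal fun s => by simp [s2cs, hσ]

theorem s2E_main (M : ℝ) : ∃ K : ℝ, ∃ N : ℕ, ∀ σ : ℝ, 0 ≤ σ → σ ≤ 1 →
    ∀ c v : ℤ → ℂ, S2In σ M c → S2In σ M v → ∀ n : ℤ, N ≤ n.natAbs →
      ‖s2dC (s2u c 0) (s2u v 0) n - v n‖ * Real.exp (σ * |(n : ℝ)|)
        ≤ K / |(n : ℝ)| * s2hn σ v := by
  obtain ⟨R, N0, hR, hN0, hmesh, -⟩ := s2C_mesh M
  obtain ⟨K0, N1, hK0, hN1, hsup⟩ := s2E_sup M R hR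
  obtain ⟨N2, hN2, hholo⟩ := s2E_holo M R hR
  obtain ⟨N3, hN3, hfub⟩ := s2E_fubini M R hR
  obtain ⟨N4, hN4⟩ := exists_nat_ge (5 * R)
  refine ⟨K0 * Real.exp (5 * R), max (max (max N0 N1) (max N2 N3)) (N4 + 1), ?_⟩
  intro σ hσ0 hσ1 c v hc hv n hn
  obtain ⟨q, hqdef⟩ : ∃ q, q = n.natAbs := ⟨_, rfl⟩
  rw [← hqdef] at hn
  have hq0 : N0 ≤ q := le_trans (le_trans (le_max_left _ _) (le_max_left _ _))
    (le_trans (le_max_left _ _) hn)
  have hq1 : N1 ≤ q := le_trans (le_trans (le_max_right _ _) (le_max_left _ _))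
    (le_trans (le_max_left _ _) hn)
  have hq2 : N2 ≤ q := le_trans (le_trans (le_max_left _ _) (le_max_right _ _))
    (le_trans (le_max_left _ _) hn)
  have hq3 : N3 ≤ q := le_trans (le_trans (le_max_right _ _) (le_max_right _ _))
    (le_trans (le_max_left _ _) hn)
  have hq4 : N4 + 1 ≤ q := le_trans (le_max_right _ _) hn
  have hqR : 5 * R < q := by
    have : ((N4 + 1 : ℕ) : ℝ) ≤ q := by exact_mod_cast hq4
    push_cast at this
    linarith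
  have hqpos : 0 < (q : ℝ) := by linarith
  have hqn : (q : ℝ) = |(n : ℝ)| := by
    rw [hqdef, Nat.cast_natAbs, Int.cast_abs]
  obtain ⟨κ, hκdef⟩ : ∃ κ, κ = R / (q : ℝ) := ⟨_, rfl⟩
  have hκ0 : 0 < κ := hκdef ▸ div_pos hR hqpos
  have hκq : κ * q = R := by rw [hκdef]; field_simp
  have hκ5 : 5 * κ < 1 := by
    have : 5 * κ * q < 1 * q := by nlinarith
    exact lt_of_mul_lt_mul_right this hqpos.le
  have hU : S2Fun σ M (s2u c) := s2A_fun hσ0 hc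
  have hU0 : S2Fun 0 M (s2u c) := s2A_fun le_rfl (s2A_in_mono hσ0 le_rfl hc)
  have hv0 : S2In 0 M v := s2A_in_mono hσ0 le_rfl hv
  have hV : S2Fun σ M (s2u v) := s2A_fun hσ0 hv
  have hm : S2Mesh R σ (s2u c 0) q := hmesh σ _ hσ0 hσ1 hU q hq0
  have hm0 : S2Mesh R 0 (s2u c 0) q := hmesh 0 _ le_rfl zero_le_one hU0 q hq0
  obtain ⟨hbc, hF⟩ := hfub _ hU0 n (hqdef ▸ hq3) (hqdef ▸ hm0)
  obtain ⟨hbh, hbp⟩ := hholo σ _ hσ0 hσ1 hU n (hqdef ▸ hq2) (hqdef ▸ hm)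
  have hsup' := hsup σ _ hσ0 hσ1 hU n (hqdef ▸ hq1) (hqdef ▸ hm)
  rw [← hqdef, ← hκdef] at hbh hbp hsup'
  obtain ⟨b, hbdef⟩ : ∃ b, b = s2b (s2u c 0) n := ⟨_, rfl⟩
  rw [← hbdef] at hbc hF hbh hbp hsup'
  obtain ⟨V, hVdef⟩ : ∃ V, V = s2u v 0 := ⟨_, rfl⟩
  have hVc : Continuous fun s : ℝ => V (s : ℂ) := hVdef ▸ s2E7_real_cont hσ0 hV
  have hVp : ∀ z, V (z + 2 * Real.pi) = V z := hVdef ▸ hV.per
  have e1 : s2dC (s2u c 0) V n = s2fc (fun z => b z * V z) n := hF V hVc fun x => hVp x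
  have e2 : v n = s2fc V n := by rw [hVdef]; exact (s2A_fc hv0 n).symm
  have hec : Continuous fun x : ℝ => exp (-I * (n : ℂ) * (x : ℂ)) := by fun_prop
  have e3 : s2fc (fun z => b z * V z) n - s2fc V n = s2fc (fun z => (b z - 1) * V z) n := by
    unfold s2fc
    have i1 : IntervalIntegrable (fun x : ℝ => exp (-I * (n : ℂ) * (x : ℂ)) * (b x * V x))
        MeasureTheory.volume 0 (2 * Real.pi) := (hec.mul (hbc.mul hVc)).intervalIntegrable _ _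
    have i2 : IntervalIntegrable (fun x : ℝ => exp (-I * (n : ℂ) * (x : ℂ)) * V x)
        MeasureTheory.volume 0 (2 * Real.pi) := (hec.mul hVc).intervalIntegrable _ _
    rw [← mul_sub, ← intervalIntegral.integral_sub i1 i2]
    congr 1
    refine intervalIntegral.integral_congr fun x _ => ?_
    ring
  -- the shifted line
  obtain ⟨τ, hτdef⟩ : ∃ τ, τ = -((n : ℝ) / q) * (σ * (1 - 5 * κ)) := ⟨_, rfl⟩
  have hnq : |(n : ℝ) / q| = 1 := by
    rw [abs_div, abs_of_pos hqpos, ← hqn]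
    exact div_self hqpos.ne'
  have hτabs : |τ| = σ * (1 - 5 * κ) := by
    rw [hτdef, abs_mul, abs_neg, hnq, one_mul, abs_of_nonneg (mul_nonneg hσ0 (by linarith))]
  have hnτ : (n : ℝ) * τ = -(σ * |(n : ℝ)|) + 5 * R * σ := by
    have h1 : (n : ℝ) * ((n : ℝ) / q) = q := by
      have : (n : ℝ) * n = q * q := by rw [hqn, abs_mul_abs_self]
      field_simp
      nlinarith
    rw [hτdef, ← hqn]
    calc (n : ℝ) * (-((n : ℝ) / q) * (σ * (1 - 5 * κ)))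
        = -((n : ℝ) * ((n : ℝ) / q)) * (σ * (1 - 5 * κ)) := by ring
      _ = -(q : ℝ) * (σ * (1 - 5 * κ)) := by rw [h1]
      _ = -(σ * q) + 5 * (κ * q) * σ := by ring
      _ = -(σ * q) + 5 * R * σ := by rw [hκq]
  have hτσ : |τ| ≤ σ := by
    rw [hτabs]
    nlinarith
  have hτ4 : (1 + 4 * κ) * |τ| ≤ σ := by
    rw [hτabs]
    have : (1 + 4 * κ) * (1 - 5 * κ) ≤ 1 := by nlinarith
    calc (1 + 4 * κ) * (σ * (1 - 5 * κ)) = σ * ((1 + 4 * κ) * (1 - 5 * κ)) := by ring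
      _ ≤ σ * 1 := mul_le_mul_of_nonneg_left this hσ0
      _ = σ := mul_one _
  have e4 : s2fc (fun z => (b z - 1) * V z) n = 1 / (2 * Real.pi) *
      ∫ s in (0 : ℝ)..(2 * Real.pi), exp (-I * (n : ℂ) * ((s : ℂ) + (τ : ℂ) * I))
        * ((b ((s : ℂ) + (τ : ℂ) * I) - 1) * V ((s : ℂ) + (τ : ℂ) * I)) := by
    rcases hσ0.eq_or_lt with h0 | hpos
    · have hτ0 : τ = 0 := by
        rw [← abs_eq_zero, hτabs, ← h0, zero_mul]
      rw [hτ0]
      unfold s2fc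
      simp
    · have h14 : 0 < 1 + 4 * κ := by linarith
      have hset : s2os (σ / (1 + 4 * κ)) = {z : ℂ | (1 + 4 * κ) * |z.im| < σ} := by
        ext z
        simp only [s2os, Set.mem_ofPred_eq]
        rw [lt_div_iff₀ h14, mul_comm]
      have hsub : s2os (σ / (1 + 4 * κ)) ⊆ s2cs σ := by
        intro z hz
        rw [hset] at hz
        simp only [Set.mem_ofPred_eq] at hz
        simp only [s2cs, Set.mem_ofPred_eq]
        nlinarith [abs_nonneg z.im]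
      have hVd : DifferentiableOn ℂ V (s2os (σ / (1 + 4 * κ))) := by
        intro z hz
        rw [hVdef]
        exact ((hV.der 0 (by norm_num) z (hsub hz)).differentiableWithinAt).mono hsub
      refine s2E7_shift (σ' := σ / (1 + 4 * κ)) n ?_ ?_ ?_
      · rw [← hset] at hbh
        exact (hbh.sub_const 1).mul hVd
      · intro z hz
        rw [hset] at hz
        rw [hbp z (le_of_lt hz), hVp]
      · rw [hτabs, lt_div_iff₀ h14]
        have : (1 - 5 * κ) * (1 + 4 * κ) < 1 := by nlinarith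
        calc σ * (1 - 5 * κ) * (1 + 4 * κ) = σ * ((1 - 5 * κ) * (1 + 4 * κ)) := by ring
          _ < σ * 1 := mul_lt_mul_of_pos_left this hpos
          _ = σ := mul_one _
  have hB : 0 ≤ K0 / (q : ℝ) := div_nonneg hK0 hqpos.le
  have e5 := s2E7_bound (g := fun z => b z - 1) n hσ0 hv hτσ hB (fun s => by
    refine hsup' _ ?_
    have : ((s : ℂ) + (τ : ℂ) * I).im = τ := by simp
    rw [this]
    exact hτ4)
  rw [← hVdef] at e5 ⊢
  rw [← e4, ← e3, ← e1, ← e2] at e5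
  have hh : 0 ≤ s2hn σ v := Real.sqrt_nonneg _
  calc ‖s2dC (s2u c 0) V n - v n‖ * Real.exp (σ * |(n : ℝ)|)
      ≤ Real.exp (n * τ) * (K0 / q) * s2hn σ v * Real.exp (σ * |(n : ℝ)|) :=
        mul_le_mul_of_nonneg_right e5 (Real.exp_pos _).le
    _ = Real.exp (5 * R * σ) * (K0 / q) * s2hn σ v := by
        have : Real.exp (n * τ) * Real.exp (σ * |(n : ℝ)|) = Real.exp (5 * R * σ) := by
          rw [← Real.exp_add, hnτ]
          congr 1
          ring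
        calc Real.exp (n * τ) * (K0 / q) * s2hn σ v * Real.exp (σ * |(n : ℝ)|)
            = (Real.exp (n * τ) * Real.exp (σ * |(n : ℝ)|)) * (K0 / q) * s2hn σ v := by ring
          _ = _ := by rw [this]
    _ ≤ Real.exp (5 * R) * (K0 / q) * s2hn σ v := by
        have : Real.exp (5 * R * σ) ≤ Real.exp (5 * R) := by
          apply Real.exp_le_exp.2
          nlinarith
        exact mul_le_mul_of_nonneg_right (mul_le_mul_of_nonneg_right this hB) hh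
    _ = K0 * Real.exp (5 * R) / |(n : ℝ)| * s2hn σ v := by
        rw [← hqn]
        ring

end Claimed.Agent.R269
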