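/-
Row 269, Section 2, UNIT F: the abstract Picard scheme (replaces P1 Sections 2.5-2.6:
Wiener-space inverse, Newton iteration, uniqueness).   Statement by helper159, proof by helper49 (sorry-free;
variant: `θ = 2^{-7}`, smoothing by the sup bound `|c_k| e^{σ|k|} ≤ s2hn σ c` with loss `α^{-6}`, no Cauchy-Schwarz).

PROOF (all on sequences `ℤ → ℂ`; `r0 = 4`).
Put `M = 4 e (1 + s2wn 0 4 a)`, take `K, N` from `hstar M`; enlarge `N` so that `hzero`, `htab`, `hconj M` hold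
from `N` on and `∑_{|n| ≥ N} K²/n² ≤ θ²`, `θ = 2^{-6}`  (e.g. `2K²/(N-1) ≤ θ²`).
For a large integer `P > N` let `u₀` = truncation of `a` to `|k| ≤ P`, `σ₀ = P^{-2}`, `σ₁ = P^{-1}`,
`σ_j = σ₀ (1 + 2^{-j})/2` for the iteration (so `σ_0 = σ₀`), `σ_∞ = σ₀/2`,
   `u_{j+1} n = u_j n - C u_j n` for `|n| ≥ N`,   `u_{j+1} n = u_j n` for `|n| < N`.
Let `c_j` = the sequence `n ↦ C u_j n` cut to `|n| ≥ N`, `ε_j = s2hn σ_j c_j`.
(a) `s2wn σ₁ 4 u₀ ≤ e · s2wn 0 4 a ≤ M/4` because `σ₁ P = 1`.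
(b) residual: for `N ≤ |n| ≤ P²` use `hstar` at width `0` for the pair `(u₀, a)` and `C a n = 0`; the weight
    `e^{σ₀|n|}` is `≤ e`;  `|C u₀ n| ≤ |(u₀-a)_n| + (K/|n|) s2hn 0 (u₀-a)`.
    For `|n| > P²` use `hstar` at width `σ₁` for the pair `(u₀, 0)`, `C 0 n = 0`, `(u₀)_n = 0`:
    `|C u₀ n| e^{σ₀|n|} ≤ e^{-(σ₁-σ₀)|n|} (K/|n|) s2hn σ₁ u₀ ≤ e^{-(P-1)} (K/|n|) M`.
    Hence `ε₀ ≤ e(1+θ) s2hn 0 (u₀-a) + θ M e^{-(P-1)}`, which is `O(P^{-A})` for every `A` by `hdec`.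
(c) step: `c_{j+1} n = C u_{j+1} n - C u_j n - (u_{j+1} n - u_j n)`, so `hstar` at width `σ_{j+1}` gives
    `ε_{j+1} ≤ θ · s2hn σ_{j+1} c_j ≤ θ ε_j`, PROVIDED `u_j, u_{j+1} ∈ S2In σ_{j+1} M`.
(d) smoothing: with `α_j = σ_j - σ_{j+1} = σ₀ 2^{-j-2}`, Cauchy-Schwarz gives
    `s2wn σ_{j+1} 4 c_j ≤ (∑_k (1+|k|)^8 e^{-2α_j|k|})^{1/2} ε_j ≤ C₄ α_j^{-5} ε_j`, and
    `∑_j C₄ α_j^{-5} θ^j ε₀ = C₄ 2^{10} σ₀^{-5} ε₀ ∑_j 2^{-j} ≤ M/2` as soon as `ε₀ ≤ c P^{-10} M`: choose `P` by (b).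
    Simultaneous induction on `j`: `ε_j ≤ θ^j ε₀` and `s2wn σ_j 4 u_j ≤ M/4 + ∑_{i<j} …`; reality by `hconj`.
(e) `v_j = u_j - a` vanishes for `|n| < N`, and `v_{j+1} n = v_j n - (C u_j n - C a n)` for `|n| ≥ N`, so `hstar` at
    width `0` gives `s2hn 0 v_{j+1} ≤ θ s2hn 0 v_j`; hence `u_j k → a k` for every `k`.
(f) `|u_j k| e^{σ_∞|k|} ≤ s2wn σ_j 4 u_j ≤ M`; pass to the limit: `|a k| ≤ M e^{-σ_∞|k|}`.
-/
import Claimed.Agent.R269.S2.A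

set_option autoImplicit false

namespace Claimed.Agent.R269

open Complex ComplexConjugate Filter Topology

/-- high-frequency cut. -/
def s2Fcut (N : ℕ) (b : ℤ → ℂ) : ℤ → ℂ := fun n => if N ≤ n.natAbs then b n else 0

/-- truncation to `|k| ≤ P`. -/
def s2Ftr (P : ℕ) (b : ℤ → ℂ) : ℤ → ℂ := fun n => if n.natAbs ≤ P then b n else 0

/-- Hardy bound: summable squares and `s2hn σ c ≤ ε`. -/
def S2FH (σ ε : ℝ) (c : ℤ → ℂ) : Prop :=
  Summable (fun k : ℤ => ‖c k‖ ^ 2 * Real.exp (2 * σ * |(k : ℝ)|)) ∧ s2hn σ c ≤ ε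

/-- the constant of the smoothing estimate. -/
noncomputable def s2FD : ℝ := 720 * Real.exp 1 * ∑' k : ℤ, 1 / (1 + |(k : ℝ)|) ^ 2

theorem s2F_natAbs (n : ℤ) : (n.natAbs : ℝ) = |(n : ℝ)| := by
  rw [Nat.cast_natAbs, Int.cast_abs]

theorem s2F_sq (σ : ℝ) (c : ℤ → ℂ) (k : ℤ) :
    ‖c k‖ ^ 2 * Real.exp (2 * σ * |(k : ℝ)|) = (‖c k‖ * Real.exp (σ * |(k : ℝ)|)) ^ 2 := by
  have : 2 * σ * |(k : ℝ)| = σ * |(k : ℝ)| + σ * |(k : ℝ)| := by ring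
  rw [this, Real.exp_add]
  ring

theorem s2F_H_of_le {σ ε : ℝ} {c : ℤ → ℂ} {t : ℤ → ℝ} (hε : 0 ≤ ε)
    (ht : Summable fun k => t k ^ 2) (hsum : ∑' k, t k ^ 2 ≤ ε ^ 2)
    (h : ∀ k, ‖c k‖ * Real.exp (σ * |(k : ℝ)|) ≤ t k) : S2FH σ ε c := by
  have hle : ∀ k, ‖c k‖ ^ 2 * Real.exp (2 * σ * |(k : ℝ)|) ≤ t k ^ 2 := by
    intro k
    rw [s2F_sq]
    exact pow_le_pow_left₀ (by positivity) (h k) 2
  have hs : Summable fun k : ℤ => ‖c k‖ ^ 2 * Real.exp (2 * σ * |(k : ℝ)|) :=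
    Summable.of_nonneg_of_le (fun k => by positivity) hle ht
  refine ⟨hs, ?_⟩
  unfold s2hn
  rw [Real.sqrt_le_left hε]
  exact (hs.tsum_le_tsum hle ht).trans hsum

theorem s2F_H_sup {σ ε : ℝ} {c : ℤ → ℂ} (h : S2FH σ ε c) (k : ℤ) :
    ‖c k‖ * Real.exp (σ * |(k : ℝ)|) ≤ ε := by
  refine le_trans ?_ h.2
  unfold s2hn
  apply Real.le_sqrt_of_sq_le
  rw [← s2F_sq]
  exact h.1.le_tsum k (fun j _ => by positivity)

theorem s2F_H_nonneg {σ ε : ℝ} {c : ℤ → ℂ} (h : S2FH σ ε c) : 0 ≤ ε :=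
  (Real.sqrt_nonneg _).trans h.2

theorem s2F_H_weaken {σ ε ε' : ℝ} {c : ℤ → ℂ} (h : S2FH σ ε c) (hε : ε ≤ ε') : S2FH σ ε' c :=
  ⟨h.1, h.2.trans hε⟩

theorem s2F_H_mono {σ σ' ε : ℝ} {c : ℤ → ℂ} (hσ : σ' ≤ σ) (h : S2FH σ ε c) : S2FH σ' ε c := by
  have hle : ∀ k : ℤ, ‖c k‖ ^ 2 * Real.exp (2 * σ' * |(k : ℝ)|)
      ≤ ‖c k‖ ^ 2 * Real.exp (2 * σ * |(k : ℝ)|) := by
    intro k
    refine mul_le_mul_of_nonneg_left (Real.exp_le_exp.2 ?_) (by positivity)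
    exact mul_le_mul_of_nonneg_right (by linarith) (abs_nonneg _)
  have hs : Summable fun k : ℤ => ‖c k‖ ^ 2 * Real.exp (2 * σ' * |(k : ℝ)|) :=
    Summable.of_nonneg_of_le (fun k => by positivity) hle h.1
  exact ⟨hs, (Real.sqrt_le_sqrt (hs.tsum_le_tsum hle h.1)).trans h.2⟩

theorem s2F_hn_neg (σ : ℝ) (c : ℤ → ℂ) : s2hn σ (-c) = s2hn σ c := by
  simp [s2hn]

theorem s2F_H_neg {σ ε : ℝ} {c : ℤ → ℂ} (h : S2FH σ ε c) : S2FH σ ε (-c) := by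
  refine ⟨?_, by rw [s2F_hn_neg]; exact h.2⟩
  simpa using h.1

theorem s2F_sq_sum {x : ℤ → ℝ} (h0 : ∀ k, 0 ≤ x k) (hs : Summable x) :
    Summable (fun k => x k ^ 2) ∧ ∑' k, x k ^ 2 ≤ (∑' k, x k) ^ 2 := by
  have hle : ∀ k, x k ^ 2 ≤ (∑' k, x k) * x k := by
    intro k
    rw [sq]
    exact mul_le_mul_of_nonneg_right (hs.le_tsum k fun j _ => h0 j) (h0 k)
  have hs2 : Summable fun k => x k ^ 2 :=
    Summable.of_nonneg_of_le (fun k => sq_nonneg _) hle (hs.mul_left _)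
  refine ⟨hs2, (hs2.tsum_le_tsum hle (hs.mul_left _)).trans ?_⟩
  rw [tsum_mul_left, sq]

theorem s2F_H_of_l1 {σ S : ℝ} {c : ℤ → ℂ}
    (hs : Summable fun k : ℤ => ‖c k‖ * Real.exp (σ * |(k : ℝ)|))
    (hS : ∑' k : ℤ, ‖c k‖ * Real.exp (σ * |(k : ℝ)|) ≤ S) : S2FH σ S c := by
  have h0 : ∀ k : ℤ, 0 ≤ ‖c k‖ * Real.exp (σ * |(k : ℝ)|) := fun k => by positivity
  obtain ⟨h1, h2⟩ := s2F_sq_sum h0 hs
  have hS0 : 0 ≤ S := (tsum_nonneg h0).trans hS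
  exact s2F_H_of_le hS0 h1 (h2.trans (pow_le_pow_left₀ (tsum_nonneg h0) hS 2)) fun k => le_rfl

theorem s2F_H_of_in {σ m : ℝ} {b : ℤ → ℂ} (h : S2In σ m b) : S2FH σ m b := by
  refine s2F_H_of_l1 (s2A_summable_exp h) (le_trans ?_ h.le)
  refine (s2A_summable_exp h).tsum_le_tsum (fun k => ?_) h.summ
  rw [mul_comm]
  exact mul_le_mul_of_nonneg_right (s2A_wt_ge_exp σ 4 k) (norm_nonneg _)

theorem s2F_Z_summable : Summable fun k : ℤ => 1 / (1 + |(k : ℝ)|) ^ 2 := by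
  have h1 : Summable fun k : ℤ => 1 / (k : ℝ) ^ 2 := Real.summable_one_div_int_pow.2 one_lt_two
  have h2 : Summable fun k : ℤ => if k = 0 then (1 : ℝ) else 0 := (hasSum_ite_eq (0 : ℤ) (1 : ℝ)).summable
  refine Summable.of_nonneg_of_le (fun k => by positivity) (fun k => ?_) (h1.add h2)
  by_cases hk : k = 0
  · subst hk
    simp
  · rw [if_neg hk, add_zero]
    have hk' : (0 : ℝ) < |(k : ℝ)| := abs_pos.2 (by exact_mod_cast hk)
    have h3 : (k : ℝ) ^ 2 = |(k : ℝ)| ^ 2 := (sq_abs _).symm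
    rw [h3]
    exact one_div_le_one_div_of_le (by positivity) (pow_le_pow_left₀ hk'.le (by linarith) 2)

theorem s2FD_nonneg : 0 ≤ s2FD := by
  unfold s2FD
  have : 0 ≤ ∑' k : ℤ, 1 / (1 + |(k : ℝ)|) ^ 2 := tsum_nonneg fun k => by positivity
  positivity

theorem s2F_smooth_pt {α : ℝ} (hα : 0 < α) (hα1 : α ≤ 1) (k : ℤ) :
    (1 + |(k : ℝ)|) ^ 4 * Real.exp (-α * |(k : ℝ)|)
      ≤ 720 * Real.exp 1 / α ^ 6 * (1 / (1 + |(k : ℝ)|) ^ 2) := by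
  set t : ℝ := 1 + |(k : ℝ)| with ht
  have ht0 : 0 < t := by positivity
  have h1 : (α * t) ^ 6 / (Nat.factorial 6 : ℝ) ≤ Real.exp (α * t) :=
    Real.pow_div_factorial_le_exp _ (by positivity) 6
  have h6 : (Nat.factorial 6 : ℝ) = 720 := by norm_num [Nat.factorial]
  rw [h6, div_le_iff₀ (by norm_num)] at h1
  have h2 : Real.exp (α * t) ≤ Real.exp 1 * Real.exp (α * |(k : ℝ)|) := by
    rw [← Real.exp_add]
    apply Real.exp_le_exp.2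
    rw [ht]
    nlinarith
  have h3 : Real.exp (-α * |(k : ℝ)|) * Real.exp (α * |(k : ℝ)|) = 1 := by
    rw [← Real.exp_add]; simp
  have h4 : (α * t) ^ 6 * Real.exp (-α * |(k : ℝ)|) ≤ 720 * Real.exp 1 := by
    calc (α * t) ^ 6 * Real.exp (-α * |(k : ℝ)|)
        ≤ (Real.exp 1 * Real.exp (α * |(k : ℝ)|) * 720) * Real.exp (-α * |(k : ℝ)|) :=
          mul_le_mul_of_nonneg_right (h1.trans (mul_le_mul_of_nonneg_right h2 (by norm_num)))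
            (Real.exp_pos _).le
      _ = 720 * Real.exp 1 * (Real.exp (-α * |(k : ℝ)|) * Real.exp (α * |(k : ℝ)|)) := by ring
      _ = 720 * Real.exp 1 := by rw [h3, mul_one]
  rw [div_mul_div_comm, mul_one, le_div_iff₀ (by positivity)]
  calc t ^ 4 * Real.exp (-α * |(k : ℝ)|) * (α ^ 6 * t ^ 2)
      = (α * t) ^ 6 * Real.exp (-α * |(k : ℝ)|) := by ring
    _ ≤ _ := h4

theorem s2F_smooth {σ ε α : ℝ} {c : ℤ → ℂ} (hα : 0 < α) (hα1 : α ≤ 1) (h : S2FH σ ε c) :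
    Summable (fun k : ℤ => s2wt (σ - α) 4 k * ‖c k‖) ∧ s2wn (σ - α) 4 c ≤ s2FD * ε / α ^ 6 := by
  have hε := s2F_H_nonneg h
  have hle : ∀ k : ℤ, s2wt (σ - α) 4 k * ‖c k‖
      ≤ 720 * Real.exp 1 / α ^ 6 * ε * (1 / (1 + |(k : ℝ)|) ^ 2) := by
    intro k
    have h1 : s2wt (σ - α) 4 k * ‖c k‖
        = ((1 + |(k : ℝ)|) ^ 4 * Real.exp (-α * |(k : ℝ)|)) * (‖c k‖ * Real.exp (σ * |(k : ℝ)|)) := by
      unfold s2wt
      have : (σ - α) * |(k : ℝ)| = -α * |(k : ℝ)| + σ * |(k : ℝ)| := by ring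
      rw [this, Real.exp_add]
      ring
    rw [h1]
    calc ((1 + |(k : ℝ)|) ^ 4 * Real.exp (-α * |(k : ℝ)|)) * (‖c k‖ * Real.exp (σ * |(k : ℝ)|))
        ≤ (720 * Real.exp 1 / α ^ 6 * (1 / (1 + |(k : ℝ)|) ^ 2)) * ε :=
          mul_le_mul (s2F_smooth_pt hα hα1 k) (s2F_H_sup h k) (by positivity) (by positivity)
      _ = _ := by ring
  have hs2 := s2F_Z_summable.mul_left (720 * Real.exp 1 / α ^ 6 * ε)
  have hs : Summable fun k : ℤ => s2wt (σ - α) 4 k * ‖c k‖ :=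
    Summable.of_nonneg_of_le (fun k => mul_nonneg (s2A_wt_nonneg _ _ _) (norm_nonneg _)) hle hs2
  refine ⟨hs, (hs.tsum_le_tsum hle hs2).trans (le_of_eq ?_)⟩
  rw [tsum_mul_left, s2FD]
  ring


/-- the constants of the scheme, after the choice of `M`, `θ`, `N`. -/
structure S2FCtx (C : (ℤ → ℂ) → ℤ → ℂ) (a : ℤ → ℂ) (M θ : ℝ) (N : ℕ) (κ : ℤ → ℝ) : Prop where
  κ_nonneg : ∀ n, 0 ≤ κ n
  κ_summ : Summable fun n => κ n ^ 2
  κ_le : ∑' n, κ n ^ 2 ≤ θ ^ 2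
  star : ∀ σ : ℝ, 0 ≤ σ → σ ≤ 1 → ∀ b b' : ℤ → ℂ, S2In σ M b → S2In σ M b' → ∀ n : ℤ, N ≤ n.natAbs →
      ‖C b n - C b' n - (b n - b' n)‖ * Real.exp (σ * |(n : ℝ)|) ≤ κ n * s2hn σ (b - b')
  zero : ∀ n : ℤ, N ≤ n.natAbs → C 0 n = 0
  tab : ∀ n : ℤ, N ≤ n.natAbs → C a n = 0
  cnj : ∀ b : ℤ → ℂ, S2In 0 M b → ∀ n : ℤ, N ≤ n.natAbs → C b (-n) = conj (C b n)

theorem s2F_tail (K : ℝ) {η : ℝ} (hη : 0 < η) :
    ∀ᶠ N : ℕ in atTop, ∑' n : ℤ, (if N ≤ n.natAbs then K / |(n : ℝ)| else 0) ^ 2 ≤ η := by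
  have h1 : Summable fun k : ℤ => K ^ 2 * (1 / (k : ℝ) ^ 2) :=
    (Real.summable_one_div_int_pow.2 one_lt_two).mul_left _
  have h2 : Tendsto (fun N : ℕ => ∑' n : ℤ, (if N ≤ n.natAbs then K / |(n : ℝ)| else 0) ^ 2) atTop
      (𝓝 (∑' _ : ℤ, (0 : ℝ))) := by
    refine tendsto_tsum_of_dominated_convergence h1 (fun n => ?_) (Filter.Eventually.of_forall fun N n => ?_)
    · refine tendsto_const_nhds.congr' ?_
      filter_upwards [eventually_gt_atTop n.natAbs] with N hN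
      rw [if_neg (not_le.2 hN)]
      simp
    · rw [Real.norm_eq_abs, abs_of_nonneg (sq_nonneg _)]
      split_ifs
      · rw [div_pow, sq_abs]
        exact le_of_eq (by ring)
      · simp only [ne_eq, OfNat.ofNat_ne_zero, not_false_eq_true, zero_pow]
        positivity
  rw [tsum_zero] at h2
  exact (h2.eventually (gt_mem_nhds hη)).mono fun N hN => hN.le

theorem s2F_tail_summable (K : ℝ) (N : ℕ) :
    Summable fun n : ℤ => (if N ≤ n.natAbs then K / |(n : ℝ)| else 0) ^ 2 := by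
  have h1 : Summable fun k : ℤ => K ^ 2 * (1 / (k : ℝ) ^ 2) :=
    (Real.summable_one_div_int_pow.2 one_lt_two).mul_left _
  refine Summable.of_nonneg_of_le (fun n => sq_nonneg _) (fun n => ?_) h1
  split_ifs
  · rw [div_pow, sq_abs]
    exact le_of_eq (by ring)
  · simp only [ne_eq, OfNat.ofNat_ne_zero, not_false_eq_true, zero_pow]
    positivity

theorem s2F_ctx_exists (C : (ℤ → ℂ) → ℤ → ℂ) (a : ℤ → ℂ)
    (hstar : ∀ M : ℝ, ∃ K : ℝ, ∃ N : ℕ, ∀ σ : ℝ, 0 ≤ σ → σ ≤ 1 →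
      ∀ b b' : ℤ → ℂ, S2In σ M b → S2In σ M b' → ∀ n : ℤ, N ≤ n.natAbs →
        ‖C b n - C b' n - (b n - b' n)‖ * Real.exp (σ * |(n : ℝ)|)
          ≤ K / |(n : ℝ)| * s2hn σ (b - b'))
    (hzero : ∃ N : ℕ, ∀ n : ℤ, N ≤ n.natAbs → C 0 n = 0)
    (htab : ∃ N : ℕ, ∀ n : ℤ, N ≤ n.natAbs → C a n = 0)
    (hconj : ∀ M : ℝ, ∃ N : ℕ, ∀ b : ℤ → ℂ, S2In 0 M b → ∀ n : ℤ, N ≤ n.natAbs →
      C b (-n) = conj (C b n)) (M : ℝ) {θ : ℝ} (hθ : 0 < θ) :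
    ∃ (N : ℕ) (κ : ℤ → ℝ), S2FCtx C a M θ N κ := by
  obtain ⟨K, N1, h1⟩ := hstar M
  obtain ⟨N2, h2⟩ := hzero
  obtain ⟨N3, h3⟩ := htab
  obtain ⟨N4, h4⟩ := hconj M
  obtain ⟨N, hN, hN1, hN2, hN3, hN4⟩ := ((s2F_tail (max K 0) (η := θ ^ 2) (by positivity)).and
    ((eventually_ge_atTop N1).and ((eventually_ge_atTop N2).and
      ((eventually_ge_atTop N3).and (eventually_ge_atTop N4))))).exists
  refine ⟨N, fun n => if N ≤ n.natAbs then max K 0 / |(n : ℝ)| else 0, ?_, s2F_tail_summable _ _, hN,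
    ?_, fun n hn => h2 n (hN2.trans hn), fun n hn => h3 n (hN3.trans hn),
    fun b hb n hn => h4 b hb n (hN4.trans hn)⟩
  · intro n
    split_ifs
    · positivity
    · exact le_rfl
  · intro σ hσ0 hσ1 b b' hb hb' n hn
    simp only [if_pos hn]
    refine (h1 σ hσ0 hσ1 b b' hb hb' n (hN1.trans hn)).trans ?_
    refine mul_le_mul_of_nonneg_right ?_ (Real.sqrt_nonneg _)
    exact div_le_div_of_nonneg_right (le_max_left _ _) (abs_nonneg _)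

section Ctx

variable {C : (ℤ → ℂ) → ℤ → ℂ} {a : ℤ → ℂ} {M θ : ℝ} {N : ℕ} {κ : ℤ → ℝ}

theorem S2FCtx.key (X : S2FCtx C a M θ N κ) (hθ : 0 ≤ θ) {σ : ℝ} (h0 : 0 ≤ σ) (h1 : σ ≤ 1)
    {b b' : ℤ → ℂ} (hb : S2In σ M b) (hb' : S2In σ M b') :
    S2FH σ (θ * s2hn σ (b - b')) (s2Fcut N (fun n => C b n - C b' n - (b n - b' n))) := by
  have hh : 0 ≤ s2hn σ (b - b') := Real.sqrt_nonneg _
  refine s2F_H_of_le (t := fun n => κ n * s2hn σ (b - b')) (mul_nonneg hθ hh) ?_ ?_ ?_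
  · simp_rw [mul_pow]
    exact X.κ_summ.mul_right _
  · simp_rw [mul_pow]
    rw [tsum_mul_right]
    exact mul_le_mul_of_nonneg_right X.κ_le (sq_nonneg _)
  · intro n
    unfold s2Fcut
    split_ifs with hn
    · exact X.star σ h0 h1 b b' hb hb' n hn
    · rw [norm_zero, zero_mul]
      exact mul_nonneg (X.κ_nonneg n) hh

theorem s2F_cut_real {b : ℤ → ℂ} (h : ∀ n : ℤ, N ≤ n.natAbs → b (-n) = conj (b n)) :
    S2Real (s2Fcut N b) := by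
  intro n
  unfold s2Fcut
  rw [Int.natAbs_neg]
  split_ifs with hn
  · exact h n hn
  · simp

/-- one step of the iteration, with loss of width `α`. -/
theorem S2FCtx.step (X : S2FCtx C a M θ N κ) (hθ : 0 ≤ θ) {σ α m ε : ℝ} {u : ℤ → ℂ} (hα : 0 < α)
    (hα1 : α ≤ 1) (hσα : 0 ≤ σ - α) (hσ1 : σ ≤ 1) (hu : S2In σ m u)
    (hc : S2FH σ ε (s2Fcut N (C u))) (hm : m + s2FD * ε / α ^ 6 ≤ M) :
    S2In (σ - α) (m + s2FD * ε / α ^ 6) (u - s2Fcut N (C u)) ∧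
      S2FH (σ - α) (θ * ε) (s2Fcut N (C (u - s2Fcut N (C u)))) := by
  have hε := s2F_H_nonneg hc
  have hm' : 0 ≤ s2FD * ε / α ^ 6 := by
    have := s2FD_nonneg
    positivity
  have hu0 : S2In 0 M u := s2A_in_mono (by linarith) (by linarith) hu
  have hreal : S2Real (s2Fcut N (C u)) := s2F_cut_real (X.cnj u hu0)
  obtain ⟨hs, hle⟩ := s2F_smooth hα hα1 hc
  have hcin : S2In (σ - α) (s2FD * ε / α ^ 6) (s2Fcut N (C u)) := ⟨hreal, hs, hle⟩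
  have hu1 : S2In (σ - α) m u := s2A_in_mono (by linarith) le_rfl hu
  have hu' : S2In (σ - α) (m + s2FD * ε / α ^ 6) (u - s2Fcut N (C u)) := by
    have := s2A_in_comb 1 (-1) hu1 hcin
    simpa [sub_eq_add_neg] using this
  refine ⟨hu', ?_⟩
  have hk := X.key hθ hσα (by linarith) (s2A_in_mono le_rfl hm hu')
    (s2A_in_mono le_rfl (by linarith) hu1)
  have e1 : s2Fcut N (fun n => C (u - s2Fcut N (C u)) n - C u n - ((u - s2Fcut N (C u)) n - u n))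
      = s2Fcut N (C (u - s2Fcut N (C u))) := by
    funext n
    by_cases hn : N ≤ n.natAbs
    · simp only [s2Fcut, if_pos hn, Pi.sub_apply]
      ring
    · simp only [s2Fcut, if_neg hn]
  have e2 : u - s2Fcut N (C u) - u = -s2Fcut N (C u) := by
    funext n
    simp
  rw [e1, e2, s2F_hn_neg] at hk
  exact s2F_H_weaken hk (mul_le_mul_of_nonneg_left (s2F_H_mono (by linarith) hc).2 hθ)

/-- one step of the iteration, distance to `a` at width `0`. -/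
theorem S2FCtx.step0 (X : S2FCtx C a M θ N κ) (hθ : 0 ≤ θ) {u : ℤ → ℂ} (hu : S2In 0 M u)
    (ha : S2In 0 M a) {η : ℝ} (hv : S2FH 0 η (u - a)) (hlow : ∀ n : ℤ, n.natAbs < N → u n = a n) :
    S2FH 0 (θ * η) (u - s2Fcut N (C u) - a) ∧
      ∀ n : ℤ, n.natAbs < N → (u - s2Fcut N (C u)) n = a n := by
  have hk := X.key hθ le_rfl zero_le_one hu ha
  have e1 : u - s2Fcut N (C u) - a = -s2Fcut N (fun n => C u n - C a n - (u n - a n)) := by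
    funext n
    by_cases hn : N ≤ n.natAbs
    · simp only [s2Fcut, if_pos hn, Pi.sub_apply, Pi.neg_apply, X.tab n hn]
      ring
    · simp only [s2Fcut, if_neg hn, Pi.sub_apply, Pi.neg_apply, hlow n (not_le.1 hn)]
      ring
  refine ⟨?_, ?_⟩
  · rw [e1]
    exact s2F_H_neg (s2F_H_weaken hk (mul_le_mul_of_nonneg_left hv.2 hθ))
  · intro n hn
    simp only [s2Fcut, if_neg (not_le.2 hn), Pi.sub_apply, sub_zero]
    exact hlow n hn

end Ctx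


theorem s2F_wt_zero (A : ℕ) (k : ℤ) : s2wt 0 A k = (1 + |(k : ℝ)|) ^ A := by
  simp [s2wt]

/-- (a) the truncation is an input of width `1/P`. -/
theorem s2F_tr_in {a : ℤ → ℂ} (har : S2Real a) (hs : Summable fun k : ℤ => s2wt 0 4 k * ‖a k‖)
    {P : ℕ} (hP : 0 < P) : S2In (1 / (P : ℝ)) (Real.exp 1 * s2wn 0 4 a) (s2Ftr P a) := by
  have hP' : (0 : ℝ) < P := by exact_mod_cast hP
  have hle : ∀ k : ℤ, s2wt (1 / (P : ℝ)) 4 k * ‖s2Ftr P a k‖ ≤ Real.exp 1 * (s2wt 0 4 k * ‖a k‖) := by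
    intro k
    unfold s2Ftr
    split_ifs with hk
    · have hk' : |(k : ℝ)| ≤ P := by rw [← s2F_natAbs]; exact_mod_cast hk
      have h1 : Real.exp (1 / (P : ℝ) * |(k : ℝ)|) ≤ Real.exp 1 := by
        apply Real.exp_le_exp.2
        rw [one_div, inv_mul_le_iff₀ hP', mul_one]
        exact hk'
      rw [s2F_wt_zero, s2wt]
      calc (1 + |(k : ℝ)|) ^ 4 * Real.exp (1 / (P : ℝ) * |(k : ℝ)|) * ‖a k‖
          ≤ (1 + |(k : ℝ)|) ^ 4 * Real.exp 1 * ‖a k‖ := by gcongr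
        _ = _ := by ring
    · rw [norm_zero, mul_zero]
      exact mul_nonneg (Real.exp_pos _).le (mul_nonneg (s2A_wt_nonneg _ _ _) (norm_nonneg _))
  have hs' : Summable fun k : ℤ => s2wt (1 / (P : ℝ)) 4 k * ‖s2Ftr P a k‖ :=
    Summable.of_nonneg_of_le (fun k => mul_nonneg (s2A_wt_nonneg _ _ _) (norm_nonneg _)) hle
      (hs.mul_left _)
  refine ⟨?_, hs', ?_⟩
  · intro k
    unfold s2Ftr
    rw [Int.natAbs_neg]
    split_ifs
    · exact har k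
    · simp
  · refine (hs'.tsum_le_tsum hle (hs.mul_left _)).trans (le_of_eq ?_)
    rw [tsum_mul_left]
    rfl

/-- (b), tail of `a`. -/
theorem s2F_tail_a {a : ℤ → ℂ} (hs : Summable fun k : ℤ => s2wt 0 13 k * ‖a k‖) {P : ℕ} (hP : 0 < P) :
    Summable (fun k : ℤ => ‖(s2Ftr P a - a) k‖) ∧
      ∑' k : ℤ, ‖(s2Ftr P a - a) k‖ ≤ s2wn 0 13 a / (P : ℝ) ^ 13 := by
  have hP' : (0 : ℝ) < P := by exact_mod_cast hP
  have hle : ∀ k : ℤ, ‖(s2Ftr P a - a) k‖ ≤ (s2wt 0 13 k * ‖a k‖) / (P : ℝ) ^ 13 := by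
    intro k
    simp only [Pi.sub_apply, s2Ftr]
    split_ifs with hk
    · rw [sub_self, norm_zero]
      exact div_nonneg (mul_nonneg (s2A_wt_nonneg _ _ _) (norm_nonneg _)) (by positivity)
    · have hk' : (P : ℝ) ≤ |(k : ℝ)| := by
        rw [← s2F_natAbs]; exact_mod_cast (not_le.1 hk).le
      rw [zero_sub, norm_neg, le_div_iff₀ (by positivity), s2F_wt_zero, mul_comm]
      exact mul_le_mul_of_nonneg_right (pow_le_pow_left₀ hP'.le (by linarith) 13) (norm_nonneg _)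
  have hs' : Summable fun k : ℤ => ‖(s2Ftr P a - a) k‖ :=
    Summable.of_nonneg_of_le (fun k => norm_nonneg _) hle (hs.div_const _)
  refine ⟨hs', (hs'.tsum_le_tsum hle (hs.div_const _)).trans (le_of_eq ?_)⟩
  rw [tsum_div_const]
  rfl

section Ctx2

variable {C : (ℤ → ℂ) → ℤ → ℂ} {a : ℤ → ℂ} {M θ : ℝ} {N : ℕ} {κ : ℤ → ℝ}

/-- (b) the residual of the truncation. -/
theorem S2FCtx.base (X : S2FCtx C a M θ N κ) (hθ1 : θ ^ 2 ≤ 1) (ha : S2In 0 M a)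
    (haM : Real.exp 1 * s2wn 0 4 a ≤ M) (hs13 : Summable fun k : ℤ => s2wt 0 13 k * ‖a k‖)
    {P : ℕ} (hP : 0 < P) :
    S2FH (1 / (P : ℝ) ^ 2)
      (2 * (Real.exp 1 * (s2wn 0 13 a / (P : ℝ) ^ 13) + Real.exp (-((P : ℝ) - 1)) * M))
      (s2Fcut N (C (s2Ftr P a))) := by
  have hP' : (0 : ℝ) < P := by exact_mod_cast hP
  have hP1 : (1 : ℝ) ≤ P := by exact_mod_cast hP
  have hM : 0 ≤ M := s2A_in_nonneg ha
  have hu1 : S2In (1 / (P : ℝ)) M (s2Ftr P a) := s2A_in_mono le_rfl haM (s2F_tr_in ha.real ha.summ hP)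
  have hσ1 : (0 : ℝ) ≤ 1 / (P : ℝ) := by positivity
  have hσ1' : 1 / (P : ℝ) ≤ 1 := by rw [div_le_one hP']; exact hP1
  have hu0 : S2In 0 M (s2Ftr P a) := s2A_in_mono hσ1 le_rfl hu1
  obtain ⟨hr1, hr2⟩ := s2F_tail_a hs13 hP
  set h₀ : ℝ := s2wn 0 13 a / (P : ℝ) ^ 13 with hh₀
  set E : ℝ := Real.exp (-((P : ℝ) - 1)) * M with hE
  have hE0 : 0 ≤ E := mul_nonneg (Real.exp_pos _).le hM
  have hh0 : 0 ≤ h₀ := (tsum_nonneg fun k => norm_nonneg _).trans hr2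
  have hrH : S2FH 0 h₀ (s2Ftr P a - a) := by
    refine s2F_H_of_l1 ?_ ?_
    · simpa using hr1
    · simpa using hr2
  obtain ⟨hq1, hq2⟩ := s2F_sq_sum (fun k => norm_nonneg _) hr1
  set y : ℝ := Real.exp 1 * h₀ + E with hy
  have hy0 : 0 ≤ y := by positivity
  have he1 : (0 : ℝ) < Real.exp 1 := Real.exp_pos _
  refine s2F_H_of_le (t := fun n => Real.exp 1 * ‖(s2Ftr P a - a) n‖ + κ n * y) (by positivity) ?_ ?_ ?_
  · -- summability of the squares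
    refine Summable.of_nonneg_of_le (fun n => sq_nonneg _) (fun n => ?_)
      (((hq1.mul_left (2 * Real.exp 1 ^ 2))).add (X.κ_summ.mul_left (2 * y ^ 2)))
    nlinarith [sq_nonneg (Real.exp 1 * ‖(s2Ftr P a - a) n‖ - κ n * y)]
  · have hle : ∀ n : ℤ, (Real.exp 1 * ‖(s2Ftr P a - a) n‖ + κ n * y) ^ 2
        ≤ 2 * Real.exp 1 ^ 2 * ‖(s2Ftr P a - a) n‖ ^ 2 + 2 * y ^ 2 * κ n ^ 2 := by
      intro n
      nlinarith [sq_nonneg (Real.exp 1 * ‖(s2Ftr P a - a) n‖ - κ n * y)]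
    have hsum := ((hq1.mul_left (2 * Real.exp 1 ^ 2))).add (X.κ_summ.mul_left (2 * y ^ 2))
    have hs : Summable fun n : ℤ => (Real.exp 1 * ‖(s2Ftr P a - a) n‖ + κ n * y) ^ 2 :=
      Summable.of_nonneg_of_le (fun n => sq_nonneg _) hle hsum
    refine (hs.tsum_le_tsum hle hsum).trans ?_
    rw [(hq1.mul_left (2 * Real.exp 1 ^ 2)).tsum_add (X.κ_summ.mul_left (2 * y ^ 2)), tsum_mul_left,
      tsum_mul_left]
    have h1 : ∑' n : ℤ, ‖(s2Ftr P a - a) n‖ ^ 2 ≤ h₀ ^ 2 :=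
      hq2.trans (pow_le_pow_left₀ (tsum_nonneg fun k => norm_nonneg _) hr2 2)
    have h2 : ∑' n : ℤ, κ n ^ 2 ≤ 1 := X.κ_le.trans hθ1
    have h3 : Real.exp 1 * h₀ ≤ y := by rw [hy]; linarith
    have h4 : (Real.exp 1 * h₀) ^ 2 ≤ y ^ 2 := pow_le_pow_left₀ (by positivity) h3 2
    have h5 : 2 * Real.exp 1 ^ 2 * ∑' n : ℤ, ‖(s2Ftr P a - a) n‖ ^ 2 ≤ 2 * Real.exp 1 ^ 2 * h₀ ^ 2 :=
      mul_le_mul_of_nonneg_left h1 (by positivity)
    have h6 : 2 * y ^ 2 * ∑' n : ℤ, κ n ^ 2 ≤ 2 * y ^ 2 * 1 :=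
      mul_le_mul_of_nonneg_left h2 (by positivity)
    nlinarith
  · intro n
    by_cases hn : N ≤ n.natAbs
    · simp only [s2Fcut, if_pos hn]
      by_cases hn2 : |(n : ℝ)| ≤ (P : ℝ) ^ 2
      · -- middle range
        have h1 := X.star 0 le_rfl zero_le_one _ _ hu0 ha n hn
        rw [X.tab n hn, zero_mul, Real.exp_zero, mul_one, sub_zero] at h1
        have h2 : ‖C (s2Ftr P a) n‖ ≤ ‖(s2Ftr P a - a) n‖ + κ n * h₀ := by
          have h3 : ‖C (s2Ftr P a) n‖ ≤ ‖C (s2Ftr P a) n - (s2Ftr P a n - a n)‖ + ‖s2Ftr P a n - a n‖ := by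
            have := norm_add_le (C (s2Ftr P a) n - (s2Ftr P a n - a n)) (s2Ftr P a n - a n)
            simpa using this
          have h4 : κ n * s2hn 0 (s2Ftr P a - a) ≤ κ n * h₀ :=
            mul_le_mul_of_nonneg_left hrH.2 (X.κ_nonneg n)
          rw [Pi.sub_apply]
          linarith
        have h5 : Real.exp (1 / (P : ℝ) ^ 2 * |(n : ℝ)|) ≤ Real.exp 1 := by
          apply Real.exp_le_exp.2
          rw [one_div, inv_mul_le_iff₀ (by positivity), mul_one]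
          exact hn2
        calc ‖C (s2Ftr P a) n‖ * Real.exp (1 / (P : ℝ) ^ 2 * |(n : ℝ)|)
            ≤ (‖(s2Ftr P a - a) n‖ + κ n * h₀) * Real.exp 1 :=
              mul_le_mul h2 h5 (Real.exp_pos _).le
                (add_nonneg (norm_nonneg _) (mul_nonneg (X.κ_nonneg n) hh0))
          _ = Real.exp 1 * ‖(s2Ftr P a - a) n‖ + κ n * (Real.exp 1 * h₀) := by ring
          _ ≤ Real.exp 1 * ‖(s2Ftr P a - a) n‖ + κ n * y := by
              have : κ n * (Real.exp 1 * h₀) ≤ κ n * y :=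
                mul_le_mul_of_nonneg_left (by rw [hy]; linarith) (X.κ_nonneg n)
              linarith
      · -- high range
        have hn2' : (P : ℝ) ^ 2 < |(n : ℝ)| := not_le.1 hn2
        have hnP : ¬ n.natAbs ≤ P := by
          intro hle
          have h1 : |(n : ℝ)| ≤ P := by rw [← s2F_natAbs]; exact_mod_cast hle
          nlinarith
        have h1 := X.star (1 / (P : ℝ)) hσ1 hσ1' _ _ hu1 (s2A_in_zero hM) n hn
        have hz : s2Ftr P a n = 0 := by simp only [s2Ftr, if_neg hnP]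
        rw [X.zero n hn, hz, sub_zero, Pi.zero_apply, sub_zero, sub_zero, sub_zero] at h1
        have h2 : s2hn (1 / (P : ℝ)) (s2Ftr P a) ≤ M := (s2F_H_of_in hu1).2
        have h3 : Real.exp (1 / (P : ℝ) ^ 2 * |(n : ℝ)|)
            ≤ Real.exp (1 / (P : ℝ) * |(n : ℝ)|) * Real.exp (-((P : ℝ) - 1)) := by
          rw [← Real.exp_add]
          apply Real.exp_le_exp.2
          have h4 : (1 / (P : ℝ) - 1 / (P : ℝ) ^ 2) * (P : ℝ) ^ 2 ≤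
              (1 / (P : ℝ) - 1 / (P : ℝ) ^ 2) * |(n : ℝ)| := by
            refine mul_le_mul_of_nonneg_left hn2'.le ?_
            rw [sub_nonneg]
            exact one_div_le_one_div_of_le hP' (by nlinarith)
          have h5 : (1 / (P : ℝ) - 1 / (P : ℝ) ^ 2) * (P : ℝ) ^ 2 = (P : ℝ) - 1 := by
            field_simp
          linarith
        calc ‖C (s2Ftr P a) n‖ * Real.exp (1 / (P : ℝ) ^ 2 * |(n : ℝ)|)
            ≤ ‖C (s2Ftr P a) n‖ * (Real.exp (1 / (P : ℝ) * |(n : ℝ)|) * Real.exp (-((P : ℝ) - 1))) :=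
              mul_le_mul_of_nonneg_left h3 (norm_nonneg _)
          _ = (‖C (s2Ftr P a) n‖ * Real.exp (1 / (P : ℝ) * |(n : ℝ)|)) * Real.exp (-((P : ℝ) - 1)) := by
              ring
          _ ≤ (κ n * M) * Real.exp (-((P : ℝ) - 1)) :=
              mul_le_mul_of_nonneg_right
                (h1.trans (mul_le_mul_of_nonneg_left h2 (X.κ_nonneg n))) (Real.exp_pos _).le
          _ = κ n * E := by rw [hE]; ring
          _ ≤ Real.exp 1 * ‖(s2Ftr P a - a) n‖ + κ n * y := by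
              have h6 : κ n * E ≤ κ n * y :=
                mul_le_mul_of_nonneg_left (by rw [hy]; nlinarith) (X.κ_nonneg n)
              have h7 : 0 ≤ Real.exp 1 * ‖(s2Ftr P a - a) n‖ := by positivity
              linarith
    · simp only [s2Fcut, if_neg hn, norm_zero, zero_mul]
      have := X.κ_nonneg n
      positivity

end Ctx2


section Ctx3

variable {C : (ℤ → ℂ) → ℤ → ℂ} {a : ℤ → ℂ} {M : ℝ} {N : ℕ} {κ : ℤ → ℝ}

/-- (c), (d), (e): the simultaneous induction. -/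
theorem S2FCtx.induct (X : S2FCtx C a M (1 / 128) N κ) (ha : S2In 0 M a) {σ₀ ε₀ h₀ : ℝ} {u₀ : ℤ → ℂ}
    (hσ0 : 0 < σ₀) (hσ1 : σ₀ ≤ 1) (hu : S2In σ₀ (M / 4) u₀) (hc : S2FH σ₀ ε₀ (s2Fcut N (C u₀)))
    (hB : 2 * (s2FD * 2 ^ 12 * ε₀ / σ₀ ^ 6) ≤ 3 * M / 4)
    (hv : S2FH 0 h₀ (u₀ - a)) (hlow : ∀ n : ℤ, n.natAbs < N → u₀ n = a n) (j : ℕ) :
    S2In (σ₀ * (1 + (1 / 2) ^ j) / 2) (M / 4 + 2 * (s2FD * 2 ^ 12 * ε₀ / σ₀ ^ 6) * (1 - (1 / 2) ^ j))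
        ((fun u => u - s2Fcut N (C u))^[j] u₀) ∧
      S2FH (σ₀ * (1 + (1 / 2) ^ j) / 2) ((1 / 128) ^ j * ε₀)
        (s2Fcut N (C ((fun u => u - s2Fcut N (C u))^[j] u₀))) ∧
      S2FH 0 ((1 / 128) ^ j * h₀) ((fun u => u - s2Fcut N (C u))^[j] u₀ - a) ∧
      ∀ n : ℤ, n.natAbs < N → ((fun u => u - s2Fcut N (C u))^[j] u₀) n = a n := by
  have hε0 := s2F_H_nonneg hc
  set B₀ : ℝ := s2FD * 2 ^ 12 * ε₀ / σ₀ ^ 6 with hB₀
  have hB0 : 0 ≤ B₀ := by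
    have := s2FD_nonneg
    positivity
  induction j with
  | zero =>
    have e0 : σ₀ * (1 + (1 / 2) ^ 0) / 2 = σ₀ := by norm_num
    rw [e0]
    refine ⟨?_, ?_, ?_, ?_⟩
    · simpa using hu
    · simpa using hc
    · simpa using hv
    · simpa using hlow
  | succ j ih =>
    obtain ⟨ih1, ih2, ih3, ih4⟩ := ih
    set u : ℤ → ℂ := (fun u => u - s2Fcut N (C u))^[j] u₀ with hudef
    have hsucc : (fun u => u - s2Fcut N (C u))^[j + 1] u₀ = u - s2Fcut N (C u) := by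
      rw [Function.iterate_succ_apply']
    rw [hsucc]
    set x : ℝ := (1 / 2) ^ j with hx
    have hx0 : 0 < x := by positivity
    have hx1 : x ≤ 1 := pow_le_one₀ (by norm_num) (by norm_num)
    have hxs : (1 / 2 : ℝ) ^ (j + 1) = x / 2 := by rw [pow_succ, hx]; ring
    have hθj : (1 / 128 : ℝ) ^ j = x ^ 7 := by
      have : (1 / 128 : ℝ) = (1 / 2) ^ 7 := by norm_num
      rw [this, hx, ← pow_mul, ← pow_mul, mul_comm]
    have hθs : (1 / 128 : ℝ) ^ (j + 1) = 1 / 128 * (1 / 128) ^ j := by rw [pow_succ]; ring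
    have hm : s2FD * ((1 / 128) ^ j * ε₀) / (σ₀ * x / 4) ^ 6 = B₀ * x := by
      rw [hθj, hB₀]
      field_simp
      ring
    have hMle : M / 4 + 2 * B₀ * (1 - x) + B₀ * x ≤ M := by nlinarith
    have hst := X.step (by norm_num) (σ := σ₀ * (1 + x) / 2) (α := σ₀ * x / 4)
      (m := M / 4 + 2 * B₀ * (1 - x)) (ε := (1 / 128) ^ j * ε₀) (u := u) (by positivity) (by nlinarith)
      (by nlinarith) (by nlinarith) ih1 ih2 (by rw [hm]; exact hMle)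
    rw [hm] at hst
    have e1 : σ₀ * (1 + x) / 2 - σ₀ * x / 4 = σ₀ * (1 + x / 2) / 2 := by ring
    have e2 : M / 4 + 2 * B₀ * (1 - x) + B₀ * x = M / 4 + 2 * B₀ * (1 - x / 2) := by ring
    rw [e1, e2] at hst
    have hu0 : S2In 0 M u := s2A_in_mono (by positivity) (by nlinarith) ih1
    have hst0 := X.step0 (by norm_num) hu0 ha ih3 ih4
    rw [hxs, hθs, mul_assoc (1 / 128 : ℝ), mul_assoc (1 / 128 : ℝ)]
    exact ⟨hst.1, hst.2, hst0.1, hst0.2⟩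

end Ctx3

theorem s2F_scheme (C : (ℤ → ℂ) → ℤ → ℂ) (a : ℤ → ℂ) (har : S2Real a)
    (hdec : ∀ A : ℕ, Summable fun k : ℤ => s2wt 0 A k * ‖a k‖)
    (hstar : ∀ M : ℝ, ∃ K : ℝ, ∃ N : ℕ, ∀ σ : ℝ, 0 ≤ σ → σ ≤ 1 →
      ∀ b b' : ℤ → ℂ, S2In σ M b → S2In σ M b' → ∀ n : ℤ, N ≤ n.natAbs →
        ‖C b n - C b' n - (b n - b' n)‖ * Real.exp (σ * |(n : ℝ)|)
          ≤ K / |(n : ℝ)| * s2hn σ (b - b'))
    (hzero : ∃ N : ℕ, ∀ n : ℤ, N ≤ n.natAbs → C 0 n = 0)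
    (htab : ∃ N : ℕ, ∀ n : ℤ, N ≤ n.natAbs → C a n = 0)
    (hconj : ∀ M : ℝ, ∃ N : ℕ, ∀ b : ℤ → ℂ, S2In 0 M b → ∀ n : ℤ, N ≤ n.natAbs →
      C b (-n) = conj (C b n)) :
    ∃ σ : ℝ, 0 < σ ∧ ∃ B : ℝ, ∀ k : ℤ, ‖a k‖ ≤ B * Real.exp (-σ * |(k : ℝ)|) := by
  have hW0 : 0 ≤ s2wn 0 4 a := tsum_nonneg fun k => mul_nonneg (s2A_wt_nonneg _ _ _) (norm_nonneg _)
  have hW13 : 0 ≤ s2wn 0 13 a := tsum_nonneg fun k => mul_nonneg (s2A_wt_nonneg _ _ _) (norm_nonneg _)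
  have he1 : (1 : ℝ) ≤ Real.exp 1 := Real.one_le_exp (by norm_num)
  set M : ℝ := 4 * Real.exp 1 * (1 + s2wn 0 4 a) with hM
  have hM0 : 0 < M := by positivity
  have haM4 : Real.exp 1 * s2wn 0 4 a ≤ M / 4 := by rw [hM]; nlinarith
  have ha : S2In 0 M a := ⟨har, hdec 4, by rw [hM]; nlinarith⟩
  obtain ⟨N, κ, X⟩ := s2F_ctx_exists C a hstar hzero htab hconj M (θ := 1 / 128) (by norm_num)
  set G₀ : ℝ := 2 * Real.exp 1 * (s2wn 0 13 a + (Nat.factorial 13 : ℝ) * M) with hG₀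
  have hG0 : 0 ≤ G₀ := by positivity
  obtain ⟨P, hP⟩ := exists_nat_ge (max ((N : ℝ) + 1) (s2FD * 2 ^ 14 * G₀ / M))
  have hPN : (N : ℝ) + 1 ≤ P := (le_max_left _ _).trans hP
  have hPG : s2FD * 2 ^ 14 * G₀ / M ≤ P := (le_max_right _ _).trans hP
  have hPN' : N < P := by exact_mod_cast hPN
  have hP0 : 0 < P := by omega
  have hP' : (0 : ℝ) < P := by exact_mod_cast hP0
  have hP1 : (1 : ℝ) ≤ P := by exact_mod_cast hP0
  -- the data of the induction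
  have hbase := X.base (by norm_num) ha (by linarith) (hdec 13) hP0
  have hexp : Real.exp (-((P : ℝ) - 1)) ≤ Real.exp 1 * ((Nat.factorial 13 : ℝ) / (P : ℝ) ^ 13) := by
    have h1 : (P : ℝ) ^ 13 / (Nat.factorial 13 : ℝ) ≤ Real.exp P :=
      Real.pow_div_factorial_le_exp _ hP'.le 13
    have h2 : -((P : ℝ) - 1) = 1 + -(P : ℝ) := by ring
    rw [h2, Real.exp_add, Real.exp_neg]
    refine mul_le_mul_of_nonneg_left ?_ (Real.exp_pos _).le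
    have hf : (0 : ℝ) < (Nat.factorial 13 : ℝ) := by exact_mod_cast Nat.factorial_pos 13
    rw [inv_le_comm₀ (Real.exp_pos _) (by positivity), inv_div]
    exact h1
  have hε : 2 * (Real.exp 1 * (s2wn 0 13 a / (P : ℝ) ^ 13) + Real.exp (-((P : ℝ) - 1)) * M)
      ≤ G₀ / (P : ℝ) ^ 13 := by
    have h1 : Real.exp (-((P : ℝ) - 1)) * M ≤ Real.exp 1 * ((Nat.factorial 13 : ℝ) / (P : ℝ) ^ 13) * M :=
      mul_le_mul_of_nonneg_right hexp hM0.le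
    have h2 : G₀ / (P : ℝ) ^ 13 = 2 * (Real.exp 1 * (s2wn 0 13 a / (P : ℝ) ^ 13)
        + Real.exp 1 * ((Nat.factorial 13 : ℝ) / (P : ℝ) ^ 13) * M) := by
      rw [hG₀]; ring
    rw [h2]
    linarith
  have hc := s2F_H_weaken hbase hε
  have hσ0 : (0 : ℝ) < 1 / (P : ℝ) ^ 2 := by positivity
  have hσ1 : 1 / (P : ℝ) ^ 2 ≤ 1 := by
    rw [div_le_one (by positivity)]
    exact one_le_pow₀ hP1
  have hσle : 1 / (P : ℝ) ^ 2 ≤ 1 / (P : ℝ) :=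
    one_div_le_one_div_of_le hP' (by nlinarith)
  have hu : S2In (1 / (P : ℝ) ^ 2) (M / 4) (s2Ftr P a) :=
    s2A_in_mono hσle haM4 (s2F_tr_in har (hdec 4) hP0)
  have hB : 2 * (s2FD * 2 ^ 12 * (G₀ / (P : ℝ) ^ 13) / (1 / (P : ℝ) ^ 2) ^ 6) ≤ 3 * M / 4 := by
    have h1 : 2 * (s2FD * 2 ^ 12 * (G₀ / (P : ℝ) ^ 13) / (1 / (P : ℝ) ^ 2) ^ 6)
        = s2FD * 2 ^ 13 * G₀ / P := by
      field_simp
    rw [h1, div_le_iff₀ hP']
    rw [div_le_iff₀ hM0] at hPG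
    nlinarith
  obtain ⟨hr1, hr2⟩ := s2F_tail_a (hdec 13) hP0
  have hv : S2FH 0 (s2wn 0 13 a / (P : ℝ) ^ 13) (s2Ftr P a - a) := by
    refine s2F_H_of_l1 ?_ ?_
    · simpa using hr1
    · simpa using hr2
  have hlow : ∀ n : ℤ, n.natAbs < N → s2Ftr P a n = a n := by
    intro n hn
    simp only [s2Ftr, if_pos (by omega : n.natAbs ≤ P)]
  have hind := X.induct ha hσ0 hσ1 hu hc hB hv hlow
  refine ⟨1 / (P : ℝ) ^ 2 / 2, by positivity, M, fun k => ?_⟩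
  set u : ℕ → ℤ → ℂ := fun j => (fun u => u - s2Fcut N (C u))^[j] (s2Ftr P a) with hudef
  -- convergence
  have hlim : Tendsto (fun j => u j k) atTop (𝓝 (a k)) := by
    rw [tendsto_iff_norm_sub_tendsto_zero]
    have h0 : Tendsto (fun j : ℕ => (1 / 128 : ℝ) ^ j * (s2wn 0 13 a / (P : ℝ) ^ 13)) atTop (𝓝 0) := by
      have := (tendsto_pow_atTop_nhds_zero_of_lt_one (r := (1 / 128 : ℝ)) (by norm_num)
        (by norm_num)).mul_const (s2wn 0 13 a / (P : ℝ) ^ 13)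
      simpa using this
    refine squeeze_zero (fun j => norm_nonneg _) (fun j => ?_) h0
    have := s2F_H_sup (hind j).2.2.1 k
    simpa using this
  have hbd : ∀ j, ‖u j k‖ * Real.exp (1 / (P : ℝ) ^ 2 / 2 * |(k : ℝ)|) ≤ M := by
    intro j
    have hx0 : (0 : ℝ) < (1 / 2) ^ j := by positivity
    have hx1 : ((1 / 2 : ℝ)) ^ j ≤ 1 := pow_le_one₀ (by norm_num) (by norm_num)
    have h1 := s2F_H_sup (s2F_H_mono (σ' := 1 / (P : ℝ) ^ 2 / 2) (by nlinarith)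
      (s2F_H_of_in (hind j).1)) k
    refine h1.trans ?_
    have hB0 : 0 ≤ s2FD * 2 ^ 12 * (G₀ / (P : ℝ) ^ 13) / (1 / (P : ℝ) ^ 2) ^ 6 := by
      have := s2FD_nonneg
      positivity
    nlinarith
  have hfin : ‖a k‖ * Real.exp (1 / (P : ℝ) ^ 2 / 2 * |(k : ℝ)|) ≤ M :=
    le_of_tendsto' ((hlim.norm).mul_const _) hbd
  rw [neg_mul, Real.exp_neg, ← div_eq_mul_inv, le_div_iff₀ (Real.exp_pos _)]
  exact hfin

/-- forces the equation lemmas of the definitions above to be generated in this file. -/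
theorem s2F_eqns_cited : True := by
  have := @s2Fcut.eq_1; have := @s2Fcut.eq_def; have := @s2Fcut.congr_simp
  have := @s2Ftr.eq_1; have := @s2Ftr.eq_def; have := @s2Ftr.congr_simp
  have := @S2FH.eq_1; have := @S2FH.eq_def; have := @S2FH.congr_simp
  have := @s2FD.eq_1; have := @s2FD.eq_def
  trivial

end Claimed.Agent.R269
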