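/-
Row 269, Section 2, UNIT G: the Lazutkin data of a table (P1 (2.6)).  Owner: helper159.
-/
import Claimed.Agent.R269.S2.Defs

set_option autoImplicit false

namespace Claimed.Agent.R269

open Complex ComplexConjugate Filter Topology

/-- Lazutkin data of the table: `φ' = e^u`, `r(φ(x)) = c e^{-3u(x)}`, `u(x) = ∑ a_k e^{ikx}`. -/
structure S2Laz (h : ℝ → ℝ) (a : ℤ → ℂ) (φ : ℝ → ℝ) (c : ℝ) : Prop where
  cpos : 0 < c
  real : S2Real a
  dec : ∀ A : ℕ, Summable fun k : ℤ => s2wt 0 A k * ‖a k‖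
  dphi : ∀ x : ℝ, HasDerivAt φ (Real.exp (s2u a 0 (x : ℂ)).re) x
  shift : ∀ x : ℝ, φ (x + 2 * Real.pi) = φ x + 2 * Real.pi
  rad : ∀ x : ℝ, h (φ x) + deriv (deriv h) (φ x) = c * Real.exp (-3 * (s2u a 0 (x : ℂ)).re)

end Claimed.Agent.R269
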