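/-
Row 269, Section 2, UNIT G1 (export): existence of the Lazutkin data.   Statement + route by helper159.

`r = h + h''` is smooth, `2π`-periodic, positive.  `k = 2π / ∫_0^{2π} r^{1/3}`, `ξ(θ) = k ∫_0^θ r^{1/3}`: smooth, `ξ' > 0`,
`ξ(θ+2π) = ξ(θ)+2π`, a bijection of `ℝ`; `φ = ξ^{-1}` is smooth, `φ'(x) = 1/(k r(φ x)^{1/3})`.  `u = log φ'` is smooth and
`2π`-periodic, `e^{-3u} = k³ r∘φ`, `c = k^{-3}`.  `a_k` = Fourier coefficients of `u`:  `a_{-k} = conj a_k`;
`|a_k| ≤ sup|u^{(A)}| / |k|^A` by `A` integrations by parts (`fourierCoeffOn_of_hasDerivAt` or directly), so all weighted sums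
converge; `u(x) = ∑ a_k e^{ikx}` (`hasSum_fourier_series_of_summable` / `has_pointwise_sum_fourier_series_of_summable`),
hence `(s2u a 0 x).re = u x`.
-/
import Claimed.Agent.R269.S2.GDefs

set_option autoImplicit false

namespace Claimed.Agent.R269

open Complex ComplexConjugate Filter Topology

/-! ### Fourier coefficients of smooth periodic real functions -/

/-- Fourier coefficients of a real function. -/
noncomputable def s2g1c (w : ℝ → ℝ) (k : ℤ) : ℂ :=
  1 / (2 * Real.pi) * ∫ x in (0 : ℝ)..(2 * Real.pi), exp (-I * (k : ℂ) * (x : ℂ)) * (w x : ℂ)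

theorem s2g1_exp_deriv (c : ℂ) (x : ℝ) :
    HasDerivAt (fun y : ℝ => exp (c * (y : ℂ))) (c * exp (c * (x : ℂ))) x := by
  have h1 : HasDerivAt (fun z : ℂ => exp (c * z)) (exp (c * (x : ℂ)) * (c * 1)) (x : ℂ) :=
    ((hasDerivAt_id (x : ℂ)).const_mul c).cexp
  have h2 := h1.comp_ofReal
  refine h2.congr_deriv ?_
  ring

theorem s2g1_exp_two_pi (k : ℤ) : exp (-I * (k : ℂ) * ((2 * Real.pi : ℝ) : ℂ)) = 1 := by
  have e2 : -I * (k : ℂ) * ((2 * Real.pi : ℝ) : ℂ) = ((-k : ℤ) : ℂ) * (2 * Real.pi * I) := by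
    push_cast
    ring
  rw [e2, Complex.exp_int_mul_two_pi_mul_I]

theorem s2g1_norm_exp (k : ℤ) (x : ℝ) : ‖exp (-I * (k : ℂ) * (x : ℂ))‖ = 1 := by
  rw [Complex.norm_exp]
  simp

theorem s2g1_ibp {g g' : ℝ → ℝ} (hg : ∀ x, HasDerivAt g (g' x) x) (hc : Continuous g')
    (hper : g (2 * Real.pi) = g 0) (k : ℤ) : s2g1c g' k = I * (k : ℂ) * s2g1c g k := by
  unfold s2g1c
  have hcu : Continuous fun x : ℝ => exp (-I * (k : ℂ) * (x : ℂ)) :=
    Complex.continuous_exp.comp (continuous_const.mul Complex.continuous_ofReal)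
  have key := intervalIntegral.integral_mul_deriv_eq_deriv_mul (a := 0) (b := 2 * Real.pi)
    (u := fun x : ℝ => exp (-I * (k : ℂ) * (x : ℂ)))
    (u' := fun x : ℝ => -I * (k : ℂ) * exp (-I * (k : ℂ) * (x : ℂ)))
    (v := fun x : ℝ => (g x : ℂ)) (v' := fun x : ℝ => (g' x : ℂ))
    (fun x _ => s2g1_exp_deriv _ x) (fun x _ => (hg x).ofReal_comp)
    ((continuous_const.mul hcu).intervalIntegrable _ _)
    ((Complex.continuous_ofReal.comp hc).intervalIntegrable _ _)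
  rw [key, s2g1_exp_two_pi, hper]
  have e : ∫ x in (0 : ℝ)..(2 * Real.pi), -I * (k : ℂ) * exp (-I * (k : ℂ) * (x : ℂ)) * (g x : ℂ)
      = -I * (k : ℂ) * ∫ x in (0 : ℝ)..(2 * Real.pi), exp (-I * (k : ℂ) * (x : ℂ)) * (g x : ℂ) := by
    rw [← intervalIntegral.integral_const_mul]
    congr 1
    funext x
    ring
  rw [e]
  simp
  ring

theorem s2g1_bound {g : ℝ → ℝ} {B : ℝ} (hB : ∀ x, |g x| ≤ B) (k : ℤ) : ‖s2g1c g k‖ ≤ B := by
  unfold s2g1c
  have h1 : ‖∫ x in (0 : ℝ)..(2 * Real.pi), exp (-I * (k : ℂ) * (x : ℂ)) * (g x : ℂ)‖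
      ≤ B * |2 * Real.pi - 0| := by
    refine intervalIntegral.norm_integral_le_of_norm_le_const fun x _ => ?_
    rw [norm_mul, s2g1_norm_exp, one_mul, Complex.norm_real]
    exact hB x
  rw [sub_zero, abs_of_pos (by positivity)] at h1
  have h2 : ‖(1 / (2 * Real.pi) : ℂ)‖ = 1 / (2 * Real.pi) := by
    have e : (1 / (2 * (Real.pi : ℂ))) = ((1 / (2 * Real.pi) : ℝ) : ℂ) := by
      push_cast
      ring
    rw [e, Complex.norm_real, Real.norm_of_nonneg (by positivity)]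
  rw [norm_mul, h2]
  calc 1 / (2 * Real.pi) * ‖∫ x in (0 : ℝ)..(2 * Real.pi), exp (-I * (k : ℂ) * (x : ℂ)) * (g x : ℂ)‖
      ≤ 1 / (2 * Real.pi) * (B * (2 * Real.pi)) := by gcongr
    _ = B := by
      field_simp

theorem s2g1_conj (w : ℝ → ℝ) (k : ℤ) : s2g1c w (-k) = conj (s2g1c w k) := by
  unfold s2g1c
  have h2 : conj (∫ x in (0 : ℝ)..(2 * Real.pi), exp (-I * (k : ℂ) * (x : ℂ)) * (w x : ℂ))
      = ∫ x in (0 : ℝ)..(2 * Real.pi), conj (exp (-I * (k : ℂ) * (x : ℂ)) * (w x : ℂ)) := by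
    simp only [intervalIntegral, map_sub]
    rw [integral_conj, integral_conj]
  rw [map_mul, h2]
  congr 1
  · have e : (1 / (2 * (Real.pi : ℂ))) = ((1 / (2 * Real.pi) : ℝ) : ℂ) := by
      push_cast
      ring
    rw [e, Complex.conj_ofReal]
  · refine intervalIntegral.integral_congr fun x _ => ?_
    show exp (-I * ((-k : ℤ) : ℂ) * (x : ℂ)) * (w x : ℂ)
      = conj (exp (-I * (k : ℂ) * (x : ℂ)) * (w x : ℂ))
    rw [map_mul, Complex.conj_ofReal, ← Complex.exp_conj]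
    congr 2
    simp [Complex.conj_ofReal]

theorem s2g1_bdd {g : ℝ → ℝ} (hc : Continuous g) (hp : Function.Periodic g (2 * Real.pi)) :
    ∃ B : ℝ, ∀ x, |g x| ≤ B := by
  obtain ⟨B, hB⟩ := (hp.isBounded_of_continuous (by positivity) hc).exists_norm_le
  exact ⟨B, fun x => hB _ ⟨x, rfl⟩⟩

theorem s2g1_iter {w : ℝ → ℝ} (hw : ContDiff ℝ ((⊤ : ℕ∞) : WithTop ℕ∞) w)
    (hp : Function.Periodic w (2 * Real.pi)) (m : ℕ) :
    (∀ x, HasDerivAt (iteratedDeriv m w) (iteratedDeriv (m + 1) w x) x) ∧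
      Continuous (iteratedDeriv m w) ∧ Function.Periodic (iteratedDeriv m w) (2 * Real.pi) := by
  refine ⟨fun x => ?_, hw.continuous_iteratedDeriv m (by exact_mod_cast le_top), fun x => ?_⟩
  · rw [iteratedDeriv_succ]
    exact ((hw.differentiable_iteratedDeriv m (by exact_mod_cast WithTop.coe_lt_top _)) x).hasDerivAt
  · have h1 := congrFun (iteratedDeriv_comp_add_const m w (2 * Real.pi)) x
    have h2 : (fun z => w (z + 2 * Real.pi)) = w := funext hp
    rw [h2] at h1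
    exact h1.symm

theorem s2g1_coeff_iter {w : ℝ → ℝ} (hw : ContDiff ℝ ((⊤ : ℕ∞) : WithTop ℕ∞) w)
    (hp : Function.Periodic w (2 * Real.pi)) (m : ℕ) (k : ℤ) :
    s2g1c (iteratedDeriv m w) k = (I * (k : ℂ)) ^ m * s2g1c w k := by
  induction m with
  | zero => simp [iteratedDeriv_zero]
  | succ m ih =>
    obtain ⟨h1, -, h3⟩ := s2g1_iter hw hp m
    obtain ⟨-, h2, -⟩ := s2g1_iter hw hp (m + 1)
    have h4 : iteratedDeriv m w (2 * Real.pi) = iteratedDeriv m w 0 := by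
      have := h3 0
      rwa [zero_add] at this
    rw [s2g1_ibp h1 h2 h4, ih, pow_succ]
    ring

theorem s2g1_decay {w : ℝ → ℝ} (hw : ContDiff ℝ ((⊤ : ℕ∞) : WithTop ℕ∞) w)
    (hp : Function.Periodic w (2 * Real.pi)) (m : ℕ) :
    ∃ B : ℝ, ∀ k : ℤ, |(k : ℝ)| ^ m * ‖s2g1c w k‖ ≤ B := by
  obtain ⟨-, h2, h3⟩ := s2g1_iter hw hp m
  obtain ⟨B, hB⟩ := s2g1_bdd h2 h3
  refine ⟨B, fun k => ?_⟩
  have h4 := s2g1_bound hB k
  rw [s2g1_coeff_iter hw hp, norm_mul, norm_pow, norm_mul, Complex.norm_I, one_mul,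
    Complex.norm_intCast] at h4
  exact h4

theorem s2g1_summable {w : ℝ → ℝ} (hw : ContDiff ℝ ((⊤ : ℕ∞) : WithTop ℕ∞) w)
    (hp : Function.Periodic w (2 * Real.pi)) (A : ℕ) :
    Summable fun k : ℤ => s2wt 0 A k * ‖s2g1c w k‖ := by
  obtain ⟨B, hB⟩ := s2g1_decay hw hp (A + 2)
  have hs : Summable fun k : ℤ => 2 ^ A * B * (1 / (k : ℝ) ^ 2) :=
    (Real.summable_one_div_int_pow.2 (by norm_num)).mul_left _
  refine Summable.of_norm_bounded_eventually hs ?_
  filter_upwards [Filter.eventually_cofinite_ne (0 : ℤ)] with k hk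
  have hk1 : (1 : ℝ) ≤ |(k : ℝ)| := by
    have : (1 : ℤ) ≤ |k| := Int.one_le_abs hk
    exact_mod_cast this
  have hk0 : (0 : ℝ) < |(k : ℝ)| := by linarith
  unfold s2wt
  rw [zero_mul, Real.exp_zero, mul_one, norm_mul, norm_norm, Real.norm_of_nonneg (by positivity)]
  have h1 : (1 + |(k : ℝ)|) ^ A ≤ 2 ^ A * |(k : ℝ)| ^ A := by
    rw [← mul_pow]
    exact pow_le_pow_left₀ (by positivity) (by linarith) A
  have h2 : ‖s2g1c w k‖ ≤ B / |(k : ℝ)| ^ (A + 2) := by
    rw [le_div_iff₀ (by positivity), mul_comm]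
    exact hB k
  have hB0 : 0 ≤ B := le_trans (by positivity) (hB k)
  calc (1 + |(k : ℝ)|) ^ A * ‖s2g1c w k‖
      ≤ (2 ^ A * |(k : ℝ)| ^ A) * (B / |(k : ℝ)| ^ (A + 2)) := by gcongr
    _ = 2 ^ A * B * (1 / (k : ℝ) ^ 2) := by
      rw [← sq_abs (k : ℝ), pow_add]
      field_simp

theorem s2g1_hasSum {w : ℝ → ℝ} (hw : ContDiff ℝ ((⊤ : ℕ∞) : WithTop ℕ∞) w)
    (hp : Function.Periodic w (2 * Real.pi)) (x : ℝ) :
    HasSum (fun k : ℤ => s2g1c w k * exp (I * (k : ℂ) * (x : ℂ))) (w x : ℂ) := by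
  have : Fact (0 < 2 * Real.pi) := ⟨by positivity⟩
  have hF : Function.Periodic (fun y : ℝ => (w y : ℂ)) (2 * Real.pi) := fun y => by
    show ((w (y + 2 * Real.pi) : ℝ) : ℂ) = (w y : ℂ)
    rw [hp y]
  let f : C(AddCircle (2 * Real.pi), ℂ) :=
    ⟨hF.lift, continuous_coinduced_dom.mpr (Complex.continuous_ofReal.comp hw.continuous)⟩
  have hf : ∀ y : ℝ, f (y : AddCircle (2 * Real.pi)) = (w y : ℂ) := fun y => rfl
  have hfour : ∀ (k : ℤ) (y : ℝ), fourier k (y : AddCircle (2 * Real.pi))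
      = exp (I * (k : ℂ) * (y : ℂ)) := by
    intro k y
    rw [fourier_coe_apply]
    congr 1
    have hpi : (Real.pi : ℂ) ≠ 0 := by exact_mod_cast Real.pi_ne_zero
    push_cast
    field_simp
  have hcoef : ∀ k, fourierCoeff f k = s2g1c w k := by
    intro k
    rw [fourierCoeff_eq_intervalIntegral _ _ 0]
    unfold s2g1c
    rw [zero_add, Complex.real_smul]
    congr 1
    · push_cast
      ring
    · refine intervalIntegral.integral_congr fun y _ => ?_
      show fourier (-k) (y : AddCircle (2 * Real.pi)) • f (y : AddCircle (2 * Real.pi)) = _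
      rw [hfour, hf, smul_eq_mul]
      congr 2
      push_cast
      ring
  have hsum : Summable (fourierCoeff f) := by
    have h1 := s2g1_summable hw hp 0
    refine Summable.of_norm ?_
    refine h1.congr fun k => ?_
    rw [hcoef]
    simp [s2wt]
  have key := has_pointwise_sum_fourier_series_of_summable hsum (x : AddCircle (2 * Real.pi))
  rw [hf] at key
  have e : (fun k : ℤ => s2g1c w k * exp (I * (k : ℂ) * (x : ℂ)))
      = fun i : ℤ => fourierCoeff f i • fourier i (x : AddCircle (2 * Real.pi)) :=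
    funext fun k => by rw [hcoef, hfour, smul_eq_mul]
  rw [e]
  exact key

/-! ### the Lazutkin coordinate -/

theorem s2g1_coord {r : ℝ → ℝ} (hr : ContDiff ℝ ((⊤ : ℕ∞) : WithTop ℕ∞) r)
    (hp : Function.Periodic r (2 * Real.pi)) (hpos : ∀ θ, 0 < r θ) :
    ∃ (φ u : ℝ → ℝ) (c : ℝ), 0 < c ∧ ContDiff ℝ ((⊤ : ℕ∞) : WithTop ℕ∞) u ∧
      Function.Periodic u (2 * Real.pi) ∧ (∀ x, HasDerivAt φ (Real.exp (u x)) x) ∧
      (∀ x, φ (x + 2 * Real.pi) = φ x + 2 * Real.pi) ∧ ∀ x, r (φ x) = c * Real.exp (-3 * u x) := by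
  obtain ⟨g, hgdef⟩ : ∃ g : ℝ → ℝ, g = fun θ => Real.exp (Real.log (r θ) / 3) := ⟨_, rfl⟩
  have hg : ContDiff ℝ ((⊤ : ℕ∞) : WithTop ℕ∞) g := by
    rw [hgdef]
    exact ((hr.log fun θ => (hpos θ).ne').div_const 3).exp
  have hgpos : ∀ θ, 0 < g θ := fun θ => by
    rw [hgdef]
    exact Real.exp_pos _
  have hgper : Function.Periodic g (2 * Real.pi) := fun θ => by
    rw [hgdef]
    show Real.exp (Real.log (r (θ + 2 * Real.pi)) / 3) = Real.exp (Real.log (r θ) / 3)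
    rw [hp θ]
  have hgc : Continuous g := hg.continuous
  have hI0 : 0 < ∫ θ in (0 : ℝ)..(2 * Real.pi), g θ :=
    intervalIntegral.intervalIntegral_pos_of_pos (hgc.intervalIntegrable _ _) hgpos (by positivity)
  obtain ⟨k, hkdef⟩ : ∃ k : ℝ, k = 2 * Real.pi / ∫ θ in (0 : ℝ)..(2 * Real.pi), g θ := ⟨_, rfl⟩
  have hk : 0 < k := by
    rw [hkdef]
    positivity
  have hkI : k * ∫ θ in (0 : ℝ)..(2 * Real.pi), g θ = 2 * Real.pi := by
    rw [hkdef]
    exact div_mul_cancel₀ _ hI0.ne'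
  obtain ⟨ξ, hξdef⟩ : ∃ ξ : ℝ → ℝ, ξ = fun θ => k * ∫ t in (0 : ℝ)..θ, g t := ⟨_, rfl⟩
  have hξd : ∀ θ, HasDerivAt ξ (k * g θ) θ := fun θ => by
    rw [hξdef]
    exact ((hgc.integral_hasStrictDerivAt 0 θ).hasDerivAt).const_mul k
  have hξmono : StrictMono ξ := strictMono_of_deriv_pos fun θ => by
    rw [(hξd θ).deriv]
    exact mul_pos hk (hgpos θ)
  have hξc : Continuous ξ := continuous_iff_continuousAt.2 fun θ => (hξd θ).continuousAt
  have hξshift : ∀ θ, ξ (θ + 2 * Real.pi) = ξ θ + 2 * Real.pi := by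
    intro θ
    rw [hξdef]
    show k * ∫ t in (0 : ℝ)..(θ + 2 * Real.pi), g t = k * (∫ t in (0 : ℝ)..θ, g t) + 2 * Real.pi
    rw [← intervalIntegral.integral_add_adjacent_intervals (hgc.intervalIntegrable 0 θ)
      (hgc.intervalIntegrable θ (θ + 2 * Real.pi)), hgper.intervalIntegral_add_eq θ 0, zero_add,
      mul_add, hkI]
  have hξ0 : ξ 0 = 0 := by
    rw [hξdef]
    simp
  have hξn : ∀ n : ℕ, ξ (n * (2 * Real.pi)) = n * (2 * Real.pi) ∧
      ξ (-(n * (2 * Real.pi))) = -(n * (2 * Real.pi)) := by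
    intro n
    induction n with
    | zero => simp [hξ0]
    | succ n ih =>
      constructor
      · have e : ((n + 1 : ℕ) : ℝ) * (2 * Real.pi) = n * (2 * Real.pi) + 2 * Real.pi := by
          push_cast
          ring
        rw [e, hξshift, ih.1]
      · have h1 := hξshift (-(((n + 1 : ℕ) : ℝ) * (2 * Real.pi)))
        have e : -(((n + 1 : ℕ) : ℝ) * (2 * Real.pi)) + 2 * Real.pi = -(n * (2 * Real.pi)) := by
          push_cast
          ring
        rw [e, ih.2] at h1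
        push_cast at h1 ⊢
        linarith
  have hsurj : Function.Surjective ξ := by
    intro y
    have h2pi : (1 : ℝ) ≤ 2 * Real.pi := by linarith [Real.pi_gt_three]
    obtain ⟨n, hn⟩ := exists_nat_ge |y|
    have hn0 : (0 : ℝ) ≤ n := Nat.cast_nonneg n
    have hn1 : (n : ℝ) ≤ n * (2 * Real.pi) := le_mul_of_one_le_right hn0 h2pi
    refine mem_range_of_exists_le_of_exists_ge hξc ⟨-(n * (2 * Real.pi)), ?_⟩
      ⟨n * (2 * Real.pi), ?_⟩
    · rw [(hξn n).2]
      linarith [neg_abs_le y]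
    · rw [(hξn n).1]
      linarith [le_abs_self y]
  obtain ⟨φ, hφdef⟩ : ∃ φ : ℝ → ℝ, φ = (hξmono.orderIsoOfSurjective ξ hsurj).symm := ⟨_, rfl⟩
  have hξφ : ∀ x, ξ (φ x) = x := fun x => by
    rw [hφdef]
    exact (hξmono.orderIsoOfSurjective ξ hsurj).apply_symm_apply x
  have hφc : Continuous φ := by
    rw [hφdef]
    exact (hξmono.orderIsoOfSurjective ξ hsurj).symm.continuous
  have hφd : ∀ x, HasDerivAt φ (k * g (φ x))⁻¹ x := fun x =>
    HasDerivAt.of_local_left_inverse hφc.continuousAt (hξd (φ x)) (mul_pos hk (hgpos _)).ne'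
      (Eventually.of_forall hξφ)
  have hφshift : ∀ x, φ (x + 2 * Real.pi) = φ x + 2 * Real.pi := fun x =>
    hξmono.injective (by rw [hξφ, hξshift, hξφ])
  have hG : ContDiff ℝ ((⊤ : ℕ∞) : WithTop ℕ∞) (fun θ => (k * g θ)⁻¹) :=
    (contDiff_const.mul hg).inv fun θ => (mul_pos hk (hgpos θ)).ne'
  have hφn : ∀ n : ℕ, ContDiff ℝ n φ := by
    intro n
    induction n with
    | zero => exact contDiff_zero.2 hφc
    | succ n ih =>
      have e : ((n + 1 : ℕ) : WithTop ℕ∞) = (n : WithTop ℕ∞) + 1 := by norm_cast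
      rw [e, contDiff_succ_iff_deriv]
      refine ⟨fun x => (hφd x).differentiableAt, fun h => absurd h (by simp), ?_⟩
      have e2 : deriv φ = fun x => (k * g (φ x))⁻¹ := funext fun x => (hφd x).deriv
      rw [e2]
      exact (hG.of_le (by exact_mod_cast le_top)).comp ih
  have hφs : ContDiff ℝ ((⊤ : ℕ∞) : WithTop ℕ∞) φ := contDiff_infty.2 hφn
  refine ⟨φ, fun x => -(Real.log k + Real.log (r (φ x)) / 3), (k ^ 3)⁻¹, by positivity, ?_, ?_, ?_,
    hφshift, ?_⟩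
  · exact (contDiff_const.add (((hr.comp hφs).log fun x => (hpos _).ne').div_const 3)).neg
  · intro x
    show -(Real.log k + Real.log (r (φ (x + 2 * Real.pi))) / 3) = -(Real.log k + Real.log (r (φ x)) / 3)
    rw [hφshift, hp]
  · intro x
    have e : Real.exp (-(Real.log k + Real.log (r (φ x)) / 3)) = (k * g (φ x))⁻¹ := by
      rw [Real.exp_neg, Real.exp_add, Real.exp_log hk, hgdef]
    rw [e]
    exact hφd x
  · intro x
    have e : -3 * -(Real.log k + Real.log (r (φ x)) / 3)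
        = Real.log k + Real.log k + Real.log k + Real.log (r (φ x)) := by ring
    rw [e, Real.exp_add, Real.exp_add, Real.exp_add, Real.exp_log hk, Real.exp_log (hpos _)]
    field_simp

/-- (G1) existence of the Lazutkin data. -/
theorem s2G_in (h : ℝ → ℝ) (hs : IsSupport h) : ∃ (a : ℤ → ℂ) (φ : ℝ → ℝ) (c : ℝ), S2Laz h a φ c := by
  obtain ⟨d0, c1⟩ := contDiff_infty_iff_deriv.1 hs.smooth
  obtain ⟨d1, c2⟩ := contDiff_infty_iff_deriv.1 c1
  have hr : ContDiff ℝ ((⊤ : ℕ∞) : WithTop ℕ∞) (fun θ => h θ + deriv (deriv h) θ) :=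
    hs.smooth.add c2
  have h2 : iteratedDeriv 2 h = deriv (deriv h) := by
    rw [iteratedDeriv_succ, iteratedDeriv_one]
  have hper : Function.Periodic (fun θ => h θ + deriv (deriv h) θ) (2 * Real.pi) := by
    intro θ
    have h3 := (s2g1_iter hs.smooth hs.periodic 2).2.2 θ
    rw [h2] at h3
    show h (θ + 2 * Real.pi) + deriv (deriv h) (θ + 2 * Real.pi) = h θ + deriv (deriv h) θ
    rw [h3, hs.periodic θ]
  obtain ⟨φ, u, c, hc, hu, hup, hφ, hsh, hrad⟩ := s2g1_coord hr hper hs.radius_pos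
  have hval : ∀ x : ℝ, s2u (s2g1c u) 0 (x : ℂ) = (u x : ℂ) := by
    intro x
    unfold s2u
    have h4 := (s2g1_hasSum hu hup x).tsum_eq
    simpa only [pow_zero, one_mul] using h4
  refine ⟨s2g1c u, φ, c, hc, s2g1_conj u, s2g1_summable hu hup, ?_, hsh, ?_⟩
  · intro x
    rw [hval, Complex.ofReal_re]
    exact hφ x
  · intro x
    rw [hval, Complex.ofReal_re]
    exact hrad x

end Claimed.Agent.R269
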