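/-
Row 269, Section 2, UNIT G3 (export): back transfer of analyticity.   Statement + route by helper159, proof by helper49 (sorry-free).
General tools: `s2G3_cplx` (real analytic => holomorphic extension to a ball), `s2G3_prim` (PRIM).  Variants: (3)-(4) by
`analyticAt_comp_iff_of_deriv_ne_zero`; (5) `A = h cos - h' sin`, `B = h sin + h' cos` have `A' = -r sin`, `B' = r cos`, `h = A cos + B sin`.

(1) `z ↦ ∑ a_k e^{ikz}` is holomorphic on `|Im z| < σ` (`differentiableOn_tsum_of_summable_norm`), hence analytic; its restriction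
    `x ↦ (s2u a 0 x).re` is real analytic on `ℝ`.
(2) a function `ℝ → ℝ` whose derivative is real analytic is real analytic (lemma PRIM: extend the derivative holomorphically to a
    ball, take a primitive there (`DifferentiableOn.isExactOn_ball`), compare on the real segment).  So `φ` is analytic.
(3) `φ' > 0`, `φ` is a bijection of `ℝ` (`shift`); its inverse `ξ` is analytic (`HasStrictDerivAt` local inverse +
    `OpenPartialHomeomorph.analyticAt_symm`, or the analytic inverse function theorem of Mathlib/Analysis/Analytic/Inverse).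
(4) `r(θ) = h θ + h'' θ = c e^{-3u(ξ θ)}` is analytic.
(5) `h(θ) = h(0) cos θ + h'(0) sin θ + sin θ ∫_0^θ r cos - cos θ ∫_0^θ r sin`  (the difference `g` solves `g''+g = 0`, `g(0)=g'(0)=0`,
    so `g²+g'²` is constant `0`); the right side is analytic by PRIM.
-/
import Claimed.Agent.R269.S2.GDefs
import Claimed.Agent.R269.S2.A
import Claimed.Agent.R269.S2.P

set_option autoImplicit false

namespace Claimed.Agent.R269

open Complex ComplexConjugate Filter Topology

/-- a real analytic function extends holomorphically to a complex ball. -/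
theorem s2G3_cplx {g : ℝ → ℝ} {x₀ : ℝ} (hg : AnalyticAt ℝ g x₀) :
    ∃ (ρ : ℝ) (G : ℂ → ℂ), 0 < ρ ∧ DifferentiableOn ℂ G (Metric.ball (x₀ : ℂ) ρ) ∧
      ∀ x : ℝ, |x - x₀| < ρ → G x = g x := by
  obtain ⟨p, r, hp⟩ := hg
  obtain ⟨ρ, hρ0, hρr⟩ := ENNReal.lt_iff_exists_nnreal_btwn.1 hp.r_pos
  have hρ0' : (0 : ℝ) < ρ := by exact_mod_cast hρ0
  have hsum : Summable fun n => ‖p n‖ * (ρ : ℝ) ^ n :=
    p.summable_norm_mul_pow (lt_of_lt_of_le hρr hp.r_le)
  refine ⟨ρ, fun z => ∑' n : ℕ, (p.coeff n : ℂ) * (z - x₀) ^ n, hρ0', ?_, ?_⟩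
  · refine Complex.differentiableOn_tsum_of_summable_norm hsum (fun n => ?_) Metric.isOpen_ball ?_
    · exact (Differentiable.differentiableOn (by fun_prop))
    · intro n z hz
      rw [norm_mul, norm_pow, Complex.norm_real, FormalMultilinearSeries.norm_apply_eq_norm_coef]
      have hz' : ‖z - x₀‖ ≤ ρ := by
        rw [← dist_eq_norm]; exact (Metric.mem_ball.1 hz).le
      exact mul_le_mul_of_nonneg_left (pow_le_pow_left₀ (norm_nonneg _) hz' n) (norm_nonneg _)
  · intro x hx
    have hy : x - x₀ ∈ Metric.eball (0 : ℝ) r := by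
      rw [Metric.mem_eball, edist_zero_right]
      refine lt_trans ?_ hρr
      rw [← ofReal_norm, Real.norm_eq_abs, ENNReal.ofReal_lt_coe_iff (abs_nonneg _)]
      exact hx
    have h1 := hp.hasSum hy
    rw [add_sub_cancel] at h1
    have h2 := (Complex.hasSum_ofReal.2 h1).tsum_eq
    rw [← h2]
    refine tsum_congr fun n => ?_
    rw [FormalMultilinearSeries.apply_eq_pow_smul_coeff]
    push_cast [smul_eq_mul]
    ring

/-- PRIM: a function with real analytic derivative is real analytic. -/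
theorem s2G3_prim {f g : ℝ → ℝ} {x₀ : ℝ} (hg : AnalyticAt ℝ g x₀) (hf : ∀ x, HasDerivAt f (g x) x) :
    AnalyticAt ℝ f x₀ := by
  obtain ⟨ρ, G, hρ, hG, hGg⟩ := s2G3_cplx hg
  obtain ⟨H, hH⟩ := hG.isExactOn_ball
  have hHd : DifferentiableOn ℂ H (Metric.ball (x₀ : ℂ) ρ) :=
    fun z hz => (hH z hz).differentiableAt.differentiableWithinAt
  have hHa : AnalyticAt ℂ H (x₀ : ℂ) := hHd.analyticAt (Metric.ball_mem_nhds _ hρ)
  have hFa : AnalyticAt ℝ (fun x : ℝ => (H x).re) x₀ := hHa.re_ofReal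
  have hmem : ∀ x : ℝ, x ∈ Metric.ball x₀ ρ → (x : ℂ) ∈ Metric.ball (x₀ : ℂ) ρ := by
    intro x hx
    rw [Metric.mem_ball, dist_eq_norm, ← Complex.ofReal_sub, Complex.norm_real]
    rwa [Metric.mem_ball, dist_eq_norm] at hx
  have hd : ∀ x ∈ Metric.ball x₀ ρ,
      HasDerivWithinAt (fun x : ℝ => f x - (H x).re) 0 (Metric.ball x₀ ρ) x := by
    intro x hx
    have h1 := (hH x (hmem x hx)).real_of_complex
    have hx' : |x - x₀| < ρ := by rwa [Metric.mem_ball, dist_eq_norm] at hx
    rw [hGg x hx', Complex.ofReal_re] at h1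
    have h2 := (hf x).sub h1
    rw [sub_self] at h2
    exact h2.hasDerivWithinAt
  have hconst : ∀ x ∈ Metric.ball x₀ ρ, f x - (H x).re = f x₀ - (H x₀).re := by
    intro x hx
    have := Convex.norm_image_sub_le_of_norm_hasDerivWithin_le hd (C := 0) (fun x _ => by simp)
      (convex_ball x₀ ρ) (Metric.mem_ball_self hρ) hx
    rw [zero_mul] at this
    exact sub_eq_zero.1 (norm_le_zero_iff.1 this)
  refine (hFa.add (analyticAt_const (v := f x₀ - (H x₀).re))).congr ?_
  filter_upwards [Metric.ball_mem_nhds x₀ hρ] with x hx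
  have := hconst x hx
  simp only [Pi.add_apply]
  linarith

theorem s2G3_summable_exp {s : ℝ} (hs : 0 < s) : Summable fun k : ℤ => Real.exp (-s * |(k : ℝ)|) := by
  have h1 : Summable fun n : ℕ => Real.exp (-s) ^ n :=
    summable_geometric_of_lt_one (Real.exp_pos _).le (by rw [Real.exp_lt_one_iff]; linarith)
  have h2 : ∀ n : ℕ, Real.exp (-s * (n : ℝ)) = Real.exp (-s) ^ n := by
    intro n
    rw [← Real.exp_nat_mul]
    congr 1
    ring
  refine Summable.of_nat_of_neg ?_ ?_
  · refine h1.congr fun n => ?_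
    rw [← h2]
    simp
  · refine h1.congr fun n => ?_
    rw [← h2]
    simp

/-- (1) `u` is real analytic. -/
theorem s2G3_u {a : ℤ → ℂ}
    (hd : ∃ σ : ℝ, 0 < σ ∧ ∃ B : ℝ, ∀ k : ℤ, ‖a k‖ ≤ B * Real.exp (-σ * |(k : ℝ)|)) (x₀ : ℝ) :
    AnalyticAt ℝ (fun x : ℝ => (s2u a 0 (x : ℂ)).re) x₀ := by
  obtain ⟨σ, hσ, B, hB⟩ := hd
  have hdiff : DifferentiableOn ℂ (s2u a 0) (s2os (σ / 2)) := by
    change DifferentiableOn ℂ (fun z => ∑' k : ℤ, (I * (k : ℂ)) ^ 0 * a k * exp (I * (k : ℂ) * z)) _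
    refine Complex.differentiableOn_tsum_of_summable_norm
      ((s2G3_summable_exp (s := σ / 2) (by positivity)).mul_left B) (fun k => ?_)
      (s2P_isOpen_os _) ?_
    · exact (Differentiable.differentiableOn (by fun_prop))
    · intro k z hz
      have hz' : z ∈ s2cs (σ / 2) := by
        have : |z.im| < σ / 2 := hz
        exact this.le
      rw [s2A_term_norm, pow_zero, one_mul]
      calc ‖a k‖ * Real.exp (-(k : ℝ) * z.im)
          ≤ (B * Real.exp (-σ * |(k : ℝ)|)) * Real.exp (σ / 2 * |(k : ℝ)|) :=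
            mul_le_mul (hB k) (s2A_exp_le hz' k) (Real.exp_pos _).le ((norm_nonneg _).trans (hB k))
        _ = B * Real.exp (-(σ / 2) * |(k : ℝ)|) := by
            rw [mul_assoc, ← Real.exp_add]
            congr 2
            ring
  have hx : (x₀ : ℂ) ∈ s2os (σ / 2) := by
    change |(x₀ : ℂ).im| < σ / 2
    simp only [Complex.ofReal_im, abs_zero]
    positivity
  exact (hdiff.analyticAt ((s2P_isOpen_os _).mem_nhds hx)).re_ofReal

/-- a continuous map of the line commuting with the shift by `2π` is onto. -/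
theorem s2G3_surj {φ : ℝ → ℝ} (hc : Continuous φ) (hsh : ∀ x : ℝ, φ (x + 2 * Real.pi) = φ x + 2 * Real.pi) :
    Function.Surjective φ := by
  have hn : ∀ n : ℕ, φ (n * (2 * Real.pi)) = φ 0 + n * (2 * Real.pi) ∧
      φ (-(n * (2 * Real.pi))) = φ 0 - n * (2 * Real.pi) := by
    intro n
    induction n with
    | zero => simp
    | succ n ih =>
      constructor
      · have e : ((n + 1 : ℕ) : ℝ) * (2 * Real.pi) = n * (2 * Real.pi) + 2 * Real.pi := by
          push_cast
          ring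
        rw [e, hsh, ih.1]
        ring
      · have h1 := hsh (-(((n + 1 : ℕ) : ℝ) * (2 * Real.pi)))
        have e : -(((n + 1 : ℕ) : ℝ) * (2 * Real.pi)) + 2 * Real.pi = -(n * (2 * Real.pi)) := by
          push_cast
          ring
        rw [e, ih.2] at h1
        push_cast at h1 ⊢
        linarith
  intro y
  have h2pi : (1 : ℝ) ≤ 2 * Real.pi := by linarith [Real.pi_gt_three]
  obtain ⟨n, hn'⟩ := exists_nat_ge |y - φ 0|
  have hn0 : (0 : ℝ) ≤ n := Nat.cast_nonneg n
  have hn1 : (n : ℝ) ≤ n * (2 * Real.pi) := le_mul_of_one_le_right hn0 h2pi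
  refine mem_range_of_exists_le_of_exists_ge hc ⟨-(n * (2 * Real.pi)), ?_⟩ ⟨n * (2 * Real.pi), ?_⟩
  · rw [(hn n).2]
    linarith [neg_abs_le (y - φ 0)]
  · rw [(hn n).1]
    linarith [le_abs_self (y - φ 0)]

/-- (G3) exponential decay of the Fourier coefficients of `u` makes `h` real analytic. -/
theorem s2G_out (h : ℝ → ℝ) (hs : IsSupport h)
    (a : ℤ → ℂ) (φ : ℝ → ℝ) (c : ℝ) (hL : S2Laz h a φ c)
    (hd : ∃ σ : ℝ, 0 < σ ∧ ∃ B : ℝ, ∀ k : ℤ, ‖a k‖ ≤ B * Real.exp (-σ * |(k : ℝ)|)) :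
    AnalyticOnNhd ℝ h Set.univ := by
  have hu := s2G3_u hd
  -- `φ` is analytic and onto
  have hφa : ∀ x₀, AnalyticAt ℝ φ x₀ := fun x₀ => s2G3_prim (hu x₀).rexp' hL.dphi
  have hφc : Continuous φ := continuous_iff_continuousAt.2 fun x => (hL.dphi x).continuousAt
  have hφs := s2G3_surj hφc hL.shift
  -- the radius of curvature is analytic
  have hr : ∀ θ₀, AnalyticAt ℝ (fun θ => h θ + deriv (deriv h) θ) θ₀ := by
    intro θ₀
    obtain ⟨x₀, rfl⟩ := hφs θ₀
    have hne : deriv φ x₀ ≠ 0 := by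
      rw [(hL.dphi x₀).deriv]
      exact (Real.exp_pos _).ne'
    refine (analyticAt_comp_iff_of_deriv_ne_zero (hφa x₀) hne).1 ?_
    have e : (fun θ => h θ + deriv (deriv h) θ) ∘ φ
        = fun x : ℝ => c * Real.exp (-3 * (s2u a 0 (x : ℂ)).re) := funext hL.rad
    rw [e]
    exact analyticAt_const.mul ((analyticAt_const.mul (hu x₀)).rexp')
  -- derivatives of `h`
  obtain ⟨d0, c1⟩ := contDiff_infty_iff_deriv.1 hs.smooth
  obtain ⟨d1, -⟩ := contDiff_infty_iff_deriv.1 c1
  have hh : ∀ θ, HasDerivAt h (deriv h θ) θ := fun θ => (d0 θ).hasDerivAt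
  have hh' : ∀ θ, HasDerivAt (deriv h) (deriv (deriv h) θ) θ := fun θ => (d1 θ).hasDerivAt
  have hA : ∀ θ, HasDerivAt (fun θ => h θ * Real.cos θ - deriv h θ * Real.sin θ)
      (-((h θ + deriv (deriv h) θ) * Real.sin θ)) θ := by
    intro θ
    have := ((hh θ).mul (Real.hasDerivAt_cos θ)).sub ((hh' θ).mul (Real.hasDerivAt_sin θ))
    refine this.congr_deriv ?_
    ring
  have hB : ∀ θ, HasDerivAt (fun θ => h θ * Real.sin θ + deriv h θ * Real.cos θ)
      ((h θ + deriv (deriv h) θ) * Real.cos θ) θ := by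
    intro θ
    have := ((hh θ).mul (Real.hasDerivAt_sin θ)).add ((hh' θ).mul (Real.hasDerivAt_cos θ))
    refine this.congr_deriv ?_
    ring
  intro θ₀ _
  have hAa : AnalyticAt ℝ (fun θ => h θ * Real.cos θ - deriv h θ * Real.sin θ) θ₀ :=
    s2G3_prim ((hr θ₀).mul Real.analyticAt_sin).neg hA
  have hBa : AnalyticAt ℝ (fun θ => h θ * Real.sin θ + deriv h θ * Real.cos θ) θ₀ :=
    s2G3_prim ((hr θ₀).mul Real.analyticAt_cos) hB
  have e : h = fun θ => (h θ * Real.cos θ - deriv h θ * Real.sin θ) * Real.cos θ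
      + (h θ * Real.sin θ + deriv h θ * Real.cos θ) * Real.sin θ := by
    funext θ
    have := Real.sin_sq_add_cos_sq θ
    linear_combination (-h θ) * this
  rw [e]
  exact (hAa.mul Real.analyticAt_cos).add (hBa.mul Real.analyticAt_sin)

end Claimed.Agent.R269
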