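/-
Row 269, Section 2, UNIT GT (export): the constraints vanish for the table (P1 Lemma 2.6).
Statement + route by helper159.   Uses ONLY the clause `closes` of `GlancingRigid.out`; no a-priori mesh bounds, no uniqueness.
Inputs: `s2A_fun` (with `M = s2wn 0 4 a`), `s2C_mesh`, `s2D_x`.

GT1  `pIn h θ θ' = h θ - ∫_0^d r(θ+η) sin η dη`,  `pOut h θ θ' = h θ' - ∫_0^d r(θ'-η) sin η dη`,  `d = (θ'-θ)/2`, `r = h+h''`
     (`F(d) = h(θ+d) cos d - h'(θ+d) sin d` has `F' = -r(θ+d) sin d`).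
GT2  for real `X, Z`:  `s2dphi u X Z = φ Z - φ X` (cast), and, substituting `η = φ z - φ X`, `r(φ z) φ'(z) = c e^{-2u(z)}`:
     `∫_0^{φ Z - φ X} r(φ X + η) sin η dη = c · s2J u X Z`.   Same formula covers `Z < X` (this is the `pOut` case).
GT3  Fix `q ≥ N`, real `x`; `X_j = s2X u q x j`, `μ_j = s2M u q x j` are real (`S2Mesh.sym`), `X_{j+1}-X_j = δ + O(q^{-2}) ∈ (0, 2δ)`,
     `φ μ_j = (φ X_j + φ X_{j+1})/2` (`S2Mesh.mid`).  `θ_j = φ X_j` (extended arbitrarily for `j > q`) is an `IsChain h η q`: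
     steps positive and `< e^M 2δ < η` for `q` large; stationarity `pOut(θ_{j},θ_{j+1}) = pIn(θ_{j+1},θ_{j+2})` is
     `J(X_{j+1},μ_j) = J(X_{j+1},μ_{j+1})` = `S2Mesh.euler`.   `θ_q = θ_0 + 2π` (`S2Mesh.first/last`, `S2Laz.shift`).
     `closes` with `(q-1, l = 1)`:  `pOut(θ_{q-1},θ_q) = pIn(θ_0,θ_1)`, i.e. (periodicity of `h`, `u`)
     `e^{-u(X_q)} D₁(X_q,X_{q-1}) = e^{-u(X_0)} D₁(X_0,X_1)`, so `D₁(X_0,X_1) = D₁(X_q,X_{q-1})`.
GT4  by `s2D_x` the function `x ↦ s2W u q x` has derivative `0`, so it is constant and `s2fc (s2W u q) n = 0` for `n ≠ 0`.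

PROVED (helper150).  Remark: `pOut h θ θ' = pIn h θ' θ`, so one formula (GT1 for `pIn`, both orders of the angles) suffices.
-/
import Claimed.Agent.R269.S2.GDefs
import Claimed.Agent.R269.S2.D

set_option autoImplicit false

namespace Claimed.Agent.R269

open Complex ComplexConjugate Filter Topology

/-! ### GT1 -/

theorem s2gt_pOut_eq (h : ℝ → ℝ) (θ θ' : ℝ) : pOut h θ θ' = pIn h θ' θ := by
  unfold pOut pIn
  have e1 : (θ' + θ) / 2 = (θ + θ') / 2 := by ring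
  have e2 : (θ - θ') / 2 = -((θ' - θ) / 2) := by ring
  rw [e1, e2, Real.cos_neg, Real.sin_neg]
  ring

theorem s2gt_smooth {h : ℝ → ℝ} (hs : IsSupport h) :
    (∀ y, HasDerivAt h (deriv h y) y) ∧ (∀ y, HasDerivAt (deriv h) (deriv (deriv h) y) y) ∧
      Continuous h ∧ Continuous (deriv (deriv h)) := by
  obtain ⟨d0, c1⟩ := contDiff_infty_iff_deriv.1 hs.smooth
  obtain ⟨d1, c2⟩ := contDiff_infty_iff_deriv.1 c1
  exact ⟨fun y => (d0 y).hasDerivAt, fun y => (d1 y).hasDerivAt, d0.continuous, c2.continuous⟩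

theorem s2gt_pIn {h : ℝ → ℝ} (hs : IsSupport h) (θ θ' : ℝ) :
    pIn h θ θ' = h θ - ∫ η in (0 : ℝ)..((θ' - θ) / 2),
      (h (θ + η) + deriv (deriv h) (θ + η)) * Real.sin η := by
  obtain ⟨hd1, hd2, hc0, hc2⟩ := s2gt_smooth hs
  have hF : ∀ s : ℝ, HasDerivAt (fun s => h (θ + s) * Real.cos s - deriv h (θ + s) * Real.sin s)
      (-((h (θ + s) + deriv (deriv h) (θ + s)) * Real.sin s)) s := by
    intro s
    have a1 : HasDerivAt (fun s => h (θ + s)) (deriv h (θ + s)) s := (hd1 (θ + s)).comp_const_add θ s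
    have a2 : HasDerivAt (fun s => deriv h (θ + s)) (deriv (deriv h) (θ + s)) s :=
      (hd2 (θ + s)).comp_const_add θ s
    have a3 := (a1.mul (Real.hasDerivAt_cos s)).sub (a2.mul (Real.hasDerivAt_sin s))
    refine a3.congr_deriv ?_
    ring
  have hcont : Continuous fun s : ℝ => -((h (θ + s) + deriv (deriv h) (θ + s)) * Real.sin s) := by
    have b1 : Continuous fun s : ℝ => h (θ + s) := hc0.comp (continuous_const.add continuous_id)
    have b2 : Continuous fun s : ℝ => deriv (deriv h) (θ + s) :=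
      hc2.comp (continuous_const.add continuous_id)
    exact ((b1.add b2).mul Real.continuous_sin).neg
  have key := intervalIntegral.integral_eq_sub_of_hasDerivAt (a := 0) (b := (θ' - θ) / 2)
    (fun s _ => hF s) (hcont.intervalIntegrable _ _)
  rw [intervalIntegral.integral_neg] at key
  have e1 : θ + (θ' - θ) / 2 = (θ + θ') / 2 := by ring
  simp only [e1, add_zero, Real.cos_zero, Real.sin_zero, mul_one, mul_zero, sub_zero] at key
  unfold pIn
  linarith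

/-! ### GT2 -/

theorem s2gt_seg (f : ℂ → ℂ) (g : ℝ → ℝ) (hfg : ∀ y : ℝ, f (y : ℂ) = (g y : ℂ)) (X Z : ℝ) :
    s2seg f (X : ℂ) (Z : ℂ) = ((∫ y in X..Z, g y : ℝ) : ℂ) := by
  unfold s2seg
  have e : ∀ t : ℝ, f ((X : ℂ) + (t : ℂ) * ((Z : ℂ) - (X : ℂ))) = ((g (X + (Z - X) * t) : ℝ) : ℂ) := by
    intro t
    rw [← hfg]
    congr 1
    push_cast
    ring
  simp only [e]
  rw [intervalIntegral.integral_ofReal, ← Complex.ofReal_sub, ← Complex.ofReal_mul,
    intervalIntegral.mul_integral_comp_add_mul]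
  have e0 : X + (Z - X) * 0 = X := by ring
  have e1 : X + (Z - X) * 1 = Z := by ring
  rw [e0, e1]

section real

variable {u : ℂ → ℂ} {v φ : ℝ → ℝ}

theorem s2gt_dphi (hv : ∀ x : ℝ, u (x : ℂ) = (v x : ℂ)) (hvc : Continuous v)
    (hφ : ∀ x, HasDerivAt φ (Real.exp (v x)) x) (X Z : ℝ) :
    s2dphi u (X : ℂ) (Z : ℂ) = ((φ Z - φ X : ℝ) : ℂ) := by
  unfold s2dphi
  rw [s2gt_seg _ (fun y => Real.exp (v y)) (fun y => by rw [hv, Complex.ofReal_exp]) X Z,
    intervalIntegral.integral_eq_sub_of_hasDerivAt (fun x _ => hφ x)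
      ((Real.continuous_exp.comp hvc).intervalIntegrable _ _)]

/-- the real form of `J`. -/
noncomputable def s2gtJ (v φ : ℝ → ℝ) (X Z : ℝ) : ℝ :=
  ∫ z in X..Z, Real.sin (φ z - φ X) * Real.exp (-2 * v z)

theorem s2gt_J (hv : ∀ x : ℝ, u (x : ℂ) = (v x : ℂ)) (hvc : Continuous v)
    (hφ : ∀ x, HasDerivAt φ (Real.exp (v x)) x) (X Z : ℝ) :
    s2J u (X : ℂ) (Z : ℂ) = (s2gtJ v φ X Z : ℂ) := by
  unfold s2J s2gtJ
  refine s2gt_seg _ _ (fun y => ?_) X Z
  rw [s2gt_dphi hv hvc hφ, hv]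
  push_cast
  rfl

theorem s2gt_subst {h : ℝ → ℝ} (hs : IsSupport h) {c : ℝ} (hvc : Continuous v)
    (hφ : ∀ x, HasDerivAt φ (Real.exp (v x)) x)
    (hr : ∀ x, h (φ x) + deriv (deriv h) (φ x) = c * Real.exp (-3 * v x)) (X Z : ℝ) :
    ∫ η in (0 : ℝ)..(φ Z - φ X), (h (φ X + η) + deriv (deriv h) (φ X + η)) * Real.sin η
      = c * s2gtJ v φ X Z := by
  obtain ⟨-, -, hc0, hc2⟩ := s2gt_smooth hs
  have hg : Continuous fun η : ℝ => (h (φ X + η) + deriv (deriv h) (φ X + η)) * Real.sin η := by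
    have b1 : Continuous fun s : ℝ => h (φ X + s) := hc0.comp (continuous_const.add continuous_id)
    have b2 : Continuous fun s : ℝ => deriv (deriv h) (φ X + s) :=
      hc2.comp (continuous_const.add continuous_id)
    exact (b1.add b2).mul Real.continuous_sin
  have key := intervalIntegral.integral_comp_mul_deriv (a := X) (b := Z)
    (f := fun z => φ z - φ X) (f' := fun z => Real.exp (v z))
    (g := fun η : ℝ => (h (φ X + η) + deriv (deriv h) (φ X + η)) * Real.sin η)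
    (fun x _ => (hφ x).sub_const _) (Real.continuous_exp.comp hvc).continuousOn hg
  simp only [sub_self] at key
  unfold s2gtJ
  rw [← key, ← intervalIntegral.integral_const_mul]
  refine intervalIntegral.integral_congr fun z _ => ?_
  simp only [Function.comp]
  have e1 : φ X + (φ z - φ X) = φ z := by ring
  have e2 : Real.exp (-2 * v z) = Real.exp (-3 * v z) * Real.exp (v z) := by
    rw [← Real.exp_add]
    congr 1
    ring
  rw [e1, hr z, e2]
  ring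

/-- GT1 + GT2. -/
theorem s2gt_pIn_J {h : ℝ → ℝ} (hs : IsSupport h) {c : ℝ} (hvc : Continuous v)
    (hφ : ∀ x, HasDerivAt φ (Real.exp (v x)) x)
    (hr : ∀ x, h (φ x) + deriv (deriv h) (φ x) = c * Real.exp (-3 * v x)) (X Z θ' : ℝ)
    (hθ : (θ' - φ X) / 2 = φ Z - φ X) :
    pIn h (φ X) θ' = h (φ X) - c * s2gtJ v φ X Z := by
  rw [s2gt_pIn hs, hθ, s2gt_subst hs hvc hφ hr]

end real

/-! ### GT4 -/

theorem s2gt_fc_const (g : ℂ → ℂ) (C : ℂ) (hg : ∀ x : ℝ, g (x : ℂ) = C) (n : ℤ) (hn : n ≠ 0) :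
    s2fc g n = 0 := by
  unfold s2fc
  simp only [hg]
  rw [intervalIntegral.integral_mul_const]
  have h0 : ∫ x in (0 : ℝ)..(2 * Real.pi), exp (-I * (n : ℂ) * (x : ℂ)) = 0 := by
    have hc : -I * (n : ℂ) ≠ 0 := mul_ne_zero (neg_ne_zero.2 I_ne_zero) (Int.cast_ne_zero.2 hn)
    rw [integral_exp_mul_complex hc]
    have e1 : exp (-I * (n : ℂ) * ((2 * Real.pi : ℝ) : ℂ)) = 1 := by
      have e2 : -I * (n : ℂ) * ((2 * Real.pi : ℝ) : ℂ) = ((-n : ℤ) : ℂ) * (2 * Real.pi * I) := by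
        push_cast
        ring
      rw [e2, Complex.exp_int_mul_two_pi_mul_I]
    rw [e1]
    simp
  rw [h0]
  simp

/-! ### GT3 -/

theorem s2gt_Y_even (u : ℂ → ℂ) (q : ℕ) (x : ℂ) (j : ℕ) : s2Y u q x (2 * j) = s2X u q x j := by
  unfold s2Y
  rw [if_pos (by omega), show 2 * j / 2 = j by omega]

theorem s2gt_Y_odd (u : ℂ → ℂ) (q : ℕ) (x : ℂ) (j : ℕ) : s2Y u q x (2 * j + 1) = s2M u q x j := by
  unfold s2Y
  rw [if_neg (by omega), show (2 * j + 1) / 2 = j by omega]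

/-- the real data of an input function of width `0`. -/
theorem s2gt_real {M : ℝ} {U : ℕ → ℂ → ℂ} (hU : S2Fun 0 M U) :
    (∀ x : ℝ, U 0 (x : ℂ) = (((U 0 (x : ℂ)).re : ℝ) : ℂ)) ∧
      Continuous (fun x : ℝ => (U 0 (x : ℂ)).re) ∧ ∀ x : ℝ, (U 0 (x : ℂ)).re ≤ M := by
  have hmem : ∀ x : ℝ, (x : ℂ) ∈ s2cs 0 := fun x => by simp [s2cs]
  refine ⟨fun x => ?_, ?_, fun x => ?_⟩
  · have h1 := hU.sym (x : ℂ)
    rw [Complex.conj_ofReal] at h1
    have him : (U 0 (x : ℂ)).im = 0 := Complex.conj_eq_iff_im.1 h1.symm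
    exact Complex.ext (by simp) (by simp [him])
  · have h1 : Continuous fun x : ℝ => U 0 (x : ℂ) := by
      rw [continuous_iff_continuousAt]
      intro x
      have h2 := (hU.der 0 (by norm_num) (x : ℂ) (hmem x)).continuousWithinAt
      have h3 : Tendsto (fun y : ℝ => (y : ℂ)) (𝓝 x) (𝓝[s2cs 0] (x : ℂ)) :=
        tendsto_nhdsWithin_of_tendsto_nhds_of_eventually_within _
          Complex.continuous_ofReal.continuousAt (Eventually.of_forall hmem)
      exact h2.tendsto.comp h3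
    exact Complex.continuous_re.comp h1
  · exact (Complex.re_le_norm _).trans (hU.bd 0 (by norm_num) _ (hmem x))

/-- GT3: the momentum returns, hence the two boundary terms of `s2D_x` agree. -/
theorem s2gt_close {h : ℝ → ℝ} (hs : IsSupport h) {η : ℝ} (hη : 0 < η)
    (hclose : ∀ (q l : ℕ) (θ : ℕ → ℝ), IsChain h η (q + 1) θ → θ (q + 1) = θ 0 + 2 * Real.pi * l →
        pOut h (θ q) (θ (q + 1)) = pIn h (θ 0) (θ 1))
    {u : ℂ → ℂ} {v φ : ℝ → ℝ} {c M R : ℝ} (hc : 0 < c)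
    (hv : ∀ x : ℝ, u (x : ℂ) = (v x : ℂ)) (hvc : Continuous v) (hvM : ∀ x, v x ≤ M)
    (hper : ∀ z, u (z + 2 * Real.pi) = u z)
    (hφ : ∀ x, HasDerivAt φ (Real.exp (v x)) x)
    (hshift : ∀ x : ℝ, φ (x + 2 * Real.pi) = φ x + 2 * Real.pi)
    (hr : ∀ x, h (φ x) + deriv (deriv h) (φ x) = c * Real.exp (-3 * v x))
    (p : ℕ) (hm : S2Mesh R 0 u (p + 1)) (hqR : R / Real.pi < ((p + 1 : ℕ) : ℝ))
    (hqη : Real.exp M * (4 * Real.pi) / η < ((p + 1 : ℕ) : ℝ)) (x : ℝ) :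
    s2D1 u (s2X u (p + 1) x 0) (s2X u (p + 1) x 1)
      = s2D1 u (s2X u (p + 1) x (p + 1)) (s2X u (p + 1) x p) := by
  obtain ⟨q, hq⟩ : ∃ q : ℕ, q = p + 1 := ⟨_, rfl⟩
  rw [← hq] at hm hqR hqη ⊢
  have hqpos : (0 : ℝ) < q := by
    rw [hq]
    positivity
  have dom : S2Dom R 0 q (x : ℂ) := by
    unfold S2Dom
    simp
  -- realness
  have him : ∀ i ≤ 2 * q, (s2Y u q x i).im = 0 := by
    intro i hi
    have h1 := hm.im x dom i hi
    simpa using h1
  obtain ⟨Xr, hXr⟩ : ∃ Xr : ℕ → ℝ, Xr = fun j => (s2X u q x j).re := ⟨_, rfl⟩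
  obtain ⟨μr, hμr⟩ : ∃ μr : ℕ → ℝ, μr = fun j => (s2M u q x j).re := ⟨_, rfl⟩
  have hX : ∀ j ≤ q, s2X u q x j = (Xr j : ℂ) := by
    intro j hj
    have h1 := him (2 * j) (by omega)
    rw [s2gt_Y_even] at h1
    exact Complex.ext (by simp [hXr]) (by simp [h1])
  have hμ : ∀ j < q, s2M u q x j = (μr j : ℂ) := by
    intro j hj
    have h1 := him (2 * j + 1) (by omega)
    rw [s2gt_Y_odd] at h1
    exact Complex.ext (by simp [hμr]) (by simp [h1])
  -- positions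
  have hpos : ∀ j ≤ q, |Xr j - x - 2 * j * (Real.pi / q)| ≤ R / (q : ℝ) ^ 2 := by
    intro j hj
    have h1 := hm.bd x dom (2 * j) (by omega)
    rw [s2gt_Y_even, hX j hj] at h1
    have h2 : ((Xr j : ℂ) - (x : ℂ) - ((2 * j : ℕ) : ℂ) * ((Real.pi / q : ℝ) : ℂ))
        = ((Xr j - x - 2 * j * (Real.pi / q) : ℝ) : ℂ) := by
      push_cast
      ring
    rw [h2, Complex.norm_real, Real.norm_eq_abs] at h1
    exact h1
  have hE : R / (q : ℝ) ^ 2 < Real.pi / q := by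
    rw [div_lt_div_iff₀ (by positivity) hqpos]
    have h1 : R < Real.pi * q := by rwa [div_lt_iff₀' Real.pi_pos] at hqR
    nlinarith
  have hstep : ∀ j < q, 0 < Xr (j + 1) - Xr j ∧ Xr (j + 1) - Xr j < 4 * (Real.pi / q) := by
    intro j hj
    have h1 := abs_le.1 (hpos j hj.le)
    have h2 := abs_le.1 (hpos (j + 1) hj)
    push_cast at h2
    constructor
    · nlinarith [h1.1, h1.2, h2.1, h2.2]
    · nlinarith [h1.1, h1.2, h2.1, h2.2]
  -- `φ`
  have hφmono : StrictMono φ :=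
    strictMono_of_deriv_pos fun y => by
      rw [(hφ y).deriv]
      exact Real.exp_pos _
  have hφlip : ∀ y z, y ≤ z → φ z - φ y ≤ Real.exp M * (z - y) := fun y z hyz =>
    image_sub_le_mul_sub_of_deriv_le (fun y => (hφ y).differentiableAt)
      (fun y => by
        rw [(hφ y).deriv]
        exact Real.exp_le_exp.2 (hvM y)) hyz
  -- midpoints
  have hmid : ∀ j < q, φ (μr j) - φ (Xr j) = φ (Xr (j + 1)) - φ (μr j) := by
    intro j hj
    have h1 := hm.mid x dom j hj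
    rw [hX j hj.le, hX (j + 1) hj, hμ j hj, s2gt_dphi hv hvc hφ, s2gt_dphi hv hvc hφ] at h1
    exact_mod_cast h1
  -- momenta
  have hin : ∀ j < q, pIn h (φ (Xr j)) (φ (Xr (j + 1)))
      = h (φ (Xr j)) - c * s2gtJ v φ (Xr j) (μr j) := by
    intro j hj
    exact s2gt_pIn_J hs hvc hφ hr _ _ _ (by linarith [hmid j hj])
  have hout : ∀ j < q, pOut h (φ (Xr j)) (φ (Xr (j + 1)))
      = h (φ (Xr (j + 1))) - c * s2gtJ v φ (Xr (j + 1)) (μr j) := by
    intro j hj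
    rw [s2gt_pOut_eq]
    exact s2gt_pIn_J hs hvc hφ hr _ _ _ (by linarith [hmid j hj])
  -- the chain
  have hchain : IsChain h η q (fun j => φ (Xr j)) := by
    refine ⟨fun j hj => hφmono (by linarith [(hstep j hj).1]), fun j hj => ?_, fun j hj => ?_⟩
    · have h1 := hφlip (Xr j) (Xr (j + 1)) (by linarith [(hstep j hj).1])
      have h2 : Real.exp M * (Xr (j + 1) - Xr j) < Real.exp M * (4 * (Real.pi / q)) :=
        mul_lt_mul_of_pos_left (hstep j hj).2 (Real.exp_pos _)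
      have h3 : Real.exp M * (4 * (Real.pi / q)) < η := by
        rw [div_lt_iff₀ hη] at hqη
        have e : Real.exp M * (4 * (Real.pi / q)) = Real.exp M * (4 * Real.pi) / q := by ring
        rw [e, div_lt_iff₀ hqpos]
        linarith
      show φ (Xr (j + 1)) - φ (Xr j) < η
      linarith
    · have h1 := hm.euler x dom (j + 1) (by omega) hj
      rw [Nat.add_sub_cancel, hX (j + 1) hj.le, hμ (j + 1) hj, hμ j (by omega), s2gt_J hv hvc hφ,
        s2gt_J hv hvc hφ] at h1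
      have h2 : s2gtJ v φ (Xr (j + 1)) (μr (j + 1)) = s2gtJ v φ (Xr (j + 1)) (μr j) := by
        exact_mod_cast h1
      show pOut h (φ (Xr j)) (φ (Xr (j + 1))) = pIn h (φ (Xr (j + 1))) (φ (Xr (j + 1 + 1)))
      rw [hout j (by omega), hin (j + 1) hj, h2]
  -- end points
  have hX0 : Xr 0 = x := by
    rw [hXr]
    show (s2X u q x 0).re = x
    rw [hm.first x dom]
    simp
  have hXq : Xr q = x + 2 * Real.pi := by
    rw [hXr]
    show (s2X u q x q).re = x + 2 * Real.pi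
    rw [hm.last x dom]
    simp
  have hθq : φ (Xr q) = φ (Xr 0) + 2 * Real.pi := by rw [hX0, hXq, hshift]
  have hcl : pOut h (φ (Xr p)) (φ (Xr (p + 1))) = pIn h (φ (Xr 0)) (φ (Xr 1)) := by
    refine hclose p 1 (fun j => φ (Xr j)) (hq ▸ hchain) ?_
    show φ (Xr (p + 1)) = φ (Xr 0) + 2 * Real.pi * ((1 : ℕ) : ℝ)
    rw [← hq, hθq]
    simp
  have hin0 := hin 0 (by omega)
  rw [zero_add] at hin0
  rw [hout p (by omega), hin0, ← hq] at hcl
  have hh : h (φ (Xr q)) = h (φ (Xr 0)) := by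
    rw [hθq]
    exact hs.periodic _
  have hJ : s2gtJ v φ (Xr q) (μr p) = s2gtJ v φ (Xr 0) (μr 0) := by
    have h1 : c * s2gtJ v φ (Xr q) (μr p) = c * s2gtJ v φ (Xr 0) (μr 0) := by linarith
    exact mul_left_cancel₀ hc.ne' h1
  have e1 := hm.d1p x dom 0 (by omega)
  have e2 := hm.d1m x dom p (by omega)
  rw [zero_add] at e1
  rw [← hq] at e2
  rw [e1, e2, hX 0 (by omega), hX q le_rfl, hμ 0 (by omega), hμ p (by omega), s2gt_J hv hvc hφ,
    s2gt_J hv hvc hφ, hJ, hX0, hXq]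
  have e3 := hper (x : ℂ)
  push_cast
  rw [e3]

/-- (T) the constraints vanish for the table. -/
theorem s2G_table (h : ℝ → ℝ) (hs : IsSupport h) (hg : GlancingRigid h)
    (a : ℤ → ℂ) (φ : ℝ → ℝ) (c : ℝ) (hL : S2Laz h a φ c) :
    ∃ N : ℕ, ∀ n : ℤ, N ≤ n.natAbs → s2C (s2u a 0) n = 0 := by
  obtain ⟨η, hη, hclose, -⟩ := hg.out
  have hIn : S2In 0 (s2wn 0 4 a) a := ⟨hL.real, hL.dec 4, le_rfl⟩
  have hU : S2Fun 0 (s2wn 0 4 a) (s2u a) := s2A_fun le_rfl hIn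
  obtain ⟨R, N1, -, -, hmesh, -⟩ := s2C_mesh (s2wn 0 4 a)
  obtain ⟨N2, hD⟩ := s2D_x (s2wn 0 4 a)
  obtain ⟨N3, hN3⟩ := exists_nat_gt
    (max (R / Real.pi) (Real.exp (s2wn 0 4 a) * (4 * Real.pi) / η))
  obtain ⟨hv, hvc, hvM⟩ := s2gt_real hU
  refine ⟨max (max N1 N2) (max N3 1), fun n hn => ?_⟩
  obtain ⟨p, hp⟩ : ∃ p : ℕ, n.natAbs = p + 1 := ⟨n.natAbs - 1, by omega⟩
  have hn0 : n ≠ 0 := by
    rintro rfl
    simp at hp
  have hq1 : N1 ≤ p + 1 := by omega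
  have hq2 : N2 ≤ p + 1 := by omega
  have hq3 : (N3 : ℝ) ≤ ((p + 1 : ℕ) : ℝ) := by
    have : N3 ≤ p + 1 := by omega
    exact_mod_cast this
  have hm := hmesh 0 (s2u a) le_rfl zero_le_one hU (p + 1) hq1
  have hder : ∀ x : ℝ, HasDerivAt (fun y : ℝ => s2W (s2u a 0) (p + 1) (y : ℂ)) 0 x := by
    intro x
    have h1 := hD (s2u a) hU (p + 1) hq2 x
    have h2 := s2gt_close hs hη hclose hL.cpos hv hvc hvM hU.per hL.dphi hL.shift hL.rad p hm
      (lt_of_lt_of_le (lt_of_le_of_lt (le_max_left _ _) hN3) hq3)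
      (lt_of_lt_of_le (lt_of_le_of_lt (le_max_right _ _) hN3) hq3) x
    rw [Nat.add_sub_cancel, h2, sub_self] at h1
    exact h1
  have hconst : ∀ x : ℝ, s2W (s2u a 0) (p + 1) (x : ℂ) = s2W (s2u a 0) (p + 1) ((0 : ℝ) : ℂ) :=
    fun x => is_const_of_deriv_eq_zero (fun y => (hder y).differentiableAt)
      (fun y => (hder y).deriv) x 0
  unfold s2C
  rw [hp, s2gt_fc_const _ _ hconst n hn0, mul_zero]

end Claimed.Agent.R269
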