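/-
Row 269, Section 2: `stage_T1` from the unit exports.  Owner: helper159 (sub-captain sec 2).
-/
import Claimed.Agent.R269.S2.D
import Claimed.Agent.R269.S2.E
import Claimed.Agent.R269.S2.F
import Claimed.Agent.R269.S2.G
import Claimed.Agent.R269.S2.Z

set_option autoImplicit false

namespace Claimed.Agent.R269

open Complex ComplexConjugate Filter Topology

/-- mean value inequality along a segment of sequences (abstract form). -/
theorem s2_star_aux (Φ : (ℤ → ℂ) → ℂ) (Ψ : (ℤ → ℂ) → ℂ) (b' v : ℤ → ℂ) (w : ℂ) (B : ℝ)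
    (hD : ∀ l ∈ Set.Icc (0 : ℝ) 1,
      HasDerivAt (fun t : ℝ => Φ (b' + (l : ℂ) • v + (t : ℂ) • v)) (Ψ (b' + (l : ℂ) • v)) 0)
    (hE : ∀ l ∈ Set.Icc (0 : ℝ) 1, ‖Ψ (b' + (l : ℂ) • v) - w‖ ≤ B) :
    ‖Φ (b' + v) - Φ b' - w‖ ≤ B := by
  set g : ℝ → ℂ := fun l => Φ (b' + (l : ℂ) • v) - (l : ℂ) * w with hg
  have hder : ∀ l ∈ Set.Icc (0 : ℝ) 1, HasDerivWithinAt g
      (Ψ (b' + (l : ℂ) • v) - w) (Set.Icc (0 : ℝ) 1) l := by
    intro l hl
    have h0 := hD l hl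
    have h0' : HasDerivAt (fun t : ℝ => Φ (b' + (l : ℂ) • v + (t : ℂ) • v))
        (Ψ (b' + (l : ℂ) • v)) (l - l) := by rw [sub_self]; exact h0
    have h1 := HasDerivAt.comp_sub_const l l h0'
    have e2 : (fun t : ℝ => Φ (b' + (l : ℂ) • v + ((t - l : ℝ) : ℂ) • v))
        = fun t : ℝ => Φ (b' + (t : ℂ) • v) := by
      funext t
      congr 1
      funext k; simp; ring
    rw [e2] at h1
    have h2 : HasDerivAt (fun t : ℝ => (t : ℂ) * w) w l := by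
      have := (Complex.ofRealCLM.hasDerivAt (x := l)).mul_const w
      simpa using this
    exact (h1.sub h2).hasDerivWithinAt
  have hmv := Convex.norm_image_sub_le_of_norm_hasDerivWithin_le hder hE (convex_Icc 0 1)
    (Set.left_mem_Icc.2 zero_le_one) (Set.right_mem_Icc.2 zero_le_one)
  have e3 : g 1 - g 0 = Φ (b' + v) - Φ b' - w := by
    simp only [hg]
    simp; ring
  rw [e3] at hmv
  simpa using hmv

/-- (★) the only estimate used by the scheme. -/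
theorem s2_star (M : ℝ) : ∃ K : ℝ, ∃ N : ℕ, ∀ σ : ℝ, 0 ≤ σ → σ ≤ 1 →
    ∀ b b' : ℤ → ℂ, S2In σ M b → S2In σ M b' → ∀ n : ℤ, N ≤ n.natAbs →
      ‖s2C (s2u b 0) n - s2C (s2u b' 0) n - (b n - b' n)‖ * Real.exp (σ * |(n : ℝ)|)
        ≤ K / |(n : ℝ)| * s2hn σ (b - b') := by
  obtain ⟨N1, hD⟩ := s2D_lam (2 * M)
  obtain ⟨K, N2, hE⟩ := s2E_main (2 * M)
  refine ⟨K, max N1 N2, ?_⟩
  intro σ hσ0 hσ1 b b' hb hb' n hn
  have hM : 0 ≤ M := s2A_in_nonneg hb
  have hn1 : N1 ≤ n.natAbs := le_trans (le_max_left _ _) hn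
  have hn2 : N2 ≤ n.natAbs := le_trans (le_max_right _ _) hn
  have hv : S2In σ (2 * M) (b - b') := by
    have h1 := s2A_in_comb (1 : ℝ) (-1 : ℝ) hb hb'
    have e1 : (((1 : ℝ) : ℂ) • b + (((-1 : ℝ)) : ℂ) • b') = b - b' := by
      funext k; simp [sub_eq_add_neg]
    rw [e1] at h1
    refine s2A_in_mono le_rfl ?_ h1
    simp; linarith
  have hc : ∀ l : ℝ, l ∈ Set.Icc (0 : ℝ) 1 → S2In σ (2 * M) (b' + (l : ℂ) • (b - b')) := by
    intro l hl
    have h1 := s2A_in_comb l (1 - l) hb hb'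
    have e1 : ((l : ℂ) • b + (((1 - l : ℝ)) : ℂ) • b') = b' + (l : ℂ) • (b - b') := by
      funext k; simp; ring
    rw [e1] at h1
    refine s2A_in_mono le_rfl ?_ h1
    rw [abs_of_nonneg hl.1, abs_of_nonneg (by linarith [hl.2] : (0 : ℝ) ≤ 1 - l)]
    nlinarith
  have key := s2_star_aux (fun c => s2C (s2u c 0) n) (fun c => s2dC (s2u c 0) (s2u (b - b') 0) n)
    b' (b - b') ((b - b') n) (K / |(n : ℝ)| * s2hn σ (b - b') * Real.exp (-(σ * |(n : ℝ)|)))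
    (fun l hl => hD _ _ (s2A_in_mono hσ0 le_rfl (hc l hl)) (s2A_in_mono hσ0 le_rfl hv) n hn1)
    (fun l hl => by
      have h0 := hE σ hσ0 hσ1 _ _ (hc l hl) hv n hn2
      rw [Real.exp_neg, ← div_eq_mul_inv, le_div_iff₀ (Real.exp_pos _)]
      exact h0)
  have e4 : b' + (b - b') = b := by abel
  simp only [e4, Pi.sub_apply] at key
  calc _ ≤ (K / |(n : ℝ)| * s2hn σ (b - b') * Real.exp (-(σ * |(n : ℝ)|)))
        * Real.exp (σ * |(n : ℝ)|) := by gcongr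
    _ = K / |(n : ℝ)| * s2hn σ (b - b') := by
      rw [mul_assoc, ← Real.exp_add]; simp

/-- P1 Theorem 2.1. -/
theorem s2_stage_T1 (h : ℝ → ℝ) (hs : IsSupport h) (hg : GlancingRigid h) :
    AnalyticOnNhd ℝ h Set.univ := by
  obtain ⟨a, φ, c, hL⟩ := s2G_in h hs
  refine s2G_out h hs a φ c hL ?_
  refine s2F_scheme (fun b n => s2C (s2u b 0) n) a hL.real hL.dec s2_star ?_
    (s2G_table h hs hg a φ c hL) s2Z_conj
  exact ⟨1, fun n hn => s2Z_zero n (by rintro rfl; simp at hn)⟩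

end Claimed.Agent.R269
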