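/-
Row 269, Section 2, UNIT Z0 (export): the zero input.   Statement by helper159.
`s2u 0 0 = 0`.  For `u = 0`: `s2dphi 0 X Y = Y - X`, `s2muStep 0 X Y m = m` at `m = (X+Y)/2`, so `s2mu 0 X Y = (X+Y)/2`;
`s2D1 0 X (X+T) = 1 - cos(T/2)` is even in `T`, so `s2f` vanishes on uniform triples, `s2T 0 q x 0 = 0`, `s2w = 0`;
`s2W 0 q x` does not depend on `x` (translate the segment integrals), and `∫_0^{2π} e^{-inx} dx = 0` for `n ≠ 0`.
-/
import Claimed.Agent.R269.S2.P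

set_option autoImplicit false

namespace Claimed.Agent.R269

open Complex ComplexConjugate Filter Topology

theorem s2z0_u : s2u 0 0 = fun _ => 0 := by
  funext z
  unfold s2u
  simp

theorem s2z0_dphi (X Y : ℂ) : s2dphi (fun _ => 0) X Y = Y - X := by
  unfold s2dphi s2seg
  simp

theorem s2z0_mu (X Y : ℂ) : s2mu (fun _ => 0) X Y = (X + Y) / 2 := by
  unfold s2mu
  have h : ∀ k : ℕ, (s2muStep (fun _ => 0) X Y)^[k] ((X + Y) / 2) = (X + Y) / 2 := by
    intro k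
    induction k with
    | zero => rfl
    | succ k ih =>
      rw [Function.iterate_succ_apply', ih]
      unfold s2muStep
      simp only [s2z0_dphi, neg_zero, Complex.exp_zero]
      ring
  simp only [h]
  exact tendsto_const_nhds.limUnder_eq

theorem s2z0_J (X T : ℂ) :
    s2J (fun _ => 0) X (X + T) = T * ∫ t in (0 : ℝ)..1, sin ((t : ℂ) * T) := by
  unfold s2J s2seg
  simp only [s2z0_dphi, add_sub_cancel_left, mul_zero, Complex.exp_zero, mul_one]

theorem s2z0_Lam (X T : ℂ) :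
    s2Lam (fun _ => 0) X (X + T) = T * ∫ t in (0 : ℝ)..1, (1 - cos ((t : ℂ) * T)) := by
  unfold s2Lam s2seg
  simp only [s2z0_dphi, add_sub_cancel_left, mul_zero, Complex.exp_zero, mul_one]

theorem s2z0_f (X d : ℂ) : s2f (fun _ => 0) (X - d) X (X + d) = 0 := by
  unfold s2f s2D1
  rw [s2z0_mu, s2z0_mu]
  have e1 : (X + (X + d)) / 2 = X + d / 2 := by ring
  have e2 : (X + (X - d)) / 2 = X + -(d / 2) := by ring
  have e3 : ∫ t in (0 : ℝ)..1, sin ((t : ℂ) * -(d / 2))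
      = - ∫ t in (0 : ℝ)..1, sin ((t : ℂ) * (d / 2)) := by
    rw [← intervalIntegral.integral_neg]
    congr 1
    funext t
    rw [mul_neg, sin_neg]
  rw [e1, e2, s2z0_J, s2z0_J, e3]
  ring

theorem s2z0_T (q : ℕ) (x : ℂ) : s2T (fun _ => 0) q x (fun _ => 0) = fun _ => 0 := by
  funext j
  unfold s2T
  rw [Finset.sum_eq_zero, neg_zero]
  intro i hi
  have hi1 : 1 ≤ i := (Finset.mem_Ico.1 hi).1
  have e0 : s2pt q x (fun _ => 0) (i - 1) = s2pt q x (fun _ => 0) i - (s2del q : ℂ) := by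
    unfold s2pt
    rw [Nat.cast_sub hi1]
    push_cast
    ring
  have e1 : s2pt q x (fun _ => 0) (i + 1) = s2pt q x (fun _ => 0) i + (s2del q : ℂ) := by
    unfold s2pt
    push_cast
    ring
  rw [e0, e1, s2z0_f, mul_zero]

theorem s2z0_w (q : ℕ) (x : ℂ) : s2w (fun _ => 0) q x = fun _ => 0 := by
  funext j
  unfold s2w
  have h : ∀ k : ℕ, (s2T (fun _ => 0) q x)^[k] (fun _ => 0) = fun _ => 0 := by
    intro k
    induction k with
    | zero => rfl
    | succ k ih => rw [Function.iterate_succ_apply', ih, s2z0_T]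
  simp only [h]
  exact tendsto_const_nhds.limUnder_eq

theorem s2z0_term (q j : ℕ) (y : ℂ) :
    s2Lam (fun _ => 0) (s2X (fun _ => 0) q y (j + 1)) (s2M (fun _ => 0) q y j)
        - s2Lam (fun _ => 0) (s2X (fun _ => 0) q y j) (s2M (fun _ => 0) q y j)
      = -((s2del q : ℂ) / 2) * (∫ t in (0 : ℝ)..1, (1 - cos ((t : ℂ) * -((s2del q : ℂ) / 2))))
        - (s2del q : ℂ) / 2 * ∫ t in (0 : ℝ)..1, (1 - cos ((t : ℂ) * ((s2del q : ℂ) / 2))) := by
  have e1 : s2M (fun _ => 0) q y j = s2X (fun _ => 0) q y (j + 1) + -((s2del q : ℂ) / 2) := by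
    unfold s2M
    rw [s2z0_mu]
    unfold s2X
    rw [s2z0_w]
    unfold s2pt
    push_cast
    ring
  have e2 : s2M (fun _ => 0) q y j = s2X (fun _ => 0) q y j + (s2del q : ℂ) / 2 := by
    unfold s2M
    rw [s2z0_mu]
    unfold s2X
    rw [s2z0_w]
    unfold s2pt
    push_cast
    ring
  have a1 : s2Lam (fun _ => 0) (s2X (fun _ => 0) q y (j + 1)) (s2M (fun _ => 0) q y j)
      = -((s2del q : ℂ) / 2) * ∫ t in (0 : ℝ)..1, (1 - cos ((t : ℂ) * -((s2del q : ℂ) / 2))) := by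
    rw [e1, s2z0_Lam]
  have a2 : s2Lam (fun _ => 0) (s2X (fun _ => 0) q y j) (s2M (fun _ => 0) q y j)
      = (s2del q : ℂ) / 2 * ∫ t in (0 : ℝ)..1, (1 - cos ((t : ℂ) * ((s2del q : ℂ) / 2))) := by
    rw [e2, s2z0_Lam]
  rw [a1, a2]

theorem s2z0_W (q : ℕ) (x : ℂ) : s2W (fun _ => 0) q x = s2W (fun _ => 0) q 0 := by
  unfold s2W
  refine Finset.sum_congr rfl fun j _ => ?_
  rw [s2z0_term, s2z0_term]

theorem s2z0_fc_const (g : ℂ → ℂ) (C : ℂ) (hg : ∀ x : ℝ, g (x : ℂ) = C) (n : ℤ) (hn : n ≠ 0) :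
    s2fc g n = 0 := by
  unfold s2fc
  simp only [hg]
  rw [intervalIntegral.integral_mul_const]
  have h0 : ∫ x in (0 : ℝ)..(2 * Real.pi), exp (-I * (n : ℂ) * (x : ℂ)) = 0 := by
    have hc : -I * (n : ℂ) ≠ 0 := mul_ne_zero (neg_ne_zero.2 I_ne_zero) (Int.cast_ne_zero.2 hn)
    rw [integral_exp_mul_complex hc]
    have e1 : exp (-I * (n : ℂ) * ((2 * Real.pi : ℝ) : ℂ)) = 1 := by
      have e2 : -I * (n : ℂ) * ((2 * Real.pi : ℝ) : ℂ) = ((-n : ℤ) : ℂ) * (2 * Real.pi * I) := by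
        push_cast
        ring
      rw [e2, Complex.exp_int_mul_two_pi_mul_I]
    rw [e1]
    simp
  rw [h0]
  simp

theorem s2Z_zero (n : ℤ) (hn : n ≠ 0) : s2C (s2u 0 0) n = 0 := by
  rw [s2z0_u]
  unfold s2C
  rw [s2z0_fc_const _ _ (fun x => s2z0_W n.natAbs (x : ℂ)) n hn, mul_zero]

end Claimed.Agent.R269
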