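/-
Row 269, Section 2, UNIT Zc (export): real symmetry of the constraints.   Statement by helper159.
For real `x` all `s2Y u q x i` are real (`S2Mesh.sym`), `u` is real on the real axis (`S2Fun.sym`), so `s2W u q x` is real
(`s2P_conj`), and `s2fc g (-n) = conj (s2fc g n)` for `g` real on the real axis.
-/
import Claimed.Agent.R269.S2.A
import Claimed.Agent.R269.S2.C

set_option autoImplicit false

namespace Claimed.Agent.R269

open Complex ComplexConjugate Filter Topology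

theorem s2zc_dphi {u : ℂ → ℂ} (hu : ∀ z, u (conj z) = conj (u z)) (X Y : ℂ) :
    s2dphi u (conj X) (conj Y) = conj (s2dphi u X Y) := by
  unfold s2dphi
  refine s2P_conj fun t _ => ?_
  rw [hu, Complex.exp_conj]

theorem s2zc_Lam {u : ℂ → ℂ} (hu : ∀ z, u (conj z) = conj (u z)) (X Z : ℂ) :
    s2Lam u (conj X) (conj Z) = conj (s2Lam u X Z) := by
  unfold s2Lam
  refine s2P_conj fun t _ => ?_
  rw [s2zc_dphi hu, hu, map_mul, map_sub, map_one, ← Complex.cos_conj, ← Complex.exp_conj, map_mul,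
    map_neg, map_ofNat]

theorem s2zc_W {u : ℂ → ℂ} (hu : ∀ z, u (conj z) = conj (u z)) {R : ℝ} {q : ℕ}
    (hm : S2Mesh R 0 u q) (x : ℝ) : conj (s2W u q (x : ℂ)) = s2W u q (x : ℂ) := by
  have dom : S2Dom R 0 q (x : ℂ) := by
    unfold S2Dom
    simp
  have hY : ∀ i ≤ 2 * q, conj (s2Y u q (x : ℂ) i) = s2Y u q (x : ℂ) i := by
    intro i hi
    have h1 := hm.sym x dom i hi
    rw [Complex.conj_ofReal] at h1
    exact h1.symm
  have hX : ∀ j ≤ q, conj (s2X u q (x : ℂ) j) = s2X u q (x : ℂ) j := by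
    intro j hj
    have h1 := hY (2 * j) (by omega)
    unfold s2Y at h1
    rwa [if_pos (by omega), show 2 * j / 2 = j by omega] at h1
  have hM : ∀ j < q, conj (s2M u q (x : ℂ) j) = s2M u q (x : ℂ) j := by
    intro j hj
    have h1 := hY (2 * j + 1) (by omega)
    unfold s2Y at h1
    rwa [if_neg (by omega), show (2 * j + 1) / 2 = j by omega] at h1
  unfold s2W
  rw [map_sum]
  refine Finset.sum_congr rfl fun j hj => ?_
  have hj' : j < q := Finset.mem_range.1 hj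
  rw [map_sub, ← s2zc_Lam hu, ← s2zc_Lam hu, hX j hj'.le, hX (j + 1) hj', hM j hj']

theorem s2zc_fc (g : ℂ → ℂ) (hg : ∀ x : ℝ, conj (g (x : ℂ)) = g (x : ℂ)) (n : ℤ) :
    s2fc g (-n) = conj (s2fc g n) := by
  unfold s2fc
  have h2 : conj (∫ x in (0 : ℝ)..(2 * Real.pi), exp (-I * (n : ℂ) * (x : ℂ)) * g (x : ℂ))
      = ∫ x in (0 : ℝ)..(2 * Real.pi), conj (exp (-I * (n : ℂ) * (x : ℂ)) * g (x : ℂ)) := by
    simp only [intervalIntegral, map_sub]
    rw [integral_conj, integral_conj]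
  rw [map_mul, h2]
  congr 1
  · have e : (1 / (2 * (Real.pi : ℂ))) = ((1 / (2 * Real.pi) : ℝ) : ℂ) := by
      push_cast
      ring
    rw [e, Complex.conj_ofReal]
  · refine intervalIntegral.integral_congr fun x _ => ?_
    show exp (-I * ((-n : ℤ) : ℂ) * (x : ℂ)) * g (x : ℂ)
      = conj (exp (-I * (n : ℂ) * (x : ℂ)) * g (x : ℂ))
    rw [map_mul, hg, ← Complex.exp_conj]
    congr 2
    simp [Complex.conj_ofReal]

theorem s2Z_conj (M : ℝ) : ∃ N : ℕ, ∀ b : ℤ → ℂ, S2In 0 M b → ∀ n : ℤ, N ≤ n.natAbs →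
    s2C (s2u b 0) (-n) = conj (s2C (s2u b 0) n) := by
  obtain ⟨R, N, -, -, hmesh, -⟩ := s2C_mesh M
  refine ⟨N, fun b hb n hn => ?_⟩
  have hU : S2Fun 0 M (s2u b) := s2A_fun le_rfl hb
  have hm := hmesh 0 (s2u b) le_rfl zero_le_one hU n.natAbs hn
  unfold s2C
  rw [Int.natAbs_neg, s2zc_fc _ (s2zc_W hU.sym hm) n, map_mul]
  congr 1
  have e : -((n.natAbs : ℂ) ^ 2 / (6 * (Real.pi : ℂ))) = ((-((n.natAbs : ℝ) ^ 2 / (6 * Real.pi)) : ℝ) : ℂ) := by
    push_cast
    ring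
  rw [e, Complex.conj_ofReal]

end Claimed.Agent.R269
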